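import Vale.Agent.P250.MathlibUsed

set_option linter.all false

section

section

section

/-!
Definitions used in the statement: Kaehler metrics on a domain in a complex
vector space, their Levi-Civita connection, curvature, geodesic completeness,
and biholomorphism with a bounded domain.
-/

namespace Vale.Agent.P250

open Set

section Real

variable {E : Type*} [NormedAddCommGroup E] [NormedSpace ℝ E]

/-- `g` is a smooth Riemannian metric on the open set `M`. -/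
structure IsRiemannianMetric (g : E → E →L[ℝ] E →L[ℝ] ℝ) (M : Set E) : Prop where
  smooth : ContDiffOn ℝ (⊤ : ℕ∞) g M
  symm : ∀ p ∈ M, ∀ X Y, g p X Y = g p Y X
  pos : ∀ p ∈ M, ∀ X, X ≠ 0 → 0 < g p X X

/-- `Γ` (the Christoffel tensor) is the Levi-Civita connection of `g` on `M`:
`∇_X Y = D_X Y + Γ(X, Y)`, given by the Koszul formula for constant vector fields. -/
structure IsLeviCivita (g : E → E →L[ℝ] E →L[ℝ] ℝ) (Γ : E → E →L[ℝ] E →L[ℝ] E)
    (M : Set E) : Prop where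
  smooth : ContDiffOn ℝ (⊤ : ℕ∞) Γ M
  koszul : ∀ p ∈ M, ∀ X Y Z,
    2 * g p (Γ p X Y) Z = fderiv ℝ g p X Y Z + fderiv ℝ g p Y X Z - fderiv ℝ g p Z X Y

/-- The curvature tensor `R(X,Y)Z` of the connection `Γ`. -/
noncomputable def riem (Γ : E → E →L[ℝ] E →L[ℝ] E) (p X Y Z : E) : E :=
  fderiv ℝ Γ p X Y Z - fderiv ℝ Γ p Y X Z + Γ p X (Γ p Y Z) - Γ p Y (Γ p X Z)

/-- The sectional curvature of the plane spanned by `X` and `Y` at `p`. -/
noncomputable def sectional (g : E → E →L[ℝ] E →L[ℝ] ℝ) (Γ : E → E →L[ℝ] E →L[ℝ] E)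
    (p X Y : E) : ℝ :=
  g p (riem Γ p X Y Y) X / (g p X X * g p Y Y - g p X Y ^ 2)

/-- Every geodesic extends to all times. -/
def GeodesicallyComplete (Γ : E → E →L[ℝ] E →L[ℝ] E) (M : Set E) : Prop :=
  ∀ p ∈ M, ∀ X : E, ∃ γ γ' : ℝ → E, γ 0 = p ∧ γ' 0 = X ∧
    ∀ t, γ t ∈ M ∧ HasDerivAt γ (γ' t) t ∧ HasDerivAt γ' (-(Γ (γ t) (γ' t) (γ' t))) t

end Real

section Complex

variable {E : Type*} [NormedAddCommGroup E] [NormedSpace ℂ E]

/-- `g` is a Kaehler metric on the open set `M` of the complex vector space `E`: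
it is invariant under multiplication by `i` and `ω(X, Y) = g(iX, Y)` is closed. -/
structure IsKaehlerMetric (g : E → E →L[ℝ] E →L[ℝ] ℝ) (M : Set E) : Prop
    extends IsRiemannianMetric g M where
  hermitian : ∀ p ∈ M, ∀ X Y : E, g p (Complex.I • X) (Complex.I • Y) = g p X Y
  closed : ∀ p ∈ M, ∀ X Y Z : E,
    fderiv ℝ g p X (Complex.I • Y) Z + fderiv ℝ g p Y (Complex.I • Z) X
      + fderiv ℝ g p Z (Complex.I • X) Y = 0

/-- `M` is biholomorphic to a bounded domain of `E`. -/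
def BiholomorphicToBoundedDomain (M : Set E) : Prop :=
  ∃ (U : Set E) (F G : E → E), IsOpen U ∧ IsConnected U ∧ Bornology.IsBounded U ∧
    DifferentiableOn ℂ F M ∧ DifferentiableOn ℂ G U ∧ MapsTo F M U ∧ MapsTo G U M ∧
    (∀ p ∈ M, G (F p) = p) ∧ (∀ q ∈ U, F (G q) = q)

end Complex

end Vale.Agent.P250
end
end
end

section

section

section

/-!
Working definitions shared by all the proof files (not used in the final statement).
-/

set_option maxSynthPendingDepth 3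

namespace Vale.Agent.P250

open Set Filter Topology

section Real

variable {E : Type*} [NormedAddCommGroup E] [NormedSpace ℝ E]

/-- `A` is the value at `p` of the Christoffel tensor of `g`. -/
def KoszulAt (g : E → E →L[ℝ] E →L[ℝ] ℝ) (p : E) (A : E → E → E) : Prop :=
  ∀ X Y Z, 2 * g p (A X Y) Z = fderiv ℝ g p X Y Z + fderiv ℝ g p Y X Z - fderiv ℝ g p Z X Y

/-- The number `g(R(X,Y)Y,X)` in terms of the 2-jet of `g` and of the Christoffel tensor. -/
noncomputable def num (g : E → E →L[ℝ] E →L[ℝ] ℝ) (p : E) (A : E → E → E) (X Y : E) : ℝ :=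
  fderiv ℝ (fderiv ℝ g) p X Y X Y - (1 / 2) * fderiv ℝ (fderiv ℝ g) p X X Y Y
    - (1 / 2) * fderiv ℝ (fderiv ℝ g) p Y Y X X
    + g p (A X Y) (A X Y) - g p (A X X) (A Y Y)

/-- Squared area of the parallelogram spanned by `X`, `Y`. -/
noncomputable def area (g : E → E →L[ℝ] E →L[ℝ] ℝ) (p X Y : E) : ℝ :=
  g p X X * g p Y Y - g p X Y ^ 2

end Real

section Complex

variable {E : Type*} [NormedAddCommGroup E] [NormedSpace ℂ E]

/-- Multiplication by `i` as a real-linear map. -/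
noncomputable def Jc : E →L[ℝ] E :=
  (Complex.I • ContinuousLinearMap.id ℂ E).restrictScalars ℝ

@[simp] lemma Jc_apply (X : E) : (Jc X : E) = Complex.I • X := by
  simp [Jc]

/-- The real part of the Levi form of `P`: `g(X,Y) = (D²P(X,Y) + D²P(iX,iY))/4`. -/
noncomputable def gP (P : E → ℝ) (p : E) : E →L[ℝ] E →L[ℝ] ℝ :=
  (1 / 4 : ℝ) • (fderiv ℝ (fderiv ℝ P) p + (fderiv ℝ (fderiv ℝ P) p).bilinearComp Jc Jc)

lemma gP_apply (P : E → ℝ) (p X Y : E) :
    gP P p X Y = (1 / 4) * (fderiv ℝ (fderiv ℝ P) p X Y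
      + fderiv ℝ (fderiv ℝ P) p (Complex.I • X) (Complex.I • Y)) := by
  simp only [gP, one_div, smul_add, add_apply, smul_apply, smul_eq_mul, ContinuousLinearMap.bilinearComp_apply, Jc_apply]
  ring

end Complex

/-- `L(y) = -log(1 - e^y)`. -/
noncomputable def Lf (y : ℝ) : ℝ := -Real.log (1 - Real.exp y)

section Jets

variable {V : Type*} [NormedAddCommGroup V] [InnerProductSpace ℂ V]

/-- The normalised potential near the centre of the ball. -/
noncomputable def Phat (δ : ℝ) (χ : V → ℝ) (q : V × ℂ) : ℝ :=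
  -Real.log (1 - ‖q.1‖ ^ 2) + δ * Lf (2 * q.2.re + 2 * χ q.1)

/-- The 4-jet of `χ` at `0` is normalised and bounded. -/
structure NormalJet (ε0 C0 C3 C4 : ℝ) (χ : V → ℝ) : Prop where
  smooth : ContDiffAt ℝ (⊤ : ℕ∞) χ 0
  d1 : fderiv ℝ χ 0 = 0
  pure2 : ∀ X Y : V, fderiv ℝ (fderiv ℝ χ) 0 (Complex.I • X) (Complex.I • Y)
    = fderiv ℝ (fderiv ℝ χ) 0 X Y
  lower : ∀ X : V, ε0 * ‖X‖ ^ 2 ≤ fderiv ℝ (fderiv ℝ χ) 0 X X
  upper : ∀ X : V, fderiv ℝ (fderiv ℝ χ) 0 X X ≤ C0 * ‖X‖ ^ 2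
  d3 : ∀ X Y Z : V, |fderiv ℝ (fderiv ℝ (fderiv ℝ χ)) 0 X Y Z| ≤ C3 * ‖X‖ * ‖Y‖ * ‖Z‖
  d4 : ∀ X Y Z W : V, |fderiv ℝ (fderiv ℝ (fderiv ℝ (fderiv ℝ χ))) 0 X Y Z W|
    ≤ C4 * ‖X‖ * ‖Y‖ * ‖Z‖ * ‖W‖

end Jets

section Model

/-- `ρ(z,w) = Im w - (Im z)²`. -/
def rho (q : ℂ × ℂ) : ℝ := q.2.im - q.1.im ^ 2

/-- The tube domain `{ρ > 0}`, a model of the unit ball of `ℂ²`. -/
def DD : Set (ℂ × ℂ) := {q | 0 < rho q}

/-- `ω = a (w - 2 x z + i x²)`. -/
noncomputable def om (a x : ℝ) (q : ℂ × ℂ) : ℂ :=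
  a * (q.2 - 2 * x * q.1 + Complex.I * x ^ 2)

lemma om_im (a x : ℝ) (q : ℂ × ℂ) : (om a x q).im = a * (rho q + (q.1.im - x) ^ 2) := by
  have h : (om a x q) = (a : ℂ) * (q.2 - ((2 * x : ℝ) : ℂ) * q.1 + Complex.I * ((x ^ 2 : ℝ) : ℂ)) := by
    simp [om]
  rw [h]
  simp only [rho, Complex.im_ofReal_mul, Complex.add_im, Complex.sub_im, Complex.I_mul_im,
    Complex.ofReal_re]
  ring

/-- The disc bundle over `DD` given by the weight `χ`. -/
def MM (χ : ℂ × ℂ → ℝ) : Set (ℂ × ℂ × ℂ) :=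
  {p | (p.1, p.2.1) ∈ DD ∧ ‖p.2.2‖ ^ 2 * Real.exp (2 * χ (p.1, p.2.1)) < 1}

/-- The Kaehler potential on `MM χ`. -/
noncomputable def PP (δ : ℝ) (χ : ℂ × ℂ → ℝ) (p : ℂ × ℂ × ℂ) : ℝ :=
  -Real.log (rho (p.1, p.2.1))
    - δ * Real.log (1 - ‖p.2.2‖ ^ 2 * Real.exp (2 * χ (p.1, p.2.1)))

/-- `χ` has uniformly bounded normalised jets along `DD`: every point is the image of the
centre of the ball under a local biholomorphism `B` compatible with the ball metric, in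
which `χ` minus a pluriharmonic function has a normalised bounded 4-jet. -/
def UniformJets (ε0 C0 C3 C4 : ℝ) (χ : ℂ × ℂ → ℝ) : Prop :=
  ∀ p ∈ DD, ∃ (B : EuclideanSpace ℂ (Fin 2) → ℂ × ℂ) (h H : EuclideanSpace ℂ (Fin 2) → ℂ),
    ContDiffAt ℂ (⊤ : ℕ∞) B 0 ∧ ContDiffAt ℂ (⊤ : ℕ∞) h 0 ∧ ContDiffAt ℂ (⊤ : ℕ∞) H 0 ∧
    B 0 = p ∧ h 0 = 0 ∧
    (∃ e : EuclideanSpace ℂ (Fin 2) ≃L[ℂ] (ℂ × ℂ), (e : _ →L[ℂ] _) = fderiv ℂ B 0) ∧
    (∀ᶠ ζ in 𝓝 (0 : EuclideanSpace ℂ (Fin 2)),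
      -Real.log (rho (B ζ)) = -Real.log (1 - ‖ζ‖ ^ 2) + (H ζ).re) ∧
    NormalJet ε0 C0 C3 C4 (fun ζ => χ (B ζ) - (h ζ).re)

/-- Only the zero function on `DD` is dominated by `e^χ`. -/
def NoFunction (χ : ℂ × ℂ → ℝ) : Prop :=
  ∀ f : ℂ × ℂ → ℂ, DifferentiableOn ℂ f DD →
    (∃ C : ℝ, ∀ q ∈ DD, ‖f q‖ ≤ C * Real.exp (χ q)) → ∀ q ∈ DD, f q = 0

/-- Properties of the one-variable well `Ψ`. -/
structure IsPsi (CΨ Λ : ℝ) (Ψ : ℂ → ℝ) : Prop where
  smooth : ContDiff ℝ (⊤ : ℕ∞) Ψ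
  zero : ∀ ζ : ℂ, ‖ζ‖ ≤ Real.exp (-5) → Ψ ζ = 0
  le : ∀ ζ : ℂ, ‖ζ‖ ≤ 1 → Ψ ζ ≤ CΨ
  dip : Ψ ((Real.exp (-4) : ℝ) : ℂ) ≤ -Λ
  sub : ∀ ζ : ℂ, ‖ζ‖ < 1 → ∀ X : ℂ, 0 ≤ fderiv ℝ (fderiv ℝ Ψ) ζ X X
    + fderiv ℝ (fderiv ℝ Ψ) ζ (Complex.I * X) (Complex.I * X)

/-- Centres at scale `k`. -/
noncomputable def xx (lam : ℝ) (k : ℕ) (j : ℤ) : ℝ := 5 * j / lam ^ k

/-- The nearest centre at scale `k`. -/
noncomputable def jj (lam : ℝ) (k : ℕ) (q : ℂ × ℂ) : ℤ := round (lam ^ k * q.1.im / 5)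

/-- The scale-`k` part of the potential. -/
noncomputable def Sk (Ψ : ℂ → ℝ) (lam : ℝ) (k : ℕ) (q : ℂ × ℂ) : ℝ :=
  Ψ (Complex.exp (Complex.I * om (lam ^ (2 * k)) (xx lam k (jj lam k q)) q))

/-- The potential `φ`. -/
noncomputable def phi (Ψ : ℂ → ℝ) (lam ε : ℝ) (q : ℂ × ℂ) : ℝ :=
  -ε * Real.log (rho q) + ∑' k, Sk Ψ lam k q

/-- The geometric property of `φ` which excludes functions dominated by `e^{sφ}`. -/
def Star (φ : ℂ × ℂ → ℝ) (y0 c1 c2 Λ : ℝ) : Prop :=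
  ∀ p ∈ DD, p.2.im ≤ y0 → ∃ x0 R b1 b2 : ℝ, 0 < R ∧ b1 ≤ 0 ∧ 0 ≤ b2 ∧ b2 - b1 ≤ 2 * R ∧
    (∀ ζ : ℂ, |ζ.re| ≤ 2 * R → b1 ≤ ζ.im → ζ.im ≤ b2 →
      p + ζ • ((1 : ℂ), (2 * x0 : ℂ)) ∈ DD ∧ φ (p + ζ • ((1 : ℂ), (2 * x0 : ℂ))) ≤ φ p + c1) ∧
    (∀ ζ : ℂ, |ζ.re| ≤ 2 * R → (ζ.im = b1 ∨ ζ.im = b2) → ∃ p3 ∈ DD,
      φ p3 ≤ φ (p + ζ • ((1 : ℂ), (2 * x0 : ℂ))) - Λ ∧
      ∀ t ∈ Metric.ball (1 / 2 : ℂ) (3 / 5),
        p3 + t • (p + ζ • ((1 : ℂ), (2 * x0 : ℂ)) - p3) ∈ DD ∧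
        φ (p3 + t • (p + ζ • ((1 : ℂ), (2 * x0 : ℂ)) - p3))
          ≤ φ (p + ζ • ((1 : ℂ), (2 * x0 : ℂ))) + c2)

end Model

end Vale.Agent.P250
end
end
end

section

section

section

/-!
Disc bundles over a general base domain, and the higher-dimensional model of the ball.
-/

set_option maxSynthPendingDepth 3

namespace Vale.Agent.P250.G

open Set Filter Topology Vale.Agent.P250

section Gen

variable {E : Type*} [NormedAddCommGroup E] [NormedSpace ℂ E]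

/-- The disc bundle over `Ω` with weight `χ`. -/
def MMg (Ω : Set E) (χ : E → ℝ) : Set (E × ℂ) :=
  {p | p.1 ∈ Ω ∧ ‖p.2‖ ^ 2 * Real.exp (2 * χ p.1) < 1}

/-- The potential on the disc bundle; `Φ` is the potential on the base. -/
noncomputable def PPg (Φ : E → ℝ) (δ : ℝ) (χ : E → ℝ) (p : E × ℂ) : ℝ :=
  Φ p.1 - δ * Real.log (1 - ‖p.2‖ ^ 2 * Real.exp (2 * χ p.1))

/-- Near every point of `Ω` the potential `Φ` is the ball potential in suitable coordinates
(up to a pluriharmonic function), in which `χ` has a normalised bounded 4-jet (again up to a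
pluriharmonic function). -/
def UniformJetsG (V : Type*) [NormedAddCommGroup V] [InnerProductSpace ℂ V]
    (Ω : Set E) (Φ : E → ℝ) (ε0 C0 C3 C4 : ℝ) (χ : E → ℝ) : Prop :=
  ∀ p ∈ Ω, ∃ (B : V → E) (h H : V → ℂ),
    ContDiffAt ℂ (⊤ : ℕ∞) B 0 ∧ ContDiffAt ℂ (⊤ : ℕ∞) h 0 ∧ ContDiffAt ℂ (⊤ : ℕ∞) H 0 ∧
    B 0 = p ∧ h 0 = 0 ∧
    (∃ e : V ≃L[ℂ] E, (e : V →L[ℂ] E) = fderiv ℂ B 0) ∧
    (∀ᶠ ζ in 𝓝 (0 : V), Φ (B ζ) = -Real.log (1 - ‖ζ‖ ^ 2) + (H ζ).re) ∧
    NormalJet ε0 C0 C3 C4 (fun ζ => χ (B ζ) - (h ζ).re)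

/-- a smooth proper exhaustion of `Ω` with gradient bounded in the metric `gP Φ` -/
structure GoodExhaustion (Ω : Set E) (Φ f : E → ℝ) (C : ℝ) : Prop where
  smooth : ContDiffOn ℝ 1 f Ω
  grad : ∀ q ∈ Ω, ∀ X, (fderiv ℝ f q X) ^ 2 ≤ C * gP Φ q X X
  proper : ∀ R : ℝ, IsCompact {q | q ∈ Ω ∧ f q ≤ R}
  bddBelow : ∃ m : ℝ, ∀ q ∈ Ω, m ≤ f q

end Gen

section Model

variable {W : Type*} [NormedAddCommGroup W] [InnerProductSpace ℂ W]

/-- `ρ' = Im w - (Im z)² - ‖η‖²` on `(ℂ × ℂ) × W` -/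
noncomputable def rhoG (q : (ℂ × ℂ) × W) : ℝ := rho q.1 - ‖q.2‖ ^ 2

variable (W) in
/-- The model of the ball of dimension `2 + dim W`. -/
def DDG : Set ((ℂ × ℂ) × W) := {q | 0 < rhoG q}

/-- `-log ρ'` -/
noncomputable def PhiG (q : (ℂ × ℂ) × W) : ℝ := -Real.log (rhoG q)

/-- The weight: the wells are the old ones, pulled back from `ℂ × ℂ`. -/
noncomputable def phiG (Ψ : ℂ → ℝ) (lam ε : ℝ) (q : (ℂ × ℂ) × W) : ℝ :=
  -ε * Real.log (rhoG q) + ∑' k, Sk Ψ lam k q.1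

/-- The exhaustion function of the base. -/
noncomputable def exG (q : (ℂ × ℂ) × W) : ℝ :=
  Real.log (‖q.1.2 + Complex.I / 2 * q.1.1 ^ 2 + Complex.I‖ ^ 2 / rhoG q)

end Model

end Vale.Agent.P250.G
end
end
end

section

section

section

/-! Second order calculus for real functions. -/

set_option maxSynthPendingDepth 3

namespace Vale.Agent.P250.Jet2
open Vale.Agent.P250
open Set Filter Topology

section Real

variable {E : Type*} [NormedAddCommGroup E] [NormedSpace ℝ E]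
variable {E' : Type*} [NormedAddCommGroup E'] [NormedSpace ℝ E']

theorem ev_diff {f : E → ℝ} {p : E} (hf : ContDiffAt ℝ 2 f p) :
    ∀ᶠ q in 𝓝 p, DifferentiableAt ℝ f q := by
  have h := hf.eventually (by simp)
  filter_upwards [h] with q hq
  exact hq.differentiableAt (by norm_num)

theorem diff_fderiv {f : E → ℝ} {p : E} (hf : ContDiffAt ℝ 2 f p) :
    DifferentiableAt ℝ (fderiv ℝ f) p :=
  (hf.fderiv_right (m := 1) (by norm_num)).differentiableAt (by norm_num)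

theorem d2_add {f g : E → ℝ} {p : E} (hf : ContDiffAt ℝ 2 f p) (hg : ContDiffAt ℝ 2 g p)
    (X Y : E) : fderiv ℝ (fderiv ℝ (fun q => f q + g q)) p X Y =
      fderiv ℝ (fderiv ℝ f) p X Y + fderiv ℝ (fderiv ℝ g) p X Y := by
  have h : fderiv ℝ (fun q => f q + g q) =ᶠ[𝓝 p] fun q => fderiv ℝ f q + fderiv ℝ g q := by
    filter_upwards [ev_diff hf, ev_diff hg] with q h1 h2
    exact fderiv_fun_add h1 h2
  rw [h.fderiv_eq, fderiv_fun_add (diff_fderiv hf) (diff_fderiv hg)]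
  rfl

theorem d2_const_mul {f : E → ℝ} {p : E} (hf : ContDiffAt ℝ 2 f p) (c : ℝ)
    (X Y : E) : fderiv ℝ (fderiv ℝ (fun q => c * f q)) p X Y =
      c * fderiv ℝ (fderiv ℝ f) p X Y := by
  have h : fderiv ℝ (fun q => c * f q) =ᶠ[𝓝 p] fun q => c • fderiv ℝ f q := by
    filter_upwards [ev_diff hf] with q h1
    exact fderiv_const_mul h1 c
  rw [h.fderiv_eq, fderiv_fun_const_smul (diff_fderiv hf)]
  rfl

theorem d2_mul {f g : E → ℝ} {p : E} (hf : ContDiffAt ℝ 2 f p) (hg : ContDiffAt ℝ 2 g p)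
    (X Y : E) : fderiv ℝ (fderiv ℝ (fun q => f q * g q)) p X Y =
      f p * fderiv ℝ (fderiv ℝ g) p X Y + fderiv ℝ f p X * fderiv ℝ g p Y
      + (g p * fderiv ℝ (fderiv ℝ f) p X Y + fderiv ℝ g p X * fderiv ℝ f p Y) := by
  have h : fderiv ℝ (fun q => f q * g q) =ᶠ[𝓝 p]
      fun q => f q • fderiv ℝ g q + g q • fderiv ℝ f q := by
    filter_upwards [ev_diff hf, ev_diff hg] with q h1 h2
    exact fderiv_fun_mul h1 h2
  have hf1 := hf.differentiableAt (by norm_num)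
  have hg1 := hg.differentiableAt (by norm_num)
  rw [h.fderiv_eq, fderiv_fun_add (hf1.fun_smul (diff_fderiv hg))
    (hg1.fun_smul (diff_fderiv hf)),
    fderiv_fun_smul hf1 (diff_fderiv hg), fderiv_fun_smul hg1 (diff_fderiv hf)]
  rfl

theorem d1_comp {f : E → ℝ} {p : E} {u : ℝ → ℝ} (hf : DifferentiableAt ℝ f p)
    (hu : DifferentiableAt ℝ u (f p)) (X : E) :
    fderiv ℝ (fun q => u (f q)) p X = deriv u (f p) * fderiv ℝ f p X := by
  have h := (hu.hasDerivAt.comp_hasFDerivAt p hf.hasFDerivAt)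
  have h2 : fderiv ℝ (fun q => u (f q)) p = deriv u (f p) • fderiv ℝ f p := h.fderiv
  rw [h2]
  rfl

theorem d2_comp {f : E → ℝ} {p : E} {u : ℝ → ℝ} (hf : ContDiffAt ℝ 2 f p)
    (hu : ContDiffAt ℝ 2 u (f p)) (X Y : E) :
    fderiv ℝ (fderiv ℝ (fun q => u (f q))) p X Y =
      deriv u (f p) * fderiv ℝ (fderiv ℝ f) p X Y
      + deriv (deriv u) (f p) * fderiv ℝ f p X * fderiv ℝ f p Y := by
  have hf1 := hf.differentiableAt (by norm_num)
  have hud : DifferentiableAt ℝ (deriv u) (f p) := by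
    have h1 := diff_fderiv hu
    have h2 : deriv u = fun x => (fderiv ℝ u x) 1 := by
      funext x; rfl
    rw [h2]
    exact h1.clm_apply (differentiableAt_const _)
  have h : fderiv ℝ (fun q => u (f q)) =ᶠ[𝓝 p] fun q => deriv u (f q) • fderiv ℝ f q := by
    have h1 := hf.continuousAt.eventually (ev_diff hu)
    filter_upwards [ev_diff hf, h1] with q h1 h2
    exact (h2.hasDerivAt.comp_hasFDerivAt q h1.hasFDerivAt).fderiv
  have h3 : DifferentiableAt ℝ (fun q => deriv u (f q)) p :=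
    DifferentiableAt.comp p hud hf1
  rw [h.fderiv_eq, fderiv_fun_smul h3 (diff_fderiv hf)]
  show deriv u (f p) * fderiv ℝ (fderiv ℝ f) p X Y +
    fderiv ℝ (fun q => deriv u (f q)) p X * fderiv ℝ f p Y = _
  rw [d1_comp hf1 hud]

theorem d1_clm (L : E →L[ℝ] ℝ) (p X : E) : fderiv ℝ (fun q => L q) p X = L X := by
  have : fderiv ℝ (fun q => L q) p = L := L.fderiv
  rw [this]

theorem d2_clm (L : E →L[ℝ] ℝ) (p X Y : E) : fderiv ℝ (fderiv ℝ (fun q => L q)) p X Y = 0 := by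
  have : fderiv ℝ (fun q => L q) = fun _ => L := by
    funext q; exact L.fderiv
  rw [this]
  simp only [fderiv_fun_const, Pi.zero_apply, zero_apply]

theorem d1_comp_clm {f : E' → ℝ} (L : E →L[ℝ] E') {p : E} (hf : DifferentiableAt ℝ f (L p))
    (X : E) : fderiv ℝ (fun q => f (L q)) p X = fderiv ℝ f (L p) (L X) := by
  have h : fderiv ℝ (fun q => f (L q)) p = (fderiv ℝ f (L p)).comp L :=
    (hf.hasFDerivAt.comp p L.hasFDerivAt).fderiv
  rw [h]
  rfl

theorem d2_comp_clm {f : E' → ℝ} (L : E →L[ℝ] E') {p : E} (hf : ContDiffAt ℝ 2 f (L p))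
    (X Y : E) : fderiv ℝ (fderiv ℝ (fun q => f (L q))) p X Y =
      fderiv ℝ (fderiv ℝ f) (L p) (L X) (L Y) := by
  have h : fderiv ℝ (fun q => f (L q)) =ᶠ[𝓝 p] fun q => (fderiv ℝ f (L q)).comp L := by
    have h1 := L.continuous.continuousAt.eventually (ev_diff hf)
    filter_upwards [h1] with q h1
    exact (h1.hasFDerivAt.comp q L.hasFDerivAt).fderiv
  rw [h.fderiv_eq]
  have h2 : HasFDerivAt (fun q => fderiv ℝ f (L q)) ((fderiv ℝ (fderiv ℝ f) (L p)).comp L) p :=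
    (diff_fderiv hf).hasFDerivAt.comp p L.hasFDerivAt
  have h3 := (h2.clm_comp (hasFDerivAt_const L p))
  rw [h3.fderiv]
  simp

end Real

section Complex

variable {E : Type*} [NormedAddCommGroup E] [NormedSpace ℂ E]
variable {E' : Type*} [NormedAddCommGroup E'] [NormedSpace ℂ E']

theorem gP_congr {P Q : E → ℝ} {p : E} (h : P =ᶠ[𝓝 p] Q) : gP P p = gP Q p := by
  have h1 : fderiv ℝ P =ᶠ[𝓝 p] fderiv ℝ Q := h.fderiv
  rw [gP, gP, h1.fderiv_eq]

theorem gP_add {f g : E → ℝ} {p : E} (hf : ContDiffAt ℝ 2 f p) (hg : ContDiffAt ℝ 2 g p)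
    (X Y : E) : gP (fun q => f q + g q) p X Y = gP f p X Y + gP g p X Y := by
  rw [gP_apply, gP_apply, gP_apply, d2_add hf hg, d2_add hf hg]
  ring

theorem gP_const_mul {f : E → ℝ} {p : E} (hf : ContDiffAt ℝ 2 f p) (c : ℝ)
    (X Y : E) : gP (fun q => c * f q) p X Y = c * gP f p X Y := by
  rw [gP_apply, gP_apply, d2_const_mul hf, d2_const_mul hf]
  ring

theorem gP_mul {f g : E → ℝ} {p : E} (hf : ContDiffAt ℝ 2 f p) (hg : ContDiffAt ℝ 2 g p)
    (X : E) : gP (fun q => f q * g q) p X X = f p * gP g p X X + g p * gP f p X X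
      + (1 / 2) * (fderiv ℝ f p X * fderiv ℝ g p X
        + fderiv ℝ f p (Complex.I • X) * fderiv ℝ g p (Complex.I • X)) := by
  rw [gP_apply, gP_apply, gP_apply, d2_mul hf hg, d2_mul hf hg]
  ring

theorem gP_comp_real {f : E → ℝ} {p : E} {u : ℝ → ℝ} (hf : ContDiffAt ℝ 2 f p)
    (hu : ContDiffAt ℝ 2 u (f p)) (X : E) :
    gP (fun q => u (f q)) p X X = deriv u (f p) * gP f p X X
      + deriv (deriv u) (f p) / 4 * (fderiv ℝ f p X ^ 2 + fderiv ℝ f p (Complex.I • X) ^ 2) := by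
  rw [gP_apply, gP_apply, d2_comp hf hu, d2_comp hf hu]
  ring

theorem gP_clm (L : E →L[ℝ] ℝ) (p X Y : E) : gP (fun q => L q) p X Y = 0 := by
  rw [gP_apply, d2_clm, d2_clm]
  ring

theorem gP_comp_clm {f : E' → ℝ} (L : E →L[ℂ] E') {p : E} (hf : ContDiffAt ℝ 2 f (L p))
    (X Y : E) : gP (fun q => f (L q)) p X Y = gP f (L p) (L X) (L Y) := by
  have h := d2_comp_clm (L.restrictScalars ℝ) (p := p) (f := f) hf
  have h' : ∀ X Y, fderiv ℝ (fderiv ℝ (fun q => f (L q))) p X Y =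
      fderiv ℝ (fderiv ℝ f) (L p) (L X) (L Y) := h
  have hI : ∀ X, L (Complex.I • X) = Complex.I • L X := fun X => L.map_smul _ _
  rw [gP_apply, gP_apply, h', h', hI, hI]

end Complex

end Vale.Agent.P250.Jet2
end
end
end

section

section

section

/-! T14 : the metric of the disc bundle in the tube model. -/

set_option maxSynthPendingDepth 3

namespace Vale.Agent.P250
open Set Filter Topology Jet2

namespace MetricM

/-- `Im z` -/
noncomputable def l1 : (ℂ × ℂ) →L[ℝ] ℝ :=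
  Complex.imCLM.comp (ContinuousLinearMap.fst ℝ ℂ ℂ)

/-- `Im w` -/
noncomputable def l2 : (ℂ × ℂ) →L[ℝ] ℝ :=
  Complex.imCLM.comp (ContinuousLinearMap.snd ℝ ℂ ℂ)

theorem l1_apply (q : ℂ × ℂ) : l1 q = q.1.im := rfl
theorem l2_apply (q : ℂ × ℂ) : l2 q = q.2.im := rfl

theorem rho_eq : rho = fun q => l2 q + (-1) * (l1 q * l1 q) := by
  funext q
  rw [l1_apply, l2_apply, rho]
  ring

theorem contDiff_rho {n : WithTop ℕ∞} : ContDiff ℝ n rho := by
  rw [rho_eq]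
  exact l2.contDiff.add (contDiff_const.mul (l1.contDiff.mul l1.contDiff))

theorem fderiv_rho (q X : ℂ × ℂ) : fderiv ℝ rho q X = X.2.im - 2 * q.1.im * X.1.im := by
  have h : HasFDerivAt (fun q => l2 q + (-1) * (l1 q * l1 q))
      (l2 + (-1 : ℝ) • (l1 q • l1 + l1 q • l1)) q :=
    l2.hasFDerivAt.add ((l1.hasFDerivAt.mul l1.hasFDerivAt).const_mul (-1))
  rw [rho_eq, h.fderiv]
  show l2 X + (-1) * (l1 q * l1 X + l1 q * l1 X) = _
  rw [l1_apply, l2_apply, l1_apply]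
  ring

theorem gP_rho0 (q X : ℂ × ℂ) : gP rho q X X = -(‖X.1‖ ^ 2 / 2) := by
  rw [rho_eq, gP_add l2.contDiff.contDiffAt
    (contDiff_const.mul (l1.contDiff.mul l1.contDiff)).contDiffAt, gP_clm,
    gP_const_mul (l1.contDiff.mul l1.contDiff).contDiffAt,
    gP_mul l1.contDiff.contDiffAt l1.contDiff.contDiffAt, gP_clm, d1_clm, d1_clm]
  rw [← Complex.normSq_eq_norm_sq, Complex.normSq_apply]
  simp only [l1_apply, Prod.smul_fst, smul_eq_mul, Complex.I_mul_im]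
  ring

theorem deriv_neg_log : deriv (fun t : ℝ => -Real.log t) = fun t => -t⁻¹ := by
  funext t
  rw [deriv.fun_neg, Real.deriv_log]

theorem deriv2_neg_log (t : ℝ) : deriv (deriv (fun t : ℝ => -Real.log t)) t = (t ^ 2)⁻¹ := by
  rw [deriv_neg_log, deriv.fun_neg, deriv_inv]
  ring

end MetricM

open MetricM

theorem gP_rho (q : ℂ × ℂ) (hq : q ∈ DD) (X : ℂ × ℂ) :
    gP (fun q => -Real.log (rho q)) q X X = ‖X.1‖ ^ 2 / (2 * rho q)
      + ‖X.2 - 2 * q.1.im * X.1‖ ^ 2 / (4 * rho q ^ 2) := by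
  have hr : 0 < rho q := hq
  have hu : ContDiffAt ℝ 2 (fun t : ℝ => -Real.log t) (rho q) :=
    (Real.contDiffAt_log.mpr hr.ne').neg
  have h := gP_comp_real (E := ℂ × ℂ) (f := rho) (p := q) contDiff_rho.contDiffAt hu X
  rw [h, deriv2_neg_log, deriv_neg_log, gP_rho0, fderiv_rho, fderiv_rho]
  rw [← Complex.normSq_eq_norm_sq, ← Complex.normSq_eq_norm_sq, Complex.normSq_apply,
    Complex.normSq_apply]
  have e1 : (X.2 - 2 * q.1.im * X.1).re = X.2.re - 2 * q.1.im * X.1.re := by simp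
  have e2 : (X.2 - 2 * q.1.im * X.1).im = X.2.im - 2 * q.1.im * X.1.im := by simp
  rw [e1, e2]
  simp only [Prod.smul_fst, Prod.smul_snd, smul_eq_mul, Complex.I_mul_im]
  field_simp
  ring

namespace MetricM

/-- projection to the base -/
noncomputable def pr : (ℂ × ℂ × ℂ) →L[ℂ] ℂ × ℂ :=
  (ContinuousLinearMap.fst ℂ ℂ (ℂ × ℂ)).prod
    ((ContinuousLinearMap.fst ℂ ℂ ℂ).comp (ContinuousLinearMap.snd ℂ ℂ (ℂ × ℂ)))

/-- real part of the fibre coordinate -/
noncomputable def vr : (ℂ × ℂ × ℂ) →L[ℝ] ℝ :=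
  Complex.reCLM.comp ((ContinuousLinearMap.snd ℝ ℂ ℂ).comp (ContinuousLinearMap.snd ℝ ℂ (ℂ × ℂ)))

/-- imaginary part of the fibre coordinate -/
noncomputable def vi : (ℂ × ℂ × ℂ) →L[ℝ] ℝ :=
  Complex.imCLM.comp ((ContinuousLinearMap.snd ℝ ℂ ℂ).comp (ContinuousLinearMap.snd ℝ ℂ (ℂ × ℂ)))

theorem vr_apply (p : ℂ × ℂ × ℂ) : vr p = p.2.2.re := rfl
theorem vi_apply (p : ℂ × ℂ × ℂ) : vi p = p.2.2.im := rfl

/-- `|v|²` -/
noncomputable def nv (p : ℂ × ℂ × ℂ) : ℝ := vr p * vr p + vi p * vi p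

theorem nv_eq (p : ℂ × ℂ × ℂ) : nv p = ‖p.2.2‖ ^ 2 := by
  rw [← Complex.normSq_eq_norm_sq, Complex.normSq_apply]; rfl

theorem contDiff_nv {n : WithTop ℕ∞} : ContDiff ℝ n nv :=
  (vr.contDiff.mul vr.contDiff).add (vi.contDiff.mul vi.contDiff)

theorem fderiv_nv (p X : ℂ × ℂ × ℂ) :
    fderiv ℝ nv p X = 2 * (p.2.2.re * X.2.2.re + p.2.2.im * X.2.2.im) := by
  have h : HasFDerivAt nv ((vr p • vr + vr p • vr) + (vi p • vi + vi p • vi)) p :=
    (vr.hasFDerivAt.mul vr.hasFDerivAt).add (vi.hasFDerivAt.mul vi.hasFDerivAt)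
  rw [h.fderiv]
  show (vr p * vr X + vr p * vr X) + (vi p * vi X + vi p * vi X) = _
  rw [vr_apply, vi_apply, vr_apply, vi_apply]
  ring

theorem gP_nv (p X : ℂ × ℂ × ℂ) : gP nv p X X = X.2.2.re ^ 2 + X.2.2.im ^ 2 := by
  have h : nv = fun p => vr p * vr p + vi p * vi p := rfl
  rw [h, gP_add (vr.contDiff.mul vr.contDiff).contDiffAt (vi.contDiff.mul vi.contDiff).contDiffAt,
    gP_mul vr.contDiff.contDiffAt vr.contDiff.contDiffAt,
    gP_mul vi.contDiff.contDiffAt vi.contDiff.contDiffAt, gP_clm, gP_clm, d1_clm, d1_clm, d1_clm,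
    d1_clm]
  simp only [vr_apply, vi_apply, Prod.smul_snd, smul_eq_mul, Complex.I_mul_im, Complex.I_mul_re]
  ring

/-- `x = |v|² e^{2χ}` -/
noncomputable def xf (χ : ℂ × ℂ → ℝ) (p : ℂ × ℂ × ℂ) : ℝ := nv p * Real.exp (2 * χ (pr p))

theorem xf_eq (χ : ℂ × ℂ → ℝ) (p : ℂ × ℂ × ℂ) :
    xf χ p = ‖p.2.2‖ ^ 2 * Real.exp (2 * χ (p.1, p.2.1)) := by
  rw [xf, nv_eq]; rfl

theorem deriv_exp2 : deriv (fun t : ℝ => Real.exp (2 * t)) = fun t => 2 * Real.exp (2 * t) := by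
  funext t
  have h : HasDerivAt (fun t : ℝ => Real.exp (2 * t)) (Real.exp (2 * t) * (2 * 1)) t :=
    ((hasDerivAt_id t).const_mul 2).exp
  rw [h.deriv]; ring

theorem deriv2_exp2 (t : ℝ) :
    deriv (deriv (fun t : ℝ => Real.exp (2 * t))) t = 4 * Real.exp (2 * t) := by
  rw [deriv_exp2]
  have h : HasDerivAt (fun t : ℝ => 2 * Real.exp (2 * t)) (2 * (Real.exp (2 * t) * (2 * 1))) t :=
    (((hasDerivAt_id t).const_mul 2).exp).const_mul 2
  rw [h.deriv]; ring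

theorem contDiff_exp2 {n : WithTop ℕ∞} : ContDiff ℝ n (fun t : ℝ => Real.exp (2 * t)) :=
  (contDiff_const.mul contDiff_id).exp

section
variable {χ : ℂ × ℂ → ℝ} {p : ℂ × ℂ × ℂ}

theorem contDiffAt_base (hχ : ContDiffAt ℝ 2 χ (pr p)) :
    ContDiffAt ℝ 2 (fun p => χ (pr p)) p :=
  hχ.comp p (pr.restrictScalars ℝ).contDiff.contDiffAt

theorem fderiv_base (hχ : ContDiffAt ℝ 2 χ (pr p)) (X : ℂ × ℂ × ℂ) :
    fderiv ℝ (fun p => χ (pr p)) p X = fderiv ℝ χ (pr p) (pr X) :=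
  d1_comp_clm (pr.restrictScalars ℝ) (hχ.differentiableAt (by norm_num)) X

/-- the exponential factor -/
noncomputable def ef (χ : ℂ × ℂ → ℝ) (p : ℂ × ℂ × ℂ) : ℝ := Real.exp (2 * χ (pr p))

theorem contDiffAt_ef (hχ : ContDiffAt ℝ 2 χ (pr p)) : ContDiffAt ℝ 2 (ef χ) p :=
  ContDiffAt.comp (g := fun t : ℝ => Real.exp (2 * t)) p contDiff_exp2.contDiffAt
    (contDiffAt_base hχ)

theorem fderiv_ef (hχ : ContDiffAt ℝ 2 χ (pr p)) (X : ℂ × ℂ × ℂ) :
    fderiv ℝ (ef χ) p X = 2 * ef χ p * fderiv ℝ χ (pr p) (pr X) := by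
  have h := d1_comp (u := fun t : ℝ => Real.exp (2 * t))
    ((contDiffAt_base hχ).differentiableAt (by norm_num))
    (contDiff_exp2.contDiffAt.differentiableAt (n := 1) (by norm_num)) X
  have h2 : fderiv ℝ (ef χ) p X = _ := h
  rw [h2, deriv_exp2, fderiv_base hχ]
  rfl

theorem gP_ef (hχ : ContDiffAt ℝ 2 χ (pr p)) (X : ℂ × ℂ × ℂ) :
    gP (ef χ) p X X = 2 * ef χ p * gP χ (pr p) (pr X) (pr X)
      + ef χ p * (fderiv ℝ χ (pr p) (pr X) ^ 2
        + fderiv ℝ χ (pr p) (pr (Complex.I • X)) ^ 2) := by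
  have h := gP_comp_real (u := fun t : ℝ => Real.exp (2 * t)) (contDiffAt_base hχ)
    contDiff_exp2.contDiffAt X
  have h2 : gP (ef χ) p X X = _ := h
  rw [h2, deriv2_exp2, deriv_exp2, fderiv_base hχ, fderiv_base hχ, gP_comp_clm pr hχ]
  show 2 * ef χ p * _ + 4 * ef χ p / 4 * _ = _
  ring

theorem contDiffAt_xf (hχ : ContDiffAt ℝ 2 χ (pr p)) : ContDiffAt ℝ 2 (xf χ) p :=
  contDiff_nv.contDiffAt.mul (contDiffAt_ef hχ)

theorem fderiv_xf (hχ : ContDiffAt ℝ 2 χ (pr p)) (X : ℂ × ℂ × ℂ) :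
    fderiv ℝ (xf χ) p X = 2 * ef χ p * (p.2.2.re * X.2.2.re + p.2.2.im * X.2.2.im)
      + 2 * xf χ p * fderiv ℝ χ (pr p) (pr X) := by
  have h : fderiv ℝ (xf χ) p = nv p • fderiv ℝ (ef χ) p + ef χ p • fderiv ℝ nv p :=
    fderiv_fun_mul (contDiff_nv (n := 1).contDiffAt.differentiableAt (by norm_num))
      ((contDiffAt_ef hχ).differentiableAt (by norm_num))
  rw [h]
  show nv p * fderiv ℝ (ef χ) p X + ef χ p * fderiv ℝ nv p X = _
  rw [fderiv_ef hχ, fderiv_nv]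
  show _ = 2 * ef χ p * _ + 2 * (nv p * ef χ p) * _
  ring

/-- the vertical component -/
noncomputable def beta (χ : ℂ × ℂ → ℝ) (p X : ℂ × ℂ × ℂ) : ℂ :=
  X.2.2 + p.2.2 * ((fderiv ℝ χ (p.1, p.2.1) (X.1, X.2.1) : ℝ)
    - Complex.I * (fderiv ℝ χ (p.1, p.2.1) (Complex.I * X.1, Complex.I * X.2.1) : ℝ))

theorem beta_re (χ : ℂ × ℂ → ℝ) (p X : ℂ × ℂ × ℂ) : (beta χ p X).re =
    X.2.2.re + p.2.2.re * fderiv ℝ χ (pr p) (pr X)
      + p.2.2.im * fderiv ℝ χ (pr p) (pr (Complex.I • X)) := by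
  have e : fderiv ℝ χ (p.1, p.2.1) (Complex.I * X.1, Complex.I * X.2.1) =
    fderiv ℝ χ (pr p) (pr (Complex.I • X)) := rfl
  have e' : fderiv ℝ χ (p.1, p.2.1) (X.1, X.2.1) = fderiv ℝ χ (pr p) (pr X) := rfl
  rw [beta, e, e']
  simp only [map_smul, Complex.add_re, Complex.mul_re, Complex.sub_re, Complex.ofReal_re, Complex.I_re, zero_mul, Complex.I_im, Complex.ofReal_im, mul_zero, sub_self, sub_zero, Complex.sub_im, Complex.mul_im, one_mul, zero_add, zero_sub, mul_neg, sub_neg_eq_add]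
  ring

theorem beta_im (χ : ℂ × ℂ → ℝ) (p X : ℂ × ℂ × ℂ) : (beta χ p X).im =
    X.2.2.im + p.2.2.im * fderiv ℝ χ (pr p) (pr X)
      - p.2.2.re * fderiv ℝ χ (pr p) (pr (Complex.I • X)) := by
  have e : fderiv ℝ χ (p.1, p.2.1) (Complex.I * X.1, Complex.I * X.2.1) =
    fderiv ℝ χ (pr p) (pr (Complex.I • X)) := rfl
  have e' : fderiv ℝ χ (p.1, p.2.1) (X.1, X.2.1) = fderiv ℝ χ (pr p) (pr X) := rfl
  rw [beta, e, e']
  simp only [map_smul, Complex.add_im, Complex.mul_im, Complex.sub_im, Complex.ofReal_im, Complex.I_re, mul_zero, Complex.I_im, Complex.ofReal_re, one_mul, zero_add, zero_sub, mul_neg, Complex.sub_re, Complex.mul_re, zero_mul, sub_self, sub_zero]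
  ring

theorem norm_beta (χ : ℂ × ℂ → ℝ) (p X : ℂ × ℂ × ℂ) :
    ‖beta χ p X‖ ^ 2 = (beta χ p X).re ^ 2 + (beta χ p X).im ^ 2 := by
  rw [← Complex.normSq_eq_norm_sq, Complex.normSq_apply]
  ring

theorem gP_xf (hχ : ContDiffAt ℝ 2 χ (pr p)) (X : ℂ × ℂ × ℂ) :
    gP (xf χ) p X X = ef χ p * ‖beta χ p X‖ ^ 2
      + 2 * xf χ p * gP χ (pr p) (pr X) (pr X) := by
  have h := gP_mul (E := ℂ × ℂ × ℂ) (f := nv) (g := ef χ) (p := p) contDiff_nv.contDiffAt
    (contDiffAt_ef hχ) X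
  have h2 : gP (xf χ) p X X = _ := h
  rw [h2, gP_ef hχ, gP_nv, fderiv_nv, fderiv_nv, fderiv_ef hχ, fderiv_ef hχ, norm_beta, beta_re,
    beta_im]
  have e : xf χ p = nv p * ef χ p := rfl
  have e2 : nv p = p.2.2.re ^ 2 + p.2.2.im ^ 2 := by
    show vr p * vr p + vi p * vi p = _
    rw [vr_apply, vi_apply]; ring
  rw [e, e2]
  simp only [Prod.smul_snd, smul_eq_mul, Complex.I_mul_im, Complex.I_mul_re]
  ring

theorem xf_grad (hχ : ContDiffAt ℝ 2 χ (pr p)) (X : ℂ × ℂ × ℂ) :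
    fderiv ℝ (xf χ) p X ^ 2 + fderiv ℝ (xf χ) p (Complex.I • X) ^ 2 =
      4 * xf χ p * (ef χ p * ‖beta χ p X‖ ^ 2) := by
  rw [fderiv_xf hχ, fderiv_xf hχ, norm_beta, beta_re, beta_im]
  have e : xf χ p = nv p * ef χ p := rfl
  have e2 : nv p = p.2.2.re ^ 2 + p.2.2.im ^ 2 := by
    show vr p * vr p + vi p * vi p = _
    rw [vr_apply, vi_apply]; ring
  rw [e, e2]
  simp only [Prod.smul_snd, smul_eq_mul, Complex.I_mul_im, Complex.I_mul_re]
  ring

end

theorem deriv_u : ∀ t : ℝ, deriv (fun t : ℝ => -Real.log (1 - t)) t = (1 - t)⁻¹ := by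
  intro t
  by_cases h : 1 - t = 0
  · have h1 : t = 1 := by linarith
    subst h1
    have e : (fun t : ℝ => -Real.log (1 - t)) = fun t => -Real.log (t - 1) := by
      funext t
      rw [← Real.log_neg_eq_log (t - 1)]
      congr 2
      ring
    rw [e]
    have h2 : deriv (fun t : ℝ => -Real.log (t - 1)) 1 = -(deriv (fun t : ℝ => Real.log t) (1 - 1)) := by
      rw [deriv.fun_neg, deriv_comp_sub_const]
    rw [h2, Real.deriv_log]
    simp
  · have h1 : HasDerivAt (fun t : ℝ => 1 - t) (-1) t := by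
      simpa using (hasDerivAt_id t).const_sub 1
    have h2 := (h1.log h).neg
    have h3 : HasDerivAt (fun t : ℝ => -Real.log (1 - t)) (-(-1 / (1 - t))) t := h2
    rw [h3.deriv]
    field_simp

theorem deriv2_u (t : ℝ) (h : 1 - t ≠ 0) :
    deriv (deriv (fun t : ℝ => -Real.log (1 - t))) t = ((1 - t) ^ 2)⁻¹ := by
  have e : deriv (fun t : ℝ => -Real.log (1 - t)) = fun t => (1 - t)⁻¹ := funext deriv_u
  rw [e]
  have h1 : HasDerivAt (fun t : ℝ => 1 - t) (-1) t := by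
    simpa using (hasDerivAt_id t).const_sub 1
  have h3 : HasDerivAt (fun t : ℝ => (1 - t)⁻¹) (-(-1) / (1 - t) ^ 2) t := h1.fun_inv h
  rw [h3.deriv]
  field_simp

theorem xf_lt {χ : ℂ × ℂ → ℝ} {p : ℂ × ℂ × ℂ} (hp : p ∈ MM χ) : xf χ p < 1 := by
  rw [xf_eq]; exact hp.2

theorem xf_nonneg (χ : ℂ × ℂ → ℝ) (p : ℂ × ℂ × ℂ) : 0 ≤ xf χ p := by
  rw [xf_eq]; positivity

theorem contDiffAt_u {t : ℝ} (h : 1 - t ≠ 0) {n : WithTop ℕ∞} :
    ContDiffAt ℝ n (fun t : ℝ => -Real.log (1 - t)) t :=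
  ((contDiffAt_const.sub contDiffAt_id).log h).neg

theorem PP_eq (δ : ℝ) (χ : ℂ × ℂ → ℝ) :
    PP δ χ = fun p => (fun q => -Real.log (rho q)) (pr p) + δ * (fun t => -Real.log (1 - t)) (xf χ p) := by
  funext p
  rw [PP, xf_eq]
  show _ = -Real.log (rho (p.1, p.2.1)) + δ * -Real.log _
  ring

theorem isOpen_DD' : IsOpen DD := by
  have h : DD = rho ⁻¹' (Ioi 0) := rfl
  rw [h]
  exact isOpen_Ioi.preimage (contDiff_rho (n := 0)).continuous

theorem contDiffAt_chi {χ : ℂ × ℂ → ℝ} (hχ : ContDiffOn ℝ (⊤ : ℕ∞) χ DD) {q : ℂ × ℂ}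
    (hq : q ∈ DD) : ContDiffAt ℝ 2 χ q :=
  (hχ.contDiffAt (isOpen_DD'.mem_nhds hq)).of_le 
    (WithTop.coe_le_coe.mpr (le_top : (2 : ℕ∞) ≤ ⊤))

theorem contDiffAt_neglog {q : ℂ × ℂ} (hq : q ∈ DD) {n : WithTop ℕ∞} :
    ContDiffAt ℝ n (fun q => -Real.log (rho q)) q := by
  have hr : rho q ≠ 0 := ne_of_gt hq
  exact (contDiff_rho.contDiffAt.log hr).neg

end MetricM

theorem PP_contDiffOn (δ : ℝ) (χ : ℂ × ℂ → ℝ) (hχ : ContDiffOn ℝ (⊤ : ℕ∞) χ DD) :
    ContDiffOn ℝ (⊤ : ℕ∞) (PP δ χ) (MM χ) := by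
  intro p hp
  rw [PP_eq]
  apply ContDiffAt.contDiffWithinAt
  have hq : pr p ∈ DD := hp.1
  have h1 : ContDiffAt ℝ (⊤ : ℕ∞) (fun p => (fun q => -Real.log (rho q)) (pr p)) p :=
    (contDiffAt_neglog hq).comp p (pr.restrictScalars ℝ).contDiff.contDiffAt
  have hχ' : ContDiffAt ℝ (⊤ : ℕ∞) χ (pr p) := hχ.contDiffAt (isOpen_DD'.mem_nhds hq)
  have h2 : ContDiffAt ℝ (⊤ : ℕ∞) (fun p => χ (pr p)) p :=
    hχ'.comp p (pr.restrictScalars ℝ).contDiff.contDiffAt
  have h3 : ContDiffAt ℝ (⊤ : ℕ∞) (xf χ) p :=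
    contDiff_nv.contDiffAt.mul
      (ContDiffAt.comp (g := fun t : ℝ => Real.exp (2 * t)) p contDiff_exp2.contDiffAt h2)
  have h4 : 1 - xf χ p ≠ 0 := by
    have := xf_lt hp
    exact (by linarith : (0 : ℝ) < 1 - xf χ p).ne'
  exact h1.add (contDiffAt_const.mul ((contDiffAt_u h4).comp p h3))

/-- The metric of `MM χ`; here `x = |v|² e^{2χ}`, `β = X_v + 2 v ∂χ(X')`. -/
theorem gP_PP (δ : ℝ) (χ : ℂ × ℂ → ℝ) (hχ : ContDiffOn ℝ (⊤ : ℕ∞) χ DD)
    (p : ℂ × ℂ × ℂ) (hp : p ∈ MM χ) (X : ℂ × ℂ × ℂ) :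
    gP (PP δ χ) p X X = gP (fun q => -Real.log (rho q)) (p.1, p.2.1) (X.1, X.2.1) (X.1, X.2.1)
      + δ * (2 * (‖p.2.2‖ ^ 2 * Real.exp (2 * χ (p.1, p.2.1)))
            / (1 - ‖p.2.2‖ ^ 2 * Real.exp (2 * χ (p.1, p.2.1)))
            * gP χ (p.1, p.2.1) (X.1, X.2.1) (X.1, X.2.1)
        + Real.exp (2 * χ (p.1, p.2.1)) *
          ‖X.2.2 + p.2.2 * ((fderiv ℝ χ (p.1, p.2.1) (X.1, X.2.1) : ℝ)
            - Complex.I * (fderiv ℝ χ (p.1, p.2.1) (Complex.I * X.1, Complex.I * X.2.1) : ℝ))‖ ^ 2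
          / (1 - ‖p.2.2‖ ^ 2 * Real.exp (2 * χ (p.1, p.2.1))) ^ 2) := by
  have hq : pr p ∈ DD := hp.1
  have hχ' := contDiffAt_chi hχ hq
  have hx := contDiffAt_xf hχ'
  have h4 : 1 - xf χ p ≠ 0 := by
    have := xf_lt hp
    exact (by linarith : (0 : ℝ) < 1 - xf χ p).ne'
  have h5 : ContDiffAt ℝ 2 (fun p => (fun t => -Real.log (1 - t)) (xf χ p)) p :=
    (contDiffAt_u h4).comp p hx
  have h1 : ContDiffAt ℝ 2 (fun p => (fun q => -Real.log (rho q)) (pr p)) p :=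
    (contDiffAt_neglog hq).comp p (pr.restrictScalars ℝ).contDiff.contDiffAt
  have key : gP (PP δ χ) p X X = gP (fun q => -Real.log (rho q)) (pr p) (pr X) (pr X)
      + δ * (2 * xf χ p / (1 - xf χ p) * gP χ (pr p) (pr X) (pr X)
        + ef χ p * ‖beta χ p X‖ ^ 2 / (1 - xf χ p) ^ 2) := by
    rw [PP_eq, gP_add h1 (contDiffAt_const.mul h5), gP_const_mul h5,
      gP_comp_clm pr (contDiffAt_neglog hq),
      gP_comp_real hx (contDiffAt_u h4), deriv_u, deriv2_u _ h4, gP_xf hχ', xf_grad hχ']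
    congr 2
    field_simp
    ring
  rw [key, xf_eq]
  rfl

end Vale.Agent.P250
end
end
end

section

section

section

/-!
Calculus of the Levi form `gP`.
-/

set_option maxSynthPendingDepth 3

namespace Vale.Agent.P250

open Set Filter Topology

section AJ
variable {E : Type*} [NormedAddCommGroup E] [NormedSpace ℂ E]

/-- The linear map `f ↦ (f(X,Y) + f(iX,iY))/4`. -/
noncomputable def AJ : (E →L[ℝ] E →L[ℝ] ℝ) →L[ℝ] (E →L[ℝ] E →L[ℝ] ℝ) :=
  (1 / 4 : ℝ) • (ContinuousLinearMap.id ℝ (E →L[ℝ] E →L[ℝ] ℝ) +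
    (ContinuousLinearMap.flipₗᵢ ℝ E E ℝ).toContinuousLinearEquiv.toContinuousLinearMap ∘L
      (ContinuousLinearMap.compL ℝ E E (E →L[ℝ] ℝ)).flip Jc ∘L
    (ContinuousLinearMap.flipₗᵢ ℝ E E ℝ).toContinuousLinearEquiv.toContinuousLinearMap ∘L
      (ContinuousLinearMap.compL ℝ E E (E →L[ℝ] ℝ)).flip Jc)

lemma AJ_apply (f : E →L[ℝ] E →L[ℝ] ℝ) (X Y : E) :
    AJ f X Y = (1 / 4) * (f X Y + f (Complex.I • X) (Complex.I • Y)) := by
  simp only [AJ, one_div, smul_add, add_apply, smul_apply, ContinuousLinearMap.id_apply, ContinuousLinearMap.comp_apply, ContinuousLinearMap.flip_apply, ContinuousLinearMap.compL_apply, ContinuousLinearEquiv.coe_coe, LinearIsometryEquiv.coe_toContinuousLinearEquiv, ContinuousLinearMap.coe_flipₗᵢ, smul_eq_mul, Jc_apply]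
  ring

lemma gP_eq_AJ (P : E → ℝ) (p : E) : gP P p = AJ (fderiv ℝ (fderiv ℝ P) p) := by
  ext X Y
  rw [AJ_apply, gP_apply]

end AJ

section congr
variable {E : Type*} [NormedAddCommGroup E] [NormedSpace ℂ E]

lemma gP_congr {P Q : E → ℝ} {p : E} (h : P =ᶠ[𝓝 p] Q) : gP P p = gP Q p := by
  rw [gP_eq_AJ, gP_eq_AJ, (h.fderiv).fderiv_eq]

end congr

section real
variable {E : Type*} [NormedAddCommGroup E] [NormedSpace ℝ E]
variable {F : Type*} [NormedAddCommGroup F] [NormedSpace ℝ F]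

lemma two_le_smooth : (2 : WithTop ℕ∞) ≤ ((⊤ : ℕ∞) : WithTop ℕ∞) :=
  WithTop.coe_le_coe.2 (le_top : (2 : ℕ∞) ≤ ⊤)

lemma one_le_smooth : (1 : WithTop ℕ∞) ≤ ((⊤ : ℕ∞) : WithTop ℕ∞) :=
  WithTop.coe_le_coe.2 (le_top : (1 : ℕ∞) ≤ ⊤)

lemma contDiffAt_fderiv {P : E → F} {p : E}
    (hP : ContDiffAt ℝ (⊤ : ℕ∞) P p) : ContDiffAt ℝ (⊤ : ℕ∞) (fderiv ℝ P) p :=
  hP.fderiv_right (by simp)

lemma eventually_contDiffAt {P : E → F} {p : E}
    (hP : ContDiffAt ℝ (⊤ : ℕ∞) P p) : ∀ᶠ q in 𝓝 p, ContDiffAt ℝ 2 P q :=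
  (hP.of_le two_le_smooth).eventually (by norm_num)

lemma snd_symm {P : E → F} {p : E} (hP : ContDiffAt ℝ (⊤ : ℕ∞) P p) (X Y : E) :
    fderiv ℝ (fderiv ℝ P) p X Y = fderiv ℝ (fderiv ℝ P) p Y X :=
  hP.isSymmSndFDerivAt (by
    rw [minSmoothness_of_isRCLikeNormedField]; exact two_le_smooth) X Y

/-- the second derivative of a composition -/
lemma fderiv_fderiv_comp {E' : Type*} [NormedAddCommGroup E'] [NormedSpace ℝ E']
    (P : E → F) (Φ : E' → E) (q : E') (hΦ : ContDiffAt ℝ (⊤ : ℕ∞) Φ q)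
    (hP : ContDiffAt ℝ (⊤ : ℕ∞) P (Φ q)) (X Y : E') :
    fderiv ℝ (fderiv ℝ (fun q => P (Φ q))) q X Y =
      fderiv ℝ (fderiv ℝ P) (Φ q) (fderiv ℝ Φ q X) (fderiv ℝ Φ q Y) +
        fderiv ℝ P (Φ q) (fderiv ℝ (fderiv ℝ Φ) q X Y) := by
  have h1 : fderiv ℝ (fun q => P (Φ q)) =ᶠ[𝓝 q]
      fun q' => (fderiv ℝ P (Φ q')).comp (fderiv ℝ Φ q') := by
    have hΦc : ContinuousAt Φ q := hΦ.continuousAt
    filter_upwards [eventually_contDiffAt hΦ, hΦc.eventually (eventually_contDiffAt hP)]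
      with q' h1 h2
    exact fderiv_comp q' (h2.differentiableAt (by norm_num)) (h1.differentiableAt (by norm_num))
  rw [h1.fderiv_eq]
  have hd1 : DifferentiableAt ℝ (fun q' => fderiv ℝ P (Φ q')) q :=
    ((contDiffAt_fderiv hP).differentiableAt (by simp)).comp q (hΦ.differentiableAt (by simp))
  have hd2 : DifferentiableAt ℝ (fderiv ℝ Φ) q := (contDiffAt_fderiv hΦ).differentiableAt (by simp)
  rw [fderiv_clm_comp hd1 hd2]
  have h3 : fderiv ℝ (fun q' => fderiv ℝ P (Φ q')) q =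
      (fderiv ℝ (fderiv ℝ P) (Φ q)).comp (fderiv ℝ Φ q) :=
    fderiv_comp q ((contDiffAt_fderiv hP).differentiableAt (by simp))
      (hΦ.differentiableAt (by simp))
  rw [h3]
  simp [add_comm]

end real

section complex
variable {E : Type*} [NormedAddCommGroup E] [NormedSpace ℂ E]
variable {E' : Type*} [NormedAddCommGroup E'] [NormedSpace ℂ E']

lemma fderiv_fderiv_complex (Φ : E' → E) (q : E') (hΦ : ContDiffAt ℂ (⊤ : ℕ∞) Φ q) (X Y : E') :
    fderiv ℝ (fderiv ℝ Φ) q X Y = fderiv ℂ (fderiv ℂ Φ) q X Y := by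
  have h1 : fderiv ℝ Φ =ᶠ[𝓝 q] fun q' =>
      ContinuousLinearMap.restrictScalarsL ℂ E' E ℝ ℝ (fderiv ℂ Φ q') := by
    have h : ∀ᶠ q' in 𝓝 q, ContDiffAt ℂ 2 Φ q' :=
      (hΦ.of_le two_le_smooth).eventually (by norm_num)
    filter_upwards [h] with q' hq'
    exact (hq'.differentiableAt (by norm_num)).fderiv_restrictScalars ℝ
  rw [h1.fderiv_eq]
  have h2 : HasFDerivAt (𝕜 := ℂ) (fderiv ℂ Φ) (fderiv ℂ (fderiv ℂ Φ) q) q := by
    have h3 : ContDiffAt ℂ (⊤ : ℕ∞) (fderiv ℂ Φ) q := hΦ.fderiv_right (by simp)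
    exact (h3.differentiableAt (by simp)).hasFDerivAt
  have h3 := h2.restrictScalars ℝ
  have h4 := (ContinuousLinearMap.restrictScalarsL ℂ E' E ℝ ℝ).hasFDerivAt.comp q h3
  have h5 := h4.fderiv
  have h6 : (fun q' => ContinuousLinearMap.restrictScalarsL ℂ E' E ℝ ℝ (fderiv ℂ Φ q')) =
    (⇑(ContinuousLinearMap.restrictScalarsL ℂ E' E ℝ ℝ) ∘ fderiv ℂ Φ) := rfl
  rw [h6, h5]
  simp

theorem gP_comp (P : E → ℝ) (F : E' → E) (q : E') (hF : ContDiffAt ℂ (⊤ : ℕ∞) F q)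
    (hP : ContDiffAt ℝ (⊤ : ℕ∞) P (F q)) (X Y : E') :
    gP (fun q => P (F q)) q X Y = gP P (F q) (fderiv ℝ F q X) (fderiv ℝ F q Y) := by
  have hFR : ContDiffAt ℝ (⊤ : ℕ∞) F q := hF.restrict_scalars ℝ
  have hd : fderiv ℝ F q = (fderiv ℂ F q).restrictScalars ℝ :=
    (hF.differentiableAt (by simp)).fderiv_restrictScalars ℝ
  have hI : ∀ Z : E', fderiv ℝ F q (Complex.I • Z) = Complex.I • fderiv ℝ F q Z := by
    intro Z
    rw [hd]
    simp only [ContinuousLinearMap.coe_restrictScalars', map_smul]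
  rw [gP_apply, gP_apply, fderiv_fderiv_comp P F q hFR hP, fderiv_fderiv_comp P F q hFR hP,
    fderiv_fderiv_complex F q hF, fderiv_fderiv_complex F q hF]
  have h2 : fderiv ℂ (fderiv ℂ F) q (Complex.I • X) (Complex.I • Y) =
      -fderiv ℂ (fderiv ℂ F) q X Y := by
    simp [smul_smul]
  rw [h2, hI, hI, map_neg]
  ring

theorem gP_re (H : E → ℂ) (q : E) (hH : ContDiffAt ℂ (⊤ : ℕ∞) H q) :
    gP (fun q => (H q).re) q = 0 := by
  ext X Y
  have h := gP_comp (fun z : ℂ => z.re) H q hH Complex.reCLM.contDiff.contDiffAt X Y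
  rw [h]
  have h2 : ∀ z : ℂ, fderiv ℝ (fderiv ℝ (fun z : ℂ => z.re)) z = 0 := by
    intro z
    have h3 : fderiv ℝ (fun z : ℂ => z.re) = fun _ => Complex.reCLM := by
      funext w
      exact Complex.reCLM.hasFDerivAt.fderiv
    rw [h3]
    simp only [fderiv_fun_const, Pi.zero_apply]
  rw [gP_apply, h2]
  simp

lemma fderiv_gP {P : E → ℝ} {p : E} (hP : ContDiffAt ℝ (⊤ : ℕ∞) P p) (X Y Z : E) :
    fderiv ℝ (gP P) p X Y Z = (1 / 4) * (fderiv ℝ (fderiv ℝ (fderiv ℝ P)) p X Y Z +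
      fderiv ℝ (fderiv ℝ (fderiv ℝ P)) p X (Complex.I • Y) (Complex.I • Z)) := by
  have h1 : gP P = fun q => AJ (fderiv ℝ (fderiv ℝ P) q) := funext fun q => gP_eq_AJ P q
  have h2 : DifferentiableAt ℝ (fderiv ℝ (fderiv ℝ P)) p :=
    (contDiffAt_fderiv (contDiffAt_fderiv hP)).differentiableAt (by simp)
  have h3 := ((AJ (E := E)).hasFDerivAt.comp p h2.hasFDerivAt).fderiv
  have h4 : (fun q => AJ (fderiv ℝ (fderiv ℝ P) q)) = (⇑(AJ (E := E)) ∘ fderiv ℝ (fderiv ℝ P)) :=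
    rfl
  rw [h1, h4, h3]
  simp only [ContinuousLinearMap.comp_apply]
  rw [AJ_apply]

lemma third_symm {P : E → ℝ} {p : E} (hP : ContDiffAt ℝ (⊤ : ℕ∞) P p) (X Y Z : E) :
    fderiv ℝ (fderiv ℝ (fderiv ℝ P)) p X Y Z = fderiv ℝ (fderiv ℝ (fderiv ℝ P)) p X Z Y := by
  have h1 : (fun q => fderiv ℝ (fderiv ℝ P) q Y Z) =ᶠ[𝓝 p]
      fun q => fderiv ℝ (fderiv ℝ P) q Z Y := by
    filter_upwards [eventually_contDiffAt hP] with q hq
    exact hq.isSymmSndFDerivAt (by rw [minSmoothness_of_isRCLikeNormedField]) Y Z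
  have h2 : HasFDerivAt (fderiv ℝ (fderiv ℝ P)) (fderiv ℝ (fderiv ℝ (fderiv ℝ P)) p) p :=
    ((contDiffAt_fderiv (contDiffAt_fderiv hP)).differentiableAt (by simp)).hasFDerivAt
  have h3 : ∀ A B : E, fderiv ℝ (fun q => fderiv ℝ (fderiv ℝ P) q A B) p X =
      fderiv ℝ (fderiv ℝ (fderiv ℝ P)) p X A B := by
    intro A B
    have h4 := (h2.clm_apply (hasFDerivAt_const A p)).clm_apply (hasFDerivAt_const B p)
    rw [h4.fderiv]
    simp
  rw [← h3 Y Z, ← h3 Z Y, h1.fderiv_eq]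

lemma third_symm' {P : E → ℝ} {p : E} (hP : ContDiffAt ℝ (⊤ : ℕ∞) P p) (X Y Z : E) :
    fderiv ℝ (fderiv ℝ (fderiv ℝ P)) p X Y Z = fderiv ℝ (fderiv ℝ (fderiv ℝ P)) p Y X Z := by
  rw [snd_symm (contDiffAt_fderiv hP)]

theorem isKaehlerMetric_gP (P : E → ℝ) (M : Set E) (hM : IsOpen M)
    (hP : ContDiffOn ℝ (⊤ : ℕ∞) P M) (hpos : ∀ p ∈ M, ∀ X, X ≠ 0 → 0 < gP P p X X) :
    IsKaehlerMetric (gP P) M := by
  have hat : ∀ p ∈ M, ContDiffAt ℝ (⊤ : ℕ∞) P p := fun p hp => hP.contDiffAt (hM.mem_nhds hp)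
  refine ⟨⟨?_, ?_, hpos⟩, ?_, ?_⟩
  · have h1 : gP P = fun q => AJ (fderiv ℝ (fderiv ℝ P) q) := funext fun q => gP_eq_AJ P q
    rw [h1]
    intro p hp
    exact (AJ.contDiff.contDiffAt.comp p
      (contDiffAt_fderiv (contDiffAt_fderiv (hat p hp)))).contDiffWithinAt
  · intro p hp X Y
    rw [gP_apply, gP_apply, snd_symm (hat p hp) X Y,
      snd_symm (hat p hp) (Complex.I • X) (Complex.I • Y)]
  · intro p hp X Y
    rw [gP_apply, gP_apply]
    simp only [smul_smul, Complex.I_mul_I, neg_smul, one_smul, map_neg,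
      neg_apply, neg_neg]
    ring
  · intro p hp X Y Z
    have h := hat p hp
    rw [fderiv_gP h, fderiv_gP h, fderiv_gP h]
    simp only [smul_smul, Complex.I_mul_I, neg_smul, one_smul, map_neg, neg_apply]
    rw [third_symm h X (Complex.I • Y) Z, third_symm' h X Z (Complex.I • Y),
      third_symm' h X Y (Complex.I • Z), third_symm h Y X (Complex.I • Z),
      third_symm' h Y Z (Complex.I • X), third_symm h Z Y (Complex.I • X)]
    ring

lemma gP_add {P Q : E → ℝ} {p : E} (hP : ContDiffAt ℝ (⊤ : ℕ∞) P p)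
    (hQ : ContDiffAt ℝ (⊤ : ℕ∞) Q p) :
    gP (fun q => P q + Q q) p = gP P p + gP Q p := by
  have h1 : fderiv ℝ (fun q => P q + Q q) =ᶠ[𝓝 p] fun q => fderiv ℝ P q + fderiv ℝ Q q := by
    filter_upwards [eventually_contDiffAt hP, eventually_contDiffAt hQ] with q h1 h2
    exact fderiv_fun_add (h1.differentiableAt (by norm_num)) (h2.differentiableAt (by norm_num))
  rw [gP_eq_AJ, gP_eq_AJ, gP_eq_AJ, h1.fderiv_eq,
    fderiv_fun_add ((contDiffAt_fderiv hP).differentiableAt (by simp))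
      ((contDiffAt_fderiv hQ).differentiableAt (by simp)), map_add]

lemma gP_const_mul {P : E → ℝ} {p : E} (hP : ContDiffAt ℝ (⊤ : ℕ∞) P p) (c : ℝ) :
    gP (fun q => c * P q) p = c • gP P p := by
  have h1 : fderiv ℝ (fun q => c * P q) =ᶠ[𝓝 p] fun q => c • fderiv ℝ P q := by
    filter_upwards [eventually_contDiffAt hP] with q h1
    exact fderiv_const_mul (h1.differentiableAt (by norm_num)) c
  rw [gP_eq_AJ, gP_eq_AJ, h1.fderiv_eq,
    fderiv_fun_const_smul ((contDiffAt_fderiv hP).differentiableAt (by simp)), map_smul]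

end complex

end Vale.Agent.P250
end
end
end

section

section

section

/-! Algebraic data of the metric at a normalised point. -/

set_option maxSynthPendingDepth 3

namespace Vale.Agent.P250

open Complex

section Alg

variable {V : Type*} [NormedAddCommGroup V] [InnerProductSpace ℂ V]

/-- real inner product -/
noncomputable def rip (X Y : V) : ℝ := (inner ℂ X Y).re

variable (V) in
/-- `β = Re κ` (`κ = ∂∂̄χ`), `γ = Re χ_{XY Zbar}`, `K = h⁻¹κ`, `C = h⁻¹γ`, where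
`h = ⟨,⟩ + 2 δ u β`. -/
structure AlgData (δ u : ℝ) where
  β : V →ₗ[ℝ] V →ₗ[ℝ] ℝ
  β_symm : ∀ X Y, β X Y = β Y X
  β_J : ∀ X Y, β (I • X) (I • Y) = β X Y
  γ : V →ₗ[ℝ] V →ₗ[ℝ] V →ₗ[ℝ] ℝ
  γ_symm : ∀ X Y Z, γ X Y Z = γ Y X Z
  γ_J : ∀ X Y Z, γ (I • X) Y (I • Z) = γ X Y Z
  K : V →ₗ[ℝ] V
  K_spec : ∀ X Z, rip (K X) Z + 2 * δ * u * β (K X) Z = β X Z
  C : V → V → V
  C_spec : ∀ X Y Z, rip (C X Y) Z + 2 * δ * u * β (C X Y) Z = γ X Y Z

variable {δ u : ℝ}

namespace AlgData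

/-- `h = ⟨,⟩ + 2 δ u β` -/
noncomputable def h (D : AlgData V δ u) (X Y : V) : ℝ := rip X Y + 2 * δ * u * D.β X Y

/-- `X^h = h⁻¹ X = X - 2 δ u K X`, so `h(X^h, Z) = ⟨X, Z⟩`. -/
noncomputable def low (D : AlgData V δ u) (X : V) : V := X - (2 * δ * u) • D.K X

/-- the metric -/
noncomputable def gg (D : AlgData V δ u) (X Y : V) (x y : ℂ) : ℝ :=
  D.h X Y + δ * (u + u ^ 2) * (x * (starRingEnd ℂ) y).re

/-- area squared -/
noncomputable def ar (D : AlgData V δ u) (X Y : V) (x y : ℂ) : ℝ :=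
  D.gg X X x x * D.gg Y Y y y - D.gg X Y x y ^ 2

/-- minus the curvature numerator -/
noncomputable def NN (D : AlgData V δ u) (N4 : ℝ) (X Y : V) (x y : ℂ) : ℝ :=
  (‖X‖ ^ 2 * ‖Y‖ ^ 2 - rip X Y ^ 2 + 3 * rip X (I • Y) ^ 2)
  + 4 * δ * (u + u ^ 2) ^ 2 * (x * (starRingEnd ℂ) y).im ^ 2
  + 2 * δ * (u + u ^ 2) *
    (u * D.β ((starRingEnd ℂ) y • X - (starRingEnd ℂ) x • Y)
        ((starRingEnd ℂ) y • X - (starRingEnd ℂ) x • Y)
      + (1 + u) * D.β (D.low ((starRingEnd ℂ) y • X - (starRingEnd ℂ) x • Y))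
        ((starRingEnd ℂ) y • X - (starRingEnd ℂ) x • Y))
  + 8 * δ * (u + u ^ 2) * (x * (starRingEnd ℂ) y).im *
    (u * D.β X (I • Y) + (1 + u) * D.β (D.low X) (I • Y))
  + 4 * δ * (u + u ^ 2) * (D.β X X * D.β Y Y - D.β X Y ^ 2 + 3 * D.β X (I • Y) ^ 2)
  + 2 * δ * u * N4
  - 4 * δ ^ 2 * u ^ 2 * (D.h (D.C X Y) (D.C X Y) - D.h (D.C X X) (D.C Y Y))
  - 4 * δ * (u + u ^ 2) *
    (D.γ X ((starRingEnd ℂ) y • X - (starRingEnd ℂ) x • Y) (D.low Y)
      - D.γ Y ((starRingEnd ℂ) y • X - (starRingEnd ℂ) x • Y) (D.low X))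

/-- uniform bounds -/
structure Bounds (D : AlgData V δ u) (ε C0 C3 : ℝ) : Prop where
  low : ∀ X, ε * ‖X‖ ^ 2 ≤ D.β X X
  up : ∀ X, D.β X X ≤ C0 * ‖X‖ ^ 2
  c3 : ∀ X Y Z, |D.γ X Y Z| ≤ C3 * ‖X‖ * ‖Y‖ * ‖Z‖

end AlgData

end Alg

end Vale.Agent.P250
end
end
end

section

section

section

/-! Iterated directional derivatives and the chain rule up to order four. -/

set_option maxSynthPendingDepth 3

namespace Vale.Agent.P250

open Set Filter Topology

section Calc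

variable {E : Type*} [NormedAddCommGroup E] [NormedSpace ℝ E]

noncomputable def D1 (f : E → ℝ) (p a : E) : ℝ := fderiv ℝ f p a
noncomputable def D2 (f : E → ℝ) (p a b : E) : ℝ := fderiv ℝ (fderiv ℝ f) p a b
noncomputable def D3 (f : E → ℝ) (p a b c : E) : ℝ := fderiv ℝ (fderiv ℝ (fderiv ℝ f)) p a b c
noncomputable def D4 (f : E → ℝ) (p a b c d : E) : ℝ :=
  fderiv ℝ (fderiv ℝ (fderiv ℝ (fderiv ℝ f))) p a b c d

lemma contDiffAt_fderiv_of {F : Type*} [NormedAddCommGroup F] [NormedSpace ℝ F]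
    {f : E → F} {p : E} {n : ℕ} (hf : ContDiffAt ℝ ((n + 1 : ℕ) : WithTop ℕ∞) f p) :
    ContDiffAt ℝ (n : WithTop ℕ∞) (fderiv ℝ f) p := by
  apply hf.fderiv_right
  norm_cast

lemma diffAt_of {F : Type*} [NormedAddCommGroup F] [NormedSpace ℝ F]
    {f : E → F} {p : E} {n : ℕ} (hf : ContDiffAt ℝ ((n + 1 : ℕ) : WithTop ℕ∞) f p) :
    DifferentiableAt ℝ f p := by
  apply hf.differentiableAt
  norm_cast

lemma D1_diff {f : E → ℝ} {p : E} (hf : ContDiffAt ℝ (2 : ℕ) f p) (b : E) :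
    DifferentiableAt ℝ (fun q => D1 f q b) p := by
  have h1 : DifferentiableAt ℝ (fderiv ℝ f) p := diffAt_of (contDiffAt_fderiv_of hf)
  exact h1.clm_apply (differentiableAt_const b)

lemma fderiv_D1 {f : E → ℝ} {p : E} (hf : ContDiffAt ℝ (2 : ℕ) f p) (a b : E) :
    fderiv ℝ (fun q => D1 f q b) p a = D2 f p a b := by
  have h1 : DifferentiableAt ℝ (fderiv ℝ f) p := diffAt_of (contDiffAt_fderiv_of hf)
  simp only [D1, D2]
  rw [fderiv_clm_apply h1 (differentiableAt_const b)]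
  simp only [fderiv_fun_const, Pi.zero_apply, ContinuousLinearMap.comp_zero, zero_add, ContinuousLinearMap.flip_apply]

lemma D2_diff {f : E → ℝ} {p : E} (hf : ContDiffAt ℝ (3 : ℕ) f p) (b c : E) :
    DifferentiableAt ℝ (fun q => D2 f q b c) p := by
  have h1 : DifferentiableAt ℝ (fderiv ℝ (fderiv ℝ f)) p :=
    diffAt_of (contDiffAt_fderiv_of (contDiffAt_fderiv_of hf))
  exact (h1.clm_apply (differentiableAt_const b)).clm_apply (differentiableAt_const c)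

lemma fderiv_D2 {f : E → ℝ} {p : E} (hf : ContDiffAt ℝ (3 : ℕ) f p) (a b c : E) :
    fderiv ℝ (fun q => D2 f q b c) p a = D3 f p a b c := by
  have h1 : DifferentiableAt ℝ (fderiv ℝ (fderiv ℝ f)) p :=
    diffAt_of (contDiffAt_fderiv_of (contDiffAt_fderiv_of hf))
  simp only [D2, D3]
  rw [fderiv_clm_apply (h1.clm_apply (differentiableAt_const b)) (differentiableAt_const c),
    fderiv_clm_apply h1 (differentiableAt_const b)]
  simp only [fderiv_fun_const, Pi.zero_apply, ContinuousLinearMap.comp_zero, zero_add, ContinuousLinearMap.flip_apply]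

lemma D3_diff {f : E → ℝ} {p : E} (hf : ContDiffAt ℝ (4 : ℕ) f p) (b c d : E) :
    DifferentiableAt ℝ (fun q => D3 f q b c d) p := by
  have h1 : DifferentiableAt ℝ (fderiv ℝ (fderiv ℝ (fderiv ℝ f))) p :=
    diffAt_of (contDiffAt_fderiv_of (contDiffAt_fderiv_of (contDiffAt_fderiv_of hf)))
  exact ((h1.clm_apply (differentiableAt_const b)).clm_apply
    (differentiableAt_const c)).clm_apply (differentiableAt_const d)

lemma fderiv_D3 {f : E → ℝ} {p : E} (hf : ContDiffAt ℝ (4 : ℕ) f p) (a b c d : E) :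
    fderiv ℝ (fun q => D3 f q b c d) p a = D4 f p a b c d := by
  have h1 : DifferentiableAt ℝ (fderiv ℝ (fderiv ℝ (fderiv ℝ f))) p :=
    diffAt_of (contDiffAt_fderiv_of (contDiffAt_fderiv_of (contDiffAt_fderiv_of hf)))
  simp only [D3, D4]
  rw [fderiv_clm_apply ((h1.clm_apply (differentiableAt_const b)).clm_apply
    (differentiableAt_const c)) (differentiableAt_const d),
    fderiv_clm_apply (h1.clm_apply (differentiableAt_const b)) (differentiableAt_const c),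
    fderiv_clm_apply h1 (differentiableAt_const b)]
  simp

lemma ev_cda {F : Type*} [NormedAddCommGroup F] [NormedSpace ℝ F]
    {f : E → F} {p : E} {n : ℕ} (hf : ContDiffAt ℝ (n : ℕ) f p) :
    ∀ᶠ q in 𝓝 p, ContDiffAt ℝ (n : ℕ) f q :=
  hf.eventually (by simp)

/-- the data of a function of one real variable together with its derivatives near `t`. -/
structure Der4 (L L1 L2 L3 L4 : ℝ → ℝ) (t : ℝ) : Prop where
  h1 : ∀ᶠ s in 𝓝 t, HasDerivAt L (L1 s) s
  h2 : ∀ᶠ s in 𝓝 t, HasDerivAt L1 (L2 s) s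
  h3 : ∀ᶠ s in 𝓝 t, HasDerivAt L2 (L3 s) s
  h4 : ∀ᶠ s in 𝓝 t, HasDerivAt L3 (L4 s) s
  smooth : ContDiffAt ℝ (4 : ℕ) L t

variable {L L1 L2 L3 L4 : ℝ → ℝ} {y : E → ℝ} {p : E}

lemma comp_contDiffAt {n : ℕ} (hL : ContDiffAt ℝ (n : ℕ) L (y p)) (hy : ContDiffAt ℝ (n : ℕ) y p) :
    ContDiffAt ℝ (n : ℕ) (fun q => L (y q)) p :=
  hL.comp p hy

lemma D1_comp (hL : HasDerivAt L (L1 (y p)) (y p)) (hy : DifferentiableAt ℝ y p) (a : E) :
    D1 (fun q => L (y q)) p a = L1 (y p) * D1 y p a := by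
  have := hL.comp_hasFDerivAt p hy.hasFDerivAt
  simp only [D1]
  rw [show (fun q => L (y q)) = L ∘ y from rfl, this.fderiv]
  simp

lemma D2_comp (hD : Der4 L L1 L2 L3 L4 (y p)) (hy : ContDiffAt ℝ (4 : ℕ) y p) (a b : E) :
    D2 (fun q => L (y q)) p a b = L2 (y p) * D1 y p a * D1 y p b + L1 (y p) * D2 y p a b := by
  have hyc : ContinuousAt y p := hy.continuousAt
  have hf : ContDiffAt ℝ (4 : ℕ) (fun q => L (y q)) p := comp_contDiffAt hD.smooth hy
  have h2 : ContDiffAt ℝ (2 : ℕ) (fun q => L (y q)) p := hf.of_le (by norm_cast)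
  have hy2 : ContDiffAt ℝ (2 : ℕ) y p := hy.of_le (by norm_cast)
  rw [← fderiv_D1 h2]
  have heq : (fun q => D1 (fun q => L (y q)) q b) =ᶠ[𝓝 p] fun q => L1 (y q) * D1 y q b := by
    filter_upwards [hyc.eventually hD.h1, ev_cda hy] with q h1 h2
    exact D1_comp h1 (h2.differentiableAt (by norm_cast)) b
  rw [heq.fderiv_eq]
  have hL1 : HasFDerivAt (fun q => L1 (y q)) (L2 (y p) • fderiv ℝ y p) p :=
    hD.h2.self_of_nhds.comp_hasFDerivAt p (hy.differentiableAt (by norm_cast)).hasFDerivAt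
  have hfin : HasFDerivAt (fun q => L1 (y q) * D1 y q b) _ p :=
    hL1.mul (D1_diff hy2 b).hasFDerivAt
  rw [hfin.fderiv]
  simp only [add_apply, smul_apply, smul_eq_mul, Pi.mul_apply, Pi.add_apply,
    fderiv_D1 hy2]
  simp only [D1]
  ring

lemma D3_comp (hD : Der4 L L1 L2 L3 L4 (y p)) (hy : ContDiffAt ℝ (4 : ℕ) y p) (a b c : E) :
    D3 (fun q => L (y q)) p a b c = L3 (y p) * D1 y p a * D1 y p b * D1 y p c
      + L2 (y p) * (D2 y p a b * D1 y p c + D2 y p a c * D1 y p b + D2 y p b c * D1 y p a)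
      + L1 (y p) * D3 y p a b c := by
  have hyc : ContinuousAt y p := hy.continuousAt
  have hf : ContDiffAt ℝ (4 : ℕ) (fun q => L (y q)) p := comp_contDiffAt hD.smooth hy
  have h3 : ContDiffAt ℝ (3 : ℕ) (fun q => L (y q)) p := hf.of_le (by norm_cast)
  have hy2 : ContDiffAt ℝ (2 : ℕ) y p := hy.of_le (by norm_cast)
  have hy3 : ContDiffAt ℝ (3 : ℕ) y p := hy.of_le (by norm_cast)
  rw [← fderiv_D2 h3]
  have hDe : ∀ᶠ q in 𝓝 p, Der4 L L1 L2 L3 L4 (y q) := by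
    have e1 := eventually_eventually_nhds.2 hD.h1
    have e2 := eventually_eventually_nhds.2 hD.h2
    have e3 := eventually_eventually_nhds.2 hD.h3
    have e4 := eventually_eventually_nhds.2 hD.h4
    have e5 := ev_cda hD.smooth
    filter_upwards [hyc.eventually e1, hyc.eventually e2, hyc.eventually e3, hyc.eventually e4,
      hyc.eventually e5] with q a1 a2 a3 a4 a5
    exact ⟨a1, a2, a3, a4, a5⟩
  have heq : (fun q => D2 (fun q => L (y q)) q b c) =ᶠ[𝓝 p]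
      fun q => L2 (y q) * D1 y q b * D1 y q c + L1 (y q) * D2 y q b c := by
    filter_upwards [hDe, ev_cda hy] with q h1 h2
    exact D2_comp h1 h2 b c
  rw [heq.fderiv_eq]
  have hyd := (hy.differentiableAt (by norm_cast)).hasFDerivAt
  have hL1 : HasFDerivAt (fun q => L1 (y q)) (L2 (y p) • fderiv ℝ y p) p :=
    hD.h2.self_of_nhds.comp_hasFDerivAt p hyd
  have hL2 : HasFDerivAt (fun q => L2 (y q)) (L3 (y p) • fderiv ℝ y p) p :=
    hD.h3.self_of_nhds.comp_hasFDerivAt p hyd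
  have hfin : HasFDerivAt
      (fun q => L2 (y q) * D1 y q b * D1 y q c + L1 (y q) * D2 y q b c) _ p :=
    ((hL2.mul (D1_diff hy2 b).hasFDerivAt).mul (D1_diff hy2 c).hasFDerivAt).add
    (hL1.mul (D2_diff hy3 b c).hasFDerivAt)
  rw [hfin.fderiv]
  simp only [add_apply, smul_apply, smul_eq_mul, Pi.mul_apply, Pi.add_apply,
    fderiv_D1 hy2, fderiv_D2 hy3]
  simp only [D1]
  ring

lemma D4_comp (hD : Der4 L L1 L2 L3 L4 (y p)) (hy : ContDiffAt ℝ (4 : ℕ) y p) (a b c d : E) :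
    D4 (fun q => L (y q)) p a b c d = L4 (y p) * D1 y p a * D1 y p b * D1 y p c * D1 y p d
      + L3 (y p) * (D2 y p a b * D1 y p c * D1 y p d + D2 y p a c * D1 y p b * D1 y p d
        + D2 y p a d * D1 y p b * D1 y p c + D2 y p b c * D1 y p a * D1 y p d
        + D2 y p b d * D1 y p a * D1 y p c + D2 y p c d * D1 y p a * D1 y p b)
      + L2 (y p) * (D3 y p a b c * D1 y p d + D3 y p a b d * D1 y p c
        + D3 y p a c d * D1 y p b + D3 y p b c d * D1 y p a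
        + D2 y p a b * D2 y p c d + D2 y p a c * D2 y p b d + D2 y p a d * D2 y p b c)
      + L1 (y p) * D4 y p a b c d := by
  have hyc : ContinuousAt y p := hy.continuousAt
  have hf : ContDiffAt ℝ (4 : ℕ) (fun q => L (y q)) p := comp_contDiffAt hD.smooth hy
  have hy2 : ContDiffAt ℝ (2 : ℕ) y p := hy.of_le (by norm_cast)
  have hy3 : ContDiffAt ℝ (3 : ℕ) y p := hy.of_le (by norm_cast)
  rw [← fderiv_D3 hf]
  have hDe : ∀ᶠ q in 𝓝 p, Der4 L L1 L2 L3 L4 (y q) := by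
    have e1 := eventually_eventually_nhds.2 hD.h1
    have e2 := eventually_eventually_nhds.2 hD.h2
    have e3 := eventually_eventually_nhds.2 hD.h3
    have e4 := eventually_eventually_nhds.2 hD.h4
    have e5 := ev_cda hD.smooth
    filter_upwards [hyc.eventually e1, hyc.eventually e2, hyc.eventually e3, hyc.eventually e4,
      hyc.eventually e5] with q a1 a2 a3 a4 a5
    exact ⟨a1, a2, a3, a4, a5⟩
  have heq : (fun q => D3 (fun q => L (y q)) q b c d) =ᶠ[𝓝 p]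
      fun q => L3 (y q) * D1 y q b * D1 y q c * D1 y q d
      + L2 (y q) * (D2 y q b c * D1 y q d + D2 y q b d * D1 y q c + D2 y q c d * D1 y q b)
      + L1 (y q) * D3 y q b c d := by
    filter_upwards [hDe, ev_cda hy] with q h1 h2
    exact D3_comp h1 h2 b c d
  rw [heq.fderiv_eq]
  have hyd := (hy.differentiableAt (by norm_cast)).hasFDerivAt
  have hL1 : HasFDerivAt (fun q => L1 (y q)) (L2 (y p) • fderiv ℝ y p) p :=
    hD.h2.self_of_nhds.comp_hasFDerivAt p hyd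
  have hL2 : HasFDerivAt (fun q => L2 (y q)) (L3 (y p) • fderiv ℝ y p) p :=
    hD.h3.self_of_nhds.comp_hasFDerivAt p hyd
  have hL3 : HasFDerivAt (fun q => L3 (y q)) (L4 (y p) • fderiv ℝ y p) p :=
    hD.h4.self_of_nhds.comp_hasFDerivAt p hyd
  have db := (D1_diff hy2 b).hasFDerivAt
  have dc := (D1_diff hy2 c).hasFDerivAt
  have dd := (D1_diff hy2 d).hasFDerivAt
  have dbc := (D2_diff hy3 b c).hasFDerivAt
  have dbd := (D2_diff hy3 b d).hasFDerivAt
  have dcd := (D2_diff hy3 c d).hasFDerivAt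
  have dbcd := (D3_diff hy b c d).hasFDerivAt
  have hfin : HasFDerivAt (fun q => L3 (y q) * D1 y q b * D1 y q c * D1 y q d
      + L2 (y q) * (D2 y q b c * D1 y q d + D2 y q b d * D1 y q c + D2 y q c d * D1 y q b)
      + L1 (y q) * D3 y q b c d) _ p :=
    ((((hL3.mul db).mul dc).mul dd).add
    (hL2.mul (((dbc.mul dd).add (dbd.mul dc)).add (dcd.mul db)))).add
    (hL1.mul dbcd)
  rw [hfin.fderiv]
  simp only [add_apply, smul_apply, smul_eq_mul, Pi.mul_apply, Pi.add_apply,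
    fderiv_D1 hy2, fderiv_D2 hy3, fderiv_D3 hy]
  simp only [D1]
  ring

end Calc

end Vale.Agent.P250
end
end
end

section

section

section

open Set Filter Metric Topology

/-! Several complex variables: directional derivatives of holomorphic functions are holomorphic
(copied from the P268 file of helper640). -/

namespace Vale.Agent.P250

variable {E F : Type*} [NormedAddCommGroup E] [NormedSpace ℂ E]
  [NormedAddCommGroup F] [NormedSpace ℂ F]

/-- Cauchy estimate for the Frechet derivative. -/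
theorem norm_fderiv_le_of_ball {f : E → F} {x : E} {r C : ℝ} (hr : 0 < r)
    (hf : DifferentiableOn ℂ f (ball x r)) (hC : ∀ y ∈ ball x r, ‖f y‖ ≤ C) :
    ‖fderiv ℂ f x‖ ≤ C / r := by
  have hC0 : 0 ≤ C := (norm_nonneg _).trans (hC x (mem_ball_self hr))
  have hfx : DifferentiableAt ℂ f x := hf.differentiableAt (ball_mem_nhds x hr)
  refine ContinuousLinearMap.opNorm_le_bound _ (by positivity) fun v => ?_
  rcases eq_or_ne v 0 with rfl | hv
  · simp
  have hv' : 0 < ‖v‖ := norm_pos_iff.2 hv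
  have hder : deriv (fun t : ℂ => f (x + t • v)) 0 = fderiv ℂ f x v := by
    have h1 : HasDerivAt (fun t : ℂ => x + t • v) v 0 := by
      simpa using ((hasDerivAt_id (0 : ℂ)).smul_const v).const_add x
    have h2 : HasFDerivAt f (fderiv ℂ f x) (x + (0 : ℂ) • v) := by simpa using hfx.hasFDerivAt
    exact (h2.comp_hasDerivAt (0 : ℂ) h1).deriv
  have hmem : ∀ t ∈ ball (0 : ℂ) (r / ‖v‖), x + t • v ∈ ball x r := by
    intro t ht
    rw [mem_ball_zero_iff] at ht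
    rw [mem_ball, dist_eq_norm, add_sub_cancel_left, norm_smul]
    exact (lt_div_iff₀ hv').1 ht
  have hd : DifferentiableOn ℂ (fun t : ℂ => f (x + t • v)) (ball 0 (r / ‖v‖)) := by
    refine hf.comp ?_ hmem
    fun_prop
  rw [← hder]
  have key : ∀ s : ℝ, 0 < s → s < r / ‖v‖ → ‖deriv (fun t : ℂ => f (x + t • v)) 0‖ ≤ C / s := by
    intro s hs hs'
    apply Complex.norm_deriv_le_of_forall_mem_sphere_norm_le hs
    · exact (hd.mono (closedBall_subset_ball hs')).diffContOnCl_ball (le_refl _) |>.mono (le_refl _)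
    · intro z hz
      exact hC _ (hmem z (by
        rw [mem_sphere_zero_iff_norm] at hz
        rw [mem_ball_zero_iff, hz]; exact hs'))
  have hlim : Tendsto (fun s : ℝ => C / s) (𝓝[<] (r / ‖v‖)) (𝓝 (C / (r / ‖v‖))) := by
    apply tendsto_nhdsWithin_of_tendsto_nhds
    exact tendsto_const_nhds.div tendsto_id (by positivity)
  have hev : ∀ᶠ s : ℝ in 𝓝[<] (r / ‖v‖), ‖deriv (fun t : ℂ => f (x + t • v)) 0‖ ≤ C / s := by
    have : Ioo 0 (r / ‖v‖) ∈ 𝓝[<] (r / ‖v‖) := Ioo_mem_nhdsLT (by positivity)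
    filter_upwards [this] with s hs using key s hs.1 hs.2
  have := ge_of_tendsto hlim hev
  calc _ ≤ C / (r / ‖v‖) := this
    _ = C / r * ‖v‖ := by field_simp

/-- The Frechet derivative of a holomorphic function is continuous. -/
theorem continuousOn_fderiv_of_differentiableOn [FiniteDimensional ℂ E] {f : E → F} {U : Set E}
    (hU : IsOpen U) (hf : DifferentiableOn ℂ f U) : ContinuousOn (fderiv ℂ f) U := by
  have : ProperSpace E := FiniteDimensional.proper ℂ E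
  intro x hx
  apply ContinuousAt.continuousWithinAt
  obtain ⟨r, hr, hrU⟩ : ∃ r > 0, closedBall x (2 * r) ⊆ U := by
    obtain ⟨r, hr, h⟩ := Metric.isOpen_iff.1 hU x hx
    exact ⟨r / 4, by positivity, (closedBall_subset_ball (by linarith only [hr])).trans h⟩
  have hunif : UniformContinuousOn f (closedBall x (2 * r)) :=
    (isCompact_closedBall x (2 * r)).uniformContinuousOn_of_continuous (hf.continuousOn.mono hrU)
  rw [Metric.continuousAt_iff]
  intro ε hε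
  obtain ⟨δ, hδ, hδf⟩ := Metric.uniformContinuousOn_iff.1 hunif (ε * r / 2) (by positivity)
  refine ⟨min δ r, by positivity, fun {y} hy => ?_⟩
  have hyδ : dist y x < δ := hy.trans_le (min_le_left _ _)
  have hyr : dist y x < r := hy.trans_le (min_le_right _ _)
  have hxm : ∀ h ∈ ball (0 : E) r, x + h ∈ closedBall x (2 * r) := by
    intro h hh
    rw [mem_ball_zero_iff] at hh
    rw [mem_closedBall, dist_eq_norm, add_sub_cancel_left]; linarith only [hr, hh]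
  have hym : ∀ h ∈ ball (0 : E) r, y + h ∈ closedBall x (2 * r) := by
    intro h hh
    rw [mem_ball_zero_iff] at hh
    rw [mem_closedBall, dist_eq_norm]
    calc ‖y + h - x‖ = ‖(y - x) + h‖ := by congr 1; abel
      _ ≤ ‖y - x‖ + ‖h‖ := norm_add_le _ _
      _ ≤ 2 * r := by rw [← dist_eq_norm]; linarith only [hyr, hh]
  have hdx : DifferentiableAt ℂ f x := hf.differentiableAt (hU.mem_nhds hx)
  have hyU : y ∈ U := hrU (by simpa only [mem_closedBall, add_zero] using hym 0 (mem_ball_self hr))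
  have hdy : DifferentiableAt ℂ f y := hf.differentiableAt (hU.mem_nhds hyU)
  have h1 : HasFDerivAt (fun h : E => f (y + h) - f (x + h)) (fderiv ℂ f y - fderiv ℂ f x) 0 := by
    have hy1 : HasFDerivAt (fun h : E => f (y + h)) (fderiv ℂ f y) 0 := by
      have := (show HasFDerivAt f (fderiv ℂ f y) (y + 0) by simpa using hdy.hasFDerivAt)
      have h3 := this.comp (0 : E) ((hasFDerivAt_id (0 : E)).const_add y)
      rw [ContinuousLinearMap.comp_id] at h3
      exact h3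
    have hx1 : HasFDerivAt (fun h : E => f (x + h)) (fderiv ℂ f x) 0 := by
      have := (show HasFDerivAt f (fderiv ℂ f x) (x + 0) by simpa using hdx.hasFDerivAt)
      have h3 := this.comp (0 : E) ((hasFDerivAt_id (0 : E)).const_add x)
      rw [ContinuousLinearMap.comp_id] at h3
      exact h3
    exact hy1.sub hx1
  have h2 : ‖fderiv ℂ (fun h : E => f (y + h) - f (x + h)) 0‖ ≤ (ε * r / 2) / r := by
    apply norm_fderiv_le_of_ball hr
    · apply DifferentiableOn.sub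
      · exact hf.comp (by fun_prop) fun h hh => hrU (hym h hh)
      · exact hf.comp (by fun_prop) fun h hh => hrU (hxm h hh)
    · intro h hh
      have := hδf (y + h) (hym h hh) (x + h) (hxm h hh) (by simpa using hyδ)
      rw [dist_eq_norm] at this
      exact this.le
  rw [h1.fderiv] at h2
  rw [dist_eq_norm]
  calc _ ≤ (ε * r / 2) / r := h2
    _ = ε / 2 := by (clear * - hr hε; field_simp)
    _ < ε := by linarith only [hε]

/-- Holomorphic dependence of circle integrals on parameters. -/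
theorem differentiableOn_circleIntegral [FiniteDimensional ℂ E] [CompleteSpace F]
    {G : E × ℂ → F} {U : Set E} {W : Set ℂ} {c : ℂ} {R : ℝ} (hR : 0 ≤ R)
    (hU : IsOpen U) (hW : IsOpen W) (hsW : sphere c R ⊆ W)
    (hG : DifferentiableOn ℂ G (U ×ˢ W)) :
    DifferentiableOn ℂ (fun x => ∮ t in C(c, R), G (x, t)) U := by
  have : ProperSpace E := FiniteDimensional.proper ℂ E
  intro x₀ hx₀
  apply DifferentiableAt.differentiableWithinAt
  have hUW : IsOpen (U ×ˢ W) := hU.prod hW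
  -- bound near `x₀`
  obtain ⟨r, hr, hrU⟩ : ∃ r > 0, closedBall x₀ (2 * r) ⊆ U := by
    obtain ⟨r, hr, h⟩ := Metric.isOpen_iff.1 hU x₀ hx₀
    exact ⟨r / 4, by positivity, (closedBall_subset_ball (by linarith only [hr])).trans h⟩
  have hcomp : IsCompact (closedBall x₀ (2 * r) ×ˢ sphere c R) :=
    (isCompact_closedBall _ _).prod (isCompact_sphere _ _)
  have hsub : closedBall x₀ (2 * r) ×ˢ sphere c R ⊆ U ×ˢ W := prod_mono hrU hsW
  obtain ⟨C, hC⟩ := hcomp.exists_bound_of_continuousOn (hG.continuousOn.mono hsub)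
  have hcirc : ∀ θ : ℝ, circleMap c R θ ∈ sphere c R := fun θ => circleMap_mem_sphere c hR θ
  have hdG : ∀ x ∈ ball x₀ (2 * r), ∀ t ∈ sphere c R,
      HasFDerivAt (fun x => G (x, t))
        ((fderiv ℂ G (x, t)).comp (ContinuousLinearMap.inl ℂ E ℂ)) x := by
    intro x hx t ht
    have h1 : DifferentiableAt ℂ G (x, t) :=
      hG.differentiableAt (hUW.mem_nhds ⟨hrU (ball_subset_closedBall hx), hsW ht⟩)
    have h2 : HasFDerivAt (fun x : E => (x, t)) (ContinuousLinearMap.inl ℂ E ℂ) x :=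
      hasFDerivAt_prodMk_left x t
    exact h1.hasFDerivAt.comp x h2
  have hbound : ∀ x ∈ ball x₀ r, ∀ t ∈ sphere c R,
      ‖(fderiv ℂ G (x, t)).comp (ContinuousLinearMap.inl ℂ E ℂ)‖ ≤ C / r := by
    intro x hx t ht
    have hxb : ball x r ⊆ ball x₀ (2 * r) := by
      intro y hy
      rw [mem_ball] at hx hy ⊢
      calc dist y x₀ ≤ dist y x + dist x x₀ := dist_triangle _ _ _
        _ < 2 * r := by linarith only [hx, hy]
    have hx2 : x ∈ ball x₀ (2 * r) := hxb (mem_ball_self hr)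
    rw [← (hdG x hx2 t ht).fderiv]
    apply norm_fderiv_le_of_ball hr
    · intro y hy
      exact (hdG y (hxb hy) t ht).differentiableAt.differentiableWithinAt
    · intro y hy
      exact hC (y, t) ⟨ball_subset_closedBall (hxb hy), ht⟩
  have hcontD : ContinuousOn (fderiv ℂ G) (U ×ˢ W) := continuousOn_fderiv_of_differentiableOn hUW hG
  have hcd : Continuous (deriv (circleMap c R)) := by
    have : deriv (circleMap c R) = fun θ => circleMap 0 R θ * Complex.I := by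
      ext θ; exact deriv_circleMap c R θ
    rw [this]
    exact (continuous_circleMap 0 R).mul continuous_const
  simp only [circleIntegral]
  have key := hasFDerivAt_integral_of_dominated_of_fderiv_le
    (μ := MeasureTheory.volume.restrict (Set.uIoc 0 (2 * Real.pi)))
    (F := fun (x : E) (θ : ℝ) => deriv (circleMap c R) θ • G (x, circleMap c R θ))
    (F' := fun (x : E) (θ : ℝ) => deriv (circleMap c R) θ •
      ((fderiv ℂ G (x, circleMap c R θ)).comp (ContinuousLinearMap.inl ℂ E ℂ)))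
    (x₀ := x₀) (s := ball x₀ r) (bound := fun _ => |R| * (C / r)) (𝕜 := ℂ)
    (ball_mem_nhds x₀ hr) ?_ ?_ ?_ ?_ ?_ ?_
  · have h0 : (0 : ℝ) ≤ 2 * Real.pi := by positivity
    simp only [intervalIntegral.integral_of_le h0, Set.uIoc_of_le h0] at key ⊢
    exact key.differentiableAt
  · filter_upwards [ball_mem_nhds x₀ hr] with x hx
    apply ContinuousOn.aestronglyMeasurable _ measurableSet_uIoc
    refine hcd.continuousOn.smul ?_
    · refine hG.continuousOn.comp (by (clear * -; fun_prop)) fun θ _ => ?_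
      exact ⟨hrU (ball_subset_closedBall (ball_subset_ball (by linarith only [hr]) hx)), hsW (hcirc θ)⟩
  · have hci : CircleIntegrable (fun t => G (x₀, t)) c R := by
      apply ContinuousOn.circleIntegrable hR
      refine hG.continuousOn.comp (by fun_prop) fun t ht => ?_
      exact ⟨hx₀, hsW ht⟩
    have := hci.out
    rw [intervalIntegrable_iff] at this
    exact this
  · apply ContinuousOn.aestronglyMeasurable _ measurableSet_uIoc
    refine hcd.continuousOn.smul ?_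
    · have h1 : ContinuousOn (fun θ : ℝ => fderiv ℂ G (x₀, circleMap c R θ))
          (Set.uIoc 0 (2 * Real.pi)) := by
        refine hcontD.comp (by fun_prop) fun θ _ => ?_
        exact ⟨hx₀, hsW (hcirc θ)⟩
      exact h1.clm_comp continuousOn_const
  · refine Eventually.of_forall fun θ x hx => ?_
    rw [norm_smul]
    have : ‖deriv (circleMap c R) θ‖ = |R| := by simp [deriv_circleMap]
    rw [this]
    exact mul_le_mul_of_nonneg_left (hbound x hx _ (hcirc θ)) (abs_nonneg R)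
  · rw [Set.uIoc_of_le (by positivity)]
    exact MeasureTheory.integrable_const _
  · refine Eventually.of_forall fun θ x hx => ?_
    exact (hdG x (ball_subset_ball (by linarith only [hr]) hx) _ (hcirc θ)).const_smul _

/-- Directional derivatives of holomorphic functions are holomorphic. -/
theorem differentiableOn_fderiv_apply [FiniteDimensional ℂ E] [CompleteSpace F] {f : E → F}
    {U : Set E} (hU : IsOpen U) (hf : DifferentiableOn ℂ f U) (v : E) :
    DifferentiableOn ℂ (fun x => fderiv ℂ f x v) U := by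
  have : ProperSpace E := FiniteDimensional.proper ℂ E
  intro x₀ hx₀
  apply DifferentiableAt.differentiableWithinAt
  obtain ⟨r, hr, hrU⟩ : ∃ r > 0, ball x₀ (2 * r) ⊆ U := by
    obtain ⟨r, hr, h⟩ := Metric.isOpen_iff.1 hU x₀ hx₀
    exact ⟨r / 4, by positivity, (ball_subset_ball (by linarith only [hr])).trans h⟩
  -- radius for the scalar variable
  set s : ℝ := r / (‖v‖ + 1) / 2 with hs_def
  have hv1 : 0 < ‖v‖ + 1 := by positivity
  have hs : 0 < s := by positivity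
  have hmem : ∀ x ∈ ball x₀ r, ∀ t ∈ ball (0 : ℂ) (2 * s), x + t • v ∈ ball x₀ (2 * r) := by
    intro x hx t ht
    rw [mem_ball_zero_iff] at ht
    rw [mem_ball, dist_eq_norm] at hx ⊢
    have h1 : ‖t • v‖ ≤ r := by
      rw [norm_smul]
      calc ‖t‖ * ‖v‖ ≤ (2 * s) * (‖v‖ + 1) := by gcongr; linarith only []
        _ = r := by rw [hs_def]; field_simp
    calc ‖x + t • v - x₀‖ = ‖(x - x₀) + t • v‖ := by congr 1; abel
      _ ≤ ‖x - x₀‖ + ‖t • v‖ := norm_add_le _ _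
      _ < 2 * r := by linarith only [hx, h1]
  have hG : DifferentiableOn ℂ (fun p : E × ℂ => (p.2 ^ 2)⁻¹ • f (p.1 + p.2 • v))
      (ball x₀ r ×ˢ (ball (0 : ℂ) (2 * s) \ {0})) := by
    apply DifferentiableOn.smul
    · apply DifferentiableOn.inv
      · fun_prop
      · intro p hp
        exact pow_ne_zero 2 hp.2.2
    · refine hf.comp (by fun_prop) fun p hp => hrU (hmem p.1 hp.1 p.2 hp.2.1)
  have hsW : sphere (0 : ℂ) s ⊆ ball (0 : ℂ) (2 * s) \ {0} := by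
    intro t ht
    rw [mem_sphere_zero_iff_norm] at ht
    refine ⟨by rw [mem_ball_zero_iff, ht]; linarith only [hs], fun h => ?_⟩
    rw [mem_singleton_iff] at h
    rw [h, norm_zero] at ht
    exact hs.ne ht
  have key := differentiableOn_circleIntegral (c := 0) (R := s) hs.le isOpen_ball
    (isOpen_ball.sdiff isClosed_singleton) hsW hG
  have hEq : ∀ x ∈ ball x₀ r, fderiv ℂ f x v =
      (2 * Real.pi * Complex.I : ℂ)⁻¹ • ∮ t in C(0, s), (t ^ 2)⁻¹ • f (x + t • v) := by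
    intro x hx
    have hfx : DifferentiableAt ℂ f x :=
      hf.differentiableAt (hU.mem_nhds (hrU (ball_subset_ball (by linarith only [hr]) hx)))
    have hder : deriv (fun t : ℂ => f (x + t • v)) 0 = fderiv ℂ f x v := by
      have h1 : HasDerivAt (fun t : ℂ => x + t • v) v 0 := by
        simpa using ((hasDerivAt_id (0 : ℂ)).smul_const v).const_add x
      have h2 : HasFDerivAt f (fderiv ℂ f x) (x + (0 : ℂ) • v) := by simpa using hfx.hasFDerivAt
      exact (h2.comp_hasDerivAt (0 : ℂ) h1).deriv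
    rw [← hder]
    have hd : DiffContOnCl ℂ (fun t : ℂ => f (x + t • v)) (ball 0 s) := by
      have : DifferentiableOn ℂ (fun t : ℂ => f (x + t • v)) (ball 0 (2 * s)) :=
        hf.comp (by fun_prop) fun t ht => hrU (hmem x hx t ht)
      exact (this.mono (closedBall_subset_ball (by linarith only [hs]))).diffContOnCl_ball (le_refl _)
    have h3 := hd.deriv_eq_smul_circleIntegral hs
    simp only [sub_zero, one_div] at h3
    rw [h3, inv_smul_smul₀ Complex.two_pi_I_ne_zero]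
  have h2 : DifferentiableAt ℂ (fun x => (2 * Real.pi * Complex.I : ℂ)⁻¹ •
      ∮ t in C(0, s), (t ^ 2)⁻¹ • f (x + t • v)) x₀ :=
    (key.differentiableAt (ball_mem_nhds x₀ hr)).const_smul _
  refine h2.congr_of_eventuallyEq ?_
  filter_upwards [ball_mem_nhds x₀ hr] with x hx using hEq x hx

end Vale.Agent.P250
end
end
end

section

section

section

/-! Local structure of the potential `phi`: it is locally a finite sum of smooth terms. -/

set_option maxSynthPendingDepth 3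

namespace Vale.Agent.P250.PJ

open Set Filter Topology

/-- The (k,j) term of the potential. -/
noncomputable def Tk (Ψ : ℂ → ℝ) (lam : ℝ) (k : ℕ) (j : ℤ) (q : ℂ × ℂ) : ℝ :=
  Ψ (Complex.exp (Complex.I * om (lam ^ (2 * k)) (xx lam k j) q))

lemma norm_exp_I_mul (ω : ℂ) : ‖Complex.exp (Complex.I * ω)‖ = Real.exp (-ω.im) := by
  rw [Complex.norm_exp]
  simp

lemma Tk_eq_zero {CΨ Λ : ℝ} {Ψ : ℂ → ℝ} (hΨ : IsPsi CΨ Λ Ψ) {lam : ℝ} {k : ℕ} {j : ℤ}
    {q : ℂ × ℂ} (h : 5 ≤ lam ^ (2 * k) * (rho q + (q.1.im - xx lam k j) ^ 2)) :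
    Tk Ψ lam k j q = 0 := by
  unfold Tk
  apply hΨ.zero
  rw [norm_exp_I_mul, om_im]
  exact Real.exp_le_exp.mpr (by linarith)

lemma sq_dist_center (lam : ℝ) (hlam : 2 ≤ lam) (k : ℕ) (j : ℤ) (y : ℝ) :
    lam ^ (2 * k) * (y - xx lam k j) ^ 2 = 25 * (lam ^ k * y / 5 - j) ^ 2 := by
  have h : lam ^ k ≠ 0 := by positivity
  unfold xx
  rw [pow_mul', show (y - 5 * (j : ℝ) / lam ^ k) = (lam ^ k * y - 5 * j) / lam ^ k by
    field_simp]
  rw [div_pow, mul_div_assoc']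
  field_simp
  ring

lemma Tk_eq_zero' {CΨ Λ : ℝ} {Ψ : ℂ → ℝ} (hΨ : IsPsi CΨ Λ Ψ) {lam : ℝ} (hlam : 2 ≤ lam) {k : ℕ}
    {j : ℤ} {q : ℂ × ℂ} (hq : q ∈ DD)
    (h : 5 ≤ 25 * (lam ^ k * q.1.im / 5 - j) ^ 2) :
    Tk Ψ lam k j q = 0 := by
  apply Tk_eq_zero hΨ
  rw [mul_add, sq_dist_center lam hlam]
  have h1 : 0 ≤ lam ^ (2 * k) * rho q := by
    have : 0 < rho q := hq
    positivity
  linarith

lemma continuous_rho : Continuous rho := by
  unfold rho
  fun_prop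

lemma isOpen_DD' : IsOpen DD := isOpen_lt continuous_const continuous_rho

lemma Sk_eventually {CΨ Λ : ℝ} {Ψ : ℂ → ℝ} (hΨ : IsPsi CΨ Λ Ψ) {lam : ℝ} (hlam : 2 ≤ lam)
    (k : ℕ) {p : ℂ × ℂ} (hp : p ∈ DD) :
    ∀ᶠ q in 𝓝 p, Sk Ψ lam k q = Tk Ψ lam k (jj lam k p) q := by
  have hc : Continuous (fun q : ℂ × ℂ => lam ^ k * q.1.im / 5) := by fun_prop
  have h1 : ∀ᶠ q in 𝓝 p, |lam ^ k * q.1.im / 5 - lam ^ k * p.1.im / 5| < 1 / 50 := by
    have := hc.tendsto p
    have h2 := (Metric.tendsto_nhds.mp this) (1 / 50) (by norm_num)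
    simpa only [one_div, Real.dist_eq] using h2
  filter_upwards [h1, isOpen_DD'.mem_nhds hp] with q hq hqD
  change Tk Ψ lam k (jj lam k q) q = _
  by_cases hjj : jj lam k q = jj lam k p
  · rw [hjj]
  · set u := lam ^ k * q.1.im / 5 with hu
    set v := lam ^ k * p.1.im / 5 with hv
    have hjq : jj lam k q = round u := rfl
    have hjp : jj lam k p = round v := rfl
    have a1 : |u - round u| ≤ 1 / 2 := abs_sub_round u
    have a2 : |v - round v| ≤ 1 / 2 := abs_sub_round v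
    have a3 : (1 : ℝ) ≤ |(round u : ℝ) - (round v : ℝ)| := by
      have : (round u : ℤ) ≠ round v := by
        intro h; exact hjj (by rw [hjq, hjp, h])
      have h3 : (1 : ℤ) ≤ |round u - round v| := Int.one_le_abs (sub_ne_zero.mpr this)
      exact_mod_cast h3
    have e1 : 5 ≤ 25 * (u - (jj lam k q : ℝ)) ^ 2 := by
      rw [hjq]
      have b1 : (48 / 100 : ℝ) ≤ |u - round u| := by
        have t1 : |(round u : ℝ) - (round v : ℝ)| ≤ |u - round u| + |u - v| + |v - round v| := by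
          have : (round u : ℝ) - (round v : ℝ) = -(u - round u) + (u - v) + (v - round v) := by ring
          rw [this]
          calc _ ≤ |-(u - round u) + (u - v)| + |v - round v| := abs_add_le _ _
            _ ≤ |-(u - round u)| + |u - v| + |v - round v| := by
              gcongr; exact abs_add_le _ _
            _ = _ := by rw [abs_neg]
        linarith only [hq, a2, a3, t1]
      have := mul_self_le_mul_self (by norm_num) b1
      rw [abs_mul_abs_self] at this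
      linarith only [this]
    have e2 : 5 ≤ 25 * (u - (jj lam k p : ℝ)) ^ 2 := by
      rw [hjp]
      have b1 : (48 / 100 : ℝ) ≤ |u - round v| := by
        have t1 : |(round u : ℝ) - (round v : ℝ)| ≤ |u - round u| + |u - round v| := by
          have : (round u : ℝ) - (round v : ℝ) = -(u - round u) + (u - round v) := by ring
          rw [this]
          calc _ ≤ |-(u - round u)| + |u - round v| := abs_add_le _ _
            _ = _ := by rw [abs_neg]
        linarith only [a1, a3, t1]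
      have := mul_self_le_mul_self (by norm_num) b1
      rw [abs_mul_abs_self] at this
      linarith only [this]
    rw [Tk_eq_zero' hΨ hlam hqD e1, Tk_eq_zero' hΨ hlam hqD e2]

lemma Sk_zero_eventually {CΨ Λ : ℝ} {Ψ : ℂ → ℝ} (hΨ : IsPsi CΨ Λ Ψ) {lam : ℝ} (hlam : 2 ≤ lam)
    {p : ℂ × ℂ} (hp : p ∈ DD) :
    ∃ K : ℕ, ∀ᶠ q in 𝓝 p, ∀ k ≥ K, Sk Ψ lam k q = 0 := by
  have hr : 0 < rho p := hp
  obtain ⟨K, hK⟩ := pow_unbounded_of_one_lt (10 / rho p) (show (1 : ℝ) < lam ^ 2 by nlinarith only [hlam])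
  refine ⟨K, ?_⟩
  have h1 : ∀ᶠ q in 𝓝 p, rho p / 2 < rho q :=
    continuous_rho.tendsto p |>.eventually (lt_mem_nhds (by linarith only [hr]))
  filter_upwards [h1] with q hq k hk
  change Tk Ψ lam k (jj lam k q) q = 0
  apply Tk_eq_zero hΨ
  have h2 : 10 / rho p < lam ^ (2 * k) := by
    refine lt_of_lt_of_le hK ?_
    rw [← pow_mul]
    exact pow_le_pow_right₀ (by linarith only [hlam]) (by omega)
  have h3 : 10 < lam ^ (2 * k) * rho p := by
    rwa [div_lt_iff₀ hr] at h2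
  have h4 : 0 < lam ^ (2 * k) := by positivity
  have h5 : lam ^ (2 * k) * (rho p / 2) ≤ lam ^ (2 * k) * rho q := by (clear * - hq hlam; gcongr)
  have h6 : 0 ≤ lam ^ (2 * k) * (q.1.im - xx lam k (jj lam k q)) ^ 2 := by (clear * - hlam; positivity)
  rw [mul_add]
  linarith only [h3, h5, h6]

lemma phi_eventually {CΨ Λ : ℝ} {Ψ : ℂ → ℝ} (hΨ : IsPsi CΨ Λ Ψ) {lam : ℝ} (hlam : 2 ≤ lam)
    (ε : ℝ) {p : ℂ × ℂ} (hp : p ∈ DD) :
    ∃ K : ℕ, ∀ᶠ q in 𝓝 p, phi Ψ lam ε q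
      = -ε * Real.log (rho q) + ∑ k ∈ Finset.range K, Tk Ψ lam k (jj lam k p) q := by
  obtain ⟨K, hK⟩ := Sk_zero_eventually hΨ hlam hp
  refine ⟨K, ?_⟩
  have h1 : ∀ᶠ q in 𝓝 p, ∀ k ∈ Finset.range K, Sk Ψ lam k q = Tk Ψ lam k (jj lam k p) q :=
    (Filter.eventually_all_finset _).mpr fun k _ => Sk_eventually hΨ hlam k hp
  filter_upwards [hK, h1] with q h2 h3
  unfold phi
  congr 1
  rw [tsum_eq_sum (s := Finset.range K)]
  · exact Finset.sum_congr rfl h3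
  · intro k hk
    exact h2 k (by simpa using hk)

lemma contDiff_rho {n : WithTop ℕ∞} : ContDiff ℝ n rho := by
  unfold rho
  have h1 : ContDiff ℝ n (fun q : ℂ × ℂ => q.2.im) :=
    Complex.imCLM.contDiff.comp contDiff_snd
  have h2 : ContDiff ℝ n (fun q : ℂ × ℂ => q.1.im) :=
    Complex.imCLM.contDiff.comp contDiff_fst
  exact h1.sub (h2.pow 2)

lemma contDiff_om (a x : ℝ) {n : WithTop ℕ∞} : ContDiff ℝ n (om a x) := by
  unfold om
  fun_prop

lemma contDiff_Tk {CΨ Λ : ℝ} {Ψ : ℂ → ℝ} (hΨ : IsPsi CΨ Λ Ψ) (lam : ℝ) (k : ℕ) (j : ℤ) :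
    ContDiff ℝ (⊤ : ℕ∞) (Tk Ψ lam k j) := by
  unfold Tk
  apply hΨ.smooth.comp
  have h := (contDiff_om (lam ^ (2 * k)) (xx lam k j) (n := (⊤ : ℕ∞)))
  exact (contDiff_const.mul h).cexp

theorem phi_contDiffOn (CΨ Λ : ℝ) (Ψ : ℂ → ℝ) (hΨ : IsPsi CΨ Λ Ψ) (lam ε : ℝ)
    (hlam : 2 ≤ lam) : ContDiffOn ℝ (⊤ : ℕ∞) (phi Ψ lam ε) DD := by
  intro p hp
  apply ContDiffAt.contDiffWithinAt
  obtain ⟨K, hK⟩ := phi_eventually hΨ hlam ε hp
  have hr : 0 < rho p := hp
  have h : ContDiffAt ℝ (⊤ : ℕ∞) (fun q => -ε * Real.log (rho q)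
      + ∑ k ∈ Finset.range K, Tk Ψ lam k (jj lam k p) q) p := by
    apply ContDiffAt.add
    · exact contDiffAt_const.mul ((contDiff_rho.contDiffAt).log hr.ne')
    · exact ContDiffAt.sum fun k _ => (contDiff_Tk hΨ lam k _).contDiffAt
  exact h.congr_of_eventuallyEq hK

end Vale.Agent.P250.PJ
end
end
end

section

section

section

/-! T6: rectangle bound, Schwarz-Pick, and the exclusion of functions dominated by `e^{sφ}`. -/

set_option maxSynthPendingDepth 3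

namespace Vale.Agent.P250

open Set Filter Topology

section Rect

lemma cosh_re_formula (z : ℂ) : (Complex.cosh z).re = Real.cosh z.re * Real.cos z.im := by
  conv_lhs => rw [← Complex.re_add_im z]
  rw [Complex.cosh_add, Complex.cosh_mul_I, Complex.sinh_mul_I]
  simp [← Complex.ofReal_cosh, ← Complex.ofReal_sinh, ← Complex.ofReal_cos, ← Complex.ofReal_sin]

lemma cos_one_lower : (0.534 : ℝ) ≤ Real.cos 1 := by
  have h4 : (0.9685 : ℝ) ≤ Real.cos (1 / 4) := by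
    have h := Real.cos_bound (x := 1 / 4) (by norm_num [abs_of_pos])
    rw [abs_of_pos (by norm_num : (0:ℝ) < 1 / 4)] at h
    have h2 := (abs_le.1 h).1
    norm_num at h2 ⊢
    linarith only [h2]
  have h2 : (0.8759 : ℝ) ≤ Real.cos (1 / 2) := by
    have h := Real.cos_two_mul (1 / 4)
    rw [show (2 : ℝ) * (1 / 4) = 1 / 2 by norm_num] at h
    rw [h]
    nlinarith only [h4]
  have h := Real.cos_two_mul (1 / 2)
  rw [show (2 : ℝ) * (1 / 2) = 1 by norm_num] at h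
  rw [h]
  nlinarith only [h2]

lemma cosh_two_lower : (3.76 : ℝ) ≤ Real.cosh 2 := by
  rw [Real.cosh_eq]
  have h1 := Real.exp_one_gt_d9
  have h2 := Real.exp_one_lt_d9
  have h3 : Real.exp 2 = Real.exp 1 * Real.exp 1 := by rw [← Real.exp_add]; norm_num
  have h4 : Real.exp (-2) * (Real.exp 1 * Real.exp 1) = 1 := by
    rw [← h3, ← Real.exp_add]; norm_num
  have h5 := Real.exp_pos (-2)
  have h6 : Real.exp 1 * Real.exp 1 ≤ 7.39 := by nlinarith only [h2, h1]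
  have h7 : (7.389 : ℝ) ≤ Real.exp 1 * Real.exp 1 := by nlinarith only [h1]
  have h8 : (0.135 : ℝ) ≤ Real.exp (-2) := by
    by_contra hcon
    push Not at hcon
    nlinarith only [h4, h6, hcon]
  linarith only [h3, h7, h8]

lemma two_le_cosh_two_mul_cos_one : 2 ≤ Real.cosh 2 * Real.cos 1 := by
  nlinarith [cos_one_lower, cosh_two_lower]

theorem rect_bound (f : ℂ → ℂ) (R b1 b2 A B : ℝ) (hR : 0 < R) (h1 : b1 ≤ 0) (h2 : 0 ≤ b2)
    (hb : b2 - b1 ≤ 2 * R)
    (hf : ∀ ζ : ℂ, |ζ.re| ≤ 2 * R → b1 ≤ ζ.im → ζ.im ≤ b2 → DifferentiableAt ℂ f ζ)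
    (hA : ∀ ζ : ℂ, |ζ.re| ≤ 2 * R → b1 ≤ ζ.im → ζ.im ≤ b2 → ‖f ζ‖ ≤ Real.exp A)
    (hB : ∀ ζ : ℂ, |ζ.re| ≤ 2 * R → (ζ.im = b1 ∨ ζ.im = b2) → ‖f ζ‖ ≤ Real.exp B)
    (hBA : B ≤ A) : ‖f 0‖ ≤ Real.exp ((A + B) / 2) := by
  have hBm : Real.exp B ≤ Real.exp ((A + B) / 2) := Real.exp_le_exp.2 (by linarith)
  rcases eq_or_lt_of_le h1 with h10 | h10
  · exact (hB 0 (by simp only [Complex.zero_re, abs_zero, Nat.ofNat_pos, mul_nonneg_iff_of_pos_left]; linarith only [hR]) (Or.inl (by simp [h10]))).trans hBm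
  rcases eq_or_lt_of_le h2 with h20 | h20
  · exact (hB 0 (by simp only [Complex.zero_re, abs_zero, Nat.ofNat_pos, mul_nonneg_iff_of_pos_left]; linarith only [hR]) (Or.inr (by simp [← h20]))).trans hBm
  -- the comparison function
  set m : ℝ := (b1 + b2) / 2 with hm
  set K : ℝ := Real.cosh 2 * Real.cos 1 with hK
  have hK2 : 2 ≤ K := two_le_cosh_two_mul_cos_one
  have hK0 : 0 < K := by linarith only [hK2]
  let h : ℂ → ℂ := fun ζ => Complex.cosh ((ζ - (m : ℂ) * Complex.I) / (R : ℂ)) / (K : ℂ)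
  have hre : ∀ ζ : ℂ, (h ζ).re = Real.cosh (ζ.re / R) * Real.cos ((ζ.im - m) / R) / K := by
    intro ζ
    simp only [h]
    rw [Complex.div_ofReal_re, cosh_re_formula]
    simp only [Complex.div_ofReal_re, Complex.sub_re, Complex.mul_re, Complex.ofReal_re, Complex.I_re, mul_zero, Complex.ofReal_im, Complex.I_im, mul_one, sub_self, sub_zero, Complex.div_ofReal_im, Complex.sub_im, Complex.mul_im, add_zero]
  have hcos : ∀ t : ℝ, b1 ≤ t → t ≤ b2 → Real.cos 1 ≤ Real.cos ((t - m) / R) := by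
    intro t ht1 ht2
    rw [← Real.cos_abs ((t - m) / R)]
    apply Real.cos_le_cos_of_nonneg_of_le_pi (abs_nonneg _) (by linarith only [Real.pi_gt_three])
    rw [abs_div, abs_of_pos hR, div_le_one hR, abs_le]
    constructor <;> linarith only [hb, hm, ht1, ht2]
  have hc1 : 0 < Real.cos 1 := Real.cos_one_pos
  let U : Set ℂ := Ioo (-(2 * R)) (2 * R) ×ℂ Ioo b1 b2
  have hUb : Bornology.IsBounded U :=
    (Metric.isBounded_Ioo _ _).reProdIm (Metric.isBounded_Ioo _ _)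
  have hclU : closure U = Icc (-(2 * R)) (2 * R) ×ℂ Icc b1 b2 := by
    simp only [U]
    rw [Complex.closure_reProdIm, closure_Ioo (by linarith only [hR]), closure_Ioo (by linarith only [h10, h20])]
  let F : ℂ → ℂ := fun ζ => f ζ * Complex.exp (-((A - B : ℝ) : ℂ) * h ζ)
  have hFn : ∀ ζ, ‖F ζ‖ = ‖f ζ‖ * Real.exp (-(A - B) * (h ζ).re) := by
    intro ζ
    simp only [F]
    rw [norm_mul, Complex.norm_exp]
    congr 2
    rw [← Complex.ofReal_neg, Complex.re_ofReal_mul]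
  have hFd : DiffContOnCl ℂ F U := by
    have : DifferentiableOn ℂ F (closure U) := by
      intro ζ hζ
      rw [hclU, Complex.mem_reProdIm] at hζ
      have hfd := hf ζ (abs_le.2 ⟨hζ.1.1, hζ.1.2⟩) hζ.2.1 hζ.2.2
      apply DifferentiableAt.differentiableWithinAt
      apply hfd.mul
      apply DifferentiableAt.cexp
      apply DifferentiableAt.const_mul
      simp only [h]
      apply DifferentiableAt.div_const
      apply DifferentiableAt.ccosh
      fun_prop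
    exact this.diffContOnCl
  have hfr : ∀ ζ ∈ frontier U, ‖F ζ‖ ≤ Real.exp B := by
    intro ζ hζ
    simp only [U] at hζ
    rw [Complex.frontier_reProdIm, closure_Ioo (by linarith only [hR]), closure_Ioo (by linarith only [h10, h20]),
      frontier_Ioo (by linarith only [h10, h20]), frontier_Ioo (by linarith only [hR])] at hζ
    rw [hFn]
    rcases hζ with hζ | hζ
    · rw [Complex.mem_reProdIm] at hζ
      have hxx : |ζ.re| ≤ 2 * R := abs_le.2 ⟨hζ.1.1, hζ.1.2⟩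
      have hy : ζ.im = b1 ∨ ζ.im = b2 := by simpa using hζ.2
      have hy1 : b1 ≤ ζ.im := by rcases hy with hy | hy <;> linarith only [h10, h20, hy]
      have hy2 : ζ.im ≤ b2 := by rcases hy with hy | hy <;> linarith only [h10, h20, hy]
      have hnn : 0 ≤ (h ζ).re := by
        rw [hre]
        have := hcos ζ.im hy1 hy2
        have h3 := Real.cosh_pos (ζ.re / R)
        have : 0 ≤ Real.cos ((ζ.im - m) / R) := by linarith only [hc1, this]
        (clear * - this hc1; positivity)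
      calc ‖f ζ‖ * Real.exp (-(A - B) * (h ζ).re) ≤ Real.exp B * 1 := by
            apply mul_le_mul (hB ζ hxx hy) _ (Real.exp_pos _).le (Real.exp_pos _).le
            rw [Real.exp_le_one_iff]
            nlinarith only [hBA, hnn]
        _ = Real.exp B := mul_one _
    · rw [Complex.mem_reProdIm] at hζ
      have hx : ζ.re = -(2 * R) ∨ ζ.re = 2 * R := by simpa using hζ.1
      have hxx : |ζ.re| ≤ 2 * R := by
        rcases hx with hx | hx <;> rw [hx] <;> simp [abs_of_pos hR]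
      have hch : Real.cosh (ζ.re / R) = Real.cosh 2 := by
        rcases hx with hx | hx <;> rw [hx]
        · rw [neg_div, Real.cosh_neg, mul_div_assoc, div_self hR.ne', mul_one]
        · rw [mul_div_assoc, div_self hR.ne', mul_one]
      have h1le : 1 ≤ (h ζ).re := by
        rw [hre, hch, le_div_iff₀ hK0, one_mul, hK]
        exact mul_le_mul_of_nonneg_left (hcos _ hζ.2.1 hζ.2.2) (Real.cosh_pos 2).le
      calc ‖f ζ‖ * Real.exp (-(A - B) * (h ζ).re) ≤ Real.exp A * Real.exp (-(A - B)) := by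
            apply mul_le_mul (hA ζ hxx hζ.2.1 hζ.2.2) _ (Real.exp_pos _).le (Real.exp_pos _).le
            rw [Real.exp_le_exp]
            nlinarith only [hBA, h1le]
        _ = Real.exp B := by rw [← Real.exp_add]; congr 1; ring
  have h0 : (0 : ℂ) ∈ closure U := by
    rw [hclU, Complex.mem_reProdIm]
    refine ⟨⟨?_, ?_⟩, ⟨?_, ?_⟩⟩ <;> simp <;> linarith only [h10, h20, hR]
  have hmain := Complex.norm_le_of_forall_mem_frontier_norm_le hUb hFd hfr h0
  rw [hFn] at hmain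
  have hh0 : (h 0).re ≤ 1 / 2 := by
    rw [hre]
    simp only [Complex.zero_re, zero_div, Real.cosh_zero, one_mul, Complex.zero_im]
    rw [div_le_iff₀ hK0]
    have := Real.cos_le_one ((0 - m) / R)
    linarith only [hK2, this]
  have hfin : ‖f 0‖ ≤ Real.exp B * Real.exp ((A - B) * (h 0).re) := by
    have : ‖f 0‖ = (‖f 0‖ * Real.exp (-(A - B) * (h 0).re)) * Real.exp ((A - B) * (h 0).re) := by
      rw [mul_assoc, ← Real.exp_add, neg_mul, neg_add_cancel, Real.exp_zero, mul_one]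
    rw [this]
    exact mul_le_mul_of_nonneg_right hmain (Real.exp_pos _).le
  calc ‖f 0‖ ≤ Real.exp B * Real.exp ((A - B) * (h 0).re) := hfin
    _ = Real.exp (B + (A - B) * (h 0).re) := by rw [← Real.exp_add]
    _ ≤ Real.exp ((A + B) / 2) := by
        rw [Real.exp_le_exp]
        nlinarith only [hBA, hh0]

end Rect

section Schwarz

lemma schwarz_pick_center {g : ℂ → ℂ} {c : ℂ} {R : ℝ}
    (hg : DifferentiableOn ℂ g (Metric.ball c R)) (hb : ∀ t ∈ Metric.ball c R, ‖g t‖ < 1)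
    {z : ℂ} (hz : z ∈ Metric.ball c R) :
    ‖g z - g c‖ ≤ ‖z - c‖ / R * ‖1 - starRingEnd ℂ (g c) * g z‖ := by
  have hR : 0 < R := Metric.nonempty_ball.1 ⟨z, hz⟩
  have hc : c ∈ Metric.ball c R := Metric.mem_ball_self hR
  have hne : ∀ t ∈ Metric.ball c R, 1 - starRingEnd ℂ (g c) * g t ≠ 0 := by
    intro t ht h
    have h1 : starRingEnd ℂ (g c) * g t = 1 := (sub_eq_zero.1 h).symm
    have h2 : ‖starRingEnd ℂ (g c) * g t‖ = 1 := by rw [h1]; simp
    rw [norm_mul, RCLike.norm_conj] at h2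
    have h3 := hb c hc
    have h4 := hb t ht
    have h5 := norm_nonneg (g c)
    have h6 := norm_nonneg (g t)
    nlinarith only [h2, h4, h3, h6]
  have key : ∀ t ∈ Metric.ball c R, ‖g t - g c‖ ≤ ‖1 - starRingEnd ℂ (g c) * g t‖ := by
    intro t ht
    rw [← sq_le_sq₀ (norm_nonneg _) (norm_nonneg _)]
    rw [← Complex.normSq_eq_norm_sq, ← Complex.normSq_eq_norm_sq]
    have h3 : Complex.normSq (g c) < 1 := by
      rw [Complex.normSq_eq_norm_sq]
      have := hb c hc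
      have h5 := norm_nonneg (g c)
      nlinarith only [this, h5]
    have h4 : Complex.normSq (g t) < 1 := by
      rw [Complex.normSq_eq_norm_sq]
      have := hb t ht
      have h5 := norm_nonneg (g t)
      nlinarith only [this, h5]
    simp only [Complex.normSq_apply] at *
    simp only [Complex.sub_re, Complex.sub_im, Complex.mul_re, Complex.mul_im, Complex.conj_re,
      Complex.conj_im, Complex.one_re, Complex.one_im]
    nlinarith
  let F : ℂ → ℂ := fun t => (g t - g c) / (1 - starRingEnd ℂ (g c) * g t)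
  have hF0 : F c = 0 := by simp [F]
  have hFd : DifferentiableOn ℂ F (Metric.ball c R) := by
    apply DifferentiableOn.div
    · exact hg.sub_const _
    · exact (hg.const_mul _).const_sub _
    · exact hne
  have hmaps : MapsTo F (Metric.ball c R) (Metric.closedBall (F c) 1) := by
    intro t ht
    rw [hF0, mem_closedBall_zero_iff]
    simp only [F]
    rw [norm_div]
    exact div_le_one_of_le₀ (key t ht) (norm_nonneg _)
  have h := Complex.dist_le_div_mul_dist_of_mapsTo_ball hFd hmaps hz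
  rw [hF0, dist_zero_right, dist_eq_norm] at h
  simp only [F] at h
  rw [norm_div, div_le_iff₀ (norm_pos_iff.2 (hne z hz))] at h
  calc ‖g z - g c‖ ≤ 1 / R * ‖z - c‖ * ‖1 - starRingEnd ℂ (g c) * g z‖ := h
    _ = _ := by ring

/-- Schwarz-Pick in terms of moduli. -/
lemma abs_norm_sub_le {a z : ℂ} {r : ℝ} (hr0 : 0 ≤ r) (hr : r ≤ 1)
    (ha : ‖a‖ < 1) (hz : ‖z‖ < 1)
    (h : ‖z - a‖ ≤ r * ‖1 - starRingEnd ℂ a * z‖) :
    |‖z‖ - ‖a‖| ≤ r * (1 - ‖a‖ * ‖z‖) := by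
  have h0 : 0 ≤ 1 - ‖a‖ * ‖z‖ := by nlinarith only [hz, ha, norm_nonneg z]
  apply abs_le_of_sq_le_sq _ (mul_nonneg hr0 h0)
  have h1 : ‖z - a‖ ^ 2 ≤ r ^ 2 * ‖1 - starRingEnd ℂ a * z‖ ^ 2 := by
    rw [← mul_pow]
    exact pow_le_pow_left₀ (norm_nonneg _) h 2
  have h2 : ‖z - a‖ ^ 2 = ‖z‖ ^ 2 + ‖a‖ ^ 2 - 2 * (starRingEnd ℂ a * z).re := by
    rw [← Complex.normSq_eq_norm_sq, ← Complex.normSq_eq_norm_sq, ← Complex.normSq_eq_norm_sq]
    simp only [Complex.normSq_apply, Complex.sub_re, Complex.sub_im, Complex.mul_re,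
      Complex.conj_re, Complex.conj_im]
    ring
  have h3 : ‖1 - starRingEnd ℂ a * z‖ ^ 2 = 1 + ‖a‖ ^ 2 * ‖z‖ ^ 2 -
      2 * (starRingEnd ℂ a * z).re := by
    rw [← Complex.normSq_eq_norm_sq, ← Complex.normSq_eq_norm_sq, ← Complex.normSq_eq_norm_sq]
    simp only [Complex.normSq_apply, Complex.sub_re, Complex.sub_im, Complex.mul_re,
      Complex.mul_im, Complex.conj_re, Complex.conj_im, Complex.one_re, Complex.one_im]
    ring
  have h4 : (starRingEnd ℂ a * z).re ≤ ‖a‖ * ‖z‖ := by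
    calc (starRingEnd ℂ a * z).re ≤ ‖starRingEnd ℂ a * z‖ := Complex.re_le_norm _
      _ = ‖a‖ * ‖z‖ := by rw [norm_mul, RCLike.norm_conj]
  rw [h2, h3] at h1
  have h5 : 0 ≤ 1 - r ^ 2 := by nlinarith only [hr, hr0]
  linarith only [h1, mul_le_mul_of_nonneg_left h4 h5]

lemma sp_step {a z : ℝ} (ha0 : 0 ≤ a) (ha : a < 1) (hz0 : 0 ≤ z) (hz : z < 1)
    (h : |z - a| ≤ 5 / 6 * (1 - a * z)) : 1 - z ≤ 11 * (1 - a) ∧ 1 - a ≤ 11 * (1 - z) := by
  rw [abs_le] at h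
  constructor
  · by_contra hcon
    push Not at hcon
    nlinarith only [hcon, h, ha]
  · by_contra hcon
    push Not at hcon
    nlinarith only [h, hcon, mul_nonneg ha0 hz0]

theorem schwarz_pick_two (g : ℂ → ℂ) (hg : DifferentiableOn ℂ g (Metric.ball (1 / 2 : ℂ) (3 / 5)))
    (hb : ∀ t ∈ Metric.ball (1 / 2 : ℂ) (3 / 5), ‖g t‖ ≤ 1) :
    1 - ‖g 0‖ ≤ 121 * (1 - ‖g 1‖) := by
  have hm0 : (0 : ℂ) ∈ Metric.ball (1 / 2 : ℂ) (3 / 5) := by
    rw [Metric.mem_ball, dist_eq_norm]; norm_num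
  have hm1 : (1 : ℂ) ∈ Metric.ball (1 / 2 : ℂ) (3 / 5) := by
    rw [Metric.mem_ball, dist_eq_norm]; norm_num
  have hmc : (1 / 2 : ℂ) ∈ Metric.ball (1 / 2 : ℂ) (3 / 5) := Metric.mem_ball_self (by norm_num)
  have hs : ∀ s : ℝ, 0 < s → s < 1 → 1 - s * ‖g 0‖ ≤ 121 * (1 - s * ‖g 1‖) := by
    intro s hs0 hs1
    let G : ℂ → ℂ := fun t => (s : ℂ) * g t
    have hG : ∀ t, ‖G t‖ = s * ‖g t‖ := by
      intro t
      simp only [G]
      rw [norm_mul, Complex.norm_real, Real.norm_of_nonneg hs0.le]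
    have hGd : DifferentiableOn ℂ G (Metric.ball (1 / 2 : ℂ) (3 / 5)) := hg.const_mul _
    have hGb : ∀ t ∈ Metric.ball (1 / 2 : ℂ) (3 / 5), ‖G t‖ < 1 := by
      intro t ht
      rw [hG]
      have := hb t ht
      nlinarith [norm_nonneg (g t)]
    have e0 := schwarz_pick_center hGd hGb hm0
    have e1 := schwarz_pick_center hGd hGb hm1
    have n0 : ‖(0 : ℂ) - 1 / 2‖ / (3 / 5) = 5 / 6 := by norm_num
    have n1 : ‖(1 : ℂ) - 1 / 2‖ / (3 / 5) = 5 / 6 := by norm_num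
    rw [n0] at e0
    rw [n1] at e1
    have f0 := abs_norm_sub_le (by norm_num) (by norm_num) (hGb _ hmc) (hGb _ hm0) e0
    have f1 := abs_norm_sub_le (by norm_num) (by norm_num) (hGb _ hmc) (hGb _ hm1) e1
    have g0 := sp_step (norm_nonneg _) (hGb _ hmc) (norm_nonneg _) (hGb _ hm0) f0
    have g1 := sp_step (norm_nonneg _) (hGb _ hmc) (norm_nonneg _) (hGb _ hm1) f1
    rw [← hG, ← hG]
    linarith only [g0, g1]
  by_contra hcon
  push Not at hcon
  set a := ‖g 0‖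
  set b := ‖g 1‖
  have hpos : 120 < 121 * b - a := by linarith only [hcon]
  have hq := hs ((120 / (121 * b - a) + 1) / 2) (by (clear * - hpos; positivity)) (by
    have : 120 / (121 * b - a) < 1 := by rw [div_lt_one (by linarith only [hcon])]; linarith
    linarith only [this])
  have hd : 120 / (121 * b - a) * (121 * b - a) = 120 := by
    (clear * - hpos; field_simp)
  linarith

end Schwarz

section NoFun

lemma continuous_rho_aux : Continuous rho := by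
  unfold rho
  fun_prop

lemma isOpen_DD_aux : IsOpen DD := isOpen_lt continuous_const continuous_rho_aux

lemma convex_DD_aux : Convex ℝ DD := by
  intro p hp q hq a b ha hb hab
  simp only [DD, mem_ofPred_eq, rho] at hp hq ⊢
  simp only [Prod.fst_add, Prod.snd_add, Prod.smul_fst, Prod.smul_snd, Complex.add_im,
    Complex.real_smul, Complex.im_ofReal_mul]
  rcases eq_or_lt_of_le ha with ha0 | ha0
  · have hb1 : b = 1 := by linarith only [hab, ha0]
    subst hb1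
    rw [← ha0]
    simpa using hq
  · nlinarith only [hab, mul_nonneg ha hb, sq_nonneg (p.1.im - q.1.im), mul_pos ha0 hp, mul_nonneg hb hq.le]

lemma DD_im_pos {q : ℂ × ℂ} (hq : q ∈ DD) : 0 < q.2.im := by
  have h : 0 < q.2.im - q.1.im ^ 2 := hq
  linarith [sq_nonneg q.1.im]

/-- a holomorphic function on `DD` vanishing where `Im w < y0` is zero -/
lemma eq_zero_of_low {f : ℂ × ℂ → ℂ} (hf : DifferentiableOn ℂ f DD) {y0 : ℝ} (hy : 0 < y0)
    (h0 : ∀ q ∈ DD, q.2.im < y0 → f q = 0) : ∀ q ∈ DD, f q = 0 := by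
  intro q hq
  set q1 : ℂ × ℂ := (0, ((y0 / 2 : ℝ) : ℂ) * Complex.I) with hq1
  have hq1D : q1 ∈ DD := by
    simp [DD, rho, q1, hy]
  have hq1y : q1.2.im < y0 := by simp only [Complex.ofReal_div, Complex.ofReal_ofNat, Complex.mul_im, Complex.div_ofNat_re, Complex.ofReal_re, Complex.I_im, mul_one, Complex.div_ofNat_im, Complex.ofReal_im, zero_div, Complex.I_re, mul_zero, add_zero, half_lt_self_iff, q1]; linarith
  let ℓ : ℂ → ℂ × ℂ := fun ζ => q1 + ζ • (q - q1)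
  have hℓc : Continuous ℓ := by simp only [ℓ]; fun_prop
  have hℓd : Differentiable ℂ ℓ := by simp only [ℓ]; fun_prop
  let U : Set ℂ := ℓ ⁻¹' DD
  have hUo : IsOpen U := isOpen_DD_aux.preimage hℓc
  have hUc : Convex ℝ U := by
    intro u hu v hv a b ha hb hab
    have h := convex_DD_aux hu hv ha hb hab
    have e : a • ℓ u + b • ℓ v = ℓ (a • u + b • v) := by
      simp only [ℓ, smul_add, add_smul, smul_assoc]
      calc a • q1 + a • u • (q - q1) + (b • q1 + b • v • (q - q1)) =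
          (a + b) • q1 + (a • u • (q - q1) + b • v • (q - q1)) := by rw [add_smul]; abel
        _ = _ := by rw [hab, one_smul]
    change ℓ (a • u + b • v) ∈ DD
    rw [← e]
    exact h
  have hU0 : (0 : ℂ) ∈ U := by change ℓ 0 ∈ DD; simp [ℓ]; exact hq1D
  have hU1 : (1 : ℂ) ∈ U := by change ℓ 1 ∈ DD; simp [ℓ]; exact hq
  have hd : DifferentiableOn ℂ (f ∘ ℓ) U :=
    hf.comp hℓd.differentiableOn (fun ζ hζ => hζ)
  have han : AnalyticOnNhd ℂ (f ∘ ℓ) U := hd.analyticOnNhd hUo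
  have hev : (f ∘ ℓ) =ᶠ[𝓝 0] 0 := by
    have h1 : ∀ᶠ ζ in 𝓝 (0 : ℂ), ζ ∈ U := hUo.mem_nhds hU0
    have h2 : ∀ᶠ ζ in 𝓝 (0 : ℂ), (ℓ ζ).2.im < y0 := by
      have hc : Continuous fun ζ => (ℓ ζ).2.im := by fun_prop
      have h3 : (ℓ 0).2.im < y0 := by
        have : ℓ 0 = q1 := by simp [ℓ]
        rw [this]; exact hq1y
      exact hc.continuousAt.eventually (gt_mem_nhds h3)
    filter_upwards [h1, h2] with ζ h1 h2
    exact h0 _ h1 h2
  have h := han.eqOn_zero_of_preconnected_of_eventuallyEq_zero hUc.isPreconnected hU0 hev hU1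
  have e1 : ℓ 1 = q := by simp [ℓ]
  simpa [e1] using h

lemma exists_damping {C m0 s y0 y1 : ℝ} (hC : 0 < C) (hm0 : 0 < m0) (hy : y1 < y0) :
    ∃ d : ℝ, 0 ≤ d ∧ C * Real.exp (-(d * y0)) < Real.exp (-s) * (m0 * Real.exp (-(d * y1))) := by
  have hdiff : 0 < y0 - y1 := by linarith
  have hpos : 0 < Real.exp (-s) * m0 / C := by (clear * - hm0 hC; positivity)
  refine ⟨max 0 ((-Real.log (Real.exp (-s) * m0 / C) + 1) / (y0 - y1)), le_max_left _ _, ?_⟩
  set d := max 0 ((-Real.log (Real.exp (-s) * m0 / C) + 1) / (y0 - y1)) with hdd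
  have h1 : (-Real.log (Real.exp (-s) * m0 / C) + 1) / (y0 - y1) ≤ d := le_max_right _ _
  rw [div_le_iff₀ hdiff] at h1
  have h2 : Real.exp (-(d * (y0 - y1))) < Real.exp (-s) * m0 / C := by
    rw [← Real.exp_log hpos]
    apply Real.exp_lt_exp.2
    linarith only [h1]
  rw [lt_div_iff₀ hC] at h2
  have e : Real.exp (-(d * y0)) =
      Real.exp (-(d * (y0 - y1))) * Real.exp (-(d * y1)) := by
    rw [← Real.exp_add]; congr 1; ring
  calc C * Real.exp (-(d * y0)) =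
        (Real.exp (-(d * (y0 - y1))) * C) * Real.exp (-(d * y1)) := by
        rw [e]; ring
    _ < (Real.exp (-s) * m0) * Real.exp (-(d * y1)) :=
        mul_lt_mul_of_pos_right h2 (Real.exp_pos _)
    _ = _ := by ring

/-- normalisation near a point where `|f| e^{-sφ}` is almost maximal -/
lemma exists_normalised {φ : ℂ × ℂ → ℝ} {s y0 C : ℝ} (hs : 0 < s) {f : ℂ × ℂ → ℂ}
    (hf : DifferentiableOn ℂ f DD) (hC : ∀ q ∈ DD, ‖f q‖ ≤ C * Real.exp (s * φ q))
    {z1 : ℂ × ℂ} (hz1 : z1 ∈ DD) (hz1y : z1.2.im < y0) (hz1f : f z1 ≠ 0) :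
    ∃ F : ℂ × ℂ → ℂ, DifferentiableOn ℂ F DD ∧ (∀ q ∈ DD, ‖F q‖ ≤ Real.exp (s * φ q)) ∧
      ∃ p ∈ DD, p.2.im ≤ y0 ∧ Real.exp (s * φ p - s) < ‖F p‖ := by
  have hCpos : 0 < C := by
    have := hC z1 hz1
    have h2 : 0 < ‖f z1‖ := norm_pos_iff.2 hz1f
    by_contra h
    push Not at h
    have := mul_nonpos_of_nonpos_of_nonneg h (Real.exp_pos (s * φ z1)).le
    linarith
  set m0 : ℝ := ‖f z1‖ * Real.exp (-(s * φ z1)) with hm0
  have hm0pos : 0 < m0 := mul_pos (norm_pos_iff.2 hz1f) (Real.exp_pos _)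
  obtain ⟨d, hd0, hd⟩ := exists_damping (s := s) hCpos hm0pos hz1y
  let fd : ℂ × ℂ → ℂ := fun q => f q * Complex.exp (Complex.I * (d : ℂ) * q.2)
  have hfdn : ∀ q, ‖fd q‖ = ‖f q‖ * Real.exp (-(d * q.2.im)) := by
    intro q
    simp only [fd]
    rw [norm_mul, Complex.norm_exp]
    congr 2
    simp [mul_assoc]
  let ratio : ℂ × ℂ → ℝ := fun q => ‖fd q‖ * Real.exp (-(s * φ q))
  have hratio : ∀ q ∈ DD, ratio q ≤ C * Real.exp (-(d * q.2.im)) := by
    intro q hq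
    simp only [ratio]
    rw [hfdn]
    have h1 : ‖f q‖ * Real.exp (-(s * φ q)) ≤ C := by
      have h2 := mul_le_mul_of_nonneg_right (hC q hq) (Real.exp_pos (-(s * φ q))).le
      rw [mul_assoc, ← Real.exp_add] at h2
      simpa only [ge_iff_le, add_neg_cancel, Real.exp_zero, mul_one] using h2
    calc ‖f q‖ * Real.exp (-(d * q.2.im)) * Real.exp (-(s * φ q)) =
          (‖f q‖ * Real.exp (-(s * φ q))) * Real.exp (-(d * q.2.im)) := by ring
      _ ≤ _ := mul_le_mul_of_nonneg_right h1 (Real.exp_pos _).le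
  have hratio1 : ∀ q ∈ DD, ratio q ≤ C := by
    intro q hq
    refine (hratio q hq).trans ?_
    have : Real.exp (-(d * q.2.im)) ≤ 1 := by
      rw [Real.exp_le_one_iff]
      have := mul_nonneg hd0 (DD_im_pos hq).le
      linarith only [this]
    nlinarith only [hCpos, this]
  let S : ℝ := sSup (ratio '' DD)
  have hbdd : BddAbove (ratio '' DD) := by
    refine ⟨C, ?_⟩
    rintro _ ⟨q, hq, rfl⟩
    exact hratio1 q hq
  have hne : (ratio '' DD).Nonempty := ⟨_, z1, hz1, rfl⟩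
  have hSz1 : ratio z1 ≤ S := le_csSup hbdd ⟨z1, hz1, rfl⟩
  have hrz1 : ratio z1 = m0 * Real.exp (-(d * z1.2.im)) := by
    simp only [ratio]
    rw [hfdn, hm0]
    ring
  have hSpos : 0 < S := lt_of_lt_of_le (by rw [hrz1]; positivity) hSz1
  have hes : Real.exp (-s) < 1 := by rw [Real.exp_lt_one_iff]; linarith
  obtain ⟨_, ⟨p, hp, rfl⟩, hpS⟩ := exists_lt_of_lt_csSup hne
    (show Real.exp (-s) * S < S by nlinarith only [hSpos, hes])
  have hpy : p.2.im ≤ y0 := by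
    by_contra hcon
    push Not at hcon
    have h1 := hratio p hp
    have h2 : Real.exp (-(d * p.2.im)) ≤ Real.exp (-(d * y0)) := by
      rw [Real.exp_le_exp]
      nlinarith only [hd0, hcon]
    have h3 : C * Real.exp (-(d * p.2.im)) ≤ C * Real.exp (-(d * y0)) :=
      mul_le_mul_of_nonneg_left h2 hCpos.le
    have h4 : Real.exp (-s) * (m0 * Real.exp (-(d * z1.2.im))) ≤ Real.exp (-s) * S := by
      rw [← hrz1]
      exact mul_le_mul_of_nonneg_left hSz1 (Real.exp_pos _).le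
    linarith only [hd, hpS, h1, h3, h4]
  have hrn : ∀ q, ‖fd q‖ = ratio q * Real.exp (s * φ q) := by
    intro q
    simp only [ratio]
    rw [mul_assoc, ← Real.exp_add]
    simp
  have hFn : ∀ q, ‖fd q / (S : ℂ)‖ = ‖fd q‖ / S := by
    intro q
    rw [norm_div, Complex.norm_real, Real.norm_of_nonneg hSpos.le]
  have hfdd : DifferentiableOn ℂ fd DD := by
    apply hf.mul
    apply Differentiable.differentiableOn
    fun_prop
  refine ⟨fun q => fd q / (S : ℂ), ?_, ?_, p, hp, hpy, ?_⟩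
  · simp only [div_eq_mul_inv]
    exact hfdd.mul_const _
  · intro q hq
    rw [hFn, div_le_iff₀ hSpos]
    have h1 : ratio q ≤ S := le_csSup hbdd ⟨q, hq, rfl⟩
    rw [hrn, mul_comm (Real.exp (s * φ q)) S]
    exact mul_le_mul_of_nonneg_right h1 (Real.exp_pos _).le
  · rw [hFn, lt_div_iff₀ hSpos, hrn, Real.exp_sub]
    have h3 : Real.exp (s * φ p) / Real.exp s * S = (Real.exp (-s) * S) * Real.exp (s * φ p) := by
      rw [Real.exp_neg]; (clear * - hSpos; field_simp)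
    rw [h3]
    exact mul_lt_mul_of_pos_right hpS (Real.exp_pos _)

lemma differentiableAt_line {F : ℂ × ℂ → ℂ} (hF : DifferentiableOn ℂ F DD) (c v : ℂ × ℂ) (t : ℂ)
    (ht : c + t • v ∈ DD) : DifferentiableAt ℂ (fun t : ℂ => F (c + t • v)) t := by
  have h1 : DifferentiableAt ℂ F (c + t • v) := (hF _ ht).differentiableAt
    (isOpen_DD_aux.mem_nhds ht)
  have h2 : DifferentiableAt ℂ (fun t : ℂ => c + t • v) t := by fun_prop
  exact DifferentiableAt.comp t h1 h2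

/-- numerical contradiction -/
lemma final_num {s c1 c2 Λ a b : ℝ} (hs : 0 < s) (hc1 : 0 ≤ c1) (hc2 : 0 ≤ c2)
    (hΛ : 1000 * (c1 + c2 + 1) ≤ Λ) (hsΛ : s * (Λ + c2) < 1)
    (h : 1 - a ≤ 121 * (1 - b)) (ha : a ≤ Real.exp (-(s * (Λ + c2))))
    (hb : Real.exp (-(s * (2 * c1 + c2 + 3))) ≤ b) : False := by
  set u := s * (Λ + c2) with hu
  have hu0 : 0 < u := by
    apply mul_pos hs; linarith only [hc1, hc2, hΛ]
  have h1 : Real.exp (-u) ≤ 1 - u / 2 := by
    have h3 := Real.add_one_le_exp u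
    have h4 : Real.exp (-u) * Real.exp u = 1 := by rw [← Real.exp_add]; simp
    have h5 := Real.exp_pos (-u)
    have h6 : Real.exp (-u) * (u + 1) ≤ 1 :=
      (mul_le_mul_of_nonneg_left h3 h5.le).trans h4.le
    by_contra hcon
    push Not at hcon
    nlinarith only [h6, hcon, hsΛ, hu0]
  have h2 : 1 - s * (2 * c1 + c2 + 3) ≤ Real.exp (-(s * (2 * c1 + c2 + 3))) := by
    have := Real.add_one_le_exp (-(s * (2 * c1 + c2 + 3)))
    linarith only [this]
  have h3 : u / 2 ≤ 121 * (s * (2 * c1 + c2 + 3)) := by linarith only [h, hb, ha, h1, h2]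
  have h4 : s * (1000 * (c1 + c2 + 1)) ≤ s * Λ := mul_le_mul_of_nonneg_left hΛ hs.le
  have h5 : 0 ≤ s * c1 := mul_nonneg hs.le hc1
  have h6 : 0 ≤ s * c2 := mul_nonneg hs.le hc2
  linarith only [hs, h, hb, ha, h1, h2, h4, h5, h6]

/-- the two-step argument at the almost maximal point -/
lemma false_of_star {φ : ℂ × ℂ → ℝ} {y0 c1 c2 Λ : ℝ}
    (hc1 : 0 ≤ c1) (hc2 : 0 ≤ c2) (hΛ : 1000 * (c1 + c2 + 1) ≤ Λ)
    (hS : Star φ y0 c1 c2 Λ) {s : ℝ} (hs : 0 < s) (hsΛ : s * (Λ + c2) < 1)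
    {F : ℂ × ℂ → ℂ} (hFd : DifferentiableOn ℂ F DD)
    (hFu : ∀ q ∈ DD, ‖F q‖ ≤ Real.exp (s * φ q)) {p : ℂ × ℂ} (hp : p ∈ DD)
    (hpy : p.2.im ≤ y0) (hFp : Real.exp (s * φ p - s) < ‖F p‖) : False := by
  obtain ⟨x0, R, b1, b2, hR, hb1, hb2, hbR, hrect, hedge⟩ := hS p hp hpy
  obtain ⟨ζ, hζ1, hζ2, hζ3⟩ : ∃ ζ : ℂ, |ζ.re| ≤ 2 * R ∧ (ζ.im = b1 ∨ ζ.im = b2) ∧
      Real.exp (s * (φ p - c1 - 3)) < ‖F (p + ζ • ((1 : ℂ), (2 * x0 : ℂ)))‖ := by
    by_contra hcon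
    push Not at hcon
    have h := rect_bound (fun ζ => F (p + ζ • ((1 : ℂ), (2 * x0 : ℂ)))) R b1 b2
      (s * (φ p + c1)) (s * (φ p - c1 - 3)) hR hb1 hb2 hbR
      (fun ζ h1 h2 h3 => differentiableAt_line hFd _ _ _ (hrect ζ h1 h2 h3).1)
      (fun ζ h1 h2 h3 => (hFu _ (hrect ζ h1 h2 h3).1).trans (Real.exp_le_exp.2
        (mul_le_mul_of_nonneg_left (hrect ζ h1 h2 h3).2 hs.le)))
      (fun ζ h1 h2 => hcon ζ h1 h2)
      (mul_le_mul_of_nonneg_left (by linarith only [hc1]) hs.le)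
    simp only [zero_smul, add_zero] at h
    have h2 := lt_of_lt_of_le hFp h
    rw [Real.exp_lt_exp] at h2
    linarith only [hs, h2]
  have hζD := hrect ζ hζ1 (by rcases hζ2 with h | h <;> linarith)
    (by rcases hζ2 with h | h <;> linarith)
  obtain ⟨p3, hp3, hp3φ, hdisc⟩ := hedge ζ hζ1 hζ2
  generalize p + ζ • ((1 : ℂ), (2 * x0 : ℂ)) = p2 at *
  let g : ℂ → ℂ := fun t => F (p3 + t • (p2 - p3)) * ((Real.exp (-(s * (φ p2 + c2))) : ℝ) : ℂ)
  have hgn : ∀ t, ‖g t‖ = ‖F (p3 + t • (p2 - p3))‖ * Real.exp (-(s * (φ p2 + c2))) := by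
    intro t
    simp only [g]
    rw [norm_mul, Complex.norm_real, Real.norm_of_nonneg (Real.exp_pos _).le]
  have hg := schwarz_pick_two g
    (fun t ht => ((differentiableAt_line hFd _ _ _ (hdisc t ht).1).mul_const
      _).differentiableWithinAt)
    (fun t ht => by
      rw [hgn]
      have h1 := hFu _ (hdisc t ht).1
      have h2 : Real.exp (s * φ (p3 + t • (p2 - p3))) ≤ Real.exp (s * (φ p2 + c2)) :=
        Real.exp_le_exp.2 (mul_le_mul_of_nonneg_left (hdisc t ht).2 hs.le)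
      calc _ ≤ Real.exp (s * (φ p2 + c2)) * Real.exp (-(s * (φ p2 + c2))) :=
            mul_le_mul_of_nonneg_right (h1.trans h2) (Real.exp_pos _).le
        _ = 1 := by rw [← Real.exp_add]; simp)
  have hg0 : ‖g 0‖ ≤ Real.exp (-(s * (Λ + c2))) := by
    rw [hgn]
    simp only [zero_smul, add_zero]
    calc _ ≤ Real.exp (s * φ p3) * Real.exp (-(s * (φ p2 + c2))) :=
          mul_le_mul_of_nonneg_right (hFu p3 hp3) (Real.exp_pos _).le
      _ = Real.exp (s * φ p3 + -(s * (φ p2 + c2))) := by rw [← Real.exp_add]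
      _ ≤ _ := by
          rw [Real.exp_le_exp]
          nlinarith only [hs, hp3φ]
  have hg1 : Real.exp (-(s * (2 * c1 + c2 + 3))) ≤ ‖g 1‖ := by
    rw [hgn]
    have e : p3 + (1 : ℂ) • (p2 - p3) = p2 := by simp
    rw [e]
    calc Real.exp (-(s * (2 * c1 + c2 + 3))) ≤
          Real.exp (s * (φ p - c1 - 3) + -(s * (φ p2 + c2))) := by
          rw [Real.exp_le_exp]
          nlinarith only [hs, hζD]
      _ = Real.exp (s * (φ p - c1 - 3)) * Real.exp (-(s * (φ p2 + c2))) := by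
          rw [← Real.exp_add]
      _ ≤ _ := mul_le_mul_of_nonneg_right hζ3.le (Real.exp_pos _).le
  exact final_num hs hc1 hc2 hΛ hsΛ hg hg0 hg1

theorem noFunction_of_star (φ : ℂ × ℂ → ℝ) (y0 c1 c2 Λ : ℝ) (hφ : ContinuousOn φ DD)
    (hy : 0 < y0) (hc1 : 0 ≤ c1) (hc2 : 0 ≤ c2) (hΛ : 1000 * (c1 + c2 + 1) ≤ Λ)
    (hS : Star φ y0 c1 c2 Λ) : ∃ s0 > 0, ∀ s, 0 < s → s < s0 → NoFunction (fun q => s * φ q) := by
  have hΛ0 : 0 < Λ + c2 + 1 := by linarith
  refine ⟨1 / (Λ + c2 + 1), by (clear * - hΛ0; positivity), ?_⟩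
  intro s hs hs0 f hf hC
  have hsΛ : s * (Λ + c2) < 1 := by
    rw [lt_div_iff₀ hΛ0] at hs0
    linarith only [hs, hs0]
  apply eq_zero_of_low hf hy
  by_contra hcon
  push Not at hcon
  obtain ⟨z1, hz1, hz1y, hz1f⟩ := hcon
  obtain ⟨C, hC⟩ := hC
  obtain ⟨F, hFd, hFu, p, hp, hpy, hFp⟩ := exists_normalised hs hf hC hz1 hz1y hz1f
  exact false_of_star hc1 hc2 hΛ hS hs hsΛ hFd hFu hp hpy hFp

end NoFun

end Vale.Agent.P250
end
end
end

section

section

section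

set_option maxSynthPendingDepth 3

namespace Vale.Agent.P250

open Set Filter Topology

section
variable {E : Type*} [NormedAddCommGroup E] [NormedSpace ℝ E]
variable {E' : Type*} [NormedAddCommGroup E'] [NormedSpace ℝ E']
variable {W : Type*} [NormedAddCommGroup W] [NormedSpace ℝ W]

theorem fderiv_app1 {c : E' → E →L[ℝ] W} {a : E' → E} {x : E'} (hc : DifferentiableAt ℝ c x)
    (ha : DifferentiableAt ℝ a x) (U : E') :
    fderiv ℝ (fun x => c x (a x)) x U = fderiv ℝ c x U (a x) + c x (fderiv ℝ a x U) := by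
  rw [fderiv_clm_apply hc ha]
  simp [add_comm]

theorem fderiv_app2 {c : E' → E →L[ℝ] E →L[ℝ] W} {a b : E' → E} {x : E'}
    (hc : DifferentiableAt ℝ c x)
    (ha : DifferentiableAt ℝ a x) (hb : DifferentiableAt ℝ b x) (U : E') :
    fderiv ℝ (fun x => c x (a x) (b x)) x U =
      fderiv ℝ c x U (a x) (b x) + c x (fderiv ℝ a x U) (b x) + c x (a x) (fderiv ℝ b x U) := by
  rw [fderiv_app1 (hc.clm_apply ha) hb, fderiv_app1 hc ha]
  simp only [add_apply]

theorem fderiv_app3 {c : E' → E →L[ℝ] E →L[ℝ] E →L[ℝ] W} {a b d : E' → E} {x : E'}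
    (hc : DifferentiableAt ℝ c x)
    (ha : DifferentiableAt ℝ a x) (hb : DifferentiableAt ℝ b x) (hd : DifferentiableAt ℝ d x)
    (U : E') :
    fderiv ℝ (fun x => c x (a x) (b x) (d x)) x U =
      fderiv ℝ c x U (a x) (b x) (d x) + c x (fderiv ℝ a x U) (b x) (d x) +
        c x (a x) (fderiv ℝ b x U) (d x) + c x (a x) (b x) (fderiv ℝ d x U) := by
  rw [fderiv_app1 ((hc.clm_apply ha).clm_apply hb) hd, fderiv_app2 hc ha hb]
  simp only [add_apply]

theorem fderiv_c1 {c : E' → E →L[ℝ] W} {x : E'} (hc : DifferentiableAt ℝ c x) (X : E) (U : E') :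
    fderiv ℝ (fun x => c x X) x U = fderiv ℝ c x U X := by
  rw [fderiv_app1 hc (differentiableAt_const X)]
  simp

theorem fderiv_c2 {c : E' → E →L[ℝ] E →L[ℝ] W} {x : E'} (hc : DifferentiableAt ℝ c x)
    (X Y : E) (U : E') :
    fderiv ℝ (fun x => c x X Y) x U = fderiv ℝ c x U X Y := by
  rw [fderiv_c1 (hc.clm_apply (differentiableAt_const X)), fderiv_c1 hc]

theorem fderiv_c3 {c : E' → E →L[ℝ] E →L[ℝ] E →L[ℝ] W} {x : E'} (hc : DifferentiableAt ℝ c x)
    (X Y Z : E) (U : E') :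
    fderiv ℝ (fun x => c x X Y Z) x U = fderiv ℝ c x U X Y Z := by
  rw [fderiv_c1 ((hc.clm_apply (differentiableAt_const X)).clm_apply (differentiableAt_const Y)),
    fderiv_c2 hc]

end

section
variable {E : Type*} [NormedAddCommGroup E] [NormedSpace ℝ E]

/-- the derivative of a symmetric form is symmetric -/
theorem fderiv_symm {g : E → E →L[ℝ] E →L[ℝ] ℝ} {p : E} (hg : DifferentiableAt ℝ g p)
    (hsymm : ∀ᶠ q in 𝓝 p, ∀ X Y, g q X Y = g q Y X) (V X Y : E) :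
    fderiv ℝ g p V X Y = fderiv ℝ g p V Y X := by
  rw [← fderiv_c2 hg, ← fderiv_c2 hg]
  congr 1
  exact Filter.EventuallyEq.fderiv_eq (hsymm.mono fun q hq => hq X Y)

theorem fderiv2_symm {g : E → E →L[ℝ] E →L[ℝ] ℝ} {p : E}
    (hg : ∀ᶠ q in 𝓝 p, DifferentiableAt ℝ g q) (hg2 : DifferentiableAt ℝ (fderiv ℝ g) p)
    (hsymm : ∀ᶠ q in 𝓝 p, ∀ X Y, g q X Y = g q Y X) (U V X Y : E) :
    fderiv ℝ (fderiv ℝ g) p U V X Y = fderiv ℝ (fderiv ℝ g) p U V Y X := by
  rw [← fderiv_c3 hg2, ← fderiv_c3 hg2]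
  congr 1
  refine Filter.EventuallyEq.fderiv_eq ?_
  filter_upwards [hg, hsymm.eventually_nhds] with q h1 h2
  exact fderiv_symm h1 h2 V X Y

theorem koszul_compat {g : E → E →L[ℝ] E →L[ℝ] ℝ} {Γ : E → E →L[ℝ] E →L[ℝ] E} {p : E}
    (hs : ∀ X Y, g p X Y = g p Y X)
    (hs' : ∀ V X Y, fderiv ℝ g p V X Y = fderiv ℝ g p V Y X)
    (hK : KoszulAt g p (fun X Y => Γ p X Y)) (X A B : E) :
    fderiv ℝ g p X A B = g p (Γ p X A) B + g p A (Γ p X B) := by
  have h1 := hK X A B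
  have h2 := hK X B A
  rw [hs A]
  have := hs' X A B
  have := hs' A X B
  have := hs' B X A
  simp only at h1 h2
  linarith

theorem koszul_symm {g : E → E →L[ℝ] E →L[ℝ] ℝ} {Γ : E → E →L[ℝ] E →L[ℝ] E} {p : E}
    (hs' : ∀ V X Y, fderiv ℝ g p V X Y = fderiv ℝ g p V Y X)
    (hpos : ∀ X, X ≠ 0 → 0 < g p X X)
    (hK : KoszulAt g p (fun X Y => Γ p X Y)) (X Y : E) : Γ p X Y = Γ p Y X := by
  by_contra hne
  have h := hpos _ (sub_ne_zero.2 hne)
  set Z := Γ p X Y - Γ p Y X with hZ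
  have h1 := hK X Y Z
  have h2 := hK Y X Z
  have h3 := hs' Z X Y
  simp only at h1 h2
  have h4 : g p Z Z = g p (Γ p X Y) Z - g p (Γ p Y X) Z := by
    conv_lhs => rw [hZ]
    simp [hZ]
  linarith

variable [CompleteSpace E]

theorem riem_eq_num (g : E → E →L[ℝ] E →L[ℝ] ℝ) (Γ : E → E →L[ℝ] E →L[ℝ] E) (p : E)
    (hg : ContDiffAt ℝ (⊤ : ℕ∞) g p) (hΓ : ContDiffAt ℝ (⊤ : ℕ∞) Γ p)
    (hsymm : ∀ᶠ q in 𝓝 p, ∀ X Y, g q X Y = g q Y X)
    (hpos : ∀ X, X ≠ 0 → 0 < g p X X)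
    (hK : ∀ᶠ q in 𝓝 p, KoszulAt g q (fun X Y => Γ q X Y)) (X Y : E) :
    g p (riem Γ p X Y Y) X = num g p (fun X Y => Γ p X Y) X Y := by
  have hg1 : ContDiffAt ℝ 2 g p := hg.of_le (by norm_cast)
  have hgd : ∀ᶠ q in 𝓝 p, DifferentiableAt ℝ g q := by
    filter_upwards [hg1.eventually (by simp)] with q hq
    exact hq.differentiableAt (by simp)
  have hgd0 : DifferentiableAt ℝ g p := hgd.self_of_nhds
  have hg2 : DifferentiableAt ℝ (fderiv ℝ g) p :=
    (hg1.fderiv_right (m := 1) (by norm_num)).differentiableAt (by simp)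
  have hΓd : DifferentiableAt ℝ Γ p := hΓ.differentiableAt (by simp)
  have hs : ∀ X Y, g p X Y = g p Y X := hsymm.self_of_nhds
  have hs' : ∀ V X Y, fderiv ℝ g p V X Y = fderiv ℝ g p V Y X := fderiv_symm hgd0 hsymm
  have hs'' := fderiv2_symm hgd hg2 hsymm
  have hK0 := hK.self_of_nhds
  have hΓs := koszul_symm hs' hpos hK0
  have hcomp := koszul_compat hs hs' hK0
  -- the differentiated Koszul identity
  have hdK : ∀ V X Y Z, 2 * (fderiv ℝ g p V (Γ p X Y) Z + g p (fderiv ℝ Γ p V X Y) Z) =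
      fderiv ℝ (fderiv ℝ g) p V X Y Z + fderiv ℝ (fderiv ℝ g) p V Y X Z -
        fderiv ℝ (fderiv ℝ g) p V Z X Y := by
    intro V X Y Z
    have h1 : (fun q => 2 * g q (Γ q X Y) Z) =ᶠ[𝓝 p] fun q =>
        fderiv ℝ g q X Y Z + fderiv ℝ g q Y X Z - fderiv ℝ g q Z X Y :=
      hK.mono fun q hq => hq X Y Z
    have h2 := congrArg (fun L : E →L[ℝ] ℝ => L V) (h1.fderiv_eq (𝕜 := ℝ))
    have hΓXY : DifferentiableAt ℝ (fun q => Γ q X Y) p :=
      (hΓd.clm_apply (differentiableAt_const X)).clm_apply (differentiableAt_const Y)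
    have e1 : fderiv ℝ (fun q => 2 * g q (Γ q X Y) Z) p V =
        2 * (fderiv ℝ g p V (Γ p X Y) Z + g p (fderiv ℝ Γ p V X Y) Z) := by
      rw [fderiv_const_mul]
      · simp only [_root_.smul_apply, smul_eq_mul]
        rw [fderiv_app2 hgd0 hΓXY (differentiableAt_const Z), fderiv_c2 hΓd]
        simp
      · exact (hgd0.clm_apply hΓXY).clm_apply (differentiableAt_const Z)
    have hd : ∀ A B C : E, DifferentiableAt ℝ (fun q => fderiv ℝ g q A B C) p := fun A B C =>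
      ((hg2.clm_apply (differentiableAt_const A)).clm_apply
        (differentiableAt_const B)).clm_apply (differentiableAt_const C)
    have e2 : fderiv ℝ (fun q => fderiv ℝ g q X Y Z + fderiv ℝ g q Y X Z -
        fderiv ℝ g q Z X Y) p V = fderiv ℝ (fderiv ℝ g) p V X Y Z +
        fderiv ℝ (fderiv ℝ g) p V Y X Z - fderiv ℝ (fderiv ℝ g) p V Z X Y := by
      rw [fderiv_fun_sub ((hd _ _ _).fun_add (hd _ _ _)) (hd _ _ _),
        fderiv_fun_add (hd _ _ _) (hd _ _ _)]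
      simp only [_root_.sub_apply, _root_.add_apply]
      rw [fderiv_c3 hg2, fderiv_c3 hg2, fderiv_c3 hg2]
    rw [← e1, ← e2]
    exact h2
  have k1 := hdK X Y Y X
  have k2 := hdK Y X Y X
  have c1 := hcomp X (Γ p Y Y) X
  have c2 := hcomp Y (Γ p X Y) X
  have s1 := hs'' X Y Y X
  have s2 := hs'' Y X X Y
  have s3 := hs (Γ p Y Y) (Γ p X X)
  have s4 : Γ p Y X = Γ p X Y := hΓs Y X
  rw [s4] at c2
  simp only [riem, num, map_sub, map_add, _root_.sub_apply, _root_.add_apply]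
  linarith

end

section
variable {E : Type*} [NormedAddCommGroup E] [NormedSpace ℝ E]
variable {E' : Type*} [NormedAddCommGroup E'] [NormedSpace ℝ E']

/-- smoothness of the pulled back metric -/
theorem contDiffAt_pullback {n : WithTop ℕ∞} {G : E' → E →L[ℝ] E →L[ℝ] ℝ} {D : E' → E' →L[ℝ] E}
    {q : E'} (hG : ContDiffAt ℝ n G q) (hD : ContDiffAt ℝ n D q)
    {g' : E' → E' →L[ℝ] E' →L[ℝ] ℝ}
    (hg' : ∀ᶠ x in 𝓝 q, ∀ X Y, g' x X Y = G x (D x X) (D x Y)) : ContDiffAt ℝ n g' q := by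
  have h1 : ContDiffAt ℝ n (fun x => (G x).comp (D x)) q := hG.clm_comp hD
  have h2 : ContDiffAt ℝ n (fun x => ((G x).comp (D x)).flip) q :=
    (ContinuousLinearMap.flipₗᵢ ℝ E' E ℝ).contDiff.contDiffAt.comp q h1
  have h3 : ContDiffAt ℝ n (fun x => (((G x).comp (D x)).flip).comp (D x)) q := h2.clm_comp hD
  have h4 : ContDiffAt ℝ n (fun x => ((((G x).comp (D x)).flip).comp (D x)).flip) q :=
    (ContinuousLinearMap.flipₗᵢ ℝ E' E' ℝ).contDiff.contDiffAt.comp q h3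
  refine h4.congr_of_eventuallyEq (hg'.mono fun x hx => ?_)
  ext X Y
  rw [hx]
  rfl

/-- first derivative of the pulled back metric -/
theorem fderiv_pullback {F : E' → E} {x : E'} (hF : ContDiffAt ℝ 2 F x)
    {g : E → E →L[ℝ] E →L[ℝ] ℝ} (hg : DifferentiableAt ℝ g (F x))
    {g' : E' → E' →L[ℝ] E' →L[ℝ] ℝ} (hgd : DifferentiableAt ℝ g' x)
    (hg' : ∀ᶠ y in 𝓝 x, ∀ X Y, g' y X Y = g (F y) (fderiv ℝ F y X) (fderiv ℝ F y Y))
    (V X Y : E') :
    fderiv ℝ g' x V X Y =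
      fderiv ℝ g (F x) (fderiv ℝ F x V) (fderiv ℝ F x X) (fderiv ℝ F x Y) +
      g (F x) (fderiv ℝ (fderiv ℝ F) x V X) (fderiv ℝ F x Y) +
      g (F x) (fderiv ℝ F x X) (fderiv ℝ (fderiv ℝ F) x V Y) := by
  have hFd : DifferentiableAt ℝ F x := hF.differentiableAt (by simp)
  have hD : DifferentiableAt ℝ (fderiv ℝ F) x :=
    (hF.fderiv_right (m := 1) (by norm_num)).differentiableAt (by simp)
  rw [← fderiv_c2 hgd, Filter.EventuallyEq.fderiv_eq (hg'.mono fun y hy => hy X Y)]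
  have hgF : DifferentiableAt ℝ (fun y => g (F y)) x := hg.comp x hFd
  rw [fderiv_app2 hgF (hD.clm_apply (differentiableAt_const X))
    (hD.clm_apply (differentiableAt_const Y)), fderiv_c1 hD, fderiv_c1 hD]
  have : fderiv ℝ (fun y => g (F y)) x = (fderiv ℝ g (F x)).comp (fderiv ℝ F x) :=
    fderiv_comp x hg hFd
  rw [this]
  rfl

/-- second derivative of the pulled back metric -/
theorem fderiv2_pullback {F : E' → E} {q : E'} (hF : ContDiffAt ℝ 3 F q)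
    {g : E → E →L[ℝ] E →L[ℝ] ℝ} (hg : ContDiffAt ℝ 2 g (F q))
    {g' : E' → E' →L[ℝ] E' →L[ℝ] ℝ}
    (hg' : ∀ᶠ y in 𝓝 q, ∀ X Y, g' y X Y = g (F y) (fderiv ℝ F y X) (fderiv ℝ F y Y))
    (U V X Y : E') :
    fderiv ℝ (fderiv ℝ g') q U V X Y =
      (fderiv ℝ (fderiv ℝ g) (F q) (fderiv ℝ F q U) (fderiv ℝ F q V) (fderiv ℝ F q X)
          (fderiv ℝ F q Y) +
        fderiv ℝ g (F q) (fderiv ℝ (fderiv ℝ F) q U V) (fderiv ℝ F q X) (fderiv ℝ F q Y) +
        fderiv ℝ g (F q) (fderiv ℝ F q V) (fderiv ℝ (fderiv ℝ F) q U X) (fderiv ℝ F q Y) +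
        fderiv ℝ g (F q) (fderiv ℝ F q V) (fderiv ℝ F q X) (fderiv ℝ (fderiv ℝ F) q U Y)) +
      (fderiv ℝ g (F q) (fderiv ℝ F q U) (fderiv ℝ (fderiv ℝ F) q V X) (fderiv ℝ F q Y) +
        g (F q) (fderiv ℝ (fderiv ℝ (fderiv ℝ F)) q U V X) (fderiv ℝ F q Y) +
        g (F q) (fderiv ℝ (fderiv ℝ F) q V X) (fderiv ℝ (fderiv ℝ F) q U Y)) +
      (fderiv ℝ g (F q) (fderiv ℝ F q U) (fderiv ℝ F q X) (fderiv ℝ (fderiv ℝ F) q V Y) +
        g (F q) (fderiv ℝ (fderiv ℝ F) q U X) (fderiv ℝ (fderiv ℝ F) q V Y) +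
        g (F q) (fderiv ℝ F q X) (fderiv ℝ (fderiv ℝ (fderiv ℝ F)) q U V Y)) := by
  have hFc : ContinuousAt F q := hF.continuousAt
  have hF1 : ContDiffAt ℝ 2 (fderiv ℝ F) q := hF.fderiv_right (m := 2) (by norm_num)
  have hF2 : ContDiffAt ℝ 1 (fderiv ℝ (fderiv ℝ F)) q := hF1.fderiv_right (m := 1) (by norm_num)
  have hG : ContDiffAt ℝ 2 (fun y => g (F y)) q := hg.comp q (hF.of_le (by norm_num))
  have hg'2 : ContDiffAt ℝ 2 g' q := contDiffAt_pullback hG hF1 hg'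
  have hg'3 : DifferentiableAt ℝ (fderiv ℝ g') q :=
    (hg'2.fderiv_right (m := 1) (by norm_num)).differentiableAt (by simp)
  have hFd : DifferentiableAt ℝ F q := hF.differentiableAt (by simp)
  have hD1 : DifferentiableAt ℝ (fderiv ℝ F) q := hF1.differentiableAt (by simp)
  have hD2 : DifferentiableAt ℝ (fderiv ℝ (fderiv ℝ F)) q := hF2.differentiableAt (by simp)
  have hg1 : DifferentiableAt ℝ g (F q) := hg.differentiableAt (by simp)
  have hg2 : DifferentiableAt ℝ (fderiv ℝ g) (F q) :=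
    (hg.fderiv_right (m := 1) (by norm_num)).differentiableAt (by simp)
  have hev : (fun x => fderiv ℝ g' x V X Y) =ᶠ[𝓝 q] fun x =>
      fderiv ℝ g (F x) (fderiv ℝ F x V) (fderiv ℝ F x X) (fderiv ℝ F x Y) +
      g (F x) (fderiv ℝ (fderiv ℝ F) x V X) (fderiv ℝ F x Y) +
      g (F x) (fderiv ℝ F x X) (fderiv ℝ (fderiv ℝ F) x V Y) := by
    have e1 : ∀ᶠ x in 𝓝 q, ContDiffAt ℝ 3 F x := hF.eventually (by simp)
    have e2 : ∀ᶠ x in 𝓝 q, ContDiffAt ℝ 2 g' x := hg'2.eventually (by simp)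
    have e3 : ∀ᶠ x in 𝓝 q, ContDiffAt ℝ 2 g (F x) := hFc.eventually (hg.eventually (by simp))
    filter_upwards [e1, e2, e3, hg'.eventually_nhds] with x h1 h2 h3 h4
    exact fderiv_pullback (h1.of_le (by norm_num)) (h3.differentiableAt (by simp))
      (h2.differentiableAt (by simp)) h4 V X Y
  rw [← fderiv_c3 hg'3, hev.fderiv_eq]
  have hgF : DifferentiableAt ℝ (fun y => g (F y)) q := hg1.comp q hFd
  have hgF2 : DifferentiableAt ℝ (fun y => fderiv ℝ g (F y)) q := hg2.comp q hFd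
  have ev1 : ∀ Z : E', DifferentiableAt ℝ (fun x => fderiv ℝ F x Z) q := fun Z =>
    hD1.clm_apply (differentiableAt_const Z)
  have ev2 : ∀ Z T : E', DifferentiableAt ℝ (fun x => fderiv ℝ (fderiv ℝ F) x Z T) q :=
    fun Z T => (hD2.clm_apply (differentiableAt_const Z)).clm_apply (differentiableAt_const T)
  have d1 : DifferentiableAt ℝ
      (fun x => fderiv ℝ g (F x) (fderiv ℝ F x V) (fderiv ℝ F x X) (fderiv ℝ F x Y)) q :=
    ((hgF2.clm_apply (ev1 V)).clm_apply (ev1 X)).clm_apply (ev1 Y)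
  have d2 : DifferentiableAt ℝ
      (fun x => g (F x) (fderiv ℝ (fderiv ℝ F) x V X) (fderiv ℝ F x Y)) q :=
    (hgF.clm_apply (ev2 V X)).clm_apply (ev1 Y)
  have d3 : DifferentiableAt ℝ
      (fun x => g (F x) (fderiv ℝ F x X) (fderiv ℝ (fderiv ℝ F) x V Y)) q :=
    (hgF.clm_apply (ev1 X)).clm_apply (ev2 V Y)
  rw [fderiv_fun_add (d1.fun_add d2) d3, fderiv_fun_add d1 d2]
  simp only [_root_.add_apply]
  rw [fderiv_app3 hgF2 (ev1 V) (ev1 X) (ev1 Y), fderiv_app2 hgF (ev2 V X) (ev1 Y),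
    fderiv_app2 hgF (ev1 X) (ev2 V Y)]
  have c1 : fderiv ℝ (fun y => g (F y)) q = (fderiv ℝ g (F q)).comp (fderiv ℝ F q) :=
    fderiv_comp q hg1 hFd
  have c2 : fderiv ℝ (fun y => fderiv ℝ g (F y)) q =
      (fderiv ℝ (fderiv ℝ g) (F q)).comp (fderiv ℝ F q) :=
    fderiv_comp q hg2 hFd
  rw [c1, c2]
  simp only [fderiv_c1 hD1, fderiv_c2 hD2, ContinuousLinearMap.comp_apply]

end

section
variable {E : Type*} [NormedAddCommGroup E] [NormedSpace ℝ E] [CompleteSpace E]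
variable {E' : Type*} [NormedAddCommGroup E'] [NormedSpace ℝ E'] [CompleteSpace E']

theorem riem_pullback (F : E' → E) (q : E') (e : E' ≃L[ℝ] E)
    (hF : ContDiffAt ℝ (⊤ : ℕ∞) F q) (he : (e : E' →L[ℝ] E) = fderiv ℝ F q)
    (g : E → E →L[ℝ] E →L[ℝ] ℝ) (Γ : E → E →L[ℝ] E →L[ℝ] E)
    (hg : ContDiffAt ℝ (⊤ : ℕ∞) g (F q)) (hΓ : ContDiffAt ℝ (⊤ : ℕ∞) Γ (F q))
    (hsymm : ∀ᶠ p in 𝓝 (F q), ∀ X Y, g p X Y = g p Y X)
    (hpos : ∀ᶠ p in 𝓝 (F q), ∀ X, X ≠ 0 → 0 < g p X X)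
    (hK : ∀ᶠ p in 𝓝 (F q), KoszulAt g p (fun X Y => Γ p X Y))
    (g' : E' → E' →L[ℝ] E' →L[ℝ] ℝ)
    (hg' : ∀ᶠ q' in 𝓝 q, ∀ X Y, g' q' X Y = g (F q') (fderiv ℝ F q' X) (fderiv ℝ F q' Y))
    (A : E' → E' → E') (hA : KoszulAt g' q A) (X Y : E') :
    g (F q) (riem Γ (F q) (e X) (e Y) (e Y)) (e X) = num g' q A X Y := by
  have hp0 := hpos.self_of_nhds
  rw [riem_eq_num g Γ (F q) hg hΓ hsymm hp0 hK]
  have hF3 : ContDiffAt ℝ 3 F q := hF.of_le (by norm_cast)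
  have hg2 : ContDiffAt ℝ 2 g (F q) := hg.of_le (by norm_cast)
  have hF1 : ContDiffAt ℝ 2 (fderiv ℝ F) q := hF3.fderiv_right (m := 2) (by norm_num)
  have hG : ContDiffAt ℝ 2 (fun y => g (F y)) q := hg2.comp q (hF3.of_le (by norm_num))
  have hg'2 : ContDiffAt ℝ 2 g' q := contDiffAt_pullback hG hF1 hg'
  have hgd : DifferentiableAt ℝ g (F q) := hg2.differentiableAt (by simp)
  have hs : ∀ X Y, g (F q) X Y = g (F q) Y X := hsymm.self_of_nhds
  have hs' : ∀ V X Y, fderiv ℝ g (F q) V X Y = fderiv ℝ g (F q) V Y X := fderiv_symm hgd hsymm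
  have hK0 := hK.self_of_nhds
  -- symmetry of the derivatives of F
  have hsym2 : ∀ᶠ x in 𝓝 q, ∀ V W, fderiv ℝ (fderiv ℝ F) x V W = fderiv ℝ (fderiv ℝ F) x W V := by
    filter_upwards [hF3.eventually (by simp)] with x hx V W
    exact (hx.of_le (by norm_num)).isSymmSndFDerivAt (n := 2) (by simp) V W
  have hsym20 := hsym2.self_of_nhds
  have hD2 : DifferentiableAt ℝ (fderiv ℝ (fderiv ℝ F)) q :=
    (hF1.fderiv_right (m := 1) (by norm_num)).differentiableAt (by simp)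
  have hsym3 : ∀ U V W, fderiv ℝ (fderiv ℝ (fderiv ℝ F)) q U V W =
      fderiv ℝ (fderiv ℝ (fderiv ℝ F)) q U W V := by
    intro U V W
    rw [← fderiv_c2 hD2, ← fderiv_c2 hD2]
    congr 1
    exact Filter.EventuallyEq.fderiv_eq (hsym2.mono fun x hx => hx V W)
  have hsym3' : ∀ U V W, fderiv ℝ (fderiv ℝ (fderiv ℝ F)) q U V W =
      fderiv ℝ (fderiv ℝ (fderiv ℝ F)) q V U W := by
    intro U V W
    exact congrArg (fun L => L W) (hF1.isSymmSndFDerivAt (n := 2) (by simp) U V)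
  have hd1 := fderiv_pullback (hF3.of_le (by norm_num)) hgd (hg'2.differentiableAt (by simp)) hg'
  have hd2 := fderiv2_pullback hF3 hg2 hg'
  have hg0 : ∀ X Y, g' q X Y = g (F q) (fderiv ℝ F q X) (fderiv ℝ F q Y) := hg'.self_of_nhds
  have hex : ∀ Z, e Z = fderiv ℝ F q Z := fun Z => by rw [← he]; rfl
  -- the Christoffel tensor of g'
  have hAe : ∀ X Y, fderiv ℝ F q (A X Y) =
      fderiv ℝ (fderiv ℝ F) q X Y + Γ (F q) (fderiv ℝ F q X) (fderiv ℝ F q Y) := by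
    intro X Y
    by_contra hne
    have h := hp0 _ (sub_ne_zero.2 hne)
    set Z := e.symm (fderiv ℝ F q (A X Y) -
      (fderiv ℝ (fderiv ℝ F) q X Y + Γ (F q) (fderiv ℝ F q X) (fderiv ℝ F q Y))) with hZ
    have hZ' : fderiv ℝ F q (A X Y) -
      (fderiv ℝ (fderiv ℝ F) q X Y + Γ (F q) (fderiv ℝ F q X) (fderiv ℝ F q Y)) =
        fderiv ℝ F q Z := by
      rw [← hex Z, hZ, e.apply_symm_apply]
    have hA1 := hA X Y Z
    rw [hg0, hd1, hd1, hd1] at hA1
    have hK1 := hK0 (fderiv ℝ F q X) (fderiv ℝ F q Y) (fderiv ℝ F q Z)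
    simp only at hK1
    have s1 := hsym20 Y X
    have s2 := hsym20 Z X
    have s3 := hsym20 Z Y
    rw [s1, s2, s3] at hA1
    have s4 := hs (fderiv ℝ F q Y) (fderiv ℝ (fderiv ℝ F) q X Z)
    have key : g (F q) (fderiv ℝ F q (A X Y) -
        (fderiv ℝ (fderiv ℝ F) q X Y + Γ (F q) (fderiv ℝ F q X) (fderiv ℝ F q Y)))
        (fderiv ℝ F q Z) = 0 := by
      simp only [map_sub, map_add, _root_.sub_apply, _root_.add_apply]
      linarith only [hA1, hK1, s4]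
    rw [← hZ'] at key
    linarith only [h, key]
  have e1 := hd2 X Y X Y
  have e2 := hd2 X X Y Y
  have e3 := hd2 Y Y X X
  simp only [num]
  rw [e1, e2, e3, hg0, hg0, hAe, hAe, hAe]
  simp only [hex]
  have k1 := hK0 (fderiv ℝ F q X) (fderiv ℝ F q Y) (fderiv ℝ (fderiv ℝ F) q X Y)
  have k2 := hK0 (fderiv ℝ F q Y) (fderiv ℝ F q Y) (fderiv ℝ (fderiv ℝ F) q X X)
  have k3 := hK0 (fderiv ℝ F q X) (fderiv ℝ F q X) (fderiv ℝ (fderiv ℝ F) q Y Y)
  simp only at k1 k2 k3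
  rw [hsym20 Y X, hsym3 X Y X, hsym3' X Y Y, hsym3 Y X Y]
  simp only [map_add, add_apply]
  have t1 := hs (fderiv ℝ F q X) (fderiv ℝ (fderiv ℝ (fderiv ℝ F)) q Y Y X)
  have t2 := hs (fderiv ℝ F q Y) (fderiv ℝ (fderiv ℝ (fderiv ℝ F)) q X X Y)
  have t3 := hs (Γ (F q) (fderiv ℝ F q X) (fderiv ℝ F q Y)) (fderiv ℝ (fderiv ℝ F) q X Y)
  have t4 := hs (Γ (F q) (fderiv ℝ F q X) (fderiv ℝ F q X)) (fderiv ℝ (fderiv ℝ F) q Y Y)
  have t5 := hs (Γ (F q) (fderiv ℝ F q Y) (fderiv ℝ F q Y)) (fderiv ℝ (fderiv ℝ F) q X X)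
  have u1 := hs' (fderiv ℝ F q X) (fderiv ℝ F q Y) (fderiv ℝ (fderiv ℝ F) q X Y)
  have u2 := hs' (fderiv ℝ F q Y) (fderiv ℝ F q X) (fderiv ℝ (fderiv ℝ F) q X Y)
  have u3 := hs' (fderiv ℝ F q Y) (fderiv ℝ F q Y) (fderiv ℝ (fderiv ℝ F) q X X)
  have u4 := hs' (fderiv ℝ F q X) (fderiv ℝ F q X) (fderiv ℝ (fderiv ℝ F) q Y Y)
  have u5 := hs' (fderiv ℝ (fderiv ℝ F) q X Y) (fderiv ℝ F q X) (fderiv ℝ F q Y)
  linarith only [k1, k2, k3, t1, t2, t3, t5, u2, u3]

end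

end Vale.Agent.P250
end
end
end

section

section

section

/-! Removing the pluriharmonic part of the 2-jet of a real function. -/

set_option maxSynthPendingDepth 3

namespace Vale.Agent.P250.PJ

open Set Filter Topology

variable {E : Type*} [NormedAddCommGroup E] [NormedSpace ℂ E]

/-- the (2,0)+(0,2) part of a real bilinear form -/
noncomputable def pureP (b : E →L[ℝ] E →L[ℝ] ℝ) : E →L[ℝ] E →L[ℝ] ℝ :=
  (1 / 2 : ℝ) • (b - b.bilinearComp Jc Jc)

lemma pureP_apply (b : E →L[ℝ] E →L[ℝ] ℝ) (X Y : E) :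
    pureP b X Y = (1 / 2) * (b X Y - b (Complex.I • X) (Complex.I • Y)) := by
  simp only [pureP, one_div, smul_apply, sub_apply, ContinuousLinearMap.bilinearComp_apply, Jc_apply, smul_eq_mul]

lemma pureP_I_left (b : E →L[ℝ] E →L[ℝ] ℝ) (X Y : E) :
    pureP b (Complex.I • X) Y = pureP b X (Complex.I • Y) := by
  have h1 : Complex.I • Complex.I • X = -X := by
    rw [smul_smul, Complex.I_mul_I, neg_one_smul]
  have h2 : Complex.I • Complex.I • Y = -Y := by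
    rw [smul_smul, Complex.I_mul_I, neg_one_smul]
  rw [pureP_apply, pureP_apply, h1, h2]
  simp only [map_neg, neg_apply]
  ring

/-- complex bilinear form with real part `pureP b` -/
noncomputable def pureC (b : E →L[ℝ] E →L[ℝ] ℝ) : E →L[ℂ] E →L[ℂ] ℂ :=
  LinearMap.mkContinuous₂
    (LinearMap.mk₂ ℂ (fun X Y => (pureP b X Y : ℂ) - Complex.I * (pureP b X (Complex.I • Y) : ℝ))
      (by intro X X' Y; simp; ring)
      (by
        intro c X Y
        have hc : c • X = (c.re : ℝ) • X + (c.im : ℝ) • (Complex.I • X) := by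
          conv_lhs => rw [← Complex.re_add_im c]
          rw [add_smul, mul_smul]
          rfl
        rw [hc]
        simp only [map_add, map_smul, add_apply,
          smul_apply, pureP_I_left, smul_eq_mul]
        have h2 : Complex.I • Complex.I • Y = -Y := by
          rw [smul_smul, Complex.I_mul_I, neg_one_smul]
        rw [h2, map_neg]
        apply Complex.ext
        · simp
        · simp
          ring)
      (by intro X Y Y'; simp [smul_add]; ring)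
      (by
        intro c X Y
        have hc : c • Y = (c.re : ℝ) • Y + (c.im : ℝ) • (Complex.I • Y) := by
          conv_lhs => rw [← Complex.re_add_im c]
          rw [add_smul, mul_smul]
          rfl
        have hc2 : Complex.I • c • Y = (c.re : ℝ) • (Complex.I • Y) - (c.im : ℝ) • Y := by
          rw [hc, smul_add, smul_comm Complex.I (c.re : ℝ), smul_comm Complex.I (c.im : ℝ),
            smul_smul Complex.I Complex.I, Complex.I_mul_I, neg_one_smul, smul_neg, sub_eq_add_neg]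
        rw [hc2, hc]
        simp only [map_add, map_sub, map_smul, smul_eq_mul]
        apply Complex.ext
        · simp
        · simp
          ring))
    (2 * ‖pureP b‖)
    (by
      intro X Y
      simp only [LinearMap.mk₂_apply]
      calc ‖(pureP b X Y : ℂ) - Complex.I * (pureP b X (Complex.I • Y) : ℝ)‖
          ≤ ‖(pureP b X Y : ℂ)‖ + ‖Complex.I * (pureP b X (Complex.I • Y) : ℝ)‖ :=
            norm_sub_le _ _
        _ = ‖pureP b X Y‖ + ‖pureP b X (Complex.I • Y)‖ := by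
            rw [norm_mul, Complex.norm_I, one_mul, Complex.norm_real, Complex.norm_real]
        _ ≤ ‖pureP b‖ * ‖X‖ * ‖Y‖ + ‖pureP b‖ * ‖X‖ * ‖Complex.I • Y‖ := by
            gcongr
            · exact ContinuousLinearMap.le_opNorm₂ _ _ _
            · exact ContinuousLinearMap.le_opNorm₂ _ _ _
        _ = 2 * ‖pureP b‖ * ‖X‖ * ‖Y‖ := by
            rw [norm_smul, Complex.norm_I]; ring)

lemma pureC_re (b : E →L[ℝ] E →L[ℝ] ℝ) (X Y : E) : (pureC b X Y).re = pureP b X Y := by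
  simp only [pureC, LinearMap.mkContinuous₂_apply, LinearMap.mk₂_apply, Complex.sub_re, Complex.ofReal_re, Complex.mul_re, Complex.I_re, zero_mul, Complex.I_im, Complex.ofReal_im, mul_zero, sub_self, sub_zero]

theorem exists_removal (v : E → ℝ) (hv : ContDiffAt ℝ (⊤ : ℕ∞) v 0) :
    ∃ h : E → ℂ, ContDiff ℂ (⊤ : ℕ∞) h ∧ h 0 = 0 ∧
      fderiv ℝ (fun ζ => v ζ - (h ζ).re) 0 = 0 ∧
      (∀ X Y, fderiv ℝ (fderiv ℝ (fun ζ => v ζ - (h ζ).re)) 0 X Y = 2 * gP v 0 X Y) ∧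
      fderiv ℝ (fderiv ℝ (fderiv ℝ (fun ζ => v ζ - (h ζ).re))) 0
        = fderiv ℝ (fderiv ℝ (fderiv ℝ v)) 0 ∧
      fderiv ℝ (fderiv ℝ (fderiv ℝ (fderiv ℝ (fun ζ => v ζ - (h ζ).re)))) 0
        = fderiv ℝ (fderiv ℝ (fderiv ℝ (fderiv ℝ v))) 0 := by
  set ℓ : E →L[ℝ] ℝ := fderiv ℝ v 0 with hℓ
  set b : E →L[ℝ] E →L[ℝ] ℝ := fderiv ℝ (fderiv ℝ v) 0 with hb
  have hn : ∀ n : ℕ, (n : WithTop ℕ∞) ≤ ((⊤ : ℕ∞) : WithTop ℕ∞) := fun n => by
    exact_mod_cast le_top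
  have hsymm : ∀ X Y, b X Y = b Y X := by
    have h2 : ContDiffAt ℝ 2 v 0 := hv.of_le (hn 2)
    have := h2.isSymmSndFDerivAt (by simp)
    exact fun X Y => this X Y
  have hPsymm : ∀ X Y, pureP b X Y = pureP b Y X := by
    intro X Y
    rw [pureP_apply, pureP_apply, hsymm X Y, hsymm (Complex.I • X)]
  let L : E →L[ℂ] ℂ := StrongDual.extendRCLike (𝕜 := ℂ) ℓ
  have hL : ∀ X, (L X).re = ℓ X := fun X => by
    exact StrongDual.re_extendRCLike_apply (𝕜 := ℂ) ℓ X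
  refine ⟨fun ζ => L ζ + (1 / 2) * pureC b ζ ζ, ?_, by simp only [map_zero, one_div, zero_apply, mul_zero, add_zero], ?_⟩
  · apply ContDiff.add L.contDiff
    apply ContDiff.mul contDiff_const
    exact ((pureC b).contDiff).clm_apply contDiff_id
  have hre : ∀ ζ : E, (L ζ + (1 / 2) * pureC b ζ ζ).re = ℓ ζ + (1 / 2) * pureP b ζ ζ := by
    intro ζ
    have h2 : ((1 / 2 : ℂ) * pureC b ζ ζ).re = (1 / 2) * (pureC b ζ ζ).re := by
      have : (1 / 2 : ℂ) = ((1 / 2 : ℝ) : ℂ) := by push_cast; ring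
      rw [this, Complex.re_ofReal_mul]
    rw [Complex.add_re, hL, h2, pureC_re]
  simp only [hre]
  set f : E → ℝ := fun ζ => v ζ - (ℓ ζ + (1 / 2) * pureP b ζ ζ) with hf
  have hq : ∀ ζ : E, HasFDerivAt (fun ζ : E => ℓ ζ + (1 / 2) * pureP b ζ ζ)
      (ℓ + pureP b ζ) ζ := by
    intro ζ
    have h1 : HasFDerivAt (fun ζ : E => ℓ ζ) ℓ ζ := ℓ.hasFDerivAt
    have h2 := ((pureP b).hasFDerivAt (x := ζ)).clm_apply (hasFDerivAt_id ζ)
    have h3 := h1.add (h2.const_mul (1 / 2 : ℝ))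
    refine h3.congr_fderiv ?_
    ext X
    simp [hPsymm X ζ]
    ring
  have h5 : ContDiffAt ℝ 5 v 0 := hv.of_le (hn 5)
  have h5e : ∀ᶠ ζ in 𝓝 (0 : E), ContDiffAt ℝ 5 v ζ := h5.eventually (by simp)
  have hf1 : fderiv ℝ f =ᶠ[𝓝 0] fun ζ => fderiv ℝ v ζ - (ℓ + pureP b ζ) := by
    filter_upwards [h5e] with ζ hζ
    have hd : DifferentiableAt ℝ v ζ := hζ.differentiableAt (by simp)
    exact (hd.hasFDerivAt.sub (hq ζ)).fderiv
  have hf2 : fderiv ℝ (fderiv ℝ f) =ᶠ[𝓝 0] fun ζ => fderiv ℝ (fderiv ℝ v) ζ - pureP b := by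
    refine (hf1.fderiv).trans ?_
    filter_upwards [h5e] with ζ hζ
    have hd : DifferentiableAt ℝ (fderiv ℝ v) ζ :=
      (hζ.fderiv_right (m := 4) (by norm_num)).differentiableAt (by simp)
    have h2 : HasFDerivAt (fun ζ : E => ℓ + pureP b ζ) (pureP b) ζ := by
      have := (hasFDerivAt_const ℓ ζ).add ((pureP b).hasFDerivAt (x := ζ))
      exact this.congr_fderiv (zero_add _)
    exact (hd.hasFDerivAt.sub h2).fderiv
  have hf3 : fderiv ℝ (fderiv ℝ (fderiv ℝ f)) =ᶠ[𝓝 0] fderiv ℝ (fderiv ℝ (fderiv ℝ v)) := by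
    refine (hf2.fderiv).trans ?_
    filter_upwards [h5e] with ζ hζ
    have hd : DifferentiableAt ℝ (fderiv ℝ (fderiv ℝ v)) ζ :=
      ((hζ.fderiv_right (m := 4) (by norm_num)).fderiv_right (m := 3)
        (by norm_num)).differentiableAt (by simp)
    have := (hd.hasFDerivAt.sub (hasFDerivAt_const (pureP b) ζ)).fderiv
    rw [sub_zero] at this
    exact this
  refine ⟨?_, ?_, hf3.eq_of_nhds, hf3.fderiv_eq⟩
  · rw [hf1.eq_of_nhds]
    simp only [hℓ, map_zero, add_zero, sub_self]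
  · intro X Y
    rw [hf2.eq_of_nhds, gP_apply]
    simp only [sub_apply, pureP_apply]
    rw [← hb]
    ring

end Vale.Agent.P250.PJ
end
end
end

section

section

section

/-! Real-number inequalities behind the lower curvature bound. -/

namespace Vale.Agent.P250.Pt

theorem err_bound (e c C3 C4 t u aS w2 kW mW N4 D κ : ℝ) (he : 0 < e) (hc : 0 < c)
    (ht : 0 < t) (hu : 0 < u) (h4 : 0 < C4) (haS : 0 ≤ aS) (hw : 0 ≤ w2)
    (hkW : e * w2 ≤ kW) (hmW : kW ≤ (1 + 2 * t * c) * mW) (hN : |N4| ≤ C4 * aS)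
    (hD : |D| ≤ 2 * C3 ^ 2 * aS) (hκ : κ ^ 2 ≤ 4 * C3 ^ 2 * w2 * aS) :
    -((2 * C4 + 8 * C3 ^ 2 + 16 * C3 ^ 2 / e * (1 + 2 * c)) * (t + t ^ 2) * aS)
      ≤ 2 * t * N4 - 4 * t ^ 2 * D - 4 * (t * (1 + u)) * κ
        + t * (1 + u) * (u * kW + (1 + u) * mW) := by
  obtain ⟨E, hE⟩ : ∃ E, E = 1 + 2 * t * c := ⟨_, rfl⟩
  have hE0 : 1 < E := by
    have := mul_pos ht hc
    linarith only [hE, this]
  obtain ⟨lam, hlam⟩ : ∃ lam, lam = u + (1 + u) / E := ⟨_, rfl⟩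
  have hl0 : 0 < lam := by rw [hlam]; (clear * - hu hE0; positivity)
  have hmW' : e * w2 / E ≤ mW := by
    rw [div_le_iff₀ (by linarith only [hE0])]
    rw [← hE] at hmW
    linarith only [hkW, hmW]
  have hS1 : e * lam * w2 ≤ u * kW + (1 + u) * mW := by
    have h1 : u * (e * w2) ≤ u * kW := mul_le_mul_of_nonneg_left hkW hu.le
    have h2 : (1 + u) * (e * w2 / E) ≤ (1 + u) * mW :=
      mul_le_mul_of_nonneg_left hmW' (by linarith only [hu])
    have h3 : e * lam * w2 = u * (e * w2) + (1 + u) * (e * w2 / E) := by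
      rw [hlam]; ring
    linarith only [h1, h2, h3]
  obtain ⟨B, hB⟩ : ∃ B, B = 16 * C3 ^ 2 * aS / (e * lam) := ⟨_, rfl⟩
  have hB0 : 0 ≤ B := by rw [hB]; (clear * - haS he hl0; positivity)
  have hBl : (e * lam) * B = 16 * C3 ^ 2 * aS := by
    rw [hB]; (clear * - he hl0; field_simp)
  have hA0 : 0 ≤ e * lam * w2 := by (clear * - he hl0 hw; positivity)
  have hk : 4 * κ ≤ e * lam * w2 + B := by
    have h1 : (4 * κ) ^ 2 ≤ (e * lam * w2 + B) ^ 2 := by
      have h2 : (e * lam * w2 + B) ^ 2 = (e * lam * w2 - B) ^ 2 + 4 * w2 * ((e * lam) * B) := by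
        ring
      rw [h2, hBl]
      have := sq_nonneg (e * lam * w2 - B)
      linarith only [hκ, this]
    exact (le_abs_self _).trans (abs_le_of_sq_le_sq h1 (by (clear * - he hl0 hw hB0; positivity)))
  have hq : 0 < t * (1 + u) := by positivity
  -- `q / lam ≤ t E`
  have hqB : t * (1 + u) * B ≤ 16 * C3 ^ 2 / e * (t * E) * aS := by
    have h1 : (1 + u) ≤ lam * E := by
      rw [hlam, add_mul, div_mul_cancel₀ _ (by linarith only [hE0] : E ≠ 0)]
      have : 0 < u * E := by (clear * - hu hE0; positivity)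
      linarith only [this]
    have h2 : B = 16 * C3 ^ 2 / e * aS / lam := by
      rw [hB]; (clear * - hl0 he; field_simp)
    rw [h2]
    have h3 : t * (1 + u) * (16 * C3 ^ 2 / e * aS / lam)
        = (1 + u) / lam * (t * (16 * C3 ^ 2 / e * aS)) := by ring
    have h4 : (1 + u) / lam ≤ E := by
      rw [div_le_iff₀ hl0]; linarith only [h1]
    rw [h3]
    have h5 : 0 ≤ t * (16 * C3 ^ 2 / e * aS) := by (clear * - ht he haS; positivity)
    have h6 := mul_le_mul_of_nonneg_right h4 h5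
    linarith only [h6]
  have hmain : 4 * (t * (1 + u)) * κ ≤ t * (1 + u) * (u * kW + (1 + u) * mW)
      + 16 * C3 ^ 2 / e * (t * E) * aS := by
    have h1 : t * (1 + u) * (4 * κ) ≤ t * (1 + u) * (e * lam * w2 + B) :=
      mul_le_mul_of_nonneg_left hk hq.le
    have h2 : t * (1 + u) * (e * lam * w2) ≤ t * (1 + u) * (u * kW + (1 + u) * mW) :=
      mul_le_mul_of_nonneg_left hS1 hq.le
    linarith only [hqB, h1, h2]
  have hN' : -(2 * t * (C4 * aS)) ≤ 2 * t * N4 := by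
    have := mul_le_mul_of_nonneg_left (abs_le.1 hN).1 (by positivity : 0 ≤ 2 * t)
    linarith only [this]
  have hD' : 4 * t ^ 2 * D ≤ 8 * t ^ 2 * C3 ^ 2 * aS := by
    have := mul_le_mul_of_nonneg_left (abs_le.1 hD).2 (by positivity : 0 ≤ 4 * t ^ 2)
    linarith only [this]
  have hE2 : t * E ≤ (1 + 2 * c) * (t + t ^ 2) := by
    have : (1 + 2 * c) * (t + t ^ 2) - t * E = t ^ 2 + 2 * c * t := by rw [hE]; ring
    have : 0 ≤ t ^ 2 + 2 * c * t := by (clear * - ht hc; positivity)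
    (clear e C3 C4 u aS w2 kW mW N4 D κ he hu h4 haS hw hkW hmW hN hD hκ hE0 lam hlam hl0 hmW' hS1 B hB hB0 hBl hA0 hk hq hqB hmain hN' hD'; linarith)
  have hE3 : 16 * C3 ^ 2 / e * (t * E) * aS
      ≤ 16 * C3 ^ 2 / e * ((1 + 2 * c) * (t + t ^ 2)) * aS := by
    apply mul_le_mul_of_nonneg_right _ haS
    apply mul_le_mul_of_nonneg_left hE2
    (clear * - he; positivity)
  have hC4 : 2 * t * (C4 * aS) ≤ 2 * C4 * (t + t ^ 2) * aS := by
    have : 0 ≤ C4 * aS * t ^ 2 := by (clear * - h4 haS ht; positivity)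
    linarith only [this]
  have hC3 : 8 * t ^ 2 * C3 ^ 2 * aS ≤ 8 * C3 ^ 2 * (t + t ^ 2) * aS := by
    have : 0 ≤ C3 ^ 2 * aS * t := by (clear * - haS ht; positivity)
    linarith only [this]
  have hfin : (2 * C4 + 8 * C3 ^ 2 + 16 * C3 ^ 2 / e * (1 + 2 * c)) * (t + t ^ 2) * aS
      = 2 * C4 * (t + t ^ 2) * aS + 8 * C3 ^ 2 * (t + t ^ 2) * aS
        + 16 * C3 ^ 2 / e * ((1 + 2 * c) * (t + t ^ 2)) * aS := by ring
  rw [hfin]
  linarith only [hmain, hN', hD', hE3, hC4, hC3]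

/-- Case `t` small. -/
theorem case_small (δ u t q ν B T : ℝ) (hδ : 0 < δ) (hδ2 : δ ≤ 1 / 2) (hu : 0 < u)
    (ht : t = δ * u) (hq : q = t * (1 + u)) (hT : 0 ≤ T) (hB : B ^ 2 ≤ (1 + u) ^ 2 * T) :
    4 * q ^ 2 * ν ^ 2 - 8 * (δ + t) * (1 + t) * T
      ≤ 4 * q * (u * (1 + u) * ν ^ 2 + 2 * ν * B + T) := by
  -- completing the square
  have h1 : 0 < (1 - δ) * (u * (1 + u)) := by
    have : 0 < 1 - δ := by linarith
    (clear * - this hu; positivity)
  have h2 : -(B ^ 2 / ((1 - δ) * (u * (1 + u)))) ≤ (1 - δ) * (u * (1 + u)) * ν ^ 2 + 2 * ν * B := by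
    have h3 : (1 - δ) * (u * (1 + u)) * ν ^ 2 + 2 * ν * B + B ^ 2 / ((1 - δ) * (u * (1 + u)))
        = ((1 - δ) * (u * (1 + u)) * ν + B) ^ 2 / ((1 - δ) * (u * (1 + u))) := by
      obtain ⟨G, hG⟩ : ∃ G, G = (1 - δ) * (u * (1 + u)) := ⟨_, rfl⟩
      rw [← hG] at h1 ⊢
      have := h1.ne'
      field_simp
      ring
    have h4 : 0 ≤ ((1 - δ) * (u * (1 + u)) * ν + B) ^ 2 / ((1 - δ) * (u * (1 + u))) := by
      (clear * - h1; positivity)
    linarith only [h3, h4]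
  have h3 : B ^ 2 / ((1 - δ) * (u * (1 + u))) ≤ (1 + u) / ((1 - δ) * u) * T := by
    rw [div_le_iff₀ h1]
    have h4 : (1 + u) / ((1 - δ) * u) * T * ((1 - δ) * (u * (1 + u))) = (1 + u) ^ 2 * T := by
      have : (1 - δ) ≠ 0 := by linarith only [hδ2]
      (clear * - hu this; field_simp)
    rw [h4]; exact hB
  have hq0 : 0 < q := by rw [hq, ht]; positivity
  have h5 : 4 * q * (δ * (u * (1 + u)) * ν ^ 2 + (T - (1 + u) / ((1 - δ) * u) * T))
      ≤ 4 * q * (u * (1 + u) * ν ^ 2 + 2 * ν * B + T) := by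
    apply mul_le_mul_of_nonneg_left _ (by positivity)
    linarith
  have h6 : 4 * q * (δ * (u * (1 + u)) * ν ^ 2) = 4 * q ^ 2 * ν ^ 2 := by
    rw [hq, ht]; ring
  have h7 : 4 * q * ((1 + u) / ((1 - δ) * u) * T - T) ≤ 8 * (δ + t) * (1 + t) * T := by
    have hd : (1 - δ) ≠ 0 := by linarith only [hδ2]
    have hd' : 0 < 1 - δ := by linarith only [hδ2]
    have h8 : 4 * q * ((1 + u) / ((1 - δ) * u) * T - T)
        = (4 * δ * (1 + u) * (1 + t) * T) / (1 - δ) := by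
      rw [hq, ht]
      field_simp
      ring
    rw [h8, div_le_iff₀ hd']
    have h9 : δ * (1 + u) = δ + t := by rw [ht]; ring
    have h10 : 0 ≤ (δ + t) * (1 + t) * T := by
      have : 0 < t := by rw [ht]; positivity
      (clear * - hδ this hT; positivity)
    have h11 : 4 * δ * (1 + u) * (1 + t) * T = 4 * ((δ + t) * (1 + t) * T) := by
      rw [← h9]; ring
    rw [h11]
    nlinarith only [hδ2, h10]
  linarith

/-- Case `t` not small: `u` is large. -/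
theorem case_large (u q ν k m T η c1 : ℝ) (hu : 0 < u) (hq : 0 < q)
    (hT : 0 ≤ T) (hc1 : 0 < c1) (hc1' : c1 < 1) (hη : η ≤ 1 - 2 * c1)
    (hkm : (k + m) ^ 2 ≤ η * T) (hm : m ^ 2 ≤ T) (hbig : 3 ≤ c1 * u) :
    2 * c1 * q * (u * (1 + u) * ν ^ 2 + T)
      ≤ 4 * q * (u * (1 + u) * ν ^ 2 + 2 * ν * (-(u * k + (1 + u) * m)) + T) := by
  have hη1 : (k + m) ^ 2 ≤ (1 - 2 * c1) * T :=
    hkm.trans (mul_le_mul_of_nonneg_right hη hT)
  have hcross : (k + m) * m ≤ T := by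
    have h1 : 0 ≤ (k + m - m) ^ 2 := sq_nonneg _
    have h2 : 0 ≤ c1 * T := by (clear * - hc1 hT; positivity)
    linarith only [hm, hη1, h1, h2]
  have hB : (u * k + (1 + u) * m) ^ 2 ≤ (1 - c1) * (u * (1 + u)) * T := by
    have h1 : (u * k + (1 + u) * m) ^ 2 = u ^ 2 * (k + m) ^ 2 + 2 * u * ((k + m) * m) + m ^ 2 := by
      ring
    have h2 : u ^ 2 * (k + m) ^ 2 ≤ u ^ 2 * ((1 - 2 * c1) * T) :=
      mul_le_mul_of_nonneg_left hη1 (sq_nonneg u)
    have h3 : 2 * u * ((k + m) * m) ≤ 2 * u * T :=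
      mul_le_mul_of_nonneg_left hcross (by positivity)
    have h4 : 2 * u + 1 ≤ c1 * u * u := by nlinarith only [hc1', hbig, hu]
    have h5 : (2 * u + 1) * T ≤ c1 * u * u * T := mul_le_mul_of_nonneg_right h4 hT
    have h6 : 0 ≤ (1 - c1) * u * T := by
      have : 0 ≤ 1 - c1 := by linarith only [hc1']
      (clear * - hc1' hu hT; positivity)
    rw [h1]
    linarith only [hm, h2, h3, h5, h6]
  obtain ⟨B, hBd⟩ : ∃ B, B = u * k + (1 + u) * m := ⟨_, rfl⟩
  rw [← hBd] at hB ⊢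
  obtain ⟨Q, hQ⟩ : ∃ Q, Q = u * (1 + u) * ν ^ 2 := ⟨_, rfl⟩
  have hQ0 : 0 ≤ Q := by rw [hQ]; (clear * - hu; positivity)
  rw [← hQ]
  have hnu : |2 * ν * B| ≤ (1 - c1 / 2) * (Q + T) := by
    apply abs_le_of_sq_le_sq
    · have h1 : (2 * ν * B) ^ 2 ≤ 4 * (1 - c1) * (Q * T) := by
        have h2 := mul_le_mul_of_nonneg_left hB (by (clear * -; positivity) : 0 ≤ 4 * ν ^ 2)
        rw [hQ]
        linarith only [h2]
      have h3 : 4 * (Q * T) ≤ (Q + T) ^ 2 := by linarith only [sq_nonneg (Q - T)]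
      have h4 : 4 * (1 - c1) * (Q * T) ≤ (1 - c1) * (Q + T) ^ 2 := by
        have h5 := mul_le_mul_of_nonneg_left h3 (by linarith only [hc1'] : 0 ≤ 1 - c1)
        linarith only [h5]
      have h5 : (1 - c1) * (Q + T) ^ 2 ≤ ((1 - c1 / 2) * (Q + T)) ^ 2 := by
        have : ((1 - c1 / 2) * (Q + T)) ^ 2 - (1 - c1) * (Q + T) ^ 2
          = (c1 / 2 * (Q + T)) ^ 2 := by ring
        have := sq_nonneg (c1 / 2 * (Q + T))
        linarith only [this]
      linarith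
    · have : 0 ≤ 1 - c1 / 2 := by linarith only [hc1']
      (clear * - this hQ0 hT; positivity)
  have h1 : 2 * ν * B ≤ (1 - c1 / 2) * (Q + T) := (le_abs_self _).trans hnu
  have h2 : c1 / 2 * (Q + T) ≤ Q + 2 * ν * (-B) + T := by linarith only [h1]
  have h3 := mul_le_mul_of_nonneg_left h2 (by positivity : 0 ≤ 4 * q)
  linarith only [h3]

/-- Upper bound for the area. -/
theorem area_bound (c t q ν aS aH hI w2 kW : ℝ) (ht : 0 < t) (hq : 0 < q)
    (hkW : kW ≤ c * w2) (haH : aH ≤ (1 + 2 * t * c) ^ 2 * aS) (hI2 : hI ^ 2 ≤ aH) :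
    aH + q * (w2 + 2 * t * kW) + 2 * q * ν * hI + q ^ 2 * ν ^ 2
      ≤ 2 * ((1 + 2 * t * c) ^ 2 * aS) + q * (1 + 2 * t * c) * w2 + 2 * (q ^ 2 * ν ^ 2) := by
  have h1 : 2 * q * ν * hI ≤ q ^ 2 * ν ^ 2 + hI ^ 2 := by
    have := sq_nonneg (q * ν - hI)
    have h2 : (q * ν - hI) ^ 2 = q ^ 2 * ν ^ 2 + hI ^ 2 - 2 * q * ν * hI := by ring
    (clear * - this; linarith)
  have h2 : q * (2 * t) * kW ≤ q * (2 * t) * (c * w2) :=
    mul_le_mul_of_nonneg_left hkW (by positivity)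
  linarith only [haH, hI2, h1, h2]

theorem lower_small (e c C3 C4 CE t0 : ℝ) (he : 0 < e) (hc : 0 < c) (h4 : 0 < C4)
    (hCE : CE = 2 * C4 + 8 * C3 ^ 2 + 16 * C3 ^ 2 / e * (1 + 2 * c))
    (ht0 : 0 < t0) (ht0' : t0 ≤ 1 / 2) (hsmall : 96 * c ^ 2 * t0 + 3 / 2 * CE * t0 ≤ 1 / 2)
    (a : ℝ) (ha : 0 < a) (ha1 : a * (4 * (1 + 2 * c) ^ 2) ≤ 1) (ha2 : a * (1 + 2 * c) ^ 2 ≤ e)
    (ha3 : a ≤ 2)
    (δ u t q : ℝ) (hδ : 0 < δ) (hδ0 : δ ≤ t0) (hu : 0 < u) (ht : t = δ * u) (htt : t ≤ t0)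
    (hq : q = t * (1 + u))
    (aS aK sI kI mI ν kW mW w2 N4 D κ aH hI : ℝ)
    (haS : 0 ≤ aS) (hw2 : 0 ≤ w2) (haK : aK ≤ c ^ 2 * aS)
    (hkI : kI ^ 2 ≤ aK) (hmI : mI ^ 2 ≤ aK)
    (hkey : (kI + mI) ^ 2 ≤ (aK + 3 * kI ^ 2))
    (hkW : e * w2 ≤ kW) (hkW' : kW ≤ c * w2) (hmW : kW ≤ (1 + 2 * t * c) * mW)
    (hN : |N4| ≤ C4 * aS) (hD : |D| ≤ 2 * C3 ^ 2 * aS) (hκ : κ ^ 2 ≤ 4 * C3 ^ 2 * w2 * aS)
    (haH : aH ≤ (1 + 2 * t * c) ^ 2 * aS) (hI2 : hI ^ 2 ≤ aH) :
    a * (aH + q * (w2 + 2 * t * kW) + 2 * q * ν * hI + q ^ 2 * ν ^ 2)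
      ≤ aS + 3 * sI ^ 2 + 4 * δ * (u * (1 + u)) ^ 2 * ν ^ 2
        + 2 * q * (u * kW + (1 + u) * mW) + 8 * q * ν * (-(u * kI + (1 + u) * mI))
        + 4 * q * (aK + 3 * kI ^ 2) + 2 * t * N4 - 4 * t ^ 2 * D - 4 * q * κ := by
  have ht' : 0 < t := by rw [ht]; (clear * - hδ hu; positivity)
  have hq' : 0 < q := by rw [hq]; (clear * - ht' hu; positivity)
  have hCE0 : 0 < CE := by rw [hCE]; (clear * - h4 he hc; positivity)
  have har := area_bound c t q ν aS aH hI w2 kW ht' hq' hkW' haH hI2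
  have herr := err_bound e c C3 C4 t u aS w2 kW mW N4 D κ he hc ht' hu h4 haS hw2 hkW hmW hN hD hκ
  rw [← hCE, ← hq] at herr
  have hkI0 := sq_nonneg kI
  have hT0 : 0 ≤ aK + 3 * kI ^ 2 := by linarith only [hkI, hkI0]
  have hT4 : aK + 3 * kI ^ 2 ≤ 4 * (c ^ 2 * aS) := by linarith only [haK, hkI]
  have hmT : mI ^ 2 ≤ aK + 3 * kI ^ 2 := by linarith only [hmI, hkI0]
  have hB : (-(u * kI + (1 + u) * mI)) ^ 2 ≤ (1 + u) ^ 2 * (aK + 3 * kI ^ 2) := by
    have hcross : 2 * ((kI + mI) * mI) ≤ 2 * (aK + 3 * kI ^ 2) := by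
      have h1 := sq_nonneg (kI + mI - mI)
      have h2 : (kI + mI - mI) ^ 2 = (kI + mI) ^ 2 + mI ^ 2 - 2 * ((kI + mI) * mI) := by ring
      linarith only [hmI, hkey, hkI0]
    have h1 : (-(u * kI + (1 + u) * mI)) ^ 2
        = u ^ 2 * (kI + mI) ^ 2 + u * (2 * ((kI + mI) * mI)) + mI ^ 2 := by ring
    have h2 := mul_le_mul_of_nonneg_left hkey (sq_nonneg u)
    have h3 := mul_le_mul_of_nonneg_left hcross hu.le
    rw [h1]
    linarith only [hmI, hkI0, h2, h3]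
  have hcs := case_small δ u t q ν (-(u * kI + (1 + u) * mI)) (aK + 3 * kI ^ 2) hδ
    (hδ0.trans ht0') hu ht hq hT0 hB
  -- losses
  have hl1 : 8 * (δ + t) * (1 + t) * (aK + 3 * kI ^ 2) ≤ 96 * c ^ 2 * t0 * aS := by
    have h1 : (δ + t) * (1 + t) ≤ (2 * t0) * (3 / 2) := by
      apply mul_le_mul (by linarith only [hδ0, htt]) (by linarith only [ht0', htt]) (by linarith only [ht']) (by linarith only [ht0])
    have h2 : (δ + t) * (1 + t) * (aK + 3 * kI ^ 2) ≤ (2 * t0) * (3 / 2) * (4 * (c ^ 2 * aS)) :=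
      mul_le_mul h1 hT4 hT0 (by linarith only [ht0])
    linarith only [h2]
  have hl2 : CE * (t + t ^ 2) * aS ≤ 3 / 2 * CE * t0 * aS := by
    apply mul_le_mul_of_nonneg_right _ haS
    have h1 : t + t ^ 2 ≤ 3 / 2 * t0 := by
      have : t * t ≤ t0 * (1 / 2) := mul_le_mul htt (by linarith only [ht0', htt]) ht'.le ht0.le
      have h2 : t ^ 2 = t * t := sq t
      linarith only [htt, this]
    have := mul_le_mul_of_nonneg_left h1 hCE0.le
    linarith only [this]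
  have hl3 : 96 * c ^ 2 * t0 * aS + 3 / 2 * CE * t0 * aS ≤ 1 / 2 * aS := by
    have := mul_le_mul_of_nonneg_right hsmall haS
    linarith only [this]
  -- area terms
  have hE : 1 + 2 * t * c ≤ 1 + 2 * c := by
    have : t * c ≤ 1 * c := mul_le_mul_of_nonneg_right (by linarith only [ht0', htt]) hc.le
    linarith only [this]
  have hE0 : 0 < 1 + 2 * t * c := by (clear * - ht' hc; positivity)
  have hEE : (1 + 2 * t * c) ^ 2 ≤ (1 + 2 * c) ^ 2 := pow_le_pow_left₀ hE0.le hE 2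
  have hA1 : a * (2 * ((1 + 2 * t * c) ^ 2 * aS)) ≤ 1 / 2 * aS := by
    have h1 : (1 + 2 * t * c) ^ 2 * aS ≤ (1 + 2 * c) ^ 2 * aS :=
      mul_le_mul_of_nonneg_right hEE haS
    have h2 := mul_le_mul_of_nonneg_left h1 ha.le
    have h3 := mul_le_mul_of_nonneg_right ha1 haS
    linarith only [h2, h3]
  have hmW0 : 0 ≤ mW := by
    have h1 : 0 ≤ (1 + 2 * t * c) * mW := by
      have : 0 ≤ e * w2 := by (clear * - he hw2; positivity)
      linarith only [hkW, hmW, this]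
    exact nonneg_of_mul_nonneg_right h1 hE0
  have hkW0 : 0 ≤ kW := by
    have : 0 ≤ e * w2 := by (clear * - he hw2; positivity)
    linarith only [hkW, this]
  have hA2 : a * (q * (1 + 2 * t * c) * w2) ≤ q * (u * kW + (1 + u) * mW) := by
    have h1 : a * (1 + 2 * t * c) * w2 ≤ mW := by
      -- (1+2tc) * (a (1+2tc) w2) ≤ e w2 ≤ kW ≤ (1+2tc) mW
      have h2 : (1 + 2 * t * c) * (a * (1 + 2 * t * c) * w2) ≤ (1 + 2 * t * c) * mW := by
        have h3 : a * (1 + 2 * t * c) ^ 2 ≤ e :=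
          (mul_le_mul_of_nonneg_left hEE ha.le).trans ha2
        have h4 := mul_le_mul_of_nonneg_right h3 hw2
        linarith only [hkW, hmW, h4]
      exact le_of_mul_le_mul_left h2 hE0
    have h2 : mW ≤ u * kW + (1 + u) * mW := by
      have : 0 ≤ u * kW := by (clear * - hu hkW0; positivity)
      have : 0 ≤ u * mW := by (clear * - hu hmW0; positivity)
      (clear C3 C4 CE t0 h4 hCE ht0 ht0' hsmall a ha ha1 ha2 ha3 q hδ0 htt hq aS aK sI kI mI ν N4 D κ aH hI haS haK hkI hmI hkey hkW' hN hD hκ haH hI2 hq' hCE0 har herr hkI0 hT0 hT4 hmT hB hcs hl1 hl2 hl3 hE hEE hA1 h1; linarith)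
    have h3 := mul_le_mul_of_nonneg_left (h1.trans h2) hq'.le
    linarith only [h3]
  have hA3 : a * (2 * (q ^ 2 * ν ^ 2)) ≤ 4 * q ^ 2 * ν ^ 2 := by
    have := mul_le_mul_of_nonneg_right ha3 (by (clear * - hq'; positivity) : 0 ≤ 2 * (q ^ 2 * ν ^ 2))
    linarith only [this]
  have hA := mul_le_mul_of_nonneg_left har ha.le
  have hs : 0 ≤ 3 * sI ^ 2 := by (clear * -; positivity)
  have hid : 4 * δ * (u * (1 + u)) ^ 2 * ν ^ 2 + 8 * q * ν * (-(u * kI + (1 + u) * mI))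
      + 4 * q * (aK + 3 * kI ^ 2)
      = 4 * q * (u * (1 + u) * ν ^ 2 + 2 * ν * (-(u * kI + (1 + u) * mI))
        + (aK + 3 * kI ^ 2)) := by
    rw [hq, ht]; ring
  linarith only [herr, hcs, hl1, hl2, hl3, hA1, hA2, hA3, hA, hs, hid]

theorem lower_large (e c C3 C4 CE t0 c1 η : ℝ) (he : 0 < e) (hc : 0 < c) (h4 : 0 < C4)
    (hCE : CE = 2 * C4 + 8 * C3 ^ 2 + 16 * C3 ^ 2 / e * (1 + 2 * c))
    (ht0 : 0 < t0) (hc1 : 0 < c1) (hc1' : c1 < 1) (hη : η ≤ 1 - 2 * c1)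
    (a : ℝ) (ha : 0 < a) (ha1 : a * 4 ≤ 1) (ha2 : a * (16 * c ^ 2) ≤ c1 * e ^ 2)
    (ha3 : a * 2 ≤ e) (ha4 : a * (4 * c) ≤ e) (ha5 : a ≤ c1)
    (δ u t q : ℝ) (hδ : 0 < δ) (hδ0 : δ ≤ 1) (hu : 0 < u) (hbig : 3 ≤ c1 * u)
    (hδ1 : δ * (CE * (1 / t0 + 1)) ≤ c1 * e ^ 2)
    (ht : t = δ * u) (htt : t0 ≤ t)
    (hq : q = t * (1 + u))
    (aS aK sI kI mI ν kW mW w2 N4 D κ aH hI : ℝ)
    (haS : 0 ≤ aS) (hw2 : 0 ≤ w2) (haK : e ^ 2 * aS ≤ aK)
    (hkI : kI ^ 2 ≤ aK) (hmI : mI ^ 2 ≤ aK)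
    (hkey : (kI + mI) ^ 2 ≤ η * (aK + 3 * kI ^ 2))
    (hkW : e * w2 ≤ kW) (hkW' : kW ≤ c * w2) (hmW : kW ≤ (1 + 2 * t * c) * mW)
    (hN : |N4| ≤ C4 * aS) (hD : |D| ≤ 2 * C3 ^ 2 * aS) (hκ : κ ^ 2 ≤ 4 * C3 ^ 2 * w2 * aS)
    (haH : aH ≤ (1 + 2 * t * c) ^ 2 * aS) (hI2 : hI ^ 2 ≤ aH) :
    a * (aH + q * (w2 + 2 * t * kW) + 2 * q * ν * hI + q ^ 2 * ν ^ 2)
      ≤ aS + 3 * sI ^ 2 + 4 * δ * (u * (1 + u)) ^ 2 * ν ^ 2
        + 2 * q * (u * kW + (1 + u) * mW) + 8 * q * ν * (-(u * kI + (1 + u) * mI))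
        + 4 * q * (aK + 3 * kI ^ 2) + 2 * t * N4 - 4 * t ^ 2 * D - 4 * q * κ := by
  have ht' : 0 < t := by rw [ht]; (clear * - hδ hu; positivity)
  have hq' : 0 < q := by rw [hq]; (clear * - ht' hu; positivity)
  have hCE0 : 0 < CE := by rw [hCE]; (clear * - h4 he hc; positivity)
  have har := area_bound c t q ν aS aH hI w2 kW ht' hq' hkW' haH hI2
  have herr := err_bound e c C3 C4 t u aS w2 kW mW N4 D κ he hc ht' hu h4 haS hw2 hkW hmW hN hD hκ
  rw [← hCE, ← hq] at herr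
  have hkI0 := sq_nonneg kI
  have hT0 : 0 ≤ aK + 3 * kI ^ 2 := by linarith only [hkI, hkI0]
  have hTe : e ^ 2 * aS ≤ aK + 3 * kI ^ 2 := by linarith only [haK, hkI0]
  have hmT : mI ^ 2 ≤ aK + 3 * kI ^ 2 := by linarith only [hmI, hkI0]
  have hcl := case_large u q ν kI mI (aK + 3 * kI ^ 2) η c1 hu hq' hT0 hc1 hc1' hη hkey hmT hbig
  have hu3 : 3 ≤ u := by
    have : c1 * u ≤ 1 * u := mul_le_mul_of_nonneg_right hc1'.le hu.le
    linarith only [hbig, this]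
  have htu : t ≤ u := by
    rw [ht]
    have := mul_le_mul_of_nonneg_right hδ0 hu.le
    linarith only [this]
  have hE0 : 0 < 1 + 2 * t * c := by (clear * - ht' hc; positivity)
  have hmW0 : 0 ≤ mW := by
    have h1 : 0 ≤ (1 + 2 * t * c) * mW := by
      have : 0 ≤ e * w2 := by (clear * - he hw2; positivity)
      linarith only [hkW, hmW, this]
    exact nonneg_of_mul_nonneg_right h1 hE0
  -- errors
  have hl : CE * (t + t ^ 2) * aS ≤ c1 * e ^ 2 * (t * u) * aS := by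
    apply mul_le_mul_of_nonneg_right _ haS
    have h1 : t + t ^ 2 ≤ (1 / t0 + 1) * t ^ 2 := by
      have h2 : t0 * t ≤ t * t := mul_le_mul_of_nonneg_right htt ht'.le
      have h3 : t ≤ 1 / t0 * t ^ 2 := by
        rw [one_div, ← div_eq_inv_mul, le_div_iff₀ ht0]
        linarith only [h2]
      linarith only [h3]
    have h2 := mul_le_mul_of_nonneg_left h1 hCE0.le
    have h3 : CE * ((1 / t0 + 1) * t ^ 2) = δ * (CE * (1 / t0 + 1)) * (t * u) := by
      rw [ht]; ring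
    have h4 : δ * (CE * (1 / t0 + 1)) * (t * u) ≤ c1 * e ^ 2 * (t * u) :=
      mul_le_mul_of_nonneg_right hδ1 (by (clear * - ht' hu; positivity))
    linarith only [h2, h3, h4]
  have hqT : 2 * c1 * e ^ 2 * (t * u) * aS ≤ 2 * c1 * q * (aK + 3 * kI ^ 2) := by
    have h1 : t * u ≤ q := by
      rw [hq]; linarith only [ht0, htt]
    have h2 : (t * u) * (e ^ 2 * aS) ≤ q * (aK + 3 * kI ^ 2) :=
      mul_le_mul h1 hTe (by (clear * - he haS; positivity)) hq'.le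
    have h3 := mul_le_mul_of_nonneg_left h2 (by positivity : 0 ≤ 2 * c1)
    linarith only [h3]
  -- area terms
  have hA1 : a * (2 * ((1 + 2 * t * c) ^ 2 * aS)) ≤ aS + c1 * e ^ 2 * (t * u) * aS := by
    have h1 : 2 * (1 + 2 * t * c) ^ 2 ≤ 4 + 16 * c ^ 2 * t ^ 2 := by
      have := sq_nonneg (1 - 2 * t * c)
      have h2 : (1 - 2 * t * c) ^ 2 = 2 + 8 * c ^ 2 * t ^ 2 - (1 + 2 * t * c) ^ 2 := by ring
      linarith only [this]
    have h2 : a * (2 * (1 + 2 * t * c) ^ 2) ≤ 1 + c1 * e ^ 2 * (t * u) := by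
      have h3 := mul_le_mul_of_nonneg_left h1 ha.le
      have h4 : t ^ 2 ≤ t * u := by
        rw [sq]; exact mul_le_mul_of_nonneg_left htu ht'.le
      have h5 : a * (16 * c ^ 2) * t ^ 2 ≤ c1 * e ^ 2 * (t * u) :=
        mul_le_mul ha2 h4 (sq_nonneg t) (by positivity)
      linarith only [ha1, h3, h5]
    have h3 := mul_le_mul_of_nonneg_right h2 haS
    linarith only [h3]
  have hA2 : a * (q * (1 + 2 * t * c) * w2) ≤ q * (u * kW + (1 + u) * mW) := by
    have h1 : a * (1 + 2 * t * c) ≤ e * u := by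
      have h2 : a * (4 * c) * t ≤ e * t := mul_le_mul_of_nonneg_right ha4 ht'.le
      have h3 : e * (1 + t) ≤ e * (2 * u) := mul_le_mul_of_nonneg_left (by linarith only [hu3, htu]) he.le
      linarith only [ha3, h2, h3]
    have h2 : a * (1 + 2 * t * c) * w2 ≤ u * kW + (1 + u) * mW := by
      have h3 := mul_le_mul_of_nonneg_right h1 hw2
      have h4 : u * (e * w2) ≤ u * kW := mul_le_mul_of_nonneg_left hkW hu.le
      have h5 : 0 ≤ (1 + u) * mW := by (clear * - hu hmW0; positivity)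
      linarith only [h3, h4, h5]
    have h3 := mul_le_mul_of_nonneg_left h2 hq'.le
    linarith only [h3]
  have hA3 : a * (2 * (q ^ 2 * ν ^ 2)) ≤ 2 * c1 * q * (u * (1 + u) * ν ^ 2) := by
    have h1 : q ≤ u * (1 + u) := by
      rw [hq]; exact mul_le_mul_of_nonneg_right htu (by positivity)
    have h2 : a * q ≤ c1 * (u * (1 + u)) := mul_le_mul ha5 h1 hq'.le hc1.le
    have h3 := mul_le_mul_of_nonneg_right h2 (by (clear * - hq'; positivity) : 0 ≤ 2 * (q * ν ^ 2))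
    have h4 : a * (2 * (q ^ 2 * ν ^ 2)) = a * q * (2 * (q * ν ^ 2)) := by ring
    rw [h4]
    linarith only [h3]
  have hA := mul_le_mul_of_nonneg_left har ha.le
  have hs : 0 ≤ 3 * sI ^ 2 := by (clear * -; positivity)
  have hid : 4 * δ * (u * (1 + u)) ^ 2 * ν ^ 2 + 8 * q * ν * (-(u * kI + (1 + u) * mI))
      + 4 * q * (aK + 3 * kI ^ 2)
      = 4 * q * (u * (1 + u) * ν ^ 2 + 2 * ν * (-(u * kI + (1 + u) * mI))
        + (aK + 3 * kI ^ 2)) := by
    rw [hq, ht]; ring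
  linarith only [herr, hcl, hl, hqT, hA1, hA2, hA3, hA, hs, hid]

/-- The real inequality behind `alg_lower`. -/
theorem real_lower (e c C3 C4 : ℝ) (he : 0 < e) (hc : 0 < c) (h4 : 0 < C4) :
    ∃ δ0 > 0, ∀ δ, 0 < δ → δ < δ0 → ∃ a > 0, ∀ u > 0,
    ∀ (aS aK sI kI mI ν kW mW w2 N4 D κ aH hI : ℝ), 0 ≤ aS → 0 ≤ w2 →
    e ^ 2 * aS ≤ aK → aK ≤ c ^ 2 * aS → kI ^ 2 ≤ aK → mI ^ 2 ≤ aK →
    (∀ θ, 0 ≤ θ → θ ≤ 1 → 1 ≤ (1 + 2 * (δ * u) * e) * (1 - θ) →
      (kI + mI) ^ 2 ≤ (1 - θ + θ ^ 2 / 3) * (aK + 3 * kI ^ 2)) →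
    e * w2 ≤ kW → kW ≤ c * w2 → kW ≤ (1 + 2 * (δ * u) * c) * mW →
    |N4| ≤ C4 * aS → |D| ≤ 2 * C3 ^ 2 * aS → κ ^ 2 ≤ 4 * C3 ^ 2 * w2 * aS →
    aH ≤ (1 + 2 * (δ * u) * c) ^ 2 * aS → hI ^ 2 ≤ aH →
    a * (aH + (δ * u * (1 + u)) * (w2 + 2 * (δ * u) * kW) + 2 * (δ * u * (1 + u)) * ν * hI
        + (δ * u * (1 + u)) ^ 2 * ν ^ 2)
      ≤ aS + 3 * sI ^ 2 + 4 * δ * (u * (1 + u)) ^ 2 * ν ^ 2
        + 2 * (δ * u * (1 + u)) * (u * kW + (1 + u) * mW)
        + 8 * (δ * u * (1 + u)) * ν * (-(u * kI + (1 + u) * mI))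
        + 4 * (δ * u * (1 + u)) * (aK + 3 * kI ^ 2) + 2 * (δ * u) * N4
        - 4 * (δ * u) ^ 2 * D - 4 * (δ * u * (1 + u)) * κ := by
  obtain ⟨CE, hCE⟩ : ∃ CE, CE = 2 * C4 + 8 * C3 ^ 2 + 16 * C3 ^ 2 / e * (1 + 2 * c) := ⟨_, rfl⟩
  have hCE0 : 0 < CE := by rw [hCE]; positivity
  obtain ⟨t0, ht0d⟩ : ∃ t0, t0 = 1 / (256 * c ^ 2 + 4 * CE + 2) := ⟨_, rfl⟩
  have hden : 0 < 256 * c ^ 2 + 4 * CE + 2 := by positivity
  have ht0 : 0 < t0 := by rw [ht0d]; positivity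
  have ht0e : t0 * (256 * c ^ 2 + 4 * CE + 2) = 1 := by
    rw [ht0d]; field_simp
  have hcc : 0 ≤ c ^ 2 * t0 := by (clear * - hc ht0; positivity)
  have hct : 0 ≤ CE * t0 := by (clear * - hCE0 ht0; positivity)
  have ht0' : t0 ≤ 1 / 2 := by linarith
  have hsmall : 96 * c ^ 2 * t0 + 3 / 2 * CE * t0 ≤ 1 / 2 := by linarith only [ht0, ht0e]
  obtain ⟨θ, hθ⟩ : ∃ θ, θ = 2 * t0 * e / (1 + 2 * t0 * e) := ⟨_, rfl⟩
  have hd1 : 0 < 1 + 2 * t0 * e := by positivity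
  have hθ0 : 0 < θ := by rw [hθ]; positivity
  have hθ1 : θ < 1 := by
    rw [hθ, div_lt_one hd1]; linarith only []
  have hθe : (1 + 2 * t0 * e) * (1 - θ) = 1 := by
    rw [hθ]; field_simp; ring
  have hη : 1 - θ + θ ^ 2 / 3 ≤ 1 - 2 * (θ / 3) := by
    have : θ * θ ≤ θ * 1 := mul_le_mul_of_nonneg_left hθ1.le hθ0.le
    have h2 : θ ^ 2 = θ * θ := sq θ
    linarith only [this]
  -- constants
  obtain ⟨a, ha, a1, a2, a3, a4, a5, a6, a7, a8⟩ : ∃ a : ℝ, 0 < a ∧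
      a * (4 * (1 + 2 * c) ^ 2) ≤ 1 ∧ a * (1 + 2 * c) ^ 2 ≤ e ∧ a ≤ 2 ∧
      a * 4 ≤ 1 ∧ a * (16 * c ^ 2) ≤ θ / 3 * e ^ 2 ∧ a * 2 ≤ e ∧ a * (4 * c) ≤ e ∧ a ≤ θ / 3 := by
    have key : ∀ A B : ℝ, 0 < A → 0 < B → ∃ x > 0, ∀ y, y ≤ x → y * A ≤ B := by
      intro A B hA hB
      refine ⟨B / A, by (clear * - hB hA; positivity), fun y hy => ?_⟩
      exact (le_div_iff₀ hA).1 hy
    obtain ⟨x1, p1, q1⟩ := key (4 * (1 + 2 * c) ^ 2) 1 (by positivity) one_pos
    obtain ⟨x2, p2, q2⟩ := key ((1 + 2 * c) ^ 2) e (by positivity) he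
    obtain ⟨x4, p4, q4⟩ := key 4 1 (by norm_num) one_pos
    obtain ⟨x5, p5, q5⟩ := key (16 * c ^ 2) (θ / 3 * e ^ 2) (by positivity) (by positivity)
    obtain ⟨x6, p6, q6⟩ := key 2 e (by norm_num) he
    obtain ⟨x7, p7, q7⟩ := key (4 * c) e (by positivity) he
    refine ⟨min x1 (min x2 (min 2 (min x4 (min x5 (min x6 (min x7 (θ / 3))))))), ?_, ?_, ?_, ?_, ?_,
      ?_, ?_, ?_, ?_⟩
    · simp only [lt_min_iff]
      exact ⟨p1, p2, by norm_num, p4, p5, p6, p7, by (clear * - hθ0; positivity)⟩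
    · exact q1 _ (min_le_left _ _)
    · exact q2 _ ((min_le_right _ _).trans (min_le_left _ _))
    · exact (min_le_right _ _).trans ((min_le_right _ _).trans (min_le_left _ _))
    · exact q4 _ ((min_le_right _ _).trans ((min_le_right _ _).trans
        ((min_le_right _ _).trans (min_le_left _ _))))
    · exact q5 _ ((min_le_right _ _).trans ((min_le_right _ _).trans
        ((min_le_right _ _).trans ((min_le_right _ _).trans (min_le_left _ _)))))
    · exact q6 _ ((min_le_right _ _).trans ((min_le_right _ _).trans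
        ((min_le_right _ _).trans ((min_le_right _ _).trans
        ((min_le_right _ _).trans (min_le_left _ _))))))
    · exact q7 _ ((min_le_right _ _).trans ((min_le_right _ _).trans
        ((min_le_right _ _).trans ((min_le_right _ _).trans
        ((min_le_right _ _).trans ((min_le_right _ _).trans (min_le_left _ _)))))))
    · exact (min_le_right _ _).trans ((min_le_right _ _).trans
        ((min_le_right _ _).trans ((min_le_right _ _).trans
        ((min_le_right _ _).trans ((min_le_right _ _).trans (min_le_right _ _))))))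
  refine ⟨min t0 (min (t0 * (θ / 3) / 3) (θ / 3 * e ^ 2 / (CE * (1 / t0 + 1)))), ?_, ?_⟩
  · simp only [lt_min_iff, gt_iff_lt]
    exact ⟨ht0, by (clear * - ht0 hθ0; positivity), by positivity⟩
  intro δ hδ hδ0
  simp only [lt_min_iff] at hδ0
  obtain ⟨d1, d2, d3⟩ := hδ0
  refine ⟨a, ha, ?_⟩
  intro u hu aS aK sI kI mI ν kW mW w2 N4 D κ aH hI haS hw2 haK haK' hkI hmI hkey hkW hkW' hmW
    hN hD hκ haH hI2
  have hδu : 0 < δ * u := by (clear * - hδ hu; positivity)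
  rcases le_total (δ * u) t0 with hcase | hcase
  · refine lower_small e c C3 C4 CE t0 he hc h4 hCE ht0 ht0' hsmall a ha a1 a2 a3 δ u (δ * u)
      (δ * u * (1 + u)) hδ d1.le hu rfl hcase rfl aS aK sI kI mI ν kW mW w2 N4 D κ aH hI haS hw2
      haK' hkI hmI ?_ hkW hkW' hmW hN hD hκ haH hI2
    have h1 : (1 : ℝ) ≤ (1 + 2 * (δ * u) * e) * (1 - 0) := by
      rw [sub_zero, mul_one]
      exact le_add_of_nonneg_right (by (clear * - hδ hu he; positivity))
    have := hkey 0 le_rfl zero_le_one h1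
    rwa [sub_zero, zero_pow two_ne_zero, zero_div, add_zero, one_mul] at this
  · refine lower_large e c C3 C4 CE t0 (θ / 3) (1 - θ + θ ^ 2 / 3) he hc h4 hCE ht0
      (by (clear * - hθ0; positivity)) (by linarith only [hθ1]) hη a ha a4 a5 a6 a7 a8 δ u (δ * u)
      (δ * u * (1 + u)) hδ (by linarith only [ht0e, hcc, hct, d1]) hu ?_ ?_ rfl hcase rfl aS aK sI kI mI ν kW mW w2 N4 D κ
      aH hI haS hw2 haK hkI hmI ?_ hkW hkW' hmW hN hD hκ haH hI2
    · -- `3 ≤ c1 u`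
      have h1 : δ * 3 < t0 * (θ / 3) := by
        have := (lt_div_iff₀ (by norm_num : (0 : ℝ) < 3)).1 d2
        linarith only [d2]
      have h2 : δ * 3 ≤ δ * (θ / 3 * u) := by
        have h3 : t0 * (θ / 3) ≤ δ * u * (θ / 3) :=
          mul_le_mul_of_nonneg_right hcase (by (clear * - hθ0; positivity))
        linarith only [d2, h3]
      exact le_of_mul_le_mul_left h2 hδ
    · exact ((lt_div_iff₀ (by (clear * - hCE0 ht0; positivity))).1 d3).le
    · refine hkey θ hθ0.le hθ1.le ?_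
      have h1 := mul_le_mul_of_nonneg_right hcase he.le
      have h2 : (1 + 2 * t0 * e) * (1 - θ) ≤ (1 + 2 * (δ * u) * e) * (1 - θ) := by
        apply mul_le_mul_of_nonneg_right _ (by linarith only [hθ1])
        linarith only [h1]
      linarith only [hθe, h2]

end Vale.Agent.P250.Pt
end
end
end

section

section

section

/-! Existence and basic algebra of the data `AlgData`. -/

set_option maxSynthPendingDepth 3

namespace Vale.Agent.P250

open Complex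

section AlgExist

variable {V : Type*} [NormedAddCommGroup V] [InnerProductSpace ℂ V]

/-! ### the real inner product -/

lemma rip_self (X : V) : rip X X = ‖X‖ ^ 2 := by
  simp only [rip]
  have h := inner_self_eq_norm_sq (𝕜 := ℂ) X
  simpa using h

lemma rip_comm (X Y : V) : rip X Y = rip Y X := by
  simp only [rip]
  rw [← inner_conj_symm X Y, Complex.conj_re]

lemma rip_add_left (X Y Z : V) : rip (X + Y) Z = rip X Z + rip Y Z := by
  simp [rip]

lemma rip_add_right (X Y Z : V) : rip X (Y + Z) = rip X Y + rip X Z := by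
  simp only [rip, CStarModule.inner_add_right, add_re]

lemma rip_smul_left (r : ℝ) (X Z : V) : rip (r • X) Z = r * rip X Z := by
  simp only [rip]
  rw [← Complex.coe_smul, inner_smul_left]
  simp only [conj_ofReal, mul_re, ofReal_re, ofReal_im, zero_mul, sub_zero]

lemma rip_smul_right (r : ℝ) (X Z : V) : rip X (r • Z) = r * rip X Z := by
  rw [rip_comm, rip_smul_left, rip_comm]

lemma rip_I_I (X Z : V) : rip (I • X) (I • Z) = rip X Z := by
  simp only [rip]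
  rw [inner_smul_left, inner_smul_right, ← mul_assoc]
  simp only [conj_I, neg_mul, I_mul_I, neg_neg, one_mul]

/-- the real inner product as a bilinear map -/
noncomputable def ripL : V →ₗ[ℝ] V →ₗ[ℝ] ℝ :=
  LinearMap.mk₂ ℝ rip rip_add_left (fun c X Z => by rw [rip_smul_left, smul_eq_mul])
    rip_add_right (fun c X Z => by rw [rip_smul_right, smul_eq_mul])

@[simp] lemma ripL_apply (X Y : V) : ripL X Y = rip X Y := rfl

namespace AlgData

variable {δ u : ℝ} (D : AlgData V δ u)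

/-- `h` as a bilinear map -/
noncomputable def hL : V →ₗ[ℝ] V →ₗ[ℝ] ℝ := ripL + (2 * δ * u) • D.β

lemma hL_apply (X Y : V) : D.hL X Y = D.h X Y := by
  simp only [hL, LinearMap.add_apply, LinearMap.smul_apply, ripL_apply, smul_eq_mul, h]

lemma h_comm (X Y : V) : D.h X Y = D.h Y X := by
  simp only [h]
  rw [rip_comm, D.β_symm]

lemma h_add_left (X Y Z : V) : D.h (X + Y) Z = D.h X Z + D.h Y Z := by
  simp only [← hL_apply, map_add, LinearMap.add_apply]

lemma h_smul_left (r : ℝ) (X Z : V) : D.h (r • X) Z = r * D.h X Z := by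
  simp only [← hL_apply, map_smul, LinearMap.smul_apply, smul_eq_mul]

lemma h_neg_right (X Z : V) : D.h X (-Z) = -D.h X Z := by
  simp only [← hL_apply, map_neg]

lemma h_sub_left (X Y Z : V) : D.h (X - Y) Z = D.h X Z - D.h Y Z := by
  simp only [← hL_apply, map_sub, LinearMap.sub_apply]

lemma h_I_I (X Z : V) : D.h (I • X) (I • Z) = D.h X Z := by
  simp only [h]
  rw [rip_I_I, D.β_J]

lemma h_I_left (X Z : V) : D.h (I • X) Z = -D.h X (I • Z) := by
  have h := D.h_I_I X (I • Z)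
  rw [smul_smul, I_mul_I, neg_one_smul, h_neg_right] at h
  linarith only [h]

lemma β_I_left (X Z : V) : D.β (I • X) Z = -D.β X (I • Z) := by
  have h := D.β_J X (I • Z)
  rw [smul_smul, I_mul_I, neg_one_smul, map_neg] at h
  linarith

lemma γ_I_left (X Y Z : V) : D.γ (I • X) Y Z = -D.γ X Y (I • Z) := by
  have h := D.γ_J X Y (I • Z)
  rw [smul_smul, I_mul_I, neg_one_smul, map_neg] at h
  linarith only [h]

lemma h_K (X Z : V) : D.h (D.K X) Z = D.β X Z := D.K_spec X Z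

lemma h_C (X Y Z : V) : D.h (D.C X Y) Z = D.γ X Y Z := D.C_spec X Y Z

lemma h_low (X Z : V) : D.h (D.low X) Z = rip X Z := by
  simp only [low]
  rw [h_sub_left, h_smul_left, h_K]
  simp only [h]
  ring

variable {D} {ε C0 C3 : ℝ}

lemma le_h (hB : D.Bounds ε C0 C3) (hε : 0 ≤ ε) (hδ : 0 ≤ δ) (hu : 0 ≤ u) (X : V) :
    ‖X‖ ^ 2 ≤ D.h X X := by
  simp only [h]
  rw [rip_self]
  have h1 := hB.low X
  have h2 : 0 ≤ D.β X X := le_trans (by positivity) h1
  have h3 : 0 ≤ 2 * δ * u * D.β X X := by positivity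
  linarith only [h3]

lemma eq_of_h (hB : D.Bounds ε C0 C3) (hε : 0 ≤ ε) (hδ : 0 ≤ δ) (hu : 0 ≤ u) {X Y : V}
    (hXY : ∀ Z, D.h X Z = D.h Y Z) : X = Y := by
  have h1 := le_h hB hε hδ hu (X - Y)
  have h2 : D.h (X - Y) (X - Y) = 0 := by
    rw [h_sub_left, hXY, sub_self]
  rw [h2] at h1
  have h3 : ‖X - Y‖ = 0 := by nlinarith only [h1]
  exact sub_eq_zero.1 (norm_eq_zero.1 h3)

/-- `K` is complex linear -/
lemma K_I (hB : D.Bounds ε C0 C3) (hε : 0 ≤ ε) (hδ : 0 ≤ δ) (hu : 0 ≤ u) (X : V) :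
    D.K (I • X) = I • D.K X := by
  refine eq_of_h hB hε hδ hu fun Z => ?_
  rw [h_K, h_I_left, h_K, β_I_left]

lemma C_symm (hB : D.Bounds ε C0 C3) (hε : 0 ≤ ε) (hδ : 0 ≤ δ) (hu : 0 ≤ u) (X Y : V) :
    D.C X Y = D.C Y X := by
  refine eq_of_h hB hε hδ hu fun Z => ?_
  rw [h_C, h_C, D.γ_symm]

lemma C_add_right (hB : D.Bounds ε C0 C3) (hε : 0 ≤ ε) (hδ : 0 ≤ δ) (hu : 0 ≤ u) (X Y Z : V) :
    D.C X (Y + Z) = D.C X Y + D.C X Z := by
  refine eq_of_h hB hε hδ hu fun W => ?_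
  rw [h_add_left, h_C, h_C, h_C, map_add, LinearMap.add_apply]

lemma C_smul_right (hB : D.Bounds ε C0 C3) (hε : 0 ≤ ε) (hδ : 0 ≤ δ) (hu : 0 ≤ u) (r : ℝ)
    (X Y : V) : D.C X (r • Y) = r • D.C X Y := by
  refine eq_of_h hB hε hδ hu fun W => ?_
  rw [h_smul_left, h_C, h_C, map_smul, LinearMap.smul_apply, smul_eq_mul]

end AlgData

/-! ### existence -/

/-- a bilinear form which is positive definite on a finite-dimensional space is onto the dual -/
lemma exists_inv_form [FiniteDimensional ℂ V] (B : V →ₗ[ℝ] V →ₗ[ℝ] ℝ)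
    (hB : ∀ X, B X X = 0 → X = 0) :
    ∃ S : (V →ₗ[ℝ] ℝ) →ₗ[ℝ] V, ∀ (f : V →ₗ[ℝ] ℝ) (Z : V), B (S f) Z = f Z := by
  have : FiniteDimensional ℝ V := FiniteDimensional.complexToReal V
  have hinj : Function.Injective B := by
    rw [← LinearMap.ker_eq_bot, LinearMap.ker_eq_bot']
    intro X hX
    exact hB X (by rw [hX]; rfl)
  have hdim : Module.finrank ℝ V = Module.finrank ℝ (V →ₗ[ℝ] ℝ) :=
    (Subspace.dual_finrank_eq (K := ℝ) (V := V)).symm
  refine ⟨(LinearEquiv.ofInjectiveOfFinrankEq B hinj hdim).symm.toLinearMap, fun f Z => ?_⟩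
  have h1 := (LinearEquiv.ofInjectiveOfFinrankEq B hinj hdim).apply_symm_apply f
  have h2 := congrArg (fun g : V →ₗ[ℝ] ℝ => g Z) h1
  exact h2

/-- the trilinear form χ_{X Y Z̄} of a third derivative -/
noncomputable def gamL (T : V →L[ℝ] V →L[ℝ] V →L[ℝ] ℝ) : V →ₗ[ℝ] V →ₗ[ℝ] V →ₗ[ℝ] ℝ :=
  LinearMap.mk₂ ℝ (fun X Y => (((1 / 8 : ℝ) • (T X Y - T (I • X) (I • Y) +
      (T X (I • Y)).comp Jc + (T (I • X) Y).comp Jc) : V →L[ℝ] ℝ) : V →ₗ[ℝ] ℝ))
    (fun X X' Y => by ext Z; simp; ring)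
    (fun c X Y => by ext Z; simp [smul_comm I c]; ring)
    (fun X Y Y' => by ext Z; simp; ring)
    (fun c X Y => by ext Z; simp [smul_comm I c]; ring)

lemma gamL_apply (T : V →L[ℝ] V →L[ℝ] V →L[ℝ] ℝ) (X Y Z : V) :
    gamL T X Y Z = (1 / 8) * (T X Y Z - T (I • X) (I • Y) Z + T X (I • Y) (I • Z) +
      T (I • X) Y (I • Z)) := by
  simp only [gamL, one_div, smul_add, ContinuousLinearMap.toLinearMap_add, ContinuousLinearMap.toLinearMap_smul, ContinuousLinearMap.toLinearMap_sub, ContinuousLinearMap.toLinearMap_comp, LinearMap.mk₂_apply, LinearMap.add_apply, LinearMap.smul_apply, LinearMap.sub_apply, ContinuousLinearMap.coe_coe, smul_eq_mul, LinearMap.coe_comp, Function.comp_apply, Jc_apply]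
  ring

lemma D3_swap12 {P : V → ℝ} {p : V} (hP : ContDiffAt ℝ (⊤ : ℕ∞) P p) (X Y Z : V) :
    D3 P p X Y Z = D3 P p Y X Z := by
  simp only [D3]
  have h1 : ContDiffAt ℝ (⊤ : ℕ∞) (fderiv ℝ P) p := hP.fderiv_right (by simp)
  have h2 := h1.isSymmSndFDerivAt (by
    rw [minSmoothness_of_isRCLikeNormedField]
    exact WithTop.coe_le_coe.2 (le_top : (2 : ℕ∞) ≤ ⊤)) X Y
  rw [h2]

theorem exists_algData [FiniteDimensional ℂ V] (χ : V → ℝ) (ε0 C0 C3 C4 : ℝ) (h0 : 0 < ε0)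
    (hχ : NormalJet ε0 C0 C3 C4 χ) (δ u : ℝ) (hδ : 0 < δ) (hu : 0 < u) :
    ∃ D : AlgData V δ u, (∀ X Y, D.β X Y = (1 / 2) * fderiv ℝ (fderiv ℝ χ) 0 X Y) ∧
      (∀ X Y Z, D.γ X Y Z = (1 / 8) * (D3 χ 0 X Y Z - D3 χ 0 (I • X) (I • Y) Z
        + D3 χ 0 X (I • Y) (I • Z) + D3 χ 0 (I • X) Y (I • Z))) ∧
      D.Bounds (ε0 / 2) (C0 / 2) (C3 / 2) := by
  set β : V →ₗ[ℝ] V →ₗ[ℝ] ℝ := LinearMap.mk₂ ℝ
    (fun X Y => (1 / 2) * fderiv ℝ (fderiv ℝ χ) 0 X Y)
    (fun X X' Y => by simp only [one_div, map_add, add_apply]; ring) (fun c X Y => by simp only [one_div, map_smul, smul_apply, smul_eq_mul]; ring)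
    (fun X Y Y' => by simp only [one_div, map_add]; ring) (fun c X Y => by simp only [one_div, map_smul, smul_eq_mul]; ring) with hβ
  have hβa : ∀ X Y, β X Y = (1 / 2) * fderiv ℝ (fderiv ℝ χ) 0 X Y := fun X Y => rfl
  set γ : V →ₗ[ℝ] V →ₗ[ℝ] V →ₗ[ℝ] ℝ := gamL (fderiv ℝ (fderiv ℝ (fderiv ℝ χ)) 0) with hγ
  have hγa : ∀ X Y Z, γ X Y Z = (1 / 8) * (D3 χ 0 X Y Z - D3 χ 0 (I • X) (I • Y) Z
        + D3 χ 0 X (I • Y) (I • Z) + D3 χ 0 (I • X) Y (I • Z)) := fun X Y Z => by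
    rw [hγ, gamL_apply]
    simp only [D3]
  set B : V →ₗ[ℝ] V →ₗ[ℝ] ℝ := ripL + (2 * δ * u) • β with hBdef
  have hBa : ∀ X Y, B X Y = rip X Y + 2 * δ * u * β X Y := by
    intro X Y
    simp only [hBdef, LinearMap.add_apply, LinearMap.smul_apply, ripL_apply, smul_eq_mul]
  have hpos : ∀ X, B X X = 0 → X = 0 := by
    intro X hX
    rw [hBa, rip_self] at hX
    have h2 : 0 ≤ β X X := by
      rw [hβa]
      have := hχ.lower X
      have h3 : 0 ≤ ε0 * ‖X‖ ^ 2 := by positivity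
      linarith only [this, h3]
    have h3 : 0 ≤ (2 * δ * u) * β X X := by positivity
    have h4 : ‖X‖ = 0 := by nlinarith only [hX, h3]
    exact norm_eq_zero.1 h4
  obtain ⟨S, hS⟩ := exists_inv_form B hpos
  have hS' : ∀ (f : V →ₗ[ℝ] ℝ) (Z : V), rip (S f) Z + 2 * δ * u * β (S f) Z = f Z := by
    intro f Z
    rw [← hBa]
    exact hS f Z
  have hsymm2 : ∀ X Y, fderiv ℝ (fderiv ℝ χ) 0 X Y = fderiv ℝ (fderiv ℝ χ) 0 Y X := by
    intro X Y
    exact hχ.smooth.isSymmSndFDerivAt (by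
      rw [minSmoothness_of_isRCLikeNormedField]
      exact WithTop.coe_le_coe.2 (le_top : (2 : ℕ∞) ≤ ⊤)) X Y
  refine ⟨⟨β, ?_, ?_, γ, ?_, ?_, S.comp β, ?_, fun X Y => S (γ X Y), ?_⟩, hβa, hγa, ?_⟩
  · intro X Y
    rw [hβa, hβa, hsymm2]
  · intro X Y
    rw [hβa, hβa, hχ.pure2]
  · intro X Y Z
    rw [hγa, hγa, D3_swap12 hχ.smooth X Y, D3_swap12 hχ.smooth (I • X) (I • Y),
      D3_swap12 hχ.smooth X (I • Y), D3_swap12 hχ.smooth (I • X) Y]
    ring
  · intro X Y Z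
    rw [hγa, hγa]
    simp only [smul_smul, I_mul_I, neg_one_smul]
    simp only [D3, map_neg, neg_apply]
    ring
  · intro X Z
    exact hS' (β X) Z
  · intro X Y Z
    exact hS' (γ X Y) Z
  · refine ⟨fun X => ?_, fun X => ?_, fun X Y Z => ?_⟩
    · show ε0 / 2 * ‖X‖ ^ 2 ≤ β X X
      rw [hβa]
      linarith only [hχ.lower X]
    · show β X X ≤ C0 / 2 * ‖X‖ ^ 2
      rw [hβa]
      linarith only [hχ.upper X]
    · show |γ X Y Z| ≤ C3 / 2 * ‖X‖ * ‖Y‖ * ‖Z‖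
      rw [hγa]
      have hI : ∀ W : V, ‖I • W‖ = ‖W‖ := fun W => by rw [norm_smul]; simp
      have e1 := abs_le.1 (hχ.d3 X Y Z)
      have e2 := abs_le.1 (hχ.d3 (I • X) (I • Y) Z)
      have e3 := abs_le.1 (hχ.d3 X (I • Y) (I • Z))
      have e4 := abs_le.1 (hχ.d3 (I • X) Y (I • Z))
      simp only [hI] at e1 e2 e3 e4
      simp only [D3]
      rw [abs_le]
      constructor <;> linarith only [e1, e2, e3, e4]

end AlgExist

end Vale.Agent.P250
end
end
end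

section

section

section

/-! The disc bundle over the higher-dimensional model is not biholomorphic to a bounded domain
if `NoFunction` holds for the restriction of the weight to `ℂ × ℂ`. -/

set_option maxSynthPendingDepth 3

namespace Vale.Agent.P250.G

open Set Filter Topology Vale.Agent.P250

namespace GNot

theorem isOpen_MMg {E : Type*} [NormedAddCommGroup E] [NormedSpace ℂ E] (Ω : Set E)
    (hΩ : IsOpen Ω) (χ : E → ℝ) (hχ : ContinuousOn χ Ω) : IsOpen (MMg Ω χ) := by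
  have h1 : ContinuousOn (fun p : E × ℂ => ‖p.2‖ ^ 2 * Real.exp (2 * χ p.1))
      (Prod.fst ⁻¹' Ω) := by
    have h2 : ContinuousOn (fun p : E × ℂ => χ p.1) (Prod.fst ⁻¹' Ω) :=
      hχ.comp continuous_fst.continuousOn (fun p hp => hp)
    exact (continuous_snd.norm.pow 2).continuousOn.mul
      (Real.continuous_exp.comp_continuousOn (continuousOn_const.mul h2))
  exact h1.isOpen_inter_preimage (hΩ.preimage continuous_fst) isOpen_Iio

end GNot

section B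

variable {W : Type*} [NormedAddCommGroup W] [InnerProductSpace ℂ W] [FiniteDimensional ℂ W]

namespace GNot

omit [InnerProductSpace ℂ W] [FiniteDimensional ℂ W] in
theorem isOpen_DDG : IsOpen (DDG W) := by
  have h : Continuous (rhoG (W := W)) := by
    unfold rhoG rho
    fun_prop
  exact isOpen_lt continuous_const h

omit [InnerProductSpace ℂ W] [FiniteDimensional ℂ W] in
theorem mem_DDG {q : ℂ × ℂ} (hq : q ∈ DD) : ((q, (0 : W)) : (ℂ × ℂ) × W) ∈ DDG W := by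
  have h : rhoG ((q, (0 : W)) : (ℂ × ℂ) × W) = rho q := by simp [rhoG]
  change 0 < rhoG _
  rw [h]
  exact hq

omit [InnerProductSpace ℂ W] [FiniteDimensional ℂ W] in
theorem mem_MMg_zero {χ : (ℂ × ℂ) × W → ℝ} {q : ℂ × ℂ} (hq : q ∈ DD) :
    (((q, (0 : W)), (0 : ℂ)) : ((ℂ × ℂ) × W) × ℂ) ∈ MMg (DDG W) χ := by
  refine ⟨mem_DDG hq, ?_⟩
  simp only [norm_zero, ne_eq, OfNat.ofNat_ne_zero, not_false_eq_true, zero_pow, zero_mul, zero_lt_one]

end GNot

open GNot in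
theorem not_biholo_G (χ : (ℂ × ℂ) × W → ℝ) (hχ : ContinuousOn χ (DDG W))
    (hN : NoFunction (fun q => χ (q, 0))) :
    ¬ BiholomorphicToBoundedDomain (MMg (DDG W) χ) := by
  rintro ⟨U, F, G, hU, -, hUb, hF, hG, hFU, hGM, hGF, -⟩
  have hM : IsOpen (MMg (DDG W) χ) := GNot.isOpen_MMg _ isOpen_DDG χ hχ
  set v : ((ℂ × ℂ) × W) × ℂ := (0, 1) with hv
  let inj : ℂ × ℂ → ((ℂ × ℂ) × W) × ℂ := fun q => ((q, 0), 0)
  obtain ⟨C, hC⟩ := hUb.exists_norm_le
  have hFC : ∀ p ∈ MMg (DDG W) χ, ‖F p‖ ≤ C := fun p hp => hC _ (hFU hp)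
  have hdiff : DifferentiableOn ℂ (fun q : ℂ × ℂ => fderiv ℂ F (inj q) v) DD := by
    refine (differentiableOn_fderiv_apply hM hF v).comp ?_ (fun q hq => mem_MMg_zero hq)
    fun_prop
  have hbound : ∀ q ∈ DD, ‖fderiv ℂ F (inj q) v‖ ≤ (2 * C) * Real.exp (χ (q, 0)) := by
    intro q hq
    have hmem : ∀ t : ℂ, ‖t‖ < Real.exp (-χ (q, 0)) → inj q + t • v ∈ MMg (DDG W) χ := by
      intro t ht
      have e1 : (inj q + t • v).2 = t := by simp [inj, hv]
      have e2 : (inj q + t • v).1 = (q, 0) := by simp [inj, hv]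
      refine ⟨?_, ?_⟩
      · rw [e2]
        exact mem_DDG hq
      · rw [e1, e2]
        have h1 : ‖t‖ ^ 2 < Real.exp (-χ (q, 0)) ^ 2 := by
          apply pow_lt_pow_left₀ ht (norm_nonneg _)
          norm_num
        calc ‖t‖ ^ 2 * Real.exp (2 * χ (q, 0))
            < Real.exp (-χ (q, 0)) ^ 2 * Real.exp (2 * χ (q, 0)) :=
              mul_lt_mul_of_pos_right h1 (Real.exp_pos _)
          _ = 1 := by
              rw [← Real.exp_nat_mul, ← Real.exp_add]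
              have : ((2 : ℕ) : ℝ) * -χ (q, 0) + 2 * χ (q, 0) = 0 := by push_cast; ring
              rw [this, Real.exp_zero]
    have hFd : DifferentiableAt ℂ F (inj q) :=
      hF.differentiableAt (hM.mem_nhds (mem_MMg_zero hq))
    have hder : deriv (fun t : ℂ => F (inj q + t • v)) 0 = fderiv ℂ F (inj q) v := by
      have h1 : HasDerivAt (fun t : ℂ => inj q + t • v) v 0 := by
        simpa using ((hasDerivAt_id (0 : ℂ)).smul_const v).const_add (inj q)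
      have h2 : HasFDerivAt F (fderiv ℂ F (inj q)) (inj q + (0 : ℂ) • v) := by
        simpa only [zero_smul, add_zero] using hFd.hasFDerivAt
      exact (h2.comp_hasDerivAt (0 : ℂ) h1).deriv
    have hr : 0 < Real.exp (-χ (q, 0)) / 2 := by positivity
    have hlt : Real.exp (-χ (q, 0)) / 2 < Real.exp (-χ (q, 0)) := by
      have := Real.exp_pos (-χ (q, 0))
      linarith only [hr]
    rw [← hder]
    have h3 : ‖deriv (fun t : ℂ => F (inj q + t • v)) 0‖ ≤ C / (Real.exp (-χ (q, 0)) / 2) := by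
      apply Complex.norm_deriv_le_of_forall_mem_sphere_norm_le hr
      · have hd : DifferentiableOn ℂ (fun t : ℂ => F (inj q + t • v))
            (Metric.ball 0 (Real.exp (-χ (q, 0)))) := by
          refine hF.comp (by fun_prop) fun t ht => hmem t ?_
          rwa [mem_ball_zero_iff] at ht
        exact (hd.mono (Metric.closedBall_subset_ball hlt)).diffContOnCl_ball (le_refl _)
      · intro t ht
        rw [mem_sphere_zero_iff_norm] at ht
        exact hFC _ (hmem t (by rw [ht]; exact hlt))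
    refine h3.trans (le_of_eq ?_)
    rw [Real.exp_neg]
    (clear * -; field_simp)
  have hC0 : 0 ≤ C := by
    have hq0 : ((0 : ℂ), Complex.I) ∈ DD := by
      change 0 < rho (0, Complex.I)
      simp only [rho, Complex.I_im, Complex.zero_im, ne_eq, OfNat.ofNat_ne_zero, not_false_eq_true, zero_pow, sub_zero, zero_lt_one]
    exact (norm_nonneg _).trans (hFC _ (mem_MMg_zero hq0))
  have hl : ∀ l : (((ℂ × ℂ) × W) × ℂ) →L[ℂ] ℂ, ∀ q ∈ DD, l (fderiv ℂ F (inj q) v) = 0 := by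
    intro l
    refine hN (fun q => l (fderiv ℂ F (inj q) v)) (l.differentiable.comp_differentiableOn hdiff)
      ⟨‖l‖ * (2 * C), fun q hq => ?_⟩
    calc ‖l (fderiv ℂ F (inj q) v)‖ ≤ ‖l‖ * ‖fderiv ℂ F (inj q) v‖ := l.le_opNorm _
      _ ≤ ‖l‖ * ((2 * C) * Real.exp (χ (q, 0))) :=
          mul_le_mul_of_nonneg_left (hbound q hq) (norm_nonneg _)
      _ = _ := by ring
  have hq0 : ((0 : ℂ), Complex.I) ∈ DD := by
    change 0 < rho (0, Complex.I)
    simp only [rho, Complex.I_im, Complex.zero_im, ne_eq, OfNat.ofNat_ne_zero, not_false_eq_true, zero_pow, sub_zero, zero_lt_one]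
  set p0 : ((ℂ × ℂ) × W) × ℂ := inj (0, Complex.I) with hp0
  have hp0M : p0 ∈ MMg (DDG W) χ := mem_MMg_zero hq0
  have hz : fderiv ℂ F p0 v = 0 := by
    by_contra hne
    obtain ⟨l, -, hl2⟩ := exists_dual_vector ℂ (fderiv ℂ F p0 v) (norm_ne_zero_iff.2 hne)
    rw [hl l _ hq0] at hl2
    have : (‖fderiv ℂ F p0 v‖ : ℂ) ≠ 0 := by
      exact_mod_cast (norm_pos_iff.2 hne).ne'
    exact this hl2.symm
  have hFd : HasFDerivAt F (fderiv ℂ F p0) p0 :=
    (hF.differentiableAt (hM.mem_nhds hp0M)).hasFDerivAt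
  have hGd : HasFDerivAt G (fderiv ℂ G (F p0)) (F p0) :=
    (hG.differentiableAt (hU.mem_nhds (hFU hp0M))).hasFDerivAt
  have hcomp : HasFDerivAt (fun p => G (F p)) ((fderiv ℂ G (F p0)).comp (fderiv ℂ F p0)) p0 :=
    hGd.comp p0 hFd
  have hid : HasFDerivAt (fun p => G (F p))
      (ContinuousLinearMap.id ℂ (((ℂ × ℂ) × W) × ℂ)) p0 := by
    refine (hasFDerivAt_id p0).congr_of_eventuallyEq ?_
    filter_upwards [hM.mem_nhds hp0M] with p hp using hGF p hp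
  have heq := hcomp.unique hid
  have h4 := congrArg (fun L : (((ℂ × ℂ) × W) × ℂ) →L[ℂ] (((ℂ × ℂ) × W) × ℂ) => (L v).2) heq
  simp only [ContinuousLinearMap.comp_apply, hz, map_zero, ContinuousLinearMap.id_apply] at h4
  simp only [Prod.snd_zero, hv, zero_ne_one] at h4

end B

end Vale.Agent.P250.G
end
end
end

section

section

section

/-! T14, second part : positivity of the Levi form of `χ`, the exhaustion function. -/

set_option maxSynthPendingDepth 3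

namespace Vale.Agent.P250
open Set Filter Topology MetricM

/-- positivity of the Levi form of `χ` follows from the uniform jets -/
theorem gP_pos_of_uniformJets (ε0 C0 C3 C4 : ℝ) (h0 : 0 < ε0) (χ : ℂ × ℂ → ℝ)
    (hχ : ContDiffOn ℝ (⊤ : ℕ∞) χ DD) (hU : UniformJets ε0 C0 C3 C4 χ) (q : ℂ × ℂ)
    (hq : q ∈ DD) (X : ℂ × ℂ) : 0 ≤ gP χ q X X := by
  obtain ⟨B, h, H, hB, hh, hH, hB0, hh0, ⟨e, he⟩, hlog, hN⟩ := hU q hq
  set Y := e.symm X with hY
  have hχq : ContDiffAt ℝ (⊤ : ℕ∞) χ (B 0) := by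
    rw [hB0]; exact hχ.contDiffAt (isOpen_DD'.mem_nhds hq)
  have hBr : ContDiffAt ℝ (⊤ : ℕ∞) B 0 := hB.restrict_scalars ℝ
  have hhr : ContDiffAt ℝ (⊤ : ℕ∞) h 0 := hh.restrict_scalars ℝ
  have hfd : fderiv ℝ B 0 Y = X := by
    have h1 : HasFDerivAt B (fderiv ℂ B 0) 0 :=
      (hB.differentiableAt (by simp)).hasFDerivAt
    have h2 : fderiv ℝ B 0 = (fderiv ℂ B 0).restrictScalars ℝ := (h1.restrictScalars ℝ).fderiv
    rw [h2]
    show fderiv ℂ B 0 Y = X
    rw [← he]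
    exact e.apply_symm_apply X
  have e1 : gP (fun ζ => χ (B ζ)) 0 Y Y = gP χ q X X := by
    rw [gP_comp χ B 0 hB hχq Y Y, hB0, hfd]
  have e2 : gP (fun ζ => (h ζ).re) 0 Y Y = 0 := by
    rw [gP_re h 0 hh]; rfl
  have c1 : ContDiffAt ℝ 2 (fun ζ => χ (B ζ)) 0 := (hχq.comp 0 hBr).of_le two_le_smooth
  have c2 : ContDiffAt ℝ 2 (fun ζ => (h ζ).re) 0 :=
    (Complex.reCLM.contDiff.contDiffAt.comp 0 hhr).of_le two_le_smooth
  have e3 : gP (fun ζ => χ (B ζ) - (h ζ).re) 0 Y Y = gP χ q X X := by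
    have : (fun ζ => χ (B ζ) - (h ζ).re) = fun ζ => χ (B ζ) + (-1) * (h ζ).re := by
      funext ζ; ring
    rw [this, Jet2.gP_add c1 (contDiffAt_const.mul c2), Jet2.gP_const_mul c2, e1, e2]
    ring
  rw [← e3, gP_apply, hN.pure2 Y Y]
  have h5 := hN.lower Y
  have h6 : 0 ≤ ε0 * ‖Y‖ ^ 2 := by (clear * - h0; positivity)
  linarith only [h5, h6]

namespace MetricM

/-- `Re z` -/
noncomputable def r1 : (ℂ × ℂ) →L[ℝ] ℝ :=
  Complex.reCLM.comp (ContinuousLinearMap.fst ℝ ℂ ℂ)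

/-- `Re w` -/
noncomputable def r2 : (ℂ × ℂ) →L[ℝ] ℝ :=
  Complex.reCLM.comp (ContinuousLinearMap.snd ℝ ℂ ℂ)

theorem r1_apply (q : ℂ × ℂ) : r1 q = q.1.re := rfl
theorem r2_apply (q : ℂ × ℂ) : r2 q = q.2.re := rfl

/-- `Re W` -/
noncomputable def wr (q : ℂ × ℂ) : ℝ := r2 q - r1 q * l1 q

/-- `Im W` -/
noncomputable def wi (q : ℂ × ℂ) : ℝ := l2 q + (1 / 2) * (r1 q * r1 q - l1 q * l1 q) + 1

/-- `|W|²` -/
noncomputable def mm (q : ℂ × ℂ) : ℝ := wr q * wr q + wi q * wi q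

theorem norm_W (q : ℂ × ℂ) : ‖q.2 + Complex.I / 2 * q.1 ^ 2 + Complex.I‖ ^ 2 = mm q := by
  rw [← Complex.normSq_eq_norm_sq, Complex.normSq_apply]
  have e1 : (q.2 + Complex.I / 2 * q.1 ^ 2 + Complex.I).re = wr q := by
    rw [wr, r1_apply, r2_apply, l1_apply, sq]
    simp only [Complex.add_re, Complex.mul_re, Complex.div_ofNat_re, Complex.I_re, zero_div, zero_mul, Complex.div_ofNat_im, Complex.I_im, one_div, Complex.mul_im, zero_sub, add_zero]
    try ring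
  have e2 : (q.2 + Complex.I / 2 * q.1 ^ 2 + Complex.I).im = wi q := by
    rw [wi, r1_apply, l2_apply, l1_apply, sq]
    simp only [Complex.add_im, Complex.mul_im, Complex.div_ofNat_re, Complex.I_re, zero_div, zero_mul, Complex.div_ofNat_im, Complex.I_im, one_div, Complex.mul_re, zero_add]
    try ring
  rw [e1, e2]
  rfl

theorem wi_eq (q : ℂ × ℂ) : wi q = rho q + (q.1.re ^ 2 + q.1.im ^ 2) / 2 + 1 := by
  rw [wi, r1_apply, l2_apply, l1_apply, rho]
  ring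

theorem mm_eq (q : ℂ × ℂ) : mm q = wr q ^ 2 + (wi q - 2 * rho q) ^ 2
    + 2 * rho q * (q.1.re ^ 2 + q.1.im ^ 2) + 4 * rho q := by
  rw [mm, wi_eq]
  ring

theorem mm_ge {q : ℂ × ℂ} (hq : q ∈ DD) : 4 * rho q ≤ mm q := by
  have hr : 0 < rho q := hq
  rw [mm_eq]
  have h1 := sq_nonneg (wr q)
  have h2 := sq_nonneg (wi q - 2 * rho q)
  have h3 : 0 ≤ 2 * rho q * (q.1.re ^ 2 + q.1.im ^ 2) := by (clear * - hr; positivity)
  linarith only [h1, h2, h3]

theorem mm_pos {q : ℂ × ℂ} (hq : q ∈ DD) : 0 < mm q := by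
  have hr : 0 < rho q := hq
  have := mm_ge hq
  linarith only [hr, this]

theorem contDiff_wr {n : WithTop ℕ∞} : ContDiff ℝ n wr :=
  r2.contDiff.sub (r1.contDiff.mul l1.contDiff)

theorem contDiff_wi {n : WithTop ℕ∞} : ContDiff ℝ n wi :=
  (l2.contDiff.add (contDiff_const.mul ((r1.contDiff.mul r1.contDiff).sub
    (l1.contDiff.mul l1.contDiff)))).add contDiff_const

theorem contDiff_mm {n : WithTop ℕ∞} : ContDiff ℝ n mm :=
  (contDiff_wr.mul contDiff_wr).add (contDiff_wi.mul contDiff_wi)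

/-- derivative of `Re W` -/
theorem hasFDerivAt_wr (q : ℂ × ℂ) :
    HasFDerivAt wr (r2 - (r1 q • l1 + l1 q • r1)) q :=
  r2.hasFDerivAt.sub (r1.hasFDerivAt.mul l1.hasFDerivAt)

theorem hasFDerivAt_wi (q : ℂ × ℂ) :
    HasFDerivAt wi (l2 + (1 / 2 : ℝ) • ((r1 q • r1 + r1 q • r1) - (l1 q • l1 + l1 q • l1))) q := by
  have h := (l2.hasFDerivAt (x := q)).add ((((r1.hasFDerivAt (x := q)).mul
    (r1.hasFDerivAt (x := q))).sub ((l1.hasFDerivAt (x := q)).mul
    (l1.hasFDerivAt (x := q)))).const_mul (1 / 2))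
  exact h.add_const 1

theorem fderiv_mm (q X : ℂ × ℂ) : fderiv ℝ mm q X =
    2 * (wr q * (X.2.re - q.1.re * X.1.im - q.1.im * X.1.re)
      + wi q * (X.2.im + q.1.re * X.1.re - q.1.im * X.1.im)) := by
  have h := ((hasFDerivAt_wr q).mul (hasFDerivAt_wr q)).add
    ((hasFDerivAt_wi q).mul (hasFDerivAt_wi q))
  have h' : fderiv ℝ mm q = _ := h.fderiv
  rw [h']
  show (wr q * (r2 X - (r1 q * l1 X + l1 q * r1 X)) + wr q * (r2 X - (r1 q * l1 X + l1 q * r1 X)))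
    + (wi q * (l2 X + (1 / 2 : ℝ) * ((r1 q * r1 X + r1 q * r1 X) - (l1 q * l1 X + l1 q * l1 X)))
      + wi q * (l2 X + (1 / 2 : ℝ) * ((r1 q * r1 X + r1 q * r1 X) - (l1 q * l1 X + l1 q * l1 X)))) = _
  simp only [r1_apply, r2_apply, l1_apply, l2_apply]
  ring

/-- the base part of the exhaustion -/
noncomputable def fD (q : ℂ × ℂ) : ℝ := Real.log (mm q / rho q)

theorem contDiffAt_fD {q : ℂ × ℂ} (hq : q ∈ DD) {n : WithTop ℕ∞} : ContDiffAt ℝ n fD q := by
  have hr : rho q ≠ 0 := ne_of_gt hq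
  have hm : mm q ≠ 0 := (mm_pos hq).ne'
  exact (contDiff_mm.contDiffAt.div contDiff_rho.contDiffAt hr).log (div_ne_zero hm hr)

theorem fderiv_fD {q : ℂ × ℂ} (hq : q ∈ DD) (X : ℂ × ℂ) :
    fderiv ℝ fD q X = (mm q)⁻¹ * fderiv ℝ mm q X - (rho q)⁻¹ * fderiv ℝ rho q X := by
  have hr : rho q ≠ 0 := ne_of_gt hq
  have hm : mm q ≠ 0 := (mm_pos hq).ne'
  have e : fD =ᶠ[𝓝 q] fun q => Real.log (mm q) - Real.log (rho q) := by
    filter_upwards [isOpen_DD'.mem_nhds hq] with q' hq'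
    exact Real.log_div (mm_pos hq').ne' (ne_of_gt hq')
  have h1 : DifferentiableAt ℝ mm q := (contDiff_mm (n := 1)).contDiffAt.differentiableAt (by norm_num)
  have h2 : DifferentiableAt ℝ rho q := (contDiff_rho (n := 1)).contDiffAt.differentiableAt (by norm_num)
  have h := (h1.hasFDerivAt.log hm).sub (h2.hasFDerivAt.log hr)
  rw [e.fderiv_eq]
  have h' : fderiv ℝ (fun q => Real.log (mm q) - Real.log (rho q)) q = _ := h.fderiv
  rw [h']
  rfl

theorem cs_four {A B : ℝ} (hA : 0 < A) (hB : 0 < B) (p q r s c1 c2 x1 y1 : ℝ) :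
    (p * c1 + q * c2 + r * x1 + s * y1) ^ 2 ≤
      (A * (p ^ 2 + q ^ 2) + B * (r ^ 2 + s ^ 2)) *
        ((c1 ^ 2 + c2 ^ 2) / A + (x1 ^ 2 + y1 ^ 2) / B) := by
  have e : (A * (p ^ 2 + q ^ 2) + B * (r ^ 2 + s ^ 2)) *
        ((c1 ^ 2 + c2 ^ 2) / A + (x1 ^ 2 + y1 ^ 2) / B) -
      (p * c1 + q * c2 + r * x1 + s * y1) ^ 2 =
      (p * c2 - q * c1) ^ 2 + (r * y1 - s * x1) ^ 2 + A / B *
        ((p * x1 - B / A * r * c1) ^ 2 + (p * y1 - B / A * s * c1) ^ 2
          + (q * x1 - B / A * r * c2) ^ 2 + (q * y1 - B / A * s * c2) ^ 2) := by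
    field_simp
    ring
  have h : 0 ≤ (p * c2 - q * c1) ^ 2 + (r * y1 - s * x1) ^ 2 + A / B *
        ((p * x1 - B / A * r * c1) ^ 2 + (p * y1 - B / A * s * c1) ^ 2
          + (q * x1 - B / A * r * c2) ^ 2 + (q * y1 - B / A * s * c2) ^ 2) := by
    (clear * - hA hB; positivity)
  linarith

theorem fD_grad {q : ℂ × ℂ} (hq : q ∈ DD) (X : ℂ × ℂ) :
    (fderiv ℝ fD q X) ^ 2 ≤ 4 * gP (fun q => -Real.log (rho q)) q X X := by
  have hr : 0 < rho q := hq
  have hm := mm_pos hq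
  have hmg := mm_ge hq
  rw [fderiv_fD hq, fderiv_mm, fderiv_rho, gP_rho q hq]
  have n1 : ‖X.1‖ ^ 2 = X.1.re ^ 2 + X.1.im ^ 2 := by
    rw [← Complex.normSq_eq_norm_sq, Complex.normSq_apply]; ring
  have n2 : ‖X.2 - 2 * q.1.im * X.1‖ ^ 2 = (X.2.re - 2 * q.1.im * X.1.re) ^ 2
      + (X.2.im - 2 * q.1.im * X.1.im) ^ 2 := by
    rw [← Complex.normSq_eq_norm_sq, Complex.normSq_apply]
    have e1 : (X.2 - 2 * q.1.im * X.1).re = X.2.re - 2 * q.1.im * X.1.re := by simp only [Complex.sub_re, Complex.mul_re, Complex.re_ofNat, Complex.ofReal_re, Complex.im_ofNat, Complex.ofReal_im, mul_zero, sub_zero, Complex.mul_im, zero_mul, add_zero]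
    have e2 : (X.2 - 2 * q.1.im * X.1).im = X.2.im - 2 * q.1.im * X.1.im := by simp
    rw [e1, e2]; ring
  rw [n1, n2]
  set c1 := X.2.re - 2 * q.1.im * X.1.re with hc1
  set c2 := X.2.im - 2 * q.1.im * X.1.im with hc2
  have hwi := wi_eq q
  have hmm : mm q = wr q * wr q + wi q * wi q := rfl
  set x := q.1.re
  set y := q.1.im
  set x1 := X.1.re
  set y1 := X.1.im
  set ρ := rho q
  set m := mm q
  set a := wr q
  set b := wi q
  have hcs := cs_four (A := 4 * ρ ^ 2) (B := 2 * ρ) (by (clear * - hr; positivity)) (by positivity)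
    (2 * ρ * a) (2 * ρ * b - m) (2 * ρ * (a * y + b * x)) (2 * ρ * (b * y - a * x)) c1 c2 x1 y1
  have e1 : (4 * ρ ^ 2 * ((2 * ρ * a) ^ 2 + (2 * ρ * b - m) ^ 2) +
      2 * ρ * ((2 * ρ * (a * y + b * x)) ^ 2 + (2 * ρ * (b * y - a * x)) ^ 2)) =
      4 * ρ ^ 2 * m * (m - 4 * ρ) := by
    rw [hmm, hwi]
    ring
  rw [e1] at hcs
  have e2 : m⁻¹ * (2 * (a * (X.2.re - x * y1 - y * x1) + b * (X.2.im + x * x1 - y * y1))) -
      ρ⁻¹ * (X.2.im - 2 * y * y1) =
      (2 * ρ * a * c1 + (2 * ρ * b - m) * c2 + 2 * ρ * (a * y + b * x) * x1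
        + 2 * ρ * (b * y - a * x) * y1) / (m * ρ) := by
    rw [hc1, hc2]
    field_simp
    ring
  rw [e2, div_pow, div_le_iff₀ (by (clear * - hm hr; positivity))]
  refine hcs.trans ?_
  have hG : 0 ≤ (c1 ^ 2 + c2 ^ 2) / (4 * ρ ^ 2) + (x1 ^ 2 + y1 ^ 2) / (2 * ρ) := by (clear * - hr; positivity)
  have h3 : 4 * ρ ^ 2 * m * (m - 4 * ρ) ≤ 4 * (m * ρ) ^ 2 := by
    have : 0 ≤ 16 * ρ ^ 3 * m := by (clear * - hr hm; positivity)
    linarith only [this]
  calc 4 * ρ ^ 2 * m * (m - 4 * ρ) * ((c1 ^ 2 + c2 ^ 2) / (4 * ρ ^ 2) + (x1 ^ 2 + y1 ^ 2) / (2 * ρ))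
      ≤ 4 * (m * ρ) ^ 2 * ((c1 ^ 2 + c2 ^ 2) / (4 * ρ ^ 2) + (x1 ^ 2 + y1 ^ 2) / (2 * ρ)) :=
        mul_le_mul_of_nonneg_right h3 hG
    _ = _ := by ring

end MetricM

/-- exhaustion of `MM χ` -/
noncomputable def exh (χ : ℂ × ℂ → ℝ) (p : ℂ × ℂ × ℂ) : ℝ :=
  Real.log (‖p.2.1 + Complex.I / 2 * p.1 ^ 2 + Complex.I‖ ^ 2 / rho (p.1, p.2.1))
    - Real.log (1 - ‖p.2.2‖ ^ 2 * Real.exp (2 * χ (p.1, p.2.1)))

namespace MetricM

theorem exh_eq (χ : ℂ × ℂ → ℝ) :
    exh χ = fun p => fD (pr p) + (fun t => -Real.log (1 - t)) (xf χ p) := by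
  funext p
  have h := norm_W (pr p)
  have h' : ‖p.2.1 + Complex.I / 2 * p.1 ^ 2 + Complex.I‖ ^ 2 = mm (pr p) := h
  rw [exh, h', xf_eq, fD]
  show Real.log (mm (pr p) / rho (pr p)) - _ = _ + -Real.log _
  ring

theorem one_sub_xf {χ : ℂ × ℂ → ℝ} {p : ℂ × ℂ × ℂ} (hp : p ∈ MM χ) : 0 < 1 - xf χ p := by
  have := xf_lt hp
  linarith only [this]

theorem continuousOn_xf {χ : ℂ × ℂ → ℝ} (hχ : ContinuousOn χ DD) :
    ContinuousOn (xf χ) (pr ⁻¹' DD) := by
  have h1 : ContinuousOn (fun p => χ (pr p)) (pr ⁻¹' DD) :=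
    hχ.comp pr.continuous.continuousOn (fun p hp => hp)
  exact (contDiff_nv (n := 0)).continuous.continuousOn.mul
    (Real.continuous_exp.comp_continuousOn (continuousOn_const.mul h1))

end MetricM

theorem exh_contDiffOn (χ : ℂ × ℂ → ℝ) (hχ : ContDiffOn ℝ (⊤ : ℕ∞) χ DD) :
    ContDiffOn ℝ 1 (exh χ) (MM χ) := by
  intro p hp
  rw [exh_eq]
  apply ContDiffAt.contDiffWithinAt
  have hq : pr p ∈ DD := hp.1
  have h1 : ContDiffAt ℝ 1 (fun p => fD (pr p)) p :=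
    (contDiffAt_fD hq).comp p (pr.restrictScalars ℝ).contDiff.contDiffAt
  have h3 : ContDiffAt ℝ 1 (xf χ) p := (contDiffAt_xf (contDiffAt_chi hχ hq)).of_le (by (clear * -; norm_num))
  exact h1.add ((contDiffAt_u (one_sub_xf hp).ne').comp p h3)

theorem exh_gradient (δ : ℝ) (hδ : 0 < δ) (χ : ℂ × ℂ → ℝ) (hχ : ContDiffOn ℝ (⊤ : ℕ∞) χ DD)
    (hpos : ∀ q ∈ DD, ∀ X, 0 ≤ gP χ q X X) :
    ∃ C : ℝ, ∀ p ∈ MM χ, ∀ X, (fderiv ℝ (exh χ) p X) ^ 2 ≤ C * gP (PP δ χ) p X X := by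
  refine ⟨8 + 8 / δ, fun p hp X => ?_⟩
  have hq : pr p ∈ DD := hp.1
  have hχ' := contDiffAt_chi hχ hq
  have hx := contDiffAt_xf hχ'
  have h4 := one_sub_xf hp
  have hx0 := xf_nonneg χ p
  have e1 : fderiv ℝ (exh χ) p X = fderiv ℝ fD (pr p) (pr X)
      + (1 - xf χ p)⁻¹ * fderiv ℝ (xf χ) p X := by
    rw [exh_eq]
    have d1 : DifferentiableAt ℝ (fun p => fD (pr p)) p :=
      ((contDiffAt_fD (n := 1) hq).comp p
        (pr.restrictScalars ℝ).contDiff.contDiffAt).differentiableAt (by norm_num)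
    have d2 : DifferentiableAt ℝ (xf χ) p := hx.differentiableAt (by norm_num)
    have d3 : DifferentiableAt ℝ (fun t : ℝ => -Real.log (1 - t)) (xf χ p) :=
      (contDiffAt_u (n := 1) h4.ne').differentiableAt (by norm_num)
    have d4 : DifferentiableAt ℝ (fun p => (fun t : ℝ => -Real.log (1 - t)) (xf χ p)) p :=
      d3.comp p d2
    rw [fderiv_fun_add d1 d4]
    have a1 := Jet2.d1_comp_clm (f := fD) (pr.restrictScalars ℝ) (p := p)
      ((contDiffAt_fD (n := 1) hq).differentiableAt (by norm_num)) X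
    have a2 := Jet2.d1_comp d2 d3 X
    rw [deriv_u] at a2
    show fderiv ℝ (fun p => fD (pr p)) p X
      + fderiv ℝ (fun p => (fun t : ℝ => -Real.log (1 - t)) (xf χ p)) p X = _
    rw [a2]
    congr 1
  have key : gP (PP δ χ) p X X = gP (fun q => -Real.log (rho q)) (pr p) (pr X) (pr X)
      + δ * (2 * xf χ p / (1 - xf χ p) * gP χ (pr p) (pr X) (pr X)
        + ef χ p * ‖beta χ p X‖ ^ 2 / (1 - xf χ p) ^ 2) := by
    rw [gP_PP δ χ hχ p hp X, xf_eq]
    rfl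
  have hA := fD_grad hq (pr X)
  have hB : ((1 - xf χ p)⁻¹ * fderiv ℝ (xf χ) p X) ^ 2 ≤
      4 * (ef χ p * ‖beta χ p X‖ ^ 2 / (1 - xf χ p) ^ 2) := by
    have h5 := xf_grad hχ' X
    have h6 : fderiv ℝ (xf χ) p X ^ 2 ≤ 4 * (ef χ p * ‖beta χ p X‖ ^ 2) := by
      have h7 : 0 ≤ ef χ p * ‖beta χ p X‖ ^ 2 :=
        mul_nonneg (Real.exp_nonneg _) (by (clear * -; positivity))
      have h8 := sq_nonneg (fderiv ℝ (xf χ) p (Complex.I • X))
      have h9 : xf χ p ≤ 1 := by linarith only [h4]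
      nlinarith only [h5, h4, h7]
    rw [mul_pow, inv_pow, ← div_eq_inv_mul, mul_div_assoc', div_le_div_iff_of_pos_right (by (clear * - h4; positivity))]
    exact h6
  have hG0 : 0 ≤ gP (fun q => -Real.log (rho q)) (pr p) (pr X) (pr X) := by
    have := sq_nonneg (fderiv ℝ fD (pr p) (pr X))
    linarith only [hA, this]
  have hF0 : 0 ≤ ef χ p * ‖beta χ p X‖ ^ 2 / (1 - xf χ p) ^ 2 := by
    have h7 : 0 ≤ ef χ p * ‖beta χ p X‖ ^ 2 :=
      mul_nonneg (Real.exp_nonneg _) (by (clear * -; positivity))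
    (clear * - h7 h4; positivity)
  have hK0 : 0 ≤ 2 * xf χ p / (1 - xf χ p) * gP χ (pr p) (pr X) (pr X) :=
    mul_nonneg (by (clear * - hx0 h4; positivity)) (hpos _ hq _)
  rw [e1, key]
  set A := fderiv ℝ fD (pr p) (pr X)
  set B := (1 - xf χ p)⁻¹ * fderiv ℝ (xf χ) p X
  set G := gP (fun q => -Real.log (rho q)) (pr p) (pr X) (pr X)
  set F := ef χ p * ‖beta χ p X‖ ^ 2 / (1 - xf χ p) ^ 2
  set K := 2 * xf χ p / (1 - xf χ p) * gP χ (pr p) (pr X) (pr X)
  have h1 : (A + B) ^ 2 ≤ 8 * G + 8 * F := by linarith only [hA, hB, sq_nonneg (A - B)]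
  have h2 : 8 * G + 8 * F ≤ (8 + 8 / δ) * (G + δ * (K + F)) := by
    have e : (8 + 8 / δ) * (G + δ * (K + F)) =
        8 * G + 8 * F + (8 * δ * K + 8 * δ * F + 8 / δ * G + 8 * K) := by
      field_simp
      ring
    rw [e]
    have : 0 ≤ 8 * δ * K + 8 * δ * F + 8 / δ * G + 8 * K := by (clear * - hδ hK0 hF0 hG0; positivity)
    linarith only [this]
  exact h1.trans h2

theorem exh_proper (χ : ℂ × ℂ → ℝ) (hχ : ContinuousOn χ DD) (R : ℝ) :
    IsCompact {p | p ∈ MM χ ∧ exh χ p ≤ R} := by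
  set T := Real.exp R with hT
  have hT0 : 0 < T := Real.exp_pos R
  set K : Set (ℂ × ℂ) := {q | T⁻¹ ≤ rho q ∧ mm q ≤ T * rho q} with hK
  have hKD : K ⊆ DD := fun q hq => lt_of_lt_of_le (inv_pos.mpr hT0) hq.1
  have hKclosed : IsClosed K :=
    (isClosed_le continuous_const (contDiff_rho (n := 0)).continuous).inter
      (isClosed_le (contDiff_mm (n := 0)).continuous
        (continuous_const.mul (contDiff_rho (n := 0)).continuous))
  -- bounds on `K`
  have hKb : ∀ q ∈ K, |q.1.re| ≤ 1 + 2 * T ∧ |q.1.im| ≤ 1 + 2 * T ∧ |q.2.re| ≤ 4 * T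
      ∧ |q.2.im| ≤ 3 * T := by
    intro q hq
    have hr : 0 < rho q := hKD hq
    have hwi := wi_eq q
    have hmm : mm q = wr q * wr q + wi q * wi q := rfl
    have hm2 := hq.2
    have hwr : wr q = q.2.re - q.1.re * q.1.im := rfl
    have hrho : rho q = q.2.im - q.1.im ^ 2 := rfl
    set x := q.1.re
    set y := q.1.im
    set ρ := rho q
    set b := wi q
    set a := wr q
    have hb1 : ρ ≤ b := by rw [hwi]; linarith only [sq_nonneg x, sq_nonneg y]
    have hb0 : 0 < b := lt_of_lt_of_le hr hb1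
    have hbT : b ≤ T := by
      have h1 : b * b ≤ T * ρ := by linarith only [hm2, hmm, mul_self_nonneg a]
      have h2 : b * b ≤ T * b := h1.trans (mul_le_mul_of_nonneg_left hb1 hT0.le)
      exact le_of_mul_le_mul_right h2 hb0
    have hρT : ρ ≤ T := hb1.trans hbT
    have hxy : x ^ 2 + y ^ 2 ≤ 2 * T := by linarith only [hr, hwi, hbT]
    have haT : a * a ≤ T * T := by nlinarith only [hm2, hwi, hmm, hbT, hT0]
    have haT' : |a| ≤ T := abs_le_of_sq_le_sq (by linarith only [haT]) hT0.le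
    have hx1 : |x| ≤ 1 + 2 * T := by
      apply abs_le_of_sq_le_sq
      · nlinarith only [hr, hwi, hbT]
      · linarith only [hT0]
    have hy1 : |y| ≤ 1 + 2 * T := by
      apply abs_le_of_sq_le_sq
      · nlinarith only [hr, hwi, hbT]
      · linarith only [hT0]
    refine ⟨hx1, hy1, ?_, ?_⟩
    · have h1 : q.2.re = a + x * y := by rw [hwr]; ring
      rw [h1]
      have h2 : |x * y| ≤ 2 * T := by
        rw [abs_le]
        constructor <;> linarith only [hT0, hr, hwi, hbT, sq_nonneg (x + y), sq_nonneg (x - y)]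
      exact (abs_add_le _ _).trans (by linarith only [hT0, haT', h2])
    · have h1 : q.2.im = ρ + y ^ 2 := by rw [hrho]; ring
      rw [h1, abs_of_nonneg (by (clear * - hr; positivity))]
      linarith only [hT0, hr, hwi, hbT, sq_nonneg x]
  have hnormC : ∀ z : ℂ, ‖z‖ ≤ |z.re| + |z.im| := Complex.norm_le_abs_re_add_abs_im
  have hKbd : ∀ q ∈ K, ‖q‖ ≤ 7 * T + 7 := by
    intro q hq
    obtain ⟨h1, h2, h3, h4⟩ := hKb q hq
    rw [Prod.norm_def]
    apply max_le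
    · exact (hnormC _).trans (by linarith only [hT0, h1, h2])
    · exact (hnormC _).trans (by linarith only [h3, h4])
  have hKc : IsCompact K := by
    apply Metric.isCompact_of_isClosed_isBounded hKclosed
    rw [isBounded_iff_forall_norm_le]
    exact ⟨7 * T + 7, hKbd⟩
  obtain ⟨c, hc⟩ : ∃ c : ℝ, ∀ q ∈ K, c ≤ χ q := by
    obtain ⟨c, hc⟩ := (hKc.image_of_continuousOn (hχ.mono hKD)).bddBelow
    exact ⟨c, fun q hq => hc ⟨q, hq, rfl⟩⟩
  -- description of the set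
  have hset : {p | p ∈ MM χ ∧ exh χ p ≤ R} = (pr ⁻¹' K) ∩
      (fun p => xf χ p + T⁻¹ * (mm (pr p) / rho (pr p))) ⁻¹' (Iic 1) := by
    ext p
    constructor
    · rintro ⟨hp, hR⟩
      have hq : pr p ∈ DD := hp.1
      have hr : 0 < rho (pr p) := hq
      have hm := mm_pos hq
      have h1 := one_sub_xf hp
      have hx0 := xf_nonneg χ p
      have h2 : mm (pr p) / rho (pr p) ≤ T * (1 - xf χ p) := by
        have e : exh χ p = Real.log (mm (pr p) / rho (pr p)) - Real.log (1 - xf χ p) := by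
          rw [exh_eq]; show fD (pr p) + -Real.log _ = _; rw [fD]; ring
        rw [e] at hR
        have h3 : Real.log (mm (pr p) / rho (pr p)) ≤ Real.log (T * (1 - xf χ p)) := by
          rw [Real.log_mul hT0.ne' h1.ne', hT, Real.log_exp]
          linarith only [hR]
        exact (Real.log_le_log_iff (by (clear * - hm hr; positivity)) (by (clear * - h1; positivity))).mp h3
      have h4 : mm (pr p) ≤ T * rho (pr p) := by
        rw [div_le_iff₀ hr] at h2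
        have : T * (1 - xf χ p) * rho (pr p) ≤ T * rho (pr p) := by
          have : 0 ≤ T * xf χ p * rho (pr p) := by (clear * - hx0 hr; positivity)
          linarith only [this]
        (clear * - h2 this; linarith)
      refine ⟨⟨?_, h4⟩, ?_⟩
      · have hwi := wi_eq (pr p)
        have hmm : mm (pr p) = wr (pr p) * wr (pr p) + wi (pr p) * wi (pr p) := rfl
        have h5 : 1 ≤ wi (pr p) := by
          rw [hwi]
          linarith only [hr, sq_nonneg (pr p).1.re, sq_nonneg (pr p).1.im]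
        have h6 : 1 ≤ mm (pr p) := by nlinarith only [hwi, hmm, hr]
        rw [inv_le_iff_one_le_mul₀ hT0]
        linarith only [h4, h6]
      · show xf χ p + T⁻¹ * (mm (pr p) / rho (pr p)) ≤ 1
        have : T⁻¹ * (mm (pr p) / rho (pr p)) ≤ T⁻¹ * (T * (1 - xf χ p)) :=
          mul_le_mul_of_nonneg_left h2 (inv_nonneg.mpr hT0.le)
        rw [inv_mul_cancel_left₀ hT0.ne'] at this
        linarith only [this]
    · rintro ⟨hp, hle⟩
      have hq : pr p ∈ DD := hKD hp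
      have hr : 0 < rho (pr p) := hq
      have hm := mm_pos hq
      have hle' : xf χ p + T⁻¹ * (mm (pr p) / rho (pr p)) ≤ 1 := hle
      have hpos : 0 < T⁻¹ * (mm (pr p) / rho (pr p)) := by (clear * - hm hr; positivity)
      have hx1 : xf χ p < 1 := by linarith only [hle', hpos]
      have hp' : p ∈ MM χ := by
        refine ⟨hq, ?_⟩
        rw [← xf_eq]; exact hx1
      refine ⟨hp', ?_⟩
      have h1 := one_sub_xf hp'
      have e : exh χ p = Real.log (mm (pr p) / rho (pr p)) - Real.log (1 - xf χ p) := by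
        rw [exh_eq]; show fD (pr p) + -Real.log _ = _; rw [fD]; ring
      rw [e]
      have h2 : mm (pr p) / rho (pr p) ≤ T * (1 - xf χ p) := by
        have h3 : T⁻¹ * (mm (pr p) / rho (pr p)) ≤ 1 - xf χ p := by linarith only [hle']
        rwa [inv_mul_le_iff₀ hT0] at h3
      have h3 : Real.log (mm (pr p) / rho (pr p)) ≤ Real.log (T * (1 - xf χ p)) :=
        Real.log_le_log (by (clear * - hm hr; positivity)) h2
      rw [Real.log_mul hT0.ne' h1.ne', hT, Real.log_exp] at h3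
      linarith only [h3]
  rw [hset]
  have hsub : pr ⁻¹' K ⊆ pr ⁻¹' DD := preimage_mono hKD
  apply Metric.isCompact_of_isClosed_isBounded
  · apply ContinuousOn.preimage_isClosed_of_isClosed _ (hKclosed.preimage pr.continuous) isClosed_Iic
    apply ContinuousOn.add ((continuousOn_xf hχ).mono hsub)
    apply continuousOn_const.mul
    apply ContinuousOn.div
    · exact ((contDiff_mm (n := 0)).continuous.comp pr.continuous).continuousOn
    · exact ((contDiff_rho (n := 0)).continuous.comp pr.continuous).continuousOn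
    · intro p hp
      exact ne_of_gt (hKD hp)
  · rw [isBounded_iff_forall_norm_le]
    refine ⟨7 * T + 7 + (1 + Real.exp (-(2 * c))), ?_⟩
    rintro p ⟨hp, hle⟩
    have hq : pr p ∈ DD := hKD hp
    have hr : 0 < rho (pr p) := hq
    have hm := mm_pos hq
    have hle' : xf χ p + T⁻¹ * (mm (pr p) / rho (pr p)) ≤ 1 := hle
    have hpos : 0 < T⁻¹ * (mm (pr p) / rho (pr p)) := by (clear * - hm hr; positivity)
    have hx1 : xf χ p < 1 := by linarith only [hle', hpos]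
    have h1 := hKbd _ hp
    have h2 : ‖p.2.2‖ ≤ 1 + Real.exp (-(2 * c)) := by
      rw [xf_eq] at hx1
      have h3 : Real.exp (2 * c) ≤ Real.exp (2 * χ (p.1, p.2.1)) := by
        apply Real.exp_le_exp.mpr
        have := hc _ hp
        have h' : c ≤ χ (p.1, p.2.1) := this
        linarith only [h']
      have h4 : ‖p.2.2‖ ^ 2 * Real.exp (2 * c) ≤ 1 :=
        (mul_le_mul_of_nonneg_left h3 (by (clear * -; positivity))).trans hx1.le
      have h5 : ‖p.2.2‖ ^ 2 ≤ Real.exp (-(2 * c)) := by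
        rw [Real.exp_neg, ← one_div, le_div_iff₀ (Real.exp_pos _)]
        exact h4
      linarith only [h5, sq_nonneg (‖p.2.2‖ - 1), norm_nonneg p.2.2]
    have h3 : ‖p.1‖ ≤ ‖pr p‖ := norm_fst_le (pr p)
    have h4 : ‖p.2.1‖ ≤ ‖pr p‖ := norm_snd_le (pr p)
    have h5 : 0 < Real.exp (-(2 * c)) := Real.exp_pos _
    rw [Prod.norm_def, Prod.norm_def]
    apply max_le
    · linarith only [h1, h3, h5]
    · apply max_le <;> linarith only [h1, h4, h5, hT0, h2]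

end Vale.Agent.P250
end
end
end
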