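import Vale.Agent.P250.MathlibUsed
import Vale.Agent.P250.Bdl.B1
import Vale.Agent.P250.Stmt

set_option linter.all false

section

section

section

/-!
Interface between the jet computation (T3) and the pointwise inequality (T8):
explicit formulas for the second, third and fourth derivative of the normalised potential
at the centre of the ball, in terms of the 4-jet `c2, c3, c4` of `χ`;
`u = e^y / (1 - e^y)`.
-/

set_option maxSynthPendingDepth 3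

namespace Vale.Agent.P250

variable {V : Type*} [NormedAddCommGroup V] [InnerProductSpace ℂ V]

/-- The real inner product. -/
noncomputable def sR (X Y : V) : ℝ := (inner ℂ X Y).re

/-- Second derivative of `Phat`. -/
noncomputable def D2P (δ u : ℝ) (c2 : V →L[ℝ] V →L[ℝ] ℝ) (X Y : V × ℂ) : ℝ :=
  2 * sR X.1 Y.1 + δ * (u * (1 + u) * ((2 * X.2.re) * (2 * Y.2.re)) + u * (2 * c2 X.1 Y.1))

/-- Third derivative of `Phat`. -/
noncomputable def D3P (δ u : ℝ) (c2 : V →L[ℝ] V →L[ℝ] ℝ) (c3 : V →L[ℝ] V →L[ℝ] V →L[ℝ] ℝ)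
    (X Y Z : V × ℂ) : ℝ :=
  δ * (u * (1 + u) * (1 + 2 * u) * ((2 * X.2.re) * (2 * Y.2.re) * (2 * Z.2.re))
    + u * (1 + u) * ((2 * X.2.re) * (2 * c2 Y.1 Z.1) + (2 * Y.2.re) * (2 * c2 X.1 Z.1)
        + (2 * Z.2.re) * (2 * c2 X.1 Y.1))
    + u * (2 * c3 X.1 Y.1 Z.1))

/-- Fourth derivative of `Phat`. -/
noncomputable def D4P (δ u : ℝ) (c2 : V →L[ℝ] V →L[ℝ] ℝ) (c3 : V →L[ℝ] V →L[ℝ] V →L[ℝ] ℝ)
    (c4 : V →L[ℝ] V →L[ℝ] V →L[ℝ] V →L[ℝ] ℝ) (X Y Z W : V × ℂ) : ℝ :=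
  4 * (sR X.1 Y.1 * sR Z.1 W.1 + sR X.1 Z.1 * sR Y.1 W.1 + sR X.1 W.1 * sR Y.1 Z.1)
  + δ * (u * (1 + u) * (1 + 6 * u + 6 * u ^ 2)
      * ((2 * X.2.re) * (2 * Y.2.re) * (2 * Z.2.re) * (2 * W.2.re))
    + u * (1 + u) * (1 + 2 * u) * ((2 * X.2.re) * (2 * Y.2.re) * (2 * c2 Z.1 W.1)
        + (2 * X.2.re) * (2 * Z.2.re) * (2 * c2 Y.1 W.1)
        + (2 * X.2.re) * (2 * W.2.re) * (2 * c2 Y.1 Z.1)
        + (2 * Y.2.re) * (2 * Z.2.re) * (2 * c2 X.1 W.1)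
        + (2 * Y.2.re) * (2 * W.2.re) * (2 * c2 X.1 Z.1)
        + (2 * Z.2.re) * (2 * W.2.re) * (2 * c2 X.1 Y.1))
    + u * (1 + u) * ((2 * c2 X.1 Y.1) * (2 * c2 Z.1 W.1) + (2 * c2 X.1 Z.1) * (2 * c2 Y.1 W.1)
        + (2 * c2 X.1 W.1) * (2 * c2 Y.1 Z.1)
        + (2 * X.2.re) * (2 * c3 Y.1 Z.1 W.1) + (2 * Y.2.re) * (2 * c3 X.1 Z.1 W.1)
        + (2 * Z.2.re) * (2 * c3 X.1 Y.1 W.1) + (2 * W.2.re) * (2 * c3 X.1 Y.1 Z.1))
    + u * (2 * c4 X.1 Y.1 Z.1 W.1))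

/-- The metric at the point. -/
noncomputable def gA (δ u : ℝ) (c2 : V →L[ℝ] V →L[ℝ] ℝ) (X Y : V × ℂ) : ℝ :=
  (1 / 4) * (D2P δ u c2 X Y + D2P δ u c2 (Complex.I • X) (Complex.I • Y))

/-- The derivative of the metric at the point in direction `X`. -/
noncomputable def dgA (δ u : ℝ) (c2 : V →L[ℝ] V →L[ℝ] ℝ) (c3 : V →L[ℝ] V →L[ℝ] V →L[ℝ] ℝ)
    (X Y Z : V × ℂ) : ℝ :=
  (1 / 4) * (D3P δ u c2 c3 X Y Z + D3P δ u c2 c3 X (Complex.I • Y) (Complex.I • Z))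

end Vale.Agent.P250
end
end
end

section

section

section

/-! Topology of the tube domain `DD` and of the disc bundle `MM`. -/

set_option maxSynthPendingDepth 3

namespace Vale.Agent.P250
open Set Filter Topology

theorem continuous_rho : Continuous rho := by
  unfold rho
  fun_prop

theorem isOpen_DD : IsOpen DD := isOpen_lt continuous_const continuous_rho

theorem isOpen_MM (χ : ℂ × ℂ → ℝ) (hχ : ContinuousOn χ DD) : IsOpen (MM χ) := by
  have h1 : IsOpen {p : ℂ × ℂ × ℂ | (p.1, p.2.1) ∈ DD} :=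
    isOpen_DD.preimage (by fun_prop)
  have hc : ContinuousOn (fun p : ℂ × ℂ × ℂ => χ (p.1, p.2.1)) {p : ℂ × ℂ × ℂ | (p.1, p.2.1) ∈ DD} :=
    hχ.comp (by fun_prop) (fun p hp => hp)
  have h2 : ContinuousOn (fun p : ℂ × ℂ × ℂ => ‖p.2.2‖ ^ 2 * Real.exp (2 * χ (p.1, p.2.1)))
      {p : ℂ × ℂ × ℂ | (p.1, p.2.1) ∈ DD} :=
    ContinuousOn.mul (by (clear * -; fun_prop)) (Real.continuous_exp.comp_continuousOn
      (continuousOn_const.mul hc))
  exact h2.isOpen_inter_preimage h1 isOpen_Iio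

/-- the affine path from q to the point with coordinates 0 and i -/
noncomputable def pathD (t : ℝ) (q : ℂ × ℂ) : ℂ × ℂ :=
  ((1 - t : ℂ) * q.1, (1 - t : ℂ) * q.2 + t * Complex.I)

theorem pathD_mem {t : ℝ} (h0 : 0 ≤ t) (h1 : t ≤ 1) {q : ℂ × ℂ} (hq : q ∈ DD) :
    pathD t q ∈ DD := by
  have hq' : 0 < q.2.im - q.1.im ^ 2 := hq
  show 0 < (pathD t q).2.im - (pathD t q).1.im ^ 2
  have e1 : (pathD t q).2.im = (1 - t) * q.2.im + t := by
    simp only [pathD, Complex.add_im, Complex.mul_im, Complex.sub_re, Complex.one_re, Complex.ofReal_re, Complex.sub_im, Complex.one_im, Complex.ofReal_im, sub_self, zero_mul, add_zero, Complex.I_im, mul_one, Complex.I_re, mul_zero]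
  have e2 : (pathD t q).1.im = (1 - t) * q.1.im := by
    simp [pathD]
  rw [e1, e2]
  have h3 : 0 ≤ (1 - t) * t * q.1.im ^ 2 :=
    mul_nonneg (mul_nonneg (by linarith) h0) (sq_nonneg _)
  rcases eq_or_lt_of_le h1 with rfl | h1'
  · norm_num
  · have h4 : 0 < (1 - t) * (q.2.im - q.1.im ^ 2) := mul_pos (by linarith only [h1']) hq'
    linarith only [h0, h3, h4]

theorem simplyConnected_MM (χ : ℂ × ℂ → ℝ) (hχ : ContinuousOn χ DD) :
    SimplyConnectedSpace (MM χ) := by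
  have hcontr : ContractibleSpace (MM χ) := by
    rw [contractible_iff_id_nullhomotopic]
    have hbase : ((0 : ℂ), Complex.I, (0 : ℂ)) ∈ MM χ := by
      refine ⟨?_, ?_⟩
      · show 0 < rho (0, Complex.I)
        simp [rho]
      · simp only [norm_zero, ne_eq, OfNat.ofNat_ne_zero, not_false_eq_true, zero_pow, zero_mul, zero_lt_one]
    refine ⟨⟨((0 : ℂ), Complex.I, (0 : ℂ)), hbase⟩, ⟨?_⟩⟩
    let f : unitInterval × MM χ → ℂ × ℂ × ℂ := fun x =>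
      ((pathD x.1 (x.2.1.1, x.2.1.2.1)).1, (pathD x.1 (x.2.1.1, x.2.1.2.1)).2,
        ((1 - (x.1 : ℝ) : ℝ) : ℂ) * x.2.1.2.2 *
          ((Real.exp (χ (x.2.1.1, x.2.1.2.1) - χ (pathD x.1 (x.2.1.1, x.2.1.2.1))) : ℝ) : ℂ))
    have hmem : ∀ x, f x ∈ MM χ := by
      rintro ⟨t, p, hp⟩
      refine ⟨?_, ?_⟩
      · exact pathD_mem t.2.1 t.2.2 hp.1
      · show ‖((1 - (t : ℝ) : ℝ) : ℂ) * p.2.2 *
          ((Real.exp (χ (p.1, p.2.1) - χ (pathD t (p.1, p.2.1))) : ℝ) : ℂ)‖ ^ 2 *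
            Real.exp (2 * χ (pathD t (p.1, p.2.1))) < 1
        have ht0 := t.2.1
        have ht1 := t.2.2
        have h := hp.2
        rw [norm_mul, norm_mul, Complex.norm_real, Complex.norm_real, Real.norm_eq_abs,
          Real.norm_eq_abs, Real.abs_exp, mul_pow, mul_pow, sq_abs, ← Real.exp_nat_mul, mul_assoc,
          ← Real.exp_add]
        have e : ((2 : ℕ) : ℝ) * (χ (p.1, p.2.1) - χ (pathD t (p.1, p.2.1))) +
            2 * χ (pathD t (p.1, p.2.1)) = 2 * χ (p.1, p.2.1) := by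
          push_cast
          ring
        rw [e, mul_assoc]
        have h2 : (1 - (t : ℝ)) ^ 2 ≤ 1 := by nlinarith only [ht0, ht1]
        have h3 : 0 ≤ ‖p.2.2‖ ^ 2 * Real.exp (2 * χ (p.1, p.2.1)) := by (clear * -; positivity)
        calc (1 - (t : ℝ)) ^ 2 * (‖p.2.2‖ ^ 2 * Real.exp (2 * χ (p.1, p.2.1)))
            ≤ 1 * (‖p.2.2‖ ^ 2 * Real.exp (2 * χ (p.1, p.2.1))) :=
              mul_le_mul_of_nonneg_right h2 h3
          _ < 1 := by rw [one_mul]; exact h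
    have hpc : Continuous (fun x : unitInterval × MM χ => pathD x.1 (x.2.1.1, x.2.1.2.1)) := by
      unfold pathD
      fun_prop
    have hc1 : Continuous (fun x : unitInterval × MM χ => χ (pathD x.1 (x.2.1.1, x.2.1.2.1))) :=
      hχ.comp_continuous hpc (fun x => pathD_mem x.1.2.1 x.1.2.2 x.2.2.1)
    have hc2 : Continuous (fun x : unitInterval × MM χ => χ (x.2.1.1, x.2.1.2.1)) :=
      hχ.comp_continuous (by fun_prop) (fun x => x.2.2.1)
    have hf : Continuous f := by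
      refine (continuous_fst.comp hpc).prodMk ((continuous_snd.comp hpc).prodMk ?_)
      refine Continuous.mul (by fun_prop) ?_
      exact Complex.continuous_ofReal.comp (Real.continuous_exp.comp (hc2.sub hc1))
    refine ⟨⟨fun x => ⟨f x, hmem x⟩, hf.subtype_mk _⟩, ?_, ?_⟩
    · rintro ⟨p, hp⟩
      apply Subtype.ext
      show f (0, ⟨p, hp⟩) = p
      simp only [pathD, Complex.ofReal_sub, Complex.ofReal_one, Complex.ofReal_exp, Icc.coe_zero, Complex.ofReal_zero, sub_zero, one_mul, zero_mul, add_zero, sub_self, Complex.exp_zero, mul_one, Prod.mk.eta, f]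
    · rintro ⟨p, hp⟩
      apply Subtype.ext
      show f (1, ⟨p, hp⟩) = (0, Complex.I, 0)
      simp only [pathD, Complex.ofReal_sub, Complex.ofReal_one, Complex.ofReal_exp, Icc.coe_one, sub_self, zero_mul, one_mul, zero_add, f]
  infer_instance

end Vale.Agent.P250
end
end
end

section

section

section

/-!
Real symmetric forms invariant under multiplication by `i`: Gram determinants, comparison
lemmas, the resolvent operator, and the bilinear Christoffel data.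
-/

set_option maxSynthPendingDepth 3

namespace Vale.Agent.P250.Pt

open Vale.Agent.P250

section Forms

variable {V : Type*} [AddCommGroup V] [Module ℝ V]

/-- Comparison of a function of the plane with a Gram determinant. -/
theorem gram_le (g : V →ₗ[ℝ] V →ₗ[ℝ] ℝ) (hs : ∀ X Y, g X Y = g Y X)
    (hp : ∀ X, X ≠ 0 → 0 < g X X)
    (F : V → V → ℝ) (C : ℝ) (hF : ∀ X Y (r : ℝ), F X (Y + r • X) = F X Y)
    (hb : ∀ X Y, F X Y ≤ C * (g X X * g Y Y)) (X Y : V) :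
    F X Y ≤ C * (g X X * g Y Y - g X Y ^ 2) := by
  by_cases hX : X = 0
  · have := hb X Y
    simp [hX] at this ⊢
    exact this
  · have hg := hp X hX
    have h1 := hb X (Y + (-(g X Y / g X X)) • X)
    rw [hF] at h1
    have h2 : g X X * g (Y + (-(g X Y / g X X)) • X) (Y + (-(g X Y / g X X)) • X)
        = g X X * g Y Y - g X Y ^ 2 := by
      simp only [map_add, map_smul, LinearMap.add_apply, LinearMap.smul_apply, smul_eq_mul,
        hs Y X]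
      field_simp
      ring
    rwa [h2] at h1

/-- Cauchy-Schwarz for a form dominated by a positive form. -/
theorem form_cs (f g : V →ₗ[ℝ] V →ₗ[ℝ] ℝ) (hf : ∀ X Y, f X Y = f Y X)
    (hg : ∀ X Y, g X Y = g Y X) (μ : ℝ)
    (h1 : ∀ X, f X X ≤ μ * g X X) (h2 : ∀ X, -(μ * g X X) ≤ f X X) (X Y : V) :
    f X Y ^ 2 ≤ μ ^ 2 * (g X X * g Y Y) := by
  have key : ∀ r : ℝ, 0 ≤ (μ * g X X) * (r * r) + (2 * f X Y) * r + μ * g Y Y := by
    intro r
    have a1 := h2 (r • X + Y)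
    have a2 := h1 (r • X - Y)
    simp only [map_add, map_sub, map_smul, LinearMap.add_apply, LinearMap.sub_apply,
      LinearMap.smul_apply, smul_eq_mul, hf Y X, hg Y X] at a1 a2
    linarith
  have := discrim_le_zero key
  simp only [discrim] at this
  linarith

end Forms

section HForms

variable {V : Type*} [NormedAddCommGroup V] [InnerProductSpace ℂ V]

/-- Symmetric real form invariant under `i`. -/
structure HForm (f : V →ₗ[ℝ] V →ₗ[ℝ] ℝ) : Prop where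
  symm : ∀ X Y, f X Y = f Y X
  inv : ∀ X Y, f (Complex.I • X) (Complex.I • Y) = f X Y

namespace HForm

variable {f : V →ₗ[ℝ] V →ₗ[ℝ] ℝ}

theorem I_self (hf : HForm f) (X : V) : f (Complex.I • X) X = 0 := by
  have h1 := hf.inv (Complex.I • X) X
  rw [smul_smul, Complex.I_mul_I, neg_one_smul, map_neg, LinearMap.neg_apply,
    hf.symm X (Complex.I • X)] at h1
  linarith only [h1]

theorem right_I (hf : HForm f) (X Y : V) : f X (Complex.I • Y) = -f (Complex.I • X) Y := by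
  have h1 := hf.inv X (Complex.I • Y)
  rw [smul_smul, Complex.I_mul_I, neg_one_smul, map_neg] at h1
  linarith only [h1]

theorem add {g : V →ₗ[ℝ] V →ₗ[ℝ] ℝ} (hf : HForm f) (hg : HForm g) : HForm (f + g) where
  symm X Y := by simp only [LinearMap.add_apply, hf.symm X Y, hg.symm X Y]
  inv X Y := by simp only [LinearMap.add_apply, hf.inv X Y, hg.inv X Y]

theorem sub {g : V →ₗ[ℝ] V →ₗ[ℝ] ℝ} (hf : HForm f) (hg : HForm g) : HForm (f - g) where
  symm X Y := by simp [hf.symm X Y, hg.symm X Y]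
  inv X Y := by simp only [LinearMap.sub_apply, hf.inv X Y, hg.inv X Y]

theorem smul (hf : HForm f) (r : ℝ) : HForm (r • f) where
  symm X Y := by simp [hf.symm X Y]
  inv X Y := by simp only [LinearMap.smul_apply, hf.inv X Y, smul_eq_mul]

/-- The imaginary part is controlled by Gram determinants. -/
theorem im_sq_le {g : V →ₗ[ℝ] V →ₗ[ℝ] ℝ} (hf : HForm f) (hg : HForm g)
    (hp : ∀ X, X ≠ 0 → 0 < g X X) (μ : ℝ)
    (h1 : ∀ X, f X X ≤ μ * g X X) (h2 : ∀ X, -(μ * g X X) ≤ f X X) (X Y : V) :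
    f (Complex.I • X) Y ^ 2 ≤ μ ^ 2 * (g X X * g Y Y - g X Y ^ 2) := by
  refine gram_le g hg.symm hp (fun X Y => f (Complex.I • X) Y ^ 2) (μ ^ 2) ?_ ?_ X Y
  · intro X Y r
    simp only [map_add, map_smul, hf.I_self, smul_eq_mul, mul_zero, add_zero]
  · intro X Y
    have := form_cs f g hf.symm hg.symm μ h1 h2 (Complex.I • X) Y
    rwa [hg.inv] at this

theorem smul_smul_apply (hf : HForm f) (z w : ℂ) (X Y : V) :
    f (z • X) (w • Y) = (z.re * w.re + z.im * w.im) * f X Y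
      + (z.im * w.re - z.re * w.im) * f (Complex.I • X) Y := by
  have e1 : ∀ (z : ℂ) (X : V), z • X = z.re • X + z.im • (Complex.I • X) := by
    intro z X
    conv_lhs => rw [← Complex.re_add_im z, add_smul, mul_smul]
    simp
  rw [e1 z X, e1 w Y]
  simp only [map_add, map_smul, LinearMap.add_apply, LinearMap.smul_apply, smul_eq_mul,
    hf.inv, hf.right_I]
  ring

end HForm

/-- The real inner product as a form. -/
noncomputable def sB : V →ₗ[ℝ] V →ₗ[ℝ] ℝ :=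
  LinearMap.mk₂ ℝ (fun X Y => sR X Y)
    (fun X X' Y => by simp [sR])
    (fun r X Y => by
      have : r • X = (r : ℂ) • X := by simp
      simp only [sR, this, inner_smul_left, Complex.conj_ofReal, smul_eq_mul]
      simp)
    (fun X Y Y' => by simp [sR])
    (fun r X Y => by
      have : r • Y = (r : ℂ) • Y := by simp
      simp only [sR, this, inner_smul_right, smul_eq_mul]
      simp)

@[simp] theorem sB_apply (X Y : V) : sB X Y = sR X Y := rfl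

theorem sB_self (X : V) : sB X X = ‖X‖ ^ 2 := by
  rw [sB_apply, sR, inner_self_eq_norm_sq_to_K]
  norm_cast

theorem sB_hform : HForm (sB (V := V)) where
  symm X Y := by
    simp only [sB_apply, sR]
    rw [← inner_conj_symm, Complex.conj_re]
  inv X Y := by
    simp only [sB_apply, sR, CStarModule.inner_op_smul_right, CStarModule.inner_op_smul_left, RCLike.star_def, Complex.conj_I, mul_neg, Complex.neg_re, Complex.mul_re, Complex.I_re, mul_zero, Complex.I_im, mul_one, zero_sub, zero_mul, neg_zero, Complex.mul_im, add_zero, one_mul, neg_neg]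

theorem sB_pos (X : V) (hX : X ≠ 0) : 0 < sB X X := by
  rw [sB_self]
  (clear * - hX; positivity)

/-- A continuous form as a linear form. -/
noncomputable def toForm (c : V →L[ℝ] V →L[ℝ] ℝ) : V →ₗ[ℝ] V →ₗ[ℝ] ℝ :=
  LinearMap.mk₂ ℝ (fun X Y => c X Y) (by intros; simp) (by intros; simp) (by intros; simp)
    (by intros; simp)

@[simp] theorem toForm_apply (c : V →L[ℝ] V →L[ℝ] ℝ) (X Y : V) : toForm c X Y = c X Y := rfl

/-- Data of the resolvent: `R = (1 + 2 t K)⁻¹` where `k(X,Y) = s(KX,Y)`. -/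
structure Resolvent (t : ℝ) (k : V →ₗ[ℝ] V →ₗ[ℝ] ℝ) (R : V →ₗ[ℝ] V) : Prop where
  tpos : 0 < t
  hk : HForm k
  kpos : ∀ X, X ≠ 0 → 0 < k X X
  eq : ∀ X Y, sB (R X) Y + 2 * t * k (R X) Y = sB X Y

namespace Resolvent

variable {t : ℝ} {k : V →ₗ[ℝ] V →ₗ[ℝ] ℝ} {R : V →ₗ[ℝ] V}

theorem knonneg (h : Resolvent t k R) (X : V) : 0 ≤ k X X := by
  by_cases hX : X = 0
  · simp [hX]
  · exact (h.kpos X hX).le

theorem sR_symm' (h : Resolvent t k R) (X Y : V) : sB X (R Y) = sB (R X) Y := by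
  rw [← h.eq X (R Y), sB_hform.symm (R X) Y, ← h.eq Y (R X), sB_hform.symm (R X) (R Y),
    h.hk.symm (R X) (R Y)]

theorem two_t_m (h : Resolvent t k R) (X Y : V) : 2 * t * k X (R Y) = sB X Y - sB X (R Y) := by
  have := h.eq Y X
  rw [h.hk.symm (R Y) X, sB_hform.symm (R Y) X, sB_hform.symm Y X] at this
  linarith only [this]

theorem m_symm (h : Resolvent t k R) (X Y : V) : k X (R Y) = k Y (R X) := by
  have h1 := h.two_t_m X Y
  have h2 := h.two_t_m Y X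
  rw [h.sR_symm' X Y] at h1
  rw [sB_hform.symm Y X, sB_hform.symm Y (R X)] at h2
  have ht := h.tpos
  have h3 : 2 * t * (k X (R Y) - k Y (R X)) = 0 := by linarith only [h1, h2]
  have h4 : k X (R Y) - k Y (R X) = 0 := by
    rcases mul_eq_zero.1 h3 with h5 | h5
    · linarith only [ht, h5]
    · exact h5
  linarith only [h4]

theorem R_I (h : Resolvent t k R) (X : V) : R (Complex.I • X) = Complex.I • R X := by
  have h1 : ∀ Y, sB (R (Complex.I • X) - Complex.I • R X) Y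
      + 2 * t * k (R (Complex.I • X) - Complex.I • R X) Y = 0 := by
    intro Y
    have e1 := h.eq (Complex.I • X) Y
    have e2 := h.eq X (Complex.I • Y)
    rw [sB_hform.right_I, sB_hform.right_I, h.hk.right_I] at e2
    rw [map_sub, map_sub, LinearMap.sub_apply, LinearMap.sub_apply]
    (clear * - e1 e2; linarith)
  have h2 := h1 (R (Complex.I • X) - Complex.I • R X)
  by_contra hne
  have hne' : R (Complex.I • X) - Complex.I • R X ≠ 0 := sub_ne_zero.2 hne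
  have h3 := sB_pos _ hne'
  have h4 := h.kpos _ hne'
  have ht := h.tpos
  have : 0 < 2 * t * k (R (Complex.I • X) - Complex.I • R X)
    (R (Complex.I • X) - Complex.I • R X) := by (clear * - ht h4; positivity)
  linarith only [h2, h3, this]

/-- The form `m(X,Y) = k(X,RY)`. -/
noncomputable def mB (k : V →ₗ[ℝ] V →ₗ[ℝ] ℝ) (R : V →ₗ[ℝ] V) : V →ₗ[ℝ] V →ₗ[ℝ] ℝ :=
  k.compl₂ R

@[simp] theorem mB_apply (k : V →ₗ[ℝ] V →ₗ[ℝ] ℝ) (R : V →ₗ[ℝ] V) (X Y : V) :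
    mB k R X Y = k X (R Y) := rfl

theorem m_hform (h : Resolvent t k R) : HForm (mB k R) where
  symm X Y := h.m_symm X Y
  inv X Y := by simp only [mB_apply, h.R_I, h.hk.inv]

theorem m_upper (h : Resolvent t k R) (e : ℝ) (he : 0 < e) (hk : ∀ X, e * sB X X ≤ k X X)
    (X : V) : (1 + 2 * t * e) * mB k R X X ≤ k X X := by
  have ht := h.tpos
  obtain ⟨Z, hZ⟩ : ∃ Z, Z = R X := ⟨_, rfl⟩
  obtain ⟨U, hU⟩ : ∃ U, U = X - Z := ⟨_, rfl⟩
  have hX : X = Z + U := by rw [hU]; abel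
  have hUY : ∀ Y, sB U Y = 2 * t * k Z Y := by
    intro Y
    have := h.eq X Y
    rw [← hZ] at this
    rw [hU, map_sub, LinearMap.sub_apply]
    linarith only [this]
  rw [mB_apply, ← hZ]
  have e1 : k X Z = k Z Z + k Z U := by
    rw [hX, map_add, LinearMap.add_apply, h.hk.symm U Z]
  have e2 : k X X = k Z Z + 2 * k Z U + k U U := by
    rw [hX]
    simp only [map_add, LinearMap.add_apply]
    rw [h.hk.symm U Z]
    ring
  have e3 := hUY U
  have e4 := hUY Z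
  have e5 := hk Z
  have e6 := hk U
  have cs := form_cs sB sB sB_hform.symm sB_hform.symm 1 (fun X => by simp)
    (fun X => by rw [sB_self]; linarith only [sq_nonneg ‖X‖]) U Z
  have kz := h.knonneg Z
  have hz : 0 ≤ sB Z Z := by rw [sB_self]; (clear * -; positivity)
  have hu : 0 ≤ sB U U := by rw [sB_self]; (clear * -; positivity)
  rw [e1, e2]
  have e7 : 4 * t ^ 2 * e * k Z Z ≤ sB U U := by
    rcases kz.eq_or_lt with h0 | h0
    · rw [← h0]; simpa only [mul_zero, sB_apply] using hu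
    · have h8 : 4 * t ^ 2 * e * k Z Z * k Z Z ≤ sB U U * k Z Z := by
        rw [e4] at cs
        have : sB U U * (e * sB Z Z) ≤ sB U U * k Z Z := mul_le_mul_of_nonneg_left e5 hu
        nlinarith only [this, he, cs]
      exact le_of_mul_le_mul_right h8 h0
  rw [e3] at e7
  have e8 : 2 * t * e * k Z Z ≤ k Z U := by
    have : (2 * t) * (2 * t * e * k Z Z) ≤ (2 * t) * k Z U := by linarith only [e7]
    exact le_of_mul_le_mul_left this (by positivity)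
  nlinarith only [e6, e8, he, e3]

theorem m_lower (h : Resolvent t k R) (c : ℝ) (hk : ∀ X, k X X ≤ c * sB X X)
    (X : V) : k X X ≤ (1 + 2 * t * c) * mB k R X X := by
  have ht := h.tpos
  obtain ⟨Z, hZ⟩ : ∃ Z, Z = R X := ⟨_, rfl⟩
  obtain ⟨U, hU⟩ : ∃ U, U = X - Z := ⟨_, rfl⟩
  have hX : X = Z + U := by rw [hU]; abel
  have hUY : ∀ Y, sB U Y = 2 * t * k Z Y := by
    intro Y
    have := h.eq X Y
    rw [← hZ] at this
    rw [hU, map_sub, LinearMap.sub_apply]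
    linarith
  rw [mB_apply, ← hZ]
  have e1 : k X Z = k Z Z + k Z U := by
    rw [hX, map_add, LinearMap.add_apply, h.hk.symm U Z]
  have e2 : k X X = k Z Z + 2 * k Z U + k U U := by
    rw [hX]
    simp only [map_add, LinearMap.add_apply]
    rw [h.hk.symm U Z]
    ring
  have e3 := hUY U
  have e6 := hk U
  have cs := form_cs k k h.hk.symm h.hk.symm 1 (fun X => by simp)
    (fun X => by linarith only [h.knonneg X]) Z U
  have kz := h.knonneg Z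
  have hu : 0 ≤ sB U U := by rw [sB_self]; (clear * -; positivity)
  have kzu : 0 ≤ k Z U := by
    have : 0 ≤ 2 * t * k Z U := by rw [← e3]; exact hu
    exact nonneg_of_mul_nonneg_right this (by positivity)
  rw [e1, e2]
  have e8 : k Z U ≤ 2 * t * c * k Z Z := by
    rcases kzu.eq_or_lt with h0 | h0
    · rw [← h0]
      have hc : 0 ≤ c * sB Z Z := kz.trans (hk Z)
      rcases kz.eq_or_lt with h1 | h1
      · rw [← h1]; simp
      · have : 0 ≤ c := by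
          by_contra hc'
          push Not at hc'
          have hz : 0 ≤ sB Z Z := by rw [sB_self]; (clear * -; positivity)
          nlinarith only [h1, hc', hz, hk Z]
        (clear * - ht this h1; positivity)
    · have h8 : k Z U * k Z U ≤ 2 * t * c * k Z Z * k Z U := by
        have : k Z Z * k U U ≤ k Z Z * (c * sB U U) := mul_le_mul_of_nonneg_left e6 kz
        rw [e3] at this
        linarith only [cs, this]
      exact le_of_mul_le_mul_right h8 h0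
  rw [e3] at e6
  linarith only [e6, e8]

end Resolvent

end HForms

end Vale.Agent.P250.Pt
end
end
end

section

section

section

/-!
# P250, T4: the one-variable subharmonic well `Ψ`
-/

set_option maxSynthPendingDepth 3

namespace Vale.Agent.P250
open Set Filter Topology

namespace PsiAux

/-- The (real) Levi form of a function of one complex variable. -/
noncomputable def LL (h : ℂ → ℝ) (z X : ℂ) : ℝ :=
  fderiv ℝ (fderiv ℝ h) z X X + fderiv ℝ (fderiv ℝ h) z (Complex.I * X) (Complex.I * X)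

lemma LL_congr {h k : ℂ → ℝ} {z : ℂ} (hk : h =ᶠ[𝓝 z] k) (X : ℂ) : LL h z X = LL k z X := by
  unfold LL
  rw [(hk.fderiv (𝕜 := ℝ)).fderiv_eq]

lemma LL_add {h k : ℂ → ℝ} {z : ℂ} (hh : ContDiffAt ℝ 2 h z) (hk : ContDiffAt ℝ 2 k z) (X : ℂ) :
    LL (fun z => h z + k z) z X = LL h z X + LL k z X := by
  have e1 : fderiv ℝ (fun z => h z + k z) =ᶠ[𝓝 z] fun w => fderiv ℝ h w + fderiv ℝ k w := by
    have h1 : ∀ᶠ w in 𝓝 z, DifferentiableAt ℝ h w := by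
      filter_upwards [hh.eventually (by simp)] with w hw
      exact hw.differentiableAt (by norm_num)
    have h2 : ∀ᶠ w in 𝓝 z, DifferentiableAt ℝ k w := by
      filter_upwards [hk.eventually (by simp)] with w hw
      exact hw.differentiableAt (by norm_num)
    filter_upwards [h1, h2] with w hw1 hw2
    exact fderiv_fun_add hw1 hw2
  have d1 : DifferentiableAt ℝ (fderiv ℝ h) z :=
    (hh.fderiv_right (m := 1) (by norm_num)).differentiableAt (by norm_num)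
  have d2 : DifferentiableAt ℝ (fderiv ℝ k) z :=
    (hk.fderiv_right (m := 1) (by norm_num)).differentiableAt (by norm_num)
  unfold LL
  rw [e1.fderiv_eq, fderiv_fun_add d1 d2]
  simp only [add_apply]
  ring

lemma LL_const_mul {h : ℂ → ℝ} {z : ℂ} (hh : ContDiffAt ℝ 2 h z) (c : ℝ) (X : ℂ) :
    LL (fun z => c * h z) z X = c * LL h z X := by
  have e1 : fderiv ℝ (fun z => c * h z) =ᶠ[𝓝 z] fun w => c • fderiv ℝ h w := by
    have h1 : ∀ᶠ w in 𝓝 z, DifferentiableAt ℝ h w := by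
      filter_upwards [hh.eventually (by simp)] with w hw
      exact hw.differentiableAt (by norm_num)
    filter_upwards [h1] with w hw1
    exact fderiv_const_mul hw1 c
  have d1 : DifferentiableAt ℝ (fderiv ℝ h) z :=
    (hh.fderiv_right (m := 1) (by (clear * -; norm_num))).differentiableAt (by norm_num)
  unfold LL
  rw [e1.fderiv_eq, fderiv_fun_const_smul d1]
  simp only [smul_apply, smul_eq_mul]
  ring

lemma LL_normSq (g g' : ℝ → ℝ) (g'' : ℝ) (a z X : ℂ)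
    (hg : ∀ᶠ t in 𝓝 (‖z - a‖ ^ 2), HasDerivAt g (g' t) t)
    (hg' : HasDerivAt g' g'' (‖z - a‖ ^ 2)) :
    LL (fun z => g (‖z - a‖ ^ 2)) z X =
      4 * ‖X‖ ^ 2 * (g' (‖z - a‖ ^ 2) + ‖z - a‖ ^ 2 * g'') := by
  have hu : ∀ w : ℂ, HasFDerivAt (fun z : ℂ => ‖z - a‖ ^ 2) ((2 : ℝ) • innerSL ℝ (w - a)) w := by
    intro w
    have h1 := (hasStrictFDerivAt_norm_sq (w - a)).hasFDerivAt
    have h2 : HasFDerivAt (fun z : ℂ => z - a) (ContinuousLinearMap.id ℝ ℂ) w :=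
      (hasFDerivAt_id w).sub_const a
    have h3 := h1.comp w h2
    refine h3.congr_fderiv ?_
    ext <;> simp
  have hcont : ContinuousAt (fun w : ℂ => ‖w - a‖ ^ 2) z := (hu z).continuousAt
  have e1 : fderiv ℝ (fun z => g (‖z - a‖ ^ 2)) =ᶠ[𝓝 z]
      fun w => g' (‖w - a‖ ^ 2) • ((2 : ℝ) • innerSL ℝ (w - a)) := by
    filter_upwards [hcont.eventually hg] with w hw
    exact (hw.comp_hasFDerivAt w (hu w)).fderiv
  have h2 : HasFDerivAt (fun w : ℂ => (2 : ℝ) • innerSL ℝ (w - a))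
      ((2 : ℝ) • (innerSL ℝ : ℂ →L[ℝ] ℂ →L[ℝ] ℝ)) z := by
    have : HasFDerivAt (fun w : ℂ => innerSL ℝ (w - a))
      ((innerSL ℝ : ℂ →L[ℝ] ℂ →L[ℝ] ℝ).comp (ContinuousLinearMap.id ℝ ℂ)) z :=
      (innerSL ℝ : ℂ →L[ℝ] ℂ →L[ℝ] ℝ).hasFDerivAt.comp z ((hasFDerivAt_id z).sub_const a)
    exact this.const_smul (2 : ℝ)
  have h1 : HasFDerivAt (fun w : ℂ => g' (‖w - a‖ ^ 2))
      (g'' • ((2 : ℝ) • innerSL ℝ (z - a))) z := hg'.comp_hasFDerivAt z (hu z)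
  have h3 := h1.fun_smul h2
  unfold LL
  rw [e1.fderiv_eq, h3.fderiv]
  have e2 : ∀ Y Z : ℂ, (innerSL ℝ Y) Z = Y.re * Z.re + Y.im * Z.im := by
    intro Y Z
    rw [innerSL_apply_apply, Complex.inner]
    simp only [Complex.mul_re, Complex.conj_re, Complex.conj_im, mul_neg, sub_neg_eq_add]
    ring
  simp only [add_apply, smul_apply,
    ContinuousLinearMap.smulRight_apply, smul_eq_mul, e2]
  simp only [Complex.sq_norm, Complex.normSq_apply]
  simp only [Complex.sub_re, Complex.sub_im, Complex.mul_re, Complex.I_re, zero_mul, Complex.I_im, one_mul, zero_sub, mul_neg, neg_mul, neg_neg, Complex.mul_im, zero_add]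
  ring

lemma LL_eq {h : ℂ → ℝ} {z : ℂ} (hh : ContDiffAt ℝ 2 h z) (X : ℂ) :
    LL h z X = ‖X‖ ^ 2 * LL h z 1 := by
  have hs : IsSymmSndFDerivAt ℝ h z := hh.isSymmSndFDerivAt (by simp)
  have h1 : X = X.re • (1 : ℂ) + X.im • Complex.I := by
    refine Complex.ext ?_ ?_ <;> simp only [Complex.real_smul, mul_one, Complex.re_add_im]
  have h2 : Complex.I * X = X.re • Complex.I - X.im • (1 : ℂ) := by
    refine Complex.ext ?_ ?_ <;> simp
  have h3 := hs 1 Complex.I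
  unfold LL
  rw [h2, mul_one]
  nth_rewrite 1 [h1]
  nth_rewrite 3 [h1]
  simp only [map_add, map_sub, map_smul, add_apply, sub_apply, smul_apply, smul_eq_mul,
    Complex.sq_norm, Complex.normSq_apply]
  rw [h3]
  ring

lemma LL_slice {F : ℝ × ℂ → ℝ} {η : ℝ} {z : ℂ} (hF : ContDiffAt ℝ 2 F (η, z)) (X : ℂ) :
    LL (fun w => F (η, w)) z X = fderiv ℝ (fderiv ℝ F) (η, z) (0, X) (0, X)
      + fderiv ℝ (fderiv ℝ F) (η, z) (0, Complex.I * X) (0, Complex.I * X) := by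
  have hι : ∀ w : ℂ, HasFDerivAt (fun w : ℂ => (η, w)) (ContinuousLinearMap.inr ℝ ℝ ℂ) w :=
    fun w => hasFDerivAt_prodMk_right η w
  have hcont : ContinuousAt (fun w : ℂ => (η, w)) z := (hι z).continuousAt
  have e1 : fderiv ℝ (fun w => F (η, w)) =ᶠ[𝓝 z]
      fun w => (fderiv ℝ F (η, w)).comp (ContinuousLinearMap.inr ℝ ℝ ℂ) := by
    have h1 : ∀ᶠ p in 𝓝 (η, z), DifferentiableAt ℝ F p := by
      filter_upwards [hF.eventually (by simp)] with w hw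
      exact hw.differentiableAt (by norm_num)
    filter_upwards [hcont.eventually h1] with w hw
    exact (hw.hasFDerivAt.comp w (hι w)).fderiv
  have d1 : DifferentiableAt ℝ (fderiv ℝ F) (η, z) :=
    (hF.fderiv_right (m := 1) (by (clear * -; norm_num))).differentiableAt (by norm_num)
  have h2 : HasFDerivAt (fun w => fderiv ℝ F (η, w))
      ((fderiv ℝ (fderiv ℝ F) (η, z)).comp (ContinuousLinearMap.inr ℝ ℝ ℂ)) z :=
    d1.hasFDerivAt.comp z (hι z)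
  have h3 := h2.clm_comp (hasFDerivAt_const (ContinuousLinearMap.inr ℝ ℝ ℂ) z)
  unfold LL
  rw [e1.fderiv_eq, h3.fderiv]
  simp

/-- The strictly subharmonic part. -/
noncomputable def EE (z : ℂ) : ℝ := expNegInvGlue ((‖z‖ ^ 2 - Real.exp (-10)) / 4)

/-- The cutoff. -/
noncomputable def CC (z : ℂ) : ℝ :=
  Real.smoothTransition ((‖z‖ ^ 2 - Real.exp (-(19 / 2))) /
    (Real.exp (-(17 / 2)) - Real.exp (-(19 / 2))))

/-- The well. -/
noncomputable def FF (p : ℝ × ℂ) : ℝ :=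
  CC p.2 * Real.log (‖p.2 - ((Real.exp (-4) : ℝ) : ℂ)‖ ^ 2 + p.1 ^ 2)

lemma hasDerivAt_G (x : ℝ) : HasDerivAt expNegInvGlue ((x⁻¹) ^ 2 * expNegInvGlue x) x := by
  have h := expNegInvGlue.hasDerivAt_polynomial_eval_inv_mul (1 : Polynomial ℝ) x
  simpa only [inv_pow, Polynomial.eval_one, one_mul, Polynomial.derivative_one, sub_zero, mul_one,     Polynomial.eval_pow, Polynomial.eval_X] using h

lemma hasDerivAt_G' (x : ℝ) : HasDerivAt (fun x => (x⁻¹) ^ 2 * expNegInvGlue x)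
    (((x⁻¹) ^ 4 - 2 * (x⁻¹) ^ 3) * expNegInvGlue x) x := by
  have h := expNegInvGlue.hasDerivAt_polynomial_eval_inv_mul (Polynomial.X ^ 2 : Polynomial ℝ) x
  have e : ((Polynomial.X ^ 2 * (Polynomial.X ^ 2 -
      Polynomial.derivative (R := ℝ) (Polynomial.X ^ 2)) : Polynomial ℝ)).eval x⁻¹ =
      (x⁻¹) ^ 4 - 2 * (x⁻¹) ^ 3 := by
    simp only [Polynomial.derivative_X_pow_succ, Nat.cast_one, map_add, map_one, pow_one, Polynomial.eval_mul, Polynomial.eval_pow, Polynomial.eval_X, inv_pow, Polynomial.eval_sub, Polynomial.eval_add, Polynomial.eval_one]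
    ring
  rw [e] at h
  simpa only [inv_pow, Polynomial.eval_pow, Polynomial.eval_X] using h

lemma contDiff_normSq (a : ℂ) : ContDiff ℝ (⊤ : ℕ∞) (fun z : ℂ => ‖z - a‖ ^ 2) :=
  (contDiff_id.sub contDiff_const).norm_sq ℝ

lemma contDiff_EE : ContDiff ℝ (⊤ : ℕ∞) EE := by
  have h := contDiff_normSq 0
  simp only [sub_zero] at h
  exact expNegInvGlue.contDiff.comp ((h.sub contDiff_const).div_const 4)

lemma contDiff_CC : ContDiff ℝ (⊤ : ℕ∞) CC := by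
  have h := contDiff_normSq 0
  simp only [sub_zero] at h
  exact Real.smoothTransition.contDiff.comp ((h.sub contDiff_const).div_const _)

lemma contDiffAt_FF {p : ℝ × ℂ} (hp : 0 < ‖p.2 - ((Real.exp (-4) : ℝ) : ℂ)‖ ^ 2 + p.1 ^ 2) :
    ContDiffAt ℝ (⊤ : ℕ∞) FF p := by
  have h1 : ContDiffAt ℝ (⊤ : ℕ∞) (fun p : ℝ × ℂ => CC p.2) p :=
    contDiff_CC.contDiffAt.comp p contDiffAt_snd
  have h2 : ContDiffAt ℝ (⊤ : ℕ∞)
      (fun p : ℝ × ℂ => ‖p.2 - ((Real.exp (-4) : ℝ) : ℂ)‖ ^ 2 + p.1 ^ 2) p :=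
    ((contDiff_normSq _).contDiffAt.comp p contDiffAt_snd).add (contDiffAt_fst.pow 2)
  exact h1.mul (h2.log hp.ne')

lemma LL_EE_lower (z : ℂ) (hz : ‖z‖ ≤ 1) :
    16 * expNegInvGlue ((‖z‖ ^ 2 - Real.exp (-10)) / 4) ≤ LL EE z 1 := by
  have hkey := LL_normSq (fun t => expNegInvGlue ((t - Real.exp (-10)) / 4))
    (fun t => (((t - Real.exp (-10)) / 4)⁻¹ ^ 2 * expNegInvGlue ((t - Real.exp (-10)) / 4)) / 4)
    (((((‖z - 0‖ ^ 2 - Real.exp (-10)) / 4)⁻¹ ^ 4 -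
      2 * ((‖z - 0‖ ^ 2 - Real.exp (-10)) / 4)⁻¹ ^ 3)
      * expNegInvGlue ((‖z - 0‖ ^ 2 - Real.exp (-10)) / 4)) / 4 / 4) 0 z 1 ?_ ?_
  · have e : LL EE z 1 = LL (fun z : ℂ => expNegInvGlue ((‖z - 0‖ ^ 2 - Real.exp (-10)) / 4)) z 1 := by
      simp only [sub_zero]
      rfl
    rw [e, hkey, sub_zero, norm_one]
    set x := (‖z‖ ^ 2 - Real.exp (-10)) / 4 with hx
    rcases le_or_gt x 0 with h0 | h0
    · rw [expNegInvGlue.zero_of_nonpos h0]
      simp only [mul_zero, one_pow, mul_one, inv_pow, zero_div, add_zero, Std.le_refl]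
    · have hx1 : x ≤ 1 / 4 := by
        have : ‖z‖ ^ 2 ≤ 1 := by nlinarith only [hz, norm_nonneg z]
        have := Real.exp_pos (-10)
        rw [hx]; (clear hkey e x hx h0; linarith)
      have hi : 4 ≤ x⁻¹ := by
        rw [le_inv_comm₀ (by norm_num) h0]
        linarith only [hx1]
      have hG := expNegInvGlue.nonneg x
      have h2 : 16 ≤ x⁻¹ ^ 2 := by nlinarith only [hi]
      have h3 : 0 ≤ x⁻¹ ^ 4 - 2 * x⁻¹ ^ 3 := by
        have : x⁻¹ ^ 4 - 2 * x⁻¹ ^ 3 = x⁻¹ ^ 3 * (x⁻¹ - 2) := by ring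
        rw [this]
        exact mul_nonneg (by (clear * - h0; positivity)) (by linarith only [hi])
      have h4 : 16 * expNegInvGlue x ≤ x⁻¹ ^ 2 * expNegInvGlue x :=
        mul_le_mul_of_nonneg_right h2 hG
      have h5 : 0 ≤ ‖z‖ ^ 2 * ((x⁻¹ ^ 4 - 2 * x⁻¹ ^ 3) * expNegInvGlue x / 4 / 4) := by
        have := mul_nonneg h3 hG
        (clear * - h3 hG; positivity)
      linarith only [h4, h5]
  · refine Filter.Eventually.of_forall fun t => ?_
    have h1 : HasDerivAt (fun t : ℝ => (t - Real.exp (-10)) / 4) (1 / 4) t :=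
      ((hasDerivAt_id t).sub_const _).div_const 4
    have h2 := (hasDerivAt_G ((t - Real.exp (-10)) / 4)).comp t h1
    exact h2.congr_deriv (by ring)
  · have h1 : HasDerivAt (fun t : ℝ => (t - Real.exp (-10)) / 4) (1 / 4) (‖z - 0‖ ^ 2) :=
      ((hasDerivAt_id _).sub_const _).div_const 4
    have h2 := ((hasDerivAt_G' ((‖z - 0‖ ^ 2 - Real.exp (-10)) / 4)).comp (‖z - 0‖ ^ 2) h1).div_const 4
    exact h2.congr_deriv (by ring)

lemma LL_log (a z : ℂ) (η : ℝ) (hη : 0 < η) :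
    0 ≤ LL (fun z => Real.log (‖z - a‖ ^ 2 + η ^ 2)) z 1 := by
  have hpos : ∀ t : ℝ, 0 ≤ t → 0 < t + η ^ 2 := fun t ht => by positivity
  have h0 : (0 : ℝ) ≤ ‖z - a‖ ^ 2 := by positivity
  have hkey := LL_normSq (fun t => Real.log (t + η ^ 2)) (fun t => 1 / (t + η ^ 2))
    (-1 / (‖z - a‖ ^ 2 + η ^ 2) ^ 2) a z 1 ?_ ?_
  · rw [hkey]
    have h1 := hpos _ h0
    have h2 : (1 : ℝ) / (‖z - a‖ ^ 2 + η ^ 2) + ‖z - a‖ ^ 2 * (-1 / (‖z - a‖ ^ 2 + η ^ 2) ^ 2) =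
      η ^ 2 / (‖z - a‖ ^ 2 + η ^ 2) ^ 2 := by
      field_simp
      ring
    rw [h2]
    (clear * - hη; positivity)
  · have h1 : ∀ᶠ t in 𝓝 (‖z - a‖ ^ 2), 0 < t + η ^ 2 := by
      have : ContinuousAt (fun t : ℝ => t + η ^ 2) (‖z - a‖ ^ 2) := by fun_prop
      exact this.eventually (lt_mem_nhds (hpos _ h0))
    filter_upwards [h1] with t ht
    exact ((hasDerivAt_id t).add_const _).log ht.ne'
  · have h1 : HasDerivAt (fun t : ℝ => t + η ^ 2) 1 (‖z - a‖ ^ 2) :=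
      (hasDerivAt_id _).add_const _
    have h2 := (hasDerivAt_const (‖z - a‖ ^ 2) (1 : ℝ)).div h1 (hpos _ h0).ne'
    exact h2.congr_deriv (by simp only [zero_mul, mul_one, zero_sub])

lemma two_le_top' : (2 : WithTop ℕ∞) ≤ ((⊤ : ℕ∞) : WithTop ℕ∞) := by
  exact WithTop.coe_le_coe.2 (le_top : (2 : ℕ∞) ≤ ⊤)

lemma exp_lt₁ : Real.exp (-10) < Real.exp (-(19 / 2)) := Real.exp_lt_exp.2 (by norm_num)
lemma exp_lt₂ : Real.exp (-(19 / 2)) < Real.exp (-(17 / 2)) := Real.exp_lt_exp.2 (by norm_num)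
lemma exp_lt₃ : Real.exp (-(17 / 2)) < Real.exp (-4) ^ 2 := by
  rw [← Real.exp_nat_mul]
  exact Real.exp_lt_exp.2 (by norm_num)

lemma pos_of_annulus {z : ℂ} (hz : ‖z‖ ^ 2 ≤ Real.exp (-(17 / 2))) :
    0 < ‖z - ((Real.exp (-4) : ℝ) : ℂ)‖ := by
  rw [norm_pos_iff, sub_ne_zero]
  rintro rfl
  rw [Complex.norm_real, Real.norm_eq_abs, sq_abs] at hz
  linarith [exp_lt₃]

lemma exists_bound : ∃ K : ℝ, 0 ≤ K ∧ ∀ η ∈ Icc (0 : ℝ) 1, ∀ z : ℂ,
    ‖z‖ ^ 2 ≤ Real.exp (-(17 / 2)) → -K ≤ LL (fun w => FF (η, w)) z 1 := by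
  let S : Set (ℝ × ℂ) := Icc (0 : ℝ) 1 ×ˢ Metric.closedBall (0 : ℂ) (Real.exp (-(17 / 4)))
  have hS : IsCompact S := isCompact_Icc.prod (isCompact_closedBall _ _)
  have hmem : ∀ z : ℂ, z ∈ Metric.closedBall (0 : ℂ) (Real.exp (-(17 / 4))) ↔
      ‖z‖ ^ 2 ≤ Real.exp (-(17 / 2)) := by
    intro z
    have e : Real.exp (-(17 / 2)) = Real.exp (-(17 / 4)) ^ 2 := by
      rw [← Real.exp_nat_mul]
      norm_num
    rw [mem_closedBall_zero_iff, e]
    exact (sq_le_sq₀ (norm_nonneg _) (Real.exp_pos _).le).symm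
  have hc : ∀ p ∈ S, ContDiffAt ℝ (⊤ : ℕ∞) FF p := by
    intro p hp
    apply contDiffAt_FF
    have := pos_of_annulus ((hmem p.2).1 hp.2)
    (clear * - this; positivity)
  have hcont : ContinuousOn (fun p => fderiv ℝ (fderiv ℝ FF) p (0, 1) (0, 1) +
      fderiv ℝ (fderiv ℝ FF) p (0, Complex.I * 1) (0, Complex.I * 1)) S := by
    intro p hp
    have h1 : ContDiffAt ℝ 2 FF p := (hc p hp).of_le two_le_top'
    have h2 : ContDiffAt ℝ 1 (fderiv ℝ FF) p := h1.fderiv_right (by norm_num)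
    have h3 : ContDiffAt ℝ 0 (fderiv ℝ (fderiv ℝ FF)) p := h2.fderiv_right (by norm_num)
    have h4 : ContinuousAt (fderiv ℝ (fderiv ℝ FF)) p := h3.continuousAt
    exact (((h4.clm_apply continuousAt_const).clm_apply continuousAt_const).add
      ((h4.clm_apply continuousAt_const).clm_apply continuousAt_const)).continuousWithinAt
  obtain ⟨K, hK⟩ := hS.exists_bound_of_continuousOn hcont
  refine ⟨|K|, abs_nonneg _, fun η hη z hz => ?_⟩
  have hp : (η, z) ∈ S := ⟨hη, (hmem z).2 hz⟩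
  rw [LL_slice ((hc _ hp).of_le two_le_top')]
  have h1 := hK _ hp
  rw [Real.norm_eq_abs] at h1
  have h2 := (abs_le.1 h1).1
  have h3 := le_abs_self K
  linarith only [h2, h3]

end PsiAux

open PsiAux

theorem exists_Psi : ∃ CΨ > 0, ∀ Λ : ℝ, ∃ Ψ : ℂ → ℝ, IsPsi CΨ Λ Ψ := by
  obtain ⟨K, hK0, hK⟩ := exists_bound
  set c : ℝ := 16 * expNegInvGlue ((Real.exp (-(19 / 2)) - Real.exp (-10)) / 4) with hc
  have hcpos : 0 < c := by
    have : 0 < (Real.exp (-(19 / 2)) - Real.exp (-10)) / 4 := by linarith only [exp_lt₁]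
    have := expNegInvGlue.pos_of_pos this
    (clear * - this; positivity)
  set B : ℝ := K / c with hB
  have hB0 : 0 ≤ B := by (clear * - hK0 hcpos; positivity)
  have hexp1 : Real.exp (-(17 / 2)) < 1 := by
    rw [Real.exp_lt_one_iff]
    norm_num
  refine ⟨B + Real.log 5, by have := Real.log_pos (show (1 : ℝ) < 5 by norm_num); linarith only [hB0, this], ?_⟩
  intro Λ
  set η : ℝ := Real.exp (-(|Λ| + B)) with hη
  have hη0 : 0 < η := Real.exp_pos _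
  have hη1 : η ≤ 1 := by
    rw [hη, Real.exp_le_one_iff]
    have := abs_nonneg Λ
    linarith only [hB0, this]
  have hpos : ∀ z : ℂ, 0 < ‖z - ((Real.exp (-4) : ℝ) : ℂ)‖ ^ 2 + η ^ 2 := fun z => by (clear * -; positivity)
  have hsmF : ContDiff ℝ (⊤ : ℕ∞) (fun z : ℂ => FF (η, z)) := by
    rw [contDiff_iff_contDiffAt]
    intro z
    have h1 : ContDiffAt ℝ (⊤ : ℕ∞) FF (η, z) := contDiffAt_FF (hpos z)
    have h2 : ContDiffAt ℝ (⊤ : ℕ∞) (fun z : ℂ => (η, z)) z :=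
      contDiffAt_const.prodMk contDiffAt_id
    exact h1.comp z h2
  refine ⟨fun z => B * EE z + FF (η, z), ?_, ?_, ?_, ?_, ?_⟩
  · exact (contDiff_const.mul contDiff_EE).add hsmF
  · intro z hz
    have h1 : ‖z‖ ^ 2 ≤ Real.exp (-10) := by
      have : Real.exp (-10) = Real.exp (-5) ^ 2 := by
        rw [← Real.exp_nat_mul]
        norm_num
      rw [this]
      exact pow_le_pow_left₀ (norm_nonneg _) hz 2
    have h2 : EE z = 0 := expNegInvGlue.zero_of_nonpos (by linarith only [h1])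
    have h3 : CC z = 0 := by
      apply Real.smoothTransition.zero_of_nonpos
      apply div_nonpos_of_nonpos_of_nonneg
      · linarith only [h1, exp_lt₁]
      · linarith only [exp_lt₂]
    simp only [h2, mul_zero, FF, h3, Complex.ofReal_exp, Complex.ofReal_neg, Complex.ofReal_ofNat, zero_mul, add_zero]
  · intro z hz
    have h1 : EE z ≤ 1 := by
      unfold EE
      rcases le_or_gt ((‖z‖ ^ 2 - Real.exp (-10)) / 4) 0 with h | h
      · rw [expNegInvGlue.zero_of_nonpos h]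
        norm_num
      · rw [expNegInvGlue, if_neg (not_le.2 h), Real.exp_le_one_iff]
        have := inv_pos.2 h
        linarith only [this]
    have h2 : FF (η, z) ≤ Real.log 5 := by
      have h3 : Real.log (‖z - ((Real.exp (-4) : ℝ) : ℂ)‖ ^ 2 + η ^ 2) ≤ Real.log 5 := by
        apply Real.log_le_log (hpos z)
        have h4 : ‖z - ((Real.exp (-4) : ℝ) : ℂ)‖ ≤ 2 := by
          calc ‖z - ((Real.exp (-4) : ℝ) : ℂ)‖ ≤ ‖z‖ + ‖((Real.exp (-4) : ℝ) : ℂ)‖ := norm_sub_le _ _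
            _ ≤ 1 + 1 := by
              gcongr
              rw [Complex.norm_real, Real.norm_eq_abs, abs_of_pos (Real.exp_pos _),
                Real.exp_le_one_iff]
              (clear * -; norm_num)
            _ = 2 := by norm_num
        have h5 : ‖z - ((Real.exp (-4) : ℝ) : ℂ)‖ ^ 2 ≤ 4 := by
          nlinarith only [h4, norm_nonneg (z - ((Real.exp (-4) : ℝ) : ℂ))]
        nlinarith only [hη1, h5, hη0]
      have h6 : 0 ≤ Real.log 5 := Real.log_nonneg (by norm_num)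
      have h7 : 0 ≤ CC z := Real.smoothTransition.nonneg _
      have h8 : CC z ≤ 1 := Real.smoothTransition.le_one _
      calc FF (η, z) ≤ CC z * Real.log 5 := mul_le_mul_of_nonneg_left h3 h7
        _ ≤ 1 * Real.log 5 := mul_le_mul_of_nonneg_right h8 h6
        _ = Real.log 5 := one_mul _
    have h3 : B * EE z ≤ B * 1 := mul_le_mul_of_nonneg_left h1 hB0
    change B * EE z + FF (η, z) ≤ _
    linarith only [h2, h3]
  · have h1 : CC ((Real.exp (-4) : ℝ) : ℂ) = 1 := by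
      apply Real.smoothTransition.one_of_one_le
      rw [one_le_div (by linarith only [exp_lt₂]), Complex.norm_real, Real.norm_eq_abs, sq_abs]
      linarith only [exp_lt₃]
    have h2 : EE ((Real.exp (-4) : ℝ) : ℂ) ≤ 1 := by
      unfold EE
      rcases le_or_gt ((‖((Real.exp (-4) : ℝ) : ℂ)‖ ^ 2 - Real.exp (-10)) / 4) 0 with h | h
      · rw [expNegInvGlue.zero_of_nonpos h]
        norm_num
      · rw [expNegInvGlue, if_neg (not_le.2 h), Real.exp_le_one_iff]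
        have := inv_pos.2 h
        linarith only [this]
    have h3 : FF (η, ((Real.exp (-4) : ℝ) : ℂ)) = 2 * Real.log η := by
      unfold FF
      rw [h1, sub_self, norm_zero, one_mul]
      norm_num
    have h4 : Real.log η = -(|Λ| + B) := by rw [hη, Real.log_exp]
    change B * EE _ + FF (η, _) ≤ _
    rw [h3, h4]
    have h5 : B * EE ((Real.exp (-4) : ℝ) : ℂ) ≤ B * 1 := mul_le_mul_of_nonneg_left h2 hB0
    have h6 := le_abs_self Λ
    have h7 := abs_nonneg Λ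
    linarith only [hB0, h5, h6, h7]
  · intro z hz X
    have hE : ContDiffAt ℝ 2 EE z := contDiff_EE.contDiffAt.of_le two_le_top'
    have hF : ContDiffAt ℝ 2 (fun z => FF (η, z)) z := hsmF.contDiffAt.of_le two_le_top'
    have hBE : ContDiffAt ℝ 2 (fun z => B * EE z) z := contDiffAt_const.mul hE
    change 0 ≤ LL (fun z => B * EE z + FF (η, z)) z X
    rw [LL_eq (hBE.add hF), LL_add hBE hF, LL_const_mul hE]
    have hEl := LL_EE_lower z hz.le
    have hE0 : 0 ≤ LL EE z 1 := le_trans (by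
      have := expNegInvGlue.nonneg ((‖z‖ ^ 2 - Real.exp (-10)) / 4)
      (clear * - this; positivity)) hEl
    have hnorm : Continuous (fun w : ℂ => ‖w‖ ^ 2) := by fun_prop
    refine mul_nonneg (by (clear * -; positivity)) ?_
    rcases lt_or_ge (‖z‖ ^ 2) (Real.exp (-(19 / 2))) with hz1 | hz1
    · -- inner region: the well vanishes
      have e : (fun w => FF (η, w)) =ᶠ[𝓝 z] fun _ => (0 : ℝ) := by
        filter_upwards [hnorm.continuousAt.eventually (gt_mem_nhds hz1)] with w hw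
        have : CC w = 0 := by
          apply Real.smoothTransition.zero_of_nonpos
          apply div_nonpos_of_nonpos_of_nonneg
          · linarith only [hw]
          · linarith only [exp_lt₂]
        simp only [FF, this, Complex.ofReal_exp, Complex.ofReal_neg, Complex.ofReal_ofNat, zero_mul]
      have e0 : LL (fun w => FF (η, w)) z 1 = 0 := by
        rw [LL_congr e]
        simp only [LL, fderiv_fun_const, fderiv_zero, Pi.zero_apply, zero_apply, mul_one, add_zero]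
      rw [e0, add_zero]
      exact mul_nonneg hB0 hE0
    · rcases le_or_gt (‖z‖ ^ 2) (Real.exp (-(17 / 2))) with hz2 | hz2
      · -- annulus
        have h1 := hK η ⟨hη0.le, hη1⟩ z hz2
        have h2 : c ≤ LL EE z 1 := by
          refine le_trans ?_ hEl
          rw [hc]
          exact mul_le_mul_of_nonneg_left
            (expNegInvGlue.monotone (by linarith only [hz1])) (by norm_num)
        have h3 : K ≤ B * LL EE z 1 := by
          calc K = B * c := by rw [hB]; (clear * - hcpos; field_simp)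
            _ ≤ B * LL EE z 1 := mul_le_mul_of_nonneg_left h2 hB0
        linarith only [h1, h3]
      · -- outer region
        have e : (fun w => FF (η, w)) =ᶠ[𝓝 z]
            fun w => Real.log (‖w - ((Real.exp (-4) : ℝ) : ℂ)‖ ^ 2 + η ^ 2) := by
          filter_upwards [hnorm.continuousAt.eventually (lt_mem_nhds hz2)] with w hw
          have : CC w = 1 := by
            apply Real.smoothTransition.one_of_one_le
            rw [one_le_div (by linarith only [exp_lt₂])]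
            linarith only [hw]
          simp only [FF, this, Complex.ofReal_exp, Complex.ofReal_neg, Complex.ofReal_ofNat, one_mul]
        rw [LL_congr e]
        exact add_nonneg (mul_nonneg hB0 hE0) (LL_log _ _ _ hη0)

end Vale.Agent.P250
end
end
end

section

section

section

/-!
The bilinear Christoffel data and the key inequality.
-/

set_option maxSynthPendingDepth 3

namespace Vale.Agent.P250.Pt

open Vale.Agent.P250

variable {V : Type*} [NormedAddCommGroup V] [InnerProductSpace ℂ V]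

theorem key_real (θ k f a : ℝ) (h0 : 0 ≤ θ) (h1 : θ ≤ 1) (ha : 0 ≤ a)
    (hf : f ^ 2 ≤ ((1 - θ) / 2) ^ 2 * a) :
    ((3 - θ) / 2 * k + f) ^ 2 ≤ (1 - θ + θ ^ 2 / 3) * (a + 3 * k ^ 2) := by
  rcases h1.eq_or_lt with h2 | h2
  · subst h2
    have : f = 0 := by
      have : f ^ 2 ≤ 0 := by simpa using hf
      nlinarith only [hf]
    subst this
    linarith only [ha]
  · have hb : 0 < (1 - θ) / 2 := by linarith only [h2]
    have e1 : 0 ≤ ((3 - θ) / 2 * f - 3 * ((1 - θ) / 2) ^ 2 * k) ^ 2 := sq_nonneg _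
    have e2 : ((3 - θ) / 2) ^ 2 * f ^ 2 ≤ ((3 - θ) / 2) ^ 2 * (((1 - θ) / 2) ^ 2 * a) :=
      mul_le_mul_of_nonneg_left hf (sq_nonneg _)
    have e3 : 0 ≤ 3 * ((1 - θ) / 2) ^ 2 * ((1 - θ + θ ^ 2 / 3) * (a + 3 * k ^ 2)
        - ((3 - θ) / 2 * k + f) ^ 2) := by
      have e4 : 0 ≤ 3 * ((1 - θ) / 2) ^ 2 * (((1 - θ) / 2) ^ 2 * a - f ^ 2) := by
        apply mul_nonneg (by positivity)
        linarith only [hf]
      linarith
    have e5 : 0 < 3 * ((1 - θ) / 2) ^ 2 := by positivity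
    have := nonneg_of_mul_nonneg_right e3 e5
    linarith only [this]

namespace Resolvent

variable {t : ℝ} {k : V →ₗ[ℝ] V →ₗ[ℝ] ℝ} {R : V →ₗ[ℝ] V}

theorem m_nonneg (h : Resolvent t k R) (c : ℝ) (hc : 0 ≤ c) (hk : ∀ X, k X X ≤ c * sB X X)
    (X : V) : 0 ≤ mB k R X X := by
  have h1 := h.m_lower c hk X
  have h2 := h.knonneg X
  have ht := h.tpos
  have h3 : 0 ≤ (1 + 2 * t * c) * mB k R X X := h2.trans h1
  exact nonneg_of_mul_nonneg_right h3 (by (clear * - ht hc; positivity))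

/-- The key inequality. -/
theorem key (h : Resolvent t k R) (c : ℝ) (hc : 0 ≤ c) (hkc : ∀ X, k X X ≤ c * sB X X)
    (θ : ℝ) (h0 : 0 ≤ θ) (h1 : θ ≤ 1) (hm : ∀ X, mB k R X X ≤ (1 - θ) * k X X) (X Y : V) :
    (k (Complex.I • X) Y + mB k R (Complex.I • X) Y) ^ 2
      ≤ (1 - θ + θ ^ 2 / 3) * (k X X * k Y Y - k X Y ^ 2 + 3 * k (Complex.I • X) Y ^ 2) := by
  have hf : HForm (mB k R - ((1 - θ) / 2) • k) := h.m_hform.sub (h.hk.smul _)
  have hm0 := h.m_nonneg c hc hkc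
  have e1 := hf.im_sq_le h.hk h.kpos ((1 - θ) / 2)
    (fun X => by
      simp only [LinearMap.sub_apply, LinearMap.smul_apply, smul_eq_mul]
      linarith only [hm X])
    (fun X => by
      simp only [LinearMap.sub_apply, LinearMap.smul_apply, smul_eq_mul]
      linarith [hm0 X]) X Y
  have ha : 0 ≤ k X X * k Y Y - k X Y ^ 2 := by
    have := form_cs k k h.hk.symm h.hk.symm 1 (fun X => by simp)
      (fun X => by linarith only [h.knonneg X]) X Y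
    linarith only [this]
  have e2 := key_real θ (k (Complex.I • X) Y)
    ((mB k R - ((1 - θ) / 2) • k) (Complex.I • X) Y) _ h0 h1 ha e1
  have e3 : (3 - θ) / 2 * k (Complex.I • X) Y
      + (mB k R - ((1 - θ) / 2) • k) (Complex.I • X) Y
      = k (Complex.I • X) Y + mB k R (Complex.I • X) Y := by
    simp only [LinearMap.sub_apply, LinearMap.smul_apply, smul_eq_mul]
    ring
  rwa [e3] at e2

theorem norm_R_le (h : Resolvent t k R) (X : V) : ‖R X‖ ≤ ‖X‖ := by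
  have ht := h.tpos
  have h1 := h.eq X (R X)
  have h2 := h.knonneg (R X)
  rw [sB_self] at h1
  have h3 : sB X (R X) ≤ ‖X‖ * ‖R X‖ := by
    rw [sB_apply, sR]
    exact (Complex.re_le_norm _).trans (norm_inner_le_norm _ _)
  have h4 : 0 ≤ 2 * t * k (R X) (R X) := by (clear * - ht h2; positivity)
  have h5 : ‖R X‖ * ‖R X‖ ≤ ‖X‖ * ‖R X‖ := by linarith only [h1, h3, h4]
  rcases (norm_nonneg (R X)).eq_or_lt with h6 | h6
  · rw [← h6]; exact norm_nonneg _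
  · exact le_of_mul_le_mul_right h5 h6

end Resolvent

section

variable {c3 : V →L[ℝ] V →L[ℝ] V →L[ℝ] ℝ}

end

end Vale.Agent.P250.Pt
end
end
end

section

section

section

/-!
T8a: the lower bound `a * area ≤ NN`.
-/

set_option maxSynthPendingDepth 3

namespace Vale.Agent.P250

open Complex Pt Pt.Resolvent

variable {V : Type*} [NormedAddCommGroup V] [InnerProductSpace ℂ V]

namespace AlgData

variable {δ u : ℝ}

theorem rip_eq (X Y : V) : rip X Y = sB X Y := rfl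

theorem beta_hform (D : AlgData V δ u) : HForm D.β := ⟨D.β_symm, D.β_J⟩

/-- `low` as a linear map. -/
noncomputable def lowL (D : AlgData V δ u) : V →ₗ[ℝ] V :=
  LinearMap.id - (2 * δ * u) • D.K

@[simp] theorem lowL_apply (D : AlgData V δ u) (X : V) : D.lowL X = D.low X := by
  simp only [lowL, LinearMap.sub_apply, LinearMap.id_coe, id_eq, LinearMap.smul_apply, low]

theorem resolvent (D : AlgData V δ u) (hδ : 0 < δ) (hu : 0 < u) {e c C3 : ℝ} (he : 0 < e)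
    (hB : D.Bounds e c C3) : Resolvent (δ * u) D.β D.lowL where
  tpos := by positivity
  hk := D.beta_hform
  kpos X hX := lt_of_lt_of_le (by positivity) (hB.low X)
  eq X Y := by
    have h := D.K_spec X Y
    rw [rip_eq] at h
    simp only [lowL, LinearMap.sub_apply, LinearMap.id_apply, LinearMap.smul_apply, map_sub,
      map_smul, smul_eq_mul]
    linear_combination -(2 * δ * u) * h

/-- `h` as a form. -/
noncomputable def hB (D : AlgData V δ u) : V →ₗ[ℝ] V →ₗ[ℝ] ℝ := sB + (2 * (δ * u)) • D.β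

theorem hB_apply (D : AlgData V δ u) (X Y : V) :
    D.hB X Y = sB X Y + 2 * (δ * u) * D.β X Y := by
  simp only [hB, LinearMap.add_apply, LinearMap.smul_apply, sB_apply, smul_eq_mul]

theorem h_eq_hB (D : AlgData V δ u) (X Y : V) : D.h X Y = D.hB X Y := by
  rw [hB_apply, h, rip_eq]
  ring

theorem hB_hform (D : AlgData V δ u) : HForm D.hB := sB_hform.add (D.beta_hform.smul _)

theorem hW_eq (f : V →ₗ[ℝ] V →ₗ[ℝ] ℝ) (hf : HForm f) (X Y : V) (x y : ℂ) :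
    f ((starRingEnd ℂ) y • X - (starRingEnd ℂ) x • Y)
        ((starRingEnd ℂ) y • X - (starRingEnd ℂ) x • Y)
      = (y.re ^ 2 + y.im ^ 2) * f X X + (x.re ^ 2 + x.im ^ 2) * f Y Y
        - 2 * (x.re * y.re + x.im * y.im) * f X Y
        - 2 * (x.im * y.re - x.re * y.im) * f (I • X) Y := by
  rw [map_sub, map_sub, LinearMap.sub_apply, LinearMap.sub_apply,
    hf.symm ((starRingEnd ℂ) x • Y) ((starRingEnd ℂ) y • X)]
  simp only [hf.smul_smul_apply, hf.I_self, Complex.conj_re, Complex.conj_im]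
  ring

theorem ar_eq (D : AlgData V δ u) (X Y : V) (x y : ℂ) :
    D.ar X Y x y = (D.hB X X * D.hB Y Y - D.hB X Y ^ 2)
      + (δ * u * (1 + u)) * (‖(starRingEnd ℂ) y • X - (starRingEnd ℂ) x • Y‖ ^ 2
        + 2 * (δ * u) * D.β ((starRingEnd ℂ) y • X - (starRingEnd ℂ) x • Y)
          ((starRingEnd ℂ) y • X - (starRingEnd ℂ) x • Y))
      + 2 * (δ * u * (1 + u)) * (x * (starRingEnd ℂ) y).im * D.hB (I • X) Y
      + (δ * u * (1 + u)) ^ 2 * (x * (starRingEnd ℂ) y).im ^ 2 := by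
  rw [← sB_self, ← hB_apply, hW_eq D.hB D.hB_hform]
  simp only [ar, gg, h_eq_hB, mul_re, conj_re, conj_im, mul_im]
  ring

theorem norm_C_le (D : AlgData V δ u) (hδ : 0 < δ) (hu : 0 < u) {e c C3 : ℝ} (he : 0 < e)
    (hB : D.Bounds e c C3) (X Y : V) : ‖D.C X Y‖ ≤ C3 * ‖X‖ * ‖Y‖ := by
  have h1 := D.C_spec X Y (D.C X Y)
  rw [rip_eq, sB_self] at h1
  have h2 := (abs_le.1 (hB.c3 X Y (D.C X Y))).2
  have h3 : 0 ≤ 2 * δ * u * D.β (D.C X Y) (D.C X Y) := by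
    have := hB.low (D.C X Y)
    have h4 : 0 ≤ e * ‖D.C X Y‖ ^ 2 := by (clear * - he; positivity)
    have h5 : 0 ≤ D.β (D.C X Y) (D.C X Y) := h4.trans this
    (clear * - hδ hu h5; positivity)
  rcases (norm_nonneg (D.C X Y)).eq_or_lt with h6 | h6
  · rw [← h6]
    have h7 := (abs_nonneg _).trans (hB.c3 X Y (X))
    by_cases hX : X = 0
    · simp [hX]
    · have h8 : 0 < ‖X‖ := norm_pos_iff.2 hX
      exact nonneg_of_mul_nonneg_left h7 h8
  · have h7 : ‖D.C X Y‖ * ‖D.C X Y‖ ≤ C3 * ‖X‖ * ‖Y‖ * ‖D.C X Y‖ := by linarith only [h1, h2, h3]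
    exact le_of_mul_le_mul_right h7 h6

theorem h_C_le (D : AlgData V δ u) (hδ : 0 < δ) (hu : 0 < u) {e c C3 : ℝ} (he : 0 < e)
    (h3 : 0 < C3) (hB : D.Bounds e c C3) (X Y Z W : V) :
    |D.h (D.C X Y) (D.C Z W)| ≤ C3 ^ 2 * (‖X‖ * ‖Y‖ * ‖Z‖ * ‖W‖) := by
  have h1 : D.h (D.C X Y) (D.C Z W) = D.γ X Y (D.C Z W) := D.C_spec X Y (D.C Z W)
  rw [h1]
  refine (hB.c3 X Y (D.C Z W)).trans ?_
  have h2 := mul_le_mul_of_nonneg_left (D.norm_C_le hδ hu he hB Z W)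
    (by (clear * - h3; positivity) : 0 ≤ C3 * ‖X‖ * ‖Y‖)
  linarith only [h2]

end AlgData

/-- T8a -/
theorem alg_lower (ε C0 C3 C4 : ℝ) (hε : 0 < ε) (h0 : 0 < C0) (h3 : 0 < C3) (h4 : 0 < C4) :
    ∃ δ0 > 0, ∀ δ, 0 < δ → δ < δ0 → ∃ a > 0, ∀ u > 0, ∀ D : AlgData V δ u,
      D.Bounds ε C0 C3 → ∀ (N4 : ℝ) (X Y : V) (x y : ℂ), |N4| ≤ C4 * ‖X‖ ^ 2 * ‖Y‖ ^ 2 →
      rip X Y = 0 → a * D.ar X Y x y ≤ D.NN N4 X Y x y := by
  obtain ⟨δ0, hδ0, H⟩ := real_lower ε C0 C3 C4 hε h0 h4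
  refine ⟨δ0, hδ0, fun δ hδ hδ' => ?_⟩
  obtain ⟨a, ha, H⟩ := H δ hδ hδ'
  refine ⟨a, ha, fun u hu D hB N4 X Y x y hN hXY => ?_⟩
  have hR := D.resolvent hδ hu hε hB
  have hβ := D.beta_hform
  have ht : 0 < δ * u := by (clear * - hδ hu; positivity)
  obtain ⟨W, hW⟩ : ∃ W, W = (starRingEnd ℂ) y • X - (starRingEnd ℂ) x • Y := ⟨_, rfl⟩
  have hupS : ∀ X, D.β X X ≤ C0 * sB X X := fun X => by rw [sB_self]; exact hB.up X
  have hloS : ∀ X, ε * sB X X ≤ D.β X X := fun X => by rw [sB_self]; exact hB.low X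
  have hm0 := hR.m_nonneg C0 h0.le hupS
  have hmup := hR.m_upper ε hε hloS
  have hmle : ∀ X, mB D.β D.lowL X X ≤ D.β X X := by
    intro X
    have h1 := hmup X
    have h2 : 0 ≤ 2 * (δ * u) * ε * mB D.β D.lowL X X := by
      have := hm0 X
      (clear * - hδ hu hε this; positivity)
    linarith only [h1, h2]
  rw [AlgData.rip_eq] at hXY
  have haK0 := gram_le D.β hβ.symm hR.kpos
    (fun X Y => ε ^ 2 * (sB X X * sB Y Y - sB X Y ^ 2)) 1
    (by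
      intro X Y r
      simp only [map_add, map_smul, LinearMap.add_apply, LinearMap.smul_apply, smul_eq_mul, sB_hform.symm Y X]
      ring)
    (by
      intro X Y
      have h1 := mul_le_mul (hloS X) (hloS Y) (by rw [sB_self]; (clear * - hε; positivity)) (hR.knonneg X)
      have h2 : 0 ≤ ε ^ 2 * sB X Y ^ 2 := by (clear * - hε; positivity)
      linarith only [h1, h2]) X Y
  have key := H u hu (‖X‖ ^ 2 * ‖Y‖ ^ 2) (D.β X X * D.β Y Y - D.β X Y ^ 2) (sB X (I • Y))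
    (D.β (I • X) Y) (mB D.β D.lowL (I • X) Y) (x * (starRingEnd ℂ) y).im
    (D.β W W) (mB D.β D.lowL W W) (‖W‖ ^ 2) N4
    (D.h (D.C X Y) (D.C X Y) - D.h (D.C X X) (D.C Y Y))
    (D.γ X W (D.low Y) - D.γ Y W (D.low X))
    (D.hB X X * D.hB Y Y - D.hB X Y ^ 2) (D.hB (I • X) Y)
    (by (clear * -; positivity)) (by (clear * -; positivity))
    (by
      simp only [hXY, sB_self] at haK0
      linarith only [haK0])
    (by
      have h1 := mul_le_mul (hupS X) (hupS Y) (hR.knonneg Y) (by rw [sB_self]; (clear * - h0; positivity))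
      rw [sB_self, sB_self] at h1
      have h2 : 0 ≤ D.β X Y ^ 2 := sq_nonneg _
      linarith only [h1, h2])
    (by
      have := hβ.im_sq_le hβ hR.kpos 1 (fun X => by simp)
        (fun X => by linarith only [hR.knonneg X]) X Y
      linarith only [this])
    (by
      have := hR.m_hform.im_sq_le hβ hR.kpos 1 (fun X => by simpa only [mB_apply, AlgData.lowL_apply, one_mul] using hmle X)
        (fun X => by linarith only [hR.knonneg X, hm0 X]) X Y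
      linarith only [this])
    (by
      intro θ hθ0 hθ1 hθ
      refine hR.key C0 h0.le hupS θ hθ0 hθ1 (fun Z => ?_) X Y
      have h1 := hmup Z
      have h2 := mul_le_mul_of_nonneg_right hθ (hR.knonneg Z)
      have h3 : (1 + 2 * (δ * u) * ε) * mB D.β D.lowL Z Z
          ≤ (1 + 2 * (δ * u) * ε) * ((1 - θ) * D.β Z Z) := by linarith only [h1, h2]
      exact le_of_mul_le_mul_left h3 (by positivity))
    (hB.low W) (hB.up W) (hR.m_lower C0 hupS W) (by linarith only [hN])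
    (by
      have h1 := abs_le.1 (D.h_C_le hδ hu hε h3 hB X Y X Y)
      have h2 := abs_le.1 (D.h_C_le hδ hu hε h3 hB X X Y Y)
      rw [abs_le]
      constructor <;> linarith only [h1, h2])
    (by
      have h1 := hB.c3 X W (D.low Y)
      have h2 := hB.c3 Y W (D.low X)
      have h5 : ‖D.low Y‖ ≤ ‖Y‖ := by rw [← D.lowL_apply]; exact hR.norm_R_le Y
      have h6 : ‖D.low X‖ ≤ ‖X‖ := by rw [← D.lowL_apply]; exact hR.norm_R_le X
      have h7 : |D.γ X W (D.low Y)| ≤ C3 * ‖X‖ * ‖W‖ * ‖Y‖ :=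
        h1.trans (mul_le_mul_of_nonneg_left h5 (by (clear * - h3; positivity)))
      have h8 : |D.γ Y W (D.low X)| ≤ C3 * ‖Y‖ * ‖W‖ * ‖X‖ :=
        h2.trans (mul_le_mul_of_nonneg_left h6 (by (clear * - h3; positivity)))
      have h9 : |D.γ X W (D.low Y) - D.γ Y W (D.low X)| ≤ 2 * C3 * ‖X‖ * ‖Y‖ * ‖W‖ := by
        rw [abs_le] at h7 h8 ⊢
        constructor <;> linarith only [h7, h8]
      have h10 := pow_le_pow_left₀ (abs_nonneg _) h9 2
      rw [sq_abs] at h10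
      linarith only [h10])
    (by
      have e1 : ∀ X, D.hB X X ≤ (1 + 2 * (δ * u) * C0) * ‖X‖ ^ 2 := by
        intro X
        rw [D.hB_apply, sB_self]
        have := mul_le_mul_of_nonneg_left (hB.up X) (by positivity : 0 ≤ 2 * (δ * u))
        linarith only [this]
      have e2 : ∀ X, 0 ≤ D.hB X X := by
        intro X
        rw [D.hB_apply, sB_self]
        have := hR.knonneg X
        (clear * - hδ hu this; positivity)
      have h1 := mul_le_mul (e1 X) (e1 Y) (e2 Y) (by (clear * - hδ hu h0; positivity))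
      have h2 : 0 ≤ D.hB X Y ^ 2 := sq_nonneg _
      linarith only [h1, h2])
    (by
      have hp : ∀ X, X ≠ 0 → 0 < D.hB X X := by
        intro X hX
        rw [D.hB_apply]
        have h1 := sB_pos X hX
        have h2 := hR.kpos X hX
        (clear * - h1 hδ hu h2; positivity)
      have := D.hB_hform.im_sq_le D.hB_hform hp 1 (fun X => by simp)
        (fun X => by
          by_cases hX : X = 0
          · simp [hX]
          · have := hp X hX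
            linarith only [this]) X Y
      linarith only [this])
  rw [D.ar_eq, ← hW]
  refine key.trans (le_of_eq ?_)
  have f1 : D.β X (I • Y) = -D.β (I • X) Y := hβ.right_I X Y
  have f2 : D.β (D.low X) (I • Y) = -mB D.β D.lowL (I • X) Y := by
    rw [← D.lowL_apply, hβ.symm, ← mB_apply, hR.m_hform.symm, hR.m_hform.right_I]
  have f3 : D.β (D.low W) W = mB D.β D.lowL W W := by
    rw [← D.lowL_apply, hβ.symm, ← mB_apply]
  simp only [AlgData.NN, ← hW, AlgData.rip_eq, hXY, f1, f2, f3]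
  ring

end Vale.Agent.P250
end
end
end

section

section

section

/-!
The geometric property `Star` for the potential `phi`.
-/

set_option maxSynthPendingDepth 3

namespace Vale.Agent.P250

open Set Filter Topology

namespace StarPhi

lemma exists_lip {CΨ Λ : ℝ} {Ψ : ℂ → ℝ} (hΨ : IsPsi CΨ Λ Ψ) :
    ∃ L > 0, ∀ x y : ℂ, ‖x‖ ≤ 1 → ‖y‖ ≤ 1 → |Ψ x - Ψ y| ≤ L * ‖x - y‖ := by
  have hd : Differentiable ℝ Ψ := hΨ.smooth.differentiable (by simp)
  have hc : Continuous (fderiv ℝ Ψ) := hΨ.smooth.continuous_fderiv (by simp)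
  obtain ⟨L, hL⟩ := (isCompact_closedBall (0 : ℂ) 1).exists_bound_of_continuousOn
    (f := fderiv ℝ Ψ) hc.continuousOn
  refine ⟨max L 1, by (clear * -; positivity), fun x y hx hy => ?_⟩
  have := (convex_closedBall (0 : ℂ) 1).norm_image_sub_le_of_norm_fderiv_le (𝕜 := ℝ)
    (f := Ψ) (C := L) (x := y) (y := x) (fun z _ => hd z) hL (by simpa only [Metric.mem_closedBall, dist_zero_right] using hy) (by simpa only [Metric.mem_closedBall, dist_zero_right] using hx)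
  rw [Real.norm_eq_abs] at this
  refine this.trans ?_
  gcongr
  exact le_max_left _ _

lemma norm_exp_I (w : ℂ) : ‖Complex.exp (Complex.I * w)‖ = Real.exp (-w.im) := by
  rw [Complex.norm_exp]
  simp

lemma exp_lip (x y : ℂ) (hx : 0 ≤ x.im) (hy : 0 ≤ y.im) :
    ‖Complex.exp (Complex.I * x) - Complex.exp (Complex.I * y)‖ ≤ ‖x - y‖ := by
  have hconv : Convex ℝ {z : ℂ | 0 ≤ z.im} := convex_halfSpace_im_ge 0
  have := hconv.norm_image_sub_le_of_norm_hasDerivWithin_le (𝕜 := ℂ)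
    (f := fun z => Complex.exp (Complex.I * z)) (f' := fun z => Complex.exp (Complex.I * z) * Complex.I)
    (C := 1) (x := y) (y := x) (fun z hz => by
      have h1 : HasDerivAt (fun z : ℂ => Complex.I * z) Complex.I z := by
        simpa using (hasDerivAt_id z).const_mul Complex.I
      exact (h1.cexp).hasDerivWithinAt) (fun z hz => by
      rw [norm_mul, norm_exp_I, Complex.norm_I, mul_one]
      apply Real.exp_le_one_iff.2
      simpa only [Left.neg_nonpos_iff, mem_ofPred_eq] using hz) hy hx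
  simpa only [ge_iff_le, one_mul] using this

/-- one term of the potential -/
noncomputable def TT (Ψ : ℂ → ℝ) (a x : ℝ) (q : ℂ × ℂ) : ℝ :=
  Ψ (Complex.exp (Complex.I * om a x q))

lemma Sk_eq (Ψ : ℂ → ℝ) (lam : ℝ) (k : ℕ) (q : ℂ × ℂ) :
    Sk Ψ lam k q = TT Ψ (lam ^ (2 * k)) (xx lam k (jj lam k q)) q := rfl

lemma TT_zero {CΨ Λ : ℝ} {Ψ : ℂ → ℝ} (hΨ : IsPsi CΨ Λ Ψ) (a x : ℝ) (q : ℂ × ℂ)
    (h : 5 ≤ a * (rho q + (q.1.im - x) ^ 2)) : TT Ψ a x q = 0 := by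
  apply hΨ.zero
  rw [norm_exp_I, om_im]
  apply Real.exp_le_exp.2
  linarith

lemma TT_le {CΨ Λ : ℝ} {Ψ : ℂ → ℝ} (hΨ : IsPsi CΨ Λ Ψ) (a x : ℝ) (q : ℂ × ℂ)
    (ha : 0 ≤ a) (hq : 0 ≤ rho q) : TT Ψ a x q ≤ CΨ := by
  apply hΨ.le
  rw [norm_exp_I, om_im]
  apply Real.exp_le_one_iff.2
  have : 0 ≤ a * (rho q + (q.1.im - x) ^ 2) := by positivity
  linarith

lemma TT_lip {Ψ : ℂ → ℝ} {L : ℝ} (hL : 0 < L)
    (h : ∀ x y : ℂ, ‖x‖ ≤ 1 → ‖y‖ ≤ 1 → |Ψ x - Ψ y| ≤ L * ‖x - y‖) (a x : ℝ)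
    (ha : 0 ≤ a) (q q' : ℂ × ℂ) (hq : 0 ≤ rho q) (hq' : 0 ≤ rho q') :
    |TT Ψ a x q - TT Ψ a x q'| ≤ L * ‖om a x q - om a x q'‖ := by
  have h1 : 0 ≤ (om a x q).im := by rw [om_im]; (clear * - ha hq; positivity)
  have h2 : 0 ≤ (om a x q').im := by rw [om_im]; (clear * - ha hq'; positivity)
  refine (h _ _ ?_ ?_).trans ?_
  · rw [norm_exp_I]; exact Real.exp_le_one_iff.2 (by linarith)
  · rw [norm_exp_I]; exact Real.exp_le_one_iff.2 (by linarith)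
  · exact mul_le_mul_of_nonneg_left (exp_lip _ _ h1 h2) hL.le

lemma near (lam : ℝ) (hlam : 0 < lam) (k : ℕ) (q : ℂ × ℂ) :
    lam ^ k * |q.1.im - xx lam k (jj lam k q)| ≤ 5 / 2 := by
  have h := abs_sub_round (lam ^ k * q.1.im / 5)
  have hp : 0 < lam ^ k := by positivity
  have h2 : lam ^ k * |q.1.im - xx lam k (jj lam k q)|
      = 5 * |lam ^ k * q.1.im / 5 - round (lam ^ k * q.1.im / 5)| := by
    rw [← abs_of_pos hp, ← abs_mul, abs_of_pos hp,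
      show (5 : ℝ) = |5| by norm_num, ← abs_mul, xx, jj, abs_of_pos (by norm_num : (0 : ℝ) < 5)]
    congr 1
    field_simp
  rw [h2]; linarith only [h]

lemma far (lam : ℝ) (hlam : 0 < lam) (k : ℕ) (q : ℂ × ℂ) (j : ℤ) (hj : j ≠ jj lam k q) :
    5 / 2 ≤ lam ^ k * |q.1.im - xx lam k j| := by
  have h := abs_sub_round (lam ^ k * q.1.im / 5)
  have hp : 0 < lam ^ k := by positivity
  have h2 : lam ^ k * |q.1.im - xx lam k j|
      = 5 * |lam ^ k * q.1.im / 5 - j| := by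
    rw [← abs_of_pos hp, ← abs_mul, abs_of_pos hp,
      show (5 : ℝ) = |5| by norm_num, ← abs_mul, xx, abs_of_pos (by norm_num : (0 : ℝ) < 5)]
    congr 1
    field_simp
  rw [h2]
  have h3 : (1 : ℝ) ≤ |(j : ℝ) - round (lam ^ k * q.1.im / 5)| := by
    have : (1 : ℤ) ≤ |j - round (lam ^ k * q.1.im / 5)| := by
      apply Int.one_le_abs
      intro h0
      apply hj
      rw [jj]; omega
    exact_mod_cast this
  have h4 : |(j : ℝ) - round (lam ^ k * q.1.im / 5)| ≤ |lam ^ k * q.1.im / 5 - j|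
      + |lam ^ k * q.1.im / 5 - round (lam ^ k * q.1.im / 5)| := by
    have := abs_sub_le (j : ℝ) (lam ^ k * q.1.im / 5) (round (lam ^ k * q.1.im / 5))
    rwa [abs_sub_comm (j : ℝ) (lam ^ k * q.1.im / 5)] at this
  linarith

lemma sq_of_far {lam : ℝ} {k : ℕ} {u : ℝ} (h : 5 / 2 ≤ lam ^ k * |u|) :
    25 / 4 ≤ lam ^ (2 * k) * u ^ 2 := by
  have : lam ^ (2 * k) * u ^ 2 = (lam ^ k * |u|) ^ 2 := by
    rw [mul_pow, sq_abs, ← pow_mul, mul_comm k 2]
  rw [this]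
  nlinarith only [h]

lemma TT_other {CΨ Λ : ℝ} {Ψ : ℂ → ℝ} (hΨ : IsPsi CΨ Λ Ψ) (lam : ℝ) (hlam : 0 < lam) (k : ℕ)
    (q : ℂ × ℂ) (hq : 0 ≤ rho q) (j : ℤ) (hj : j ≠ jj lam k q) :
    TT Ψ (lam ^ (2 * k)) (xx lam k j) q = 0 := by
  apply TT_zero hΨ
  have h1 := sq_of_far (far lam hlam k q j hj)
  have h2 : 0 ≤ lam ^ (2 * k) * rho q := by (clear * - hlam hq; positivity)
  linarith

lemma Sk_diff {CΨ Λ : ℝ} {Ψ : ℂ → ℝ} (hΨ : IsPsi CΨ Λ Ψ) {L : ℝ} (hL : 0 < L)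
    (h : ∀ x y : ℂ, ‖x‖ ≤ 1 → ‖y‖ ≤ 1 → |Ψ x - Ψ y| ≤ L * ‖x - y‖)
    (lam : ℝ) (hlam : 0 < lam) (k : ℕ)
    (q q' : ℂ × ℂ) (hq : 0 ≤ rho q) (hq' : 0 ≤ rho q') :
    |Sk Ψ lam k q - Sk Ψ lam k q'| ≤ L * (
      ‖om (lam ^ (2 * k)) (xx lam k (jj lam k q)) q
        - om (lam ^ (2 * k)) (xx lam k (jj lam k q)) q'‖
      + ‖om (lam ^ (2 * k)) (xx lam k (jj lam k q')) q
        - om (lam ^ (2 * k)) (xx lam k (jj lam k q')) q'‖) := by
  have ha : 0 ≤ lam ^ (2 * k) := by positivity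
  rw [Sk_eq, Sk_eq]
  have h1 := TT_lip hL h (lam ^ (2 * k)) (xx lam k (jj lam k q)) ha q q' hq hq'
  have h2 := TT_lip hL h (lam ^ (2 * k)) (xx lam k (jj lam k q')) ha q q' hq hq'
  by_cases hj : jj lam k q = jj lam k q'
  · rw [← hj] at h2 ⊢
    have : 0 ≤ L * ‖om (lam ^ (2 * k)) (xx lam k (jj lam k q)) q
        - om (lam ^ (2 * k)) (xx lam k (jj lam k q)) q'‖ := by (clear * - hL; positivity)
    linarith only [h1, this]
  · have e1 := TT_other hΨ lam hlam k q' hq' (jj lam k q) hj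
    have e2 := TT_other hΨ lam hlam k q hq (jj lam k q') (Ne.symm hj)
    rw [e1] at h1
    rw [e2] at h2
    calc |TT Ψ (lam ^ (2 * k)) (xx lam k (jj lam k q)) q
          - TT Ψ (lam ^ (2 * k)) (xx lam k (jj lam k q')) q'|
        = |(TT Ψ (lam ^ (2 * k)) (xx lam k (jj lam k q)) q - 0)
          + (0 - TT Ψ (lam ^ (2 * k)) (xx lam k (jj lam k q')) q')| := by congr 1; ring
      _ ≤ _ := abs_add_le _ _
      _ ≤ _ := by rw [mul_add]; exact add_le_add h1 h2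

/-- variation of the affine functions -/
lemma om_diff (a x x0 : ℝ) (ha : 0 ≤ a) (q q' : ℂ × ℂ) :
    ‖om a x q - om a x q'‖ ≤ a * (‖(q.2 - q'.2) - 2 * x0 * (q.1 - q'.1)‖
      + 2 * |x - x0| * ‖q.1 - q'.1‖) := by
  have e : om a x q - om a x q' = (a : ℂ) * (((q.2 - q'.2) - 2 * x0 * (q.1 - q'.1))
      - ((2 * (x - x0) : ℝ) : ℂ) * (q.1 - q'.1)) := by
    simp only [om]; push_cast; ring
  rw [e, norm_mul, Complex.norm_real, Real.norm_eq_abs, abs_of_nonneg ha]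
  apply mul_le_mul_of_nonneg_left _ ha
  refine (norm_sub_le _ _).trans ?_
  rw [norm_mul, Complex.norm_real, Real.norm_eq_abs, abs_mul, abs_two]

/-- `q` and `q'` are close at scale `N` (with reference centre `x0`) -/
structure Close (lam : ℝ) (N : ℕ) (x0 : ℝ) (q q' : ℂ × ℂ) : Prop where
  h0 : lam ^ (2 * N) * ‖(q.2 - q'.2) - 2 * x0 * (q.1 - q'.1)‖ ≤ 81
  h1 : lam ^ N * ‖q.1 - q'.1‖ ≤ 9
  h2 : lam ^ N * |q.1.im - x0| ≤ 9
  h3 : lam ^ N * |q'.1.im - x0| ≤ 9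

lemma var_one {lam : ℝ} (hlam : 1 ≤ lam) {N k : ℕ} (hk : k ≤ N) {x0 x y : ℝ} {q q' : ℂ × ℂ}
    (h0 : lam ^ (2 * N) * ‖(q.2 - q'.2) - 2 * x0 * (q.1 - q'.1)‖ ≤ 81)
    (h1 : lam ^ N * ‖q.1 - q'.1‖ ≤ 9)
    (h2 : lam ^ N * |y - x0| ≤ 9)
    (h4 : lam ^ k * |y - x| ≤ 5 / 2) :
    ‖om (lam ^ (2 * k)) x q - om (lam ^ (2 * k)) x q'‖ ≤ 288 * (1 / lam) ^ (N - k) := by
  have hl0 : 0 < lam := by linarith only [hlam]
  have ha : (0 : ℝ) ≤ lam ^ (2 * k) := by positivity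
  refine (om_diff _ x x0 ha q q').trans ?_
  set A := ‖(q.2 - q'.2) - 2 * x0 * (q.1 - q'.1)‖ with hA
  set B := ‖q.1 - q'.1‖ with hB
  set r : ℝ := (1 / lam) ^ (N - k) with hr
  have hr0 : 0 < r := by positivity
  have hr1 : r ≤ 1 := pow_le_one₀ (by positivity) (by rw [div_le_one hl0]; exact hlam)
  have hPQ : lam ^ k = lam ^ N * r := by
    rw [hr, one_div, inv_pow, ← div_eq_mul_inv, eq_div_iff (by positivity), ← pow_add]
    congr 1; omega
  have hA0 : 0 ≤ A := norm_nonneg _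
  have hB0 : 0 ≤ B := norm_nonneg _
  have e2 : lam ^ (2 * k) = lam ^ k * lam ^ k := by rw [← pow_add]; congr 1; omega
  have e3 : lam ^ (2 * N) = lam ^ N * lam ^ N := by rw [← pow_add]; congr 1; omega
  have hx : lam ^ k * |x - x0| ≤ 5 / 2 + 9 * r := by
    have h5 : |x - x0| ≤ |y - x| + |y - x0| := by
      have := abs_sub_le x y x0
      rwa [abs_sub_comm x y] at this
    calc lam ^ k * |x - x0| ≤ lam ^ k * (|y - x| + |y - x0|) := by (clear * - h5 hlam; gcongr)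
      _ = lam ^ k * |y - x| + r * (lam ^ N * |y - x0|) := by rw [mul_add, hPQ]; ring
      _ ≤ 5 / 2 + r * 9 := by (clear * - h4 h2 hlam; gcongr)
      _ = _ := by ring
  have hB1 : lam ^ k * B ≤ 9 * r := by
    calc lam ^ k * B = r * (lam ^ N * B) := by rw [hPQ]; ring
      _ ≤ r * 9 := by gcongr
      _ = _ := by ring
  have hA1 : lam ^ (2 * k) * A ≤ 81 * r := by
    calc lam ^ (2 * k) * A = (r * r) * (lam ^ (2 * N) * A) := by rw [e2, e3, hPQ]; ring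
      _ ≤ (r * 1) * 81 := by (clear * - hr1 hlam h0; gcongr)
      _ = _ := by ring
  calc lam ^ (2 * k) * (A + 2 * |x - x0| * B)
      = lam ^ (2 * k) * A + 2 * (lam ^ k * |x - x0|) * (lam ^ k * B) := by rw [e2]; ring
    _ ≤ 81 * r + 2 * (5 / 2 + 9 * r) * (9 * r) := by (clear * - hA1 hx hB1 hlam; gcongr)
    _ ≤ 81 * r + 2 * (5 / 2 + 9 * 1) * (9 * r) := by (clear * - hr1 hlam; gcongr)
    _ = 288 * r := by ring

lemma Sk_close {CΨ Λ : ℝ} {Ψ : ℂ → ℝ} (hΨ : IsPsi CΨ Λ Ψ) {L : ℝ} (hL : 0 < L)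
    (h : ∀ x y : ℂ, ‖x‖ ≤ 1 → ‖y‖ ≤ 1 → |Ψ x - Ψ y| ≤ L * ‖x - y‖)
    {lam : ℝ} (hlam : 1 ≤ lam) {N k : ℕ} (hk : k ≤ N) {x0 : ℝ}
    {q q' : ℂ × ℂ} (hq : 0 ≤ rho q) (hq' : 0 ≤ rho q') (hc : Close lam N x0 q q') :
    |Sk Ψ lam k q - Sk Ψ lam k q'| ≤ 576 * L * (1 / lam) ^ (N - k) := by
  have hl0 : 0 < lam := by linarith only [hlam]
  refine (Sk_diff hΨ hL h lam hl0 k q q' hq hq').trans ?_
  have h1 := var_one hlam hk hc.h0 hc.h1 hc.h2 (near lam hl0 k q)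
  have h2 := var_one hlam hk hc.h0 hc.h1 hc.h3 (near lam hl0 k q')
  calc _ ≤ L * (288 * (1 / lam) ^ (N - k) + 288 * (1 / lam) ^ (N - k)) := by (clear * - h1 h2 hL; gcongr)
    _ = _ := by ring

lemma geom_le {lam : ℝ} (hlam : 2 ≤ lam) (N : ℕ) :
    ∑ k ∈ Finset.range N, (1 / lam) ^ (N - k) ≤ 2 / lam := by
  have hl0 : 0 < lam := by linarith only [hlam]
  have h1 : ∑ k ∈ Finset.range N, (1 / lam) ^ (N - k)
      = ∑ k ∈ Finset.range N, (1 / lam) ^ (k + 1) := by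
    rw [← Finset.sum_range_reflect]
    apply Finset.sum_congr rfl
    intro k hk
    rw [Finset.mem_range] at hk
    congr 1; omega
  rw [h1]
  have hr : (1 / lam) ≤ 1 / 2 := by gcongr
  have h2 : ∑ k ∈ Finset.range N, (1 / lam) ^ (k + 1)
      ≤ ∑ k ∈ Finset.range N, (1 / lam) * (1 / 2) ^ k := by
    apply Finset.sum_le_sum
    intro k _
    rw [pow_succ, mul_comm]
    gcongr
  refine h2.trans ?_
  rw [← Finset.mul_sum]
  have h3 : ∑ k ∈ Finset.range N, (1 / 2 : ℝ) ^ k ≤ 2 := by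
    rw [geom_sum_eq (by norm_num)]
    have : (0 : ℝ) < (1 / 2) ^ N := by positivity
    rw [div_le_iff_of_neg (by norm_num)]
    linarith only [this]
  calc 1 / lam * ∑ k ∈ Finset.range N, (1 / 2 : ℝ) ^ k ≤ 1 / lam * 2 := by gcongr
    _ = _ := by ring

lemma sum_close {CΨ Λ : ℝ} {Ψ : ℂ → ℝ} (hΨ : IsPsi CΨ Λ Ψ) {L : ℝ} (hL : 0 < L)
    (h : ∀ x y : ℂ, ‖x‖ ≤ 1 → ‖y‖ ≤ 1 → |Ψ x - Ψ y| ≤ L * ‖x - y‖)
    {lam : ℝ} (hlam : 2 ≤ lam) (hlam2 : 2304 * L ≤ lam) {N : ℕ} {x0 : ℝ}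
    {q q' : ℂ × ℂ} (hq : 0 ≤ rho q) (hq' : 0 ≤ rho q') (hc : Close lam N x0 q q') :
    ∑ k ∈ Finset.range N, Sk Ψ lam k q ≤ ∑ k ∈ Finset.range N, Sk Ψ lam k q' + 1 / 2 := by
  have hl0 : 0 < lam := by linarith only [hL, hlam2]
  have h1 : ∑ k ∈ Finset.range N, (Sk Ψ lam k q - Sk Ψ lam k q')
      ≤ ∑ k ∈ Finset.range N, 576 * L * (1 / lam) ^ (N - k) := by
    apply Finset.sum_le_sum
    intro k hk
    rw [Finset.mem_range] at hk
    exact (le_abs_self _).trans (Sk_close hΨ hL h (by linarith only [hlam]) hk.le hq hq' hc)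
  rw [Finset.sum_sub_distrib, ← Finset.mul_sum] at h1
  have h2 := geom_le hlam N
  have h3 : 576 * L * ∑ k ∈ Finset.range N, (1 / lam) ^ (N - k) ≤ 576 * L * (2 / lam) := by (clear * - h2 hL; gcongr)
  have h4 : 576 * L * (2 / lam) ≤ 1 / 2 := by
    rw [mul_div_assoc', div_le_iff₀ hl0]; linarith only [hlam2]
  linarith

lemma Sk_zero {CΨ Λ : ℝ} {Ψ : ℂ → ℝ} (hΨ : IsPsi CΨ Λ Ψ) {lam : ℝ} (hlam : 0 < lam) {k : ℕ}
    {q : ℂ × ℂ} (h : 5 ≤ lam ^ (2 * k) * rho q) : Sk Ψ lam k q = 0 := by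
  rw [Sk_eq]
  apply TT_zero hΨ
  have : 0 ≤ lam ^ (2 * k) * (q.1.im - xx lam k (jj lam k q)) ^ 2 := by (clear * - hlam; positivity)
  linarith

lemma phi_eq {CΨ Λ : ℝ} {Ψ : ℂ → ℝ} (hΨ : IsPsi CΨ Λ Ψ) {lam : ℝ} (hlam : 1 ≤ lam) {N : ℕ}
    (ε : ℝ) {q : ℂ × ℂ} (hq : 0 < rho q) (h : 5 ≤ lam ^ (2 * (N + 1)) * rho q) :
    phi Ψ lam ε q = -ε * Real.log (rho q) + (∑ k ∈ Finset.range N, Sk Ψ lam k q)
      + Sk Ψ lam N q := by
  rw [phi, tsum_eq_sum (s := Finset.range (N + 1)), Finset.sum_range_succ]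
  · ring
  · intro k hk
    rw [Finset.mem_range, not_lt] at hk
    apply Sk_zero hΨ (by linarith only [hlam])
    refine h.trans ?_
    gcongr

/-- the comparison lemma -/
lemma phi_close {CΨ Λ : ℝ} {Ψ : ℂ → ℝ} (hΨ : IsPsi CΨ Λ Ψ) {L : ℝ} (hL : 0 < L)
    (h : ∀ x y : ℂ, ‖x‖ ≤ 1 → ‖y‖ ≤ 1 → |Ψ x - Ψ y| ≤ L * ‖x - y‖)
    {lam : ℝ} (hlam : 2 ≤ lam) (hlam2 : 2304 * L ≤ lam) {ε : ℝ} (hε : 0 < ε)
    (hε2 : ε * Real.log lam ≤ 1 / 4) {N : ℕ} {x0 : ℝ}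
    {q q' : ℂ × ℂ} (hq : 0 < rho q) (hq' : 0 < rho q') (hc : Close lam N x0 q q')
    (hr : 5 ≤ lam ^ (2 * (N + 1)) * rho q) (hr' : 5 ≤ lam ^ (2 * (N + 1)) * rho q')
    (hrr : rho q' ≤ lam ^ 2 * rho q) :
    phi Ψ lam ε q ≤ phi Ψ lam ε q' + 1 + (Sk Ψ lam N q - Sk Ψ lam N q') := by
  have hl0 : 0 < lam := by linarith only [hL, hlam2]
  rw [phi_eq hΨ (by linarith only [hlam]) ε hq hr, phi_eq hΨ (by linarith only [hlam]) ε hq' hr']
  have h1 := sum_close hΨ hL h hlam hlam2 hq.le hq'.le hc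
  have h2 : Real.log (rho q') ≤ 2 * Real.log lam + Real.log (rho q) := by
    have := Real.log_le_log hq' hrr
    rw [Real.log_mul (by (clear * - hlam; positivity)) hq.ne', Real.log_pow] at this
    simpa only [ge_iff_le, Nat.cast_ofNat] using this
  have h3 : ε * Real.log (rho q') ≤ ε * (2 * Real.log lam + Real.log (rho q)) := by (clear * - h2 hε; gcongr)
  linarith only [hε2, h1, h3]

lemma rho_line (p : ℂ × ℂ) (ζ : ℂ) (x0 : ℝ) :
    rho (p + ζ • ((1 : ℂ), (2 * x0 : ℂ)))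
      = rho p + (p.1.im - x0) ^ 2 - (ζ.im + (p.1.im - x0)) ^ 2 := by
  simp only [rho, Prod.smul_mk, smul_eq_mul, mul_one, Prod.snd_add, Complex.add_im, Complex.mul_im, Complex.re_ofNat, Complex.ofReal_im, mul_zero, Complex.im_ofNat, Complex.ofReal_re, zero_mul, add_zero, Complex.mul_re, sub_zero, zero_add, Prod.fst_add]
  ring

/-- the points `p3 + t (p2 - p3)` -/
noncomputable def PT (A xj δ : ℝ) (η : ℂ) (p2 : ℂ × ℂ) (t : ℂ) : ℂ × ℂ :=
  (p2.1 - (1 - t) * (Complex.I * δ), p2.2 - (1 - t) * (η / A + 2 * xj * (Complex.I * δ)))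

lemma PT_eq (A xj δ : ℝ) (η : ℂ) (p2 : ℂ × ℂ) (t : ℂ) :
    PT A xj δ η p2 0 + t • (p2 - PT A xj δ η p2 0) = PT A xj δ η p2 t := by
  ext
  · simp only [PT, sub_zero, one_mul, Prod.fst_add, Prod.smul_fst, Prod.fst_sub, sub_sub_cancel, smul_eq_mul]; ring
  · simp only [PT, sub_zero, one_mul, Prod.snd_add, Prod.smul_snd, Prod.snd_sub, sub_sub_cancel, smul_eq_mul]; ring

lemma PT_im1 (A xj δ : ℝ) (η : ℂ) (p2 : ℂ × ℂ) (t : ℂ) (h : p2.1.im = xj + δ) :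
    (PT A xj δ η p2 t).1.im = xj + t.re * δ := by
  simp only [PT, Complex.sub_im, h, Complex.mul_im, Complex.sub_re, Complex.one_re, Complex.I_re, Complex.ofReal_im, mul_zero, Complex.I_im, Complex.ofReal_re, one_mul, zero_add, Complex.one_im, zero_sub, Complex.mul_re, zero_mul, sub_self, add_zero]
  ring

lemma aux_re_im (A xj δ : ℝ) (η : ℂ) :
    (η / A + 2 * xj * (Complex.I * δ) : ℂ).re = η.re / A ∧
    (η / A + 2 * xj * (Complex.I * δ) : ℂ).im = η.im / A + 2 * xj * δ := by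
  have : (η / A + 2 * xj * (Complex.I * δ) : ℂ)
      = ((1 / A : ℝ) : ℂ) * η + ((2 * xj * δ : ℝ) : ℂ) * Complex.I := by
    push_cast; ring
  rw [this]
  constructor
  · simp only [Complex.add_re, Complex.re_ofReal_mul, Complex.I_re]
    ring
  · simp only [Complex.add_im, Complex.im_ofReal_mul, Complex.I_im]
    ring

lemma PT_im2 (A xj δ : ℝ) (η : ℂ) (p2 : ℂ × ℂ) (t : ℂ) :
    (PT A xj δ η p2 t).2.im
      = p2.2.im - (1 - t.re) * (η.im / A + 2 * xj * δ) + t.im * (η.re / A) := by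
  obtain ⟨e1, e2⟩ := aux_re_im A xj δ η
  simp only [PT, Complex.sub_im, Complex.mul_im, e1, e2, Complex.sub_re, Complex.one_re,
    Complex.one_im]
  ring

lemma PT_rho (A xj δ : ℝ) (hA : 0 < A) (η : ℂ) (p2 : ℂ × ℂ) (t : ℂ) (h : p2.1.im = xj + δ)
    (h2 : p2.2.im = 5 / A + (xj + δ) ^ 2) (hη : η.im = 1 + A * δ ^ 2) :
    A * rho (PT A xj δ η p2 t)
      = 4 + t.re + t.re * (1 - t.re) * (A * δ ^ 2) + t.im * η.re := by
  rw [rho, PT_im1 _ _ _ _ _ _ h, PT_im2, h2, hη]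
  field_simp
  ring

lemma PT_om (A xj δ : ℝ) (hA : 0 < A) (η : ℂ) (p2 : ℂ × ℂ) (t : ℂ) :
    om A xj (PT A xj δ η p2 t) = om A xj p2 - (1 - t) * η := by
  have hAC : (A : ℂ) ≠ 0 := by exact_mod_cast hA.ne'
  simp only [om, PT]
  field_simp
  ring

lemma ball_bounds {t : ℂ} (ht : t ∈ Metric.ball (1 / 2 : ℂ) (3 / 5)) :
    -(1 / 10) < t.re ∧ t.re < 11 / 10 ∧ |t.im| ≤ 3 / 5 ∧ ‖1 - t‖ ≤ 11 / 10 := by
  rw [Metric.mem_ball, dist_eq_norm] at ht
  have ht1 : |(t - 1 / 2).re| < 3 / 5 := (Complex.abs_re_le_norm _).trans_lt ht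
  have ht2 : |(t - 1 / 2).im| < 3 / 5 := (Complex.abs_im_le_norm _).trans_lt ht
  have hre1 : (t - 1 / 2).re = t.re - 1 / 2 := by simp only [one_div, Complex.sub_re, Complex.inv_re, Complex.re_ofNat, Complex.normSq_ofNat, div_self_mul_self']
  have him1 : (t - 1 / 2).im = t.im := by simp only [one_div, Complex.sub_im, Complex.inv_im, Complex.im_ofNat, neg_zero, Complex.normSq_ofNat, zero_div, sub_zero]
  rw [hre1, abs_lt] at ht1
  rw [him1] at ht2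
  refine ⟨by linarith only [ht1], by linarith only [ht1], ht2.le, ?_⟩
  calc ‖1 - t‖ = ‖(1 / 2 : ℂ) - (t - 1 / 2)‖ := by congr 1; ring
    _ ≤ ‖(1 / 2 : ℂ)‖ + ‖t - 1 / 2‖ := norm_sub_le _ _
    _ ≤ 1 / 2 + 3 / 5 := by
        apply add_le_add _ ht.le
        simp
    _ = _ := by norm_num

lemma PT_close {lam : ℝ} (hlam : 1 ≤ lam) {N : ℕ} {xj δ : ℝ} {η : ℂ} {p2 : ℂ × ℂ} {t : ℂ}
    (ht : t ∈ Metric.ball (1 / 2 : ℂ) (3 / 5)) (h : p2.1.im = xj + δ)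
    (hδ : lam ^ N * |δ| ≤ 5 / 2) (hη : ‖η‖ ≤ 11) :
    Close lam N xj (PT (lam ^ (2 * N)) xj δ η p2 t) p2 := by
  have hl0 : 0 < lam := by linarith only [hlam]
  obtain ⟨b1, b2, b3, b4⟩ := ball_bounds ht
  have hA0 : 0 < lam ^ (2 * N) := by positivity
  have hd1 : (PT (lam ^ (2 * N)) xj δ η p2 t).1 - p2.1 = - ((1 - t) * (Complex.I * δ)) := by
    simp only [PT, Complex.ofReal_pow, sub_sub_cancel_left]
  refine ⟨?_, ?_, ?_, ?_⟩
  · have e : (PT (lam ^ (2 * N)) xj δ η p2 t).2 - p2.2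
        - 2 * xj * ((PT (lam ^ (2 * N)) xj δ η p2 t).1 - p2.1)
        = -((1 - t) * η) / ((lam ^ (2 * N) : ℝ) : ℂ) := by simp only [PT]; ring
    rw [e, norm_div, norm_neg, norm_mul, Complex.norm_real, Real.norm_eq_abs,
      abs_of_pos hA0, mul_div_cancel₀ _ hA0.ne']
    calc ‖1 - t‖ * ‖η‖ ≤ (11 / 10) * 11 := by (clear * - b4 hη; gcongr)
      _ ≤ 81 := by norm_num
  · rw [hd1, norm_neg, norm_mul, norm_mul, Complex.norm_I, one_mul, Complex.norm_real,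
      Real.norm_eq_abs]
    calc lam ^ N * (‖1 - t‖ * |δ|) = ‖1 - t‖ * (lam ^ N * |δ|) := by ring
      _ ≤ (11 / 10) * (5 / 2) := by (clear * - b4 hδ hlam; gcongr)
      _ ≤ 9 := by norm_num
  · rw [PT_im1 _ _ _ _ _ _ h]
    have e : xj + t.re * δ - xj = t.re * δ := by ring
    rw [e, abs_mul]
    have : |t.re| ≤ 11 / 10 := abs_le.2 ⟨by linarith only [b1], by linarith only [b2]⟩
    calc lam ^ N * (|t.re| * |δ|) = |t.re| * (lam ^ N * |δ|) := by ring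
      _ ≤ (11 / 10) * (5 / 2) := by (clear * - this hδ hlam; gcongr)
      _ ≤ 9 := by norm_num
  · have e : p2.1.im - xj = δ := by rw [h]; ring
    rw [e]
    exact hδ.trans (by norm_num)

/-- the geometry near a point at height `5 / A` -/
lemma edge (lam : ℝ) (hlam : 1 ≤ lam) (N : ℕ) (p2 : ℂ × ℂ) (h5 : lam ^ (2 * N) * rho p2 = 5) :
    ∃ (p3 : ℂ × ℂ) (n : ℤ), p3.1.im = xx lam N (jj lam N p2) ∧
      om (lam ^ (2 * N)) (xx lam N (jj lam N p2)) p3 = 2 * Real.pi * n + 4 * Complex.I ∧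
      ∀ t ∈ Metric.ball (1 / 2 : ℂ) (3 / 5),
        1 ≤ lam ^ (2 * N) * rho (p3 + t • (p2 - p3)) ∧
        Close lam N (xx lam N (jj lam N p2)) (p3 + t • (p2 - p3)) p2 := by
  have hl0 : 0 < lam := by linarith only [hlam]
  have hA0 : 0 < lam ^ (2 * N) := by positivity
  have hAA : lam ^ (2 * N) = lam ^ N * lam ^ N := by rw [← pow_add]; congr 1; omega
  set xj := xx lam N (jj lam N p2) with hxj
  set δ : ℝ := p2.1.im - xj with hδ
  have hx2 : p2.1.im = xj + δ := by rw [hδ]; ring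
  have hnear : lam ^ N * |δ| ≤ 5 / 2 := near lam hl0 N p2
  set ω := om (lam ^ (2 * N)) xj p2 with hω
  have hωim : ω.im = 5 + lam ^ (2 * N) * δ ^ 2 := by
    rw [hω, om_im, ← hδ]; linarith only [h5]
  set n : ℤ := round (ω.re / (2 * Real.pi)) with hn
  have hpi : 0 < Real.pi := Real.pi_pos
  have hre : |ω.re - 2 * Real.pi * n| ≤ Real.pi := by
    have := abs_sub_round (ω.re / (2 * Real.pi))
    rw [← hn] at this
    have e : ω.re - 2 * Real.pi * n = 2 * Real.pi * (ω.re / (2 * Real.pi) - n) := by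
      (clear * -; field_simp)
    rw [e, abs_mul, abs_of_pos (by positivity : 0 < 2 * Real.pi)]
    nlinarith only [hpi, this]
  set η : ℂ := ω - (2 * Real.pi * n + 4 * Complex.I) with hη
  have hηre : |η.re| ≤ Real.pi := by
    have : η.re = ω.re - 2 * Real.pi * n := by
      rw [hη]; simp
    rw [this]; exact hre
  have hηim : η.im = 1 + lam ^ (2 * N) * δ ^ 2 := by
    have : η.im = ω.im - 4 := by rw [hη]; simp
    rw [this, hωim]; ring
  have hAδ : lam ^ (2 * N) * δ ^ 2 ≤ 25 / 4 := by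
    have e : lam ^ (2 * N) * δ ^ 2 = (lam ^ N * |δ|) ^ 2 := by rw [mul_pow, sq_abs, hAA]; ring
    rw [e]
    have : 0 ≤ lam ^ N * |δ| := by (clear * - hlam; positivity)
    nlinarith only [hnear, this]
  have hAδ0 : 0 ≤ lam ^ (2 * N) * δ ^ 2 := by (clear * - hlam; positivity)
  have hπ : Real.pi < 3.15 := Real.pi_lt_d2
  have hηn : ‖η‖ ≤ 11 := by
    refine (Complex.norm_le_abs_re_add_abs_im η).trans ?_
    rw [hηim, abs_of_nonneg (by (clear * - hlam; positivity) : 0 ≤ 1 + lam ^ (2 * N) * δ ^ 2)]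
    linarith only [hηre, hAδ, hπ]
  have h2 : p2.2.im = 5 / lam ^ (2 * N) + (xj + δ) ^ 2 := by
    have : rho p2 = 5 / lam ^ (2 * N) := by rw [eq_div_iff hA0.ne', mul_comm]; exact h5
    rw [rho] at this
    rw [← hx2]; linarith only [this]
  refine ⟨PT (lam ^ (2 * N)) xj δ η p2 0, n, ?_, ?_, ?_⟩
  · rw [PT_im1 _ _ _ _ _ _ hx2]; simp
  · rw [PT_om _ _ _ hA0, ← hω, hη]; ring
  · intro t ht
    rw [PT_eq]
    refine ⟨?_, PT_close hlam ht hx2 hnear hηn⟩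
    obtain ⟨t1, t2, t3, t4⟩ := ball_bounds ht
    rw [PT_rho _ _ _ hA0 _ _ _ hx2 h2 hηim]
    have b1 : -(3 / 5 * Real.pi) ≤ t.im * η.re := by
      have : |t.im * η.re| ≤ 3 / 5 * Real.pi := by
        rw [abs_mul]
        (clear * - t3 hηre; gcongr)
      exact (abs_le.1 this).1
    have b2 : -(11 / 100) ≤ t.re * (1 - t.re) := by nlinarith only [t1, t2]
    have b3 : -(11 / 100 * (25 / 4)) ≤ t.re * (1 - t.re) * (lam ^ (2 * N) * δ ^ 2) := by
      nlinarith only [hAδ, hAδ0, b2]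
    (clear * - hπ t1 b1 b3; linarith)

lemma Sk_dip {CΨ Λ : ℝ} {Ψ : ℂ → ℝ} (hΨ : IsPsi CΨ Λ Ψ) {lam : ℝ} (hlam : 0 < lam) {N : ℕ}
    {j n : ℤ} {p3 : ℂ × ℂ} (h1 : p3.1.im = xx lam N j)
    (h2 : om (lam ^ (2 * N)) (xx lam N j) p3 = 2 * Real.pi * n + 4 * Complex.I) :
    Sk Ψ lam N p3 ≤ -Λ := by
  have hj : jj lam N p3 = j := by
    rw [jj, h1, xx]
    have : lam ^ N * (5 * (j : ℝ) / lam ^ N) / 5 = j := by field_simp
    rw [this, round_intCast]
  rw [Sk, hj, h2]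
  have e : Complex.exp (Complex.I * (2 * Real.pi * n + 4 * Complex.I))
      = ((Real.exp (-4) : ℝ) : ℂ) := by
    have : Complex.I * (2 * Real.pi * n + 4 * Complex.I)
        = -4 + n * (2 * Real.pi * Complex.I) := by
      linear_combination 4 * Complex.I_mul_I
    rw [this, Complex.exp_add, Complex.exp_int_mul_two_pi_mul_I, mul_one]
    push_cast
    rfl
  rw [e]
  exact hΨ.dip

lemma exists_scale {lam ρ0 : ℝ} (hlam : 2 ≤ lam) (h0 : 0 < ρ0) (h4 : ρ0 ≤ 4) :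
    ∃ k : ℕ, 5 ≤ lam ^ (2 * (k + 1)) * ρ0 ∧ lam ^ (2 * k) * ρ0 < 5 := by
  have hex : ∃ k : ℕ, 5 ≤ lam ^ (2 * (k + 1)) * ρ0 := by
    obtain ⟨n, hn⟩ := pow_unbounded_of_one_lt (5 / ρ0) (by linarith : 1 < lam)
    refine ⟨n, ?_⟩
    rw [div_lt_iff₀ h0] at hn
    refine hn.le.trans ?_
    gcongr
    · linarith only [hlam]
    · omega
  classical
  refine ⟨Nat.find hex, Nat.find_spec hex, ?_⟩
  rcases Nat.eq_zero_or_pos (Nat.find hex) with h | h
  · rw [h]; simp; linarith only [h4]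
  · have := Nat.find_min hex (Nat.sub_lt h one_pos)
    rw [not_le, show Nat.find hex - 1 + 1 = Nat.find hex by (clear * - hex h; omega)] at this
    exact this

/-- choice of the line through `p` -/
lemma exists_line {CΨ Λ : ℝ} (hC : 0 < CΨ) {Ψ : ℂ → ℝ} (hΨ : IsPsi CΨ Λ Ψ) {lam : ℝ}
    (hlam : 0 < lam) {k : ℕ} {p : ℂ × ℂ} (hk : lam ^ (2 * k) * rho p < 5) :
    ∃ x0 : ℝ, lam ^ (2 * k) * (rho p + (p.1.im - x0) ^ 2) < 5 ∧
      ∀ ζ : ℂ, 0 ≤ rho (p + ζ • ((1 : ℂ), (2 * x0 : ℂ))) →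
        Sk Ψ lam k (p + ζ • ((1 : ℂ), (2 * x0 : ℂ))) - Sk Ψ lam k p ≤ CΨ := by
  have ha : 0 < lam ^ (2 * k) := by (clear * - hlam; positivity)
  by_cases hact : lam ^ (2 * k) * (rho p + (p.1.im - xx lam k (jj lam k p)) ^ 2) < 5
  · refine ⟨xx lam k (jj lam k p), hact, fun ζ hζ => ?_⟩
    set q := p + ζ • ((1 : ℂ), (2 * (xx lam k (jj lam k p)) : ℂ)) with hq
    have hom : om (lam ^ (2 * k)) (xx lam k (jj lam k p)) q
        = om (lam ^ (2 * k)) (xx lam k (jj lam k p)) p := by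
      rw [hq]; simp only [om, Prod.fst_add, Prod.snd_add, Prod.smul_fst, Prod.smul_snd,
        smul_eq_mul]; ring
    have hj : jj lam k p = jj lam k q := by
      by_contra hne
      have h1 := sq_of_far (far lam hlam k q _ hne)
      have h2 : (om (lam ^ (2 * k)) (xx lam k (jj lam k p)) q).im
        = (om (lam ^ (2 * k)) (xx lam k (jj lam k p)) p).im := by rw [hom]
      rw [om_im, om_im] at h2
      have h3 : 0 ≤ lam ^ (2 * k) * rho q := by (clear * - hlam hζ; positivity)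
      linarith only [hact, h1, h2, h3]
    rw [Sk_eq, Sk_eq, ← hj, TT, TT, hom, sub_self]
    exact hC.le
  · refine ⟨p.1.im, by simpa only [sub_self, ne_eq, OfNat.ofNat_ne_zero, not_false_eq_true, zero_pow, add_zero] using hk, fun ζ hζ => ?_⟩
    have h1 : Sk Ψ lam k p = 0 := by
      rw [Sk_eq]; exact TT_zero hΨ _ _ _ (not_lt.1 hact)
    rw [h1, sub_zero, Sk_eq]
    exact TT_le hΨ _ _ _ ha.le hζ

lemma pos_of {lam : ℝ} (hlam : 0 < lam) {q : ℂ × ℂ} {m : ℕ} {c : ℝ} (hc : 0 < c)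
    (h : c ≤ lam ^ m * rho q) : 0 < rho q := by
  have h1 : 0 < lam ^ m * rho q := hc.trans_le h
  exact (mul_pos_iff_of_pos_left (by positivity)).1 h1

lemma edge_phi {CΨ Λ : ℝ} {Ψ : ℂ → ℝ} (hΨ : IsPsi CΨ Λ Ψ) {L : ℝ} (hL : 0 < L)
    (h : ∀ x y : ℂ, ‖x‖ ≤ 1 → ‖y‖ ≤ 1 → |Ψ x - Ψ y| ≤ L * ‖x - y‖)
    {lam : ℝ} (hlam : 3 ≤ lam) (hlamL : 2304 * L ≤ lam) {ε : ℝ} (hε : 0 < ε)
    (hεlog : ε * Real.log lam ≤ 1 / 4) {N : ℕ} {p2 : ℂ × ℂ} (h5 : lam ^ (2 * N) * rho p2 = 5) :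
    ∃ p3 ∈ DD, phi Ψ lam ε p3 ≤ phi Ψ lam ε p2 - (Λ - 2) ∧
      ∀ t ∈ Metric.ball (1 / 2 : ℂ) (3 / 5), p3 + t • (p2 - p3) ∈ DD ∧
        phi Ψ lam ε (p3 + t • (p2 - p3)) ≤ phi Ψ lam ε p2 + (CΨ + 2) := by
  have hl0 : 0 < lam := by linarith only [hL, hlamL]
  have hl1 : 1 ≤ lam := by linarith only [hlam]
  have hl2 : 2 ≤ lam := by linarith only [hlam]
  have hA : 0 < lam ^ (2 * N) := by positivity
  have hp2pos : 0 < rho p2 := pos_of hl0 (by norm_num : (0 : ℝ) < 5) h5.ge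
  obtain ⟨p3, n, h6, h7, h8⟩ := edge lam hl1 N p2 h5
  have hSk2 : Sk Ψ lam N p2 = 0 := Sk_zero hΨ hl0 h5.ge
  have hA2 : lam ^ (2 * (N + 1)) = lam ^ 2 * lam ^ (2 * N) := by
    rw [← pow_add]; congr 1; ring
  have hlsq : 9 ≤ lam ^ 2 := by nlinarith only [hlam]
  have hmain : ∀ t ∈ Metric.ball (1 / 2 : ℂ) (3 / 5),
      0 < rho (p3 + t • (p2 - p3)) ∧
      phi Ψ lam ε (p3 + t • (p2 - p3)) ≤ phi Ψ lam ε p2 + 1
        + Sk Ψ lam N (p3 + t • (p2 - p3)) := by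
    intro t ht
    obtain ⟨h9, h10⟩ := h8 t ht
    have h11 := pos_of hl0 one_pos h9
    refine ⟨h11, ?_⟩
    have h15 : (9 : ℝ) ≤ lam ^ 2 * (lam ^ (2 * N) * rho (p3 + t • (p2 - p3))) :=
      calc (9 : ℝ) ≤ lam ^ 2 * 1 := by linarith only [hlsq]
        _ ≤ lam ^ 2 * (lam ^ (2 * N) * rho (p3 + t • (p2 - p3))) := by (clear * - h9 hlam; gcongr)
    have h12 : 5 ≤ lam ^ (2 * (N + 1)) * rho (p3 + t • (p2 - p3)) := by
      rw [hA2, mul_assoc]; linarith only [h15]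
    have h13 : 5 ≤ lam ^ (2 * (N + 1)) * rho p2 := by
      rw [hA2, mul_assoc, h5]; linarith only [hlsq]
    have h14 : rho p2 ≤ lam ^ 2 * rho (p3 + t • (p2 - p3)) := by
      have : lam ^ (2 * N) * rho p2
          ≤ lam ^ (2 * N) * (lam ^ 2 * rho (p3 + t • (p2 - p3))) := by
        rw [h5, mul_left_comm]; linarith only [h15]
      exact le_of_mul_le_mul_left this hA
    have := phi_close hΨ hL h hl2 hlamL hε hεlog h11 hp2pos h10 h12 h13 h14
    rw [hSk2, sub_zero] at this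
    exact this
  refine ⟨p3, ?_, ?_, ?_⟩
  · have := (hmain 0 (by rw [Metric.mem_ball, dist_eq_norm]; simp only [one_div, zero_sub, norm_neg, norm_inv, Complex.norm_ofNat]; norm_num)).1
    rw [zero_smul, add_zero] at this
    exact this
  · have := (hmain 0 (by rw [Metric.mem_ball, dist_eq_norm]; simp; norm_num)).2
    rw [zero_smul, add_zero] at this
    have h9 := Sk_dip hΨ hl0 h6 h7
    linarith only [this, h9]
  · intro t ht
    obtain ⟨h9, h10⟩ := hmain t ht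
    refine ⟨h9, ?_⟩
    have h11 : Sk Ψ lam N (p3 + t • (p2 - p3)) ≤ CΨ := by
      rw [Sk_eq]; exact TT_le hΨ _ _ _ hA.le h9.le
    linarith only [h10, h11]

end StarPhi

open StarPhi

theorem star_phi (CΨ Λ : ℝ) (hC : 0 < CΨ) (Ψ : ℂ → ℝ) (hΨ : IsPsi CΨ Λ Ψ) :
    ∃ lam0 ≥ (2 : ℝ), ∀ lam ≥ lam0, ∃ ε1 > 0, ∀ ε, 0 < ε → ε ≤ ε1 →
      Star (phi Ψ lam ε) 4 (CΨ + 2) (CΨ + 2) (Λ - 2) := by
  obtain ⟨L, hL, hLip⟩ := exists_lip hΨ
  refine ⟨max 3 (2304 * L), (by norm_num : (2 : ℝ) ≤ 3).trans (le_max_left _ _),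
    fun lam hlam => ?_⟩
  have hlam3 : 3 ≤ lam := (le_max_left _ _).trans hlam
  have hlamL : 2304 * L ≤ lam := (le_max_right _ _).trans hlam
  have hl0 : 0 < lam := by linarith only [hL, hlamL]
  have hl1 : 1 ≤ lam := by linarith only [hlam3]
  have hl2 : 2 ≤ lam := by linarith only [hlam3]
  have hlog : 0 < Real.log lam := Real.log_pos (by linarith only [hlam3])
  refine ⟨1 / (4 * Real.log lam), by positivity, fun ε hε hε1 => ?_⟩
  have hεlog : ε * Real.log lam ≤ 1 / 4 := by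
    calc ε * Real.log lam ≤ 1 / (4 * Real.log lam) * Real.log lam := by (clear * - hε1 hlog; gcongr)
      _ = 1 / 4 := by (clear * - hlog; field_simp)
  intro p hp hp4
  have hρ : 0 < rho p := hp
  have hρ4 : rho p ≤ 4 := by rw [rho]; linarith only [hp4, sq_nonneg p.1.im]
  obtain ⟨k, hk1, hk2⟩ := exists_scale hl2 hρ hρ4
  obtain ⟨x0, hx0, hSk⟩ := exists_line hC hΨ hl0 hk2
  have ha : 0 < lam ^ (2 * k) := by positivity
  have hA : 0 < lam ^ (2 * (k + 1)) := by positivity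
  have hAA : lam ^ (2 * (k + 1)) = lam ^ 2 * lam ^ (2 * k) := by rw [← pow_add]; congr 1; ring
  have haa : lam ^ (2 * k) = lam ^ k * lam ^ k := by rw [← pow_add]; congr 1; omega
  set d : ℝ := p.1.im - x0 with hd
  set R : ℝ := Real.sqrt (rho p + d ^ 2) with hR
  set R' : ℝ := Real.sqrt (rho p + d ^ 2 - 5 / lam ^ (2 * (k + 1))) with hR'
  have hRsq : R ^ 2 = rho p + d ^ 2 := Real.sq_sqrt (by (clear * - hρ; positivity))
  have h5A : 5 / lam ^ (2 * (k + 1)) ≤ rho p := by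
    rw [div_le_iff₀ hA, mul_comm]; exact hk1
  have h5A0 : 0 < 5 / lam ^ (2 * (k + 1)) := by positivity
  have hR'sq : R' ^ 2 = rho p + d ^ 2 - 5 / lam ^ (2 * (k + 1)) :=
    Real.sq_sqrt (by linarith only [h5A, sq_nonneg d])
  have hR0 : 0 < R := Real.sqrt_pos.2 (by (clear * - hρ; positivity))
  have hR'0 : 0 ≤ R' := Real.sqrt_nonneg _
  have hRR : R' ≤ R := Real.sqrt_le_sqrt (by linarith only [h5A0])
  have hdR' : |d| ≤ R' := by
    rw [← Real.sqrt_sq_eq_abs]; exact Real.sqrt_le_sqrt (by linarith only [h5A])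
  have hdR'2 := abs_le.1 hdR'
  have hkR : lam ^ k * R ≤ 9 / 4 := by
    have h1 : (lam ^ k * R) ^ 2 ≤ (9 / 4) ^ 2 := by
      rw [mul_pow, hRsq]
      have : (lam ^ k) ^ 2 = lam ^ (2 * k) := by rw [haa]; ring
      rw [this]
      norm_num
      linarith only [hx0]
    exact abs_le_of_sq_le_sq' h1 (by norm_num) |>.2
  have hlk : 0 < lam ^ k := by positivity
  -- points of the rectangle
  have hrect : ∀ ζ : ℂ, |ζ.re| ≤ 2 * R → -R' - d ≤ ζ.im → ζ.im ≤ R' - d →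
      5 ≤ lam ^ (2 * (k + 1)) * rho (p + ζ • ((1 : ℂ), (2 * x0 : ℂ))) ∧
      Close lam k x0 (p + ζ • ((1 : ℂ), (2 * x0 : ℂ))) p := by
    intro ζ h1 h2 h3
    have h4 : |ζ.im + d| ≤ R' := abs_le.2 ⟨by linarith only [h2], by linarith only [h3]⟩
    constructor
    · rw [rho_line, ← hd]
      have h5 : (ζ.im + d) ^ 2 ≤ R' ^ 2 := sq_le_sq' (abs_le.1 h4).1 (abs_le.1 h4).2
      have h6 : 5 / lam ^ (2 * (k + 1)) ≤ rho p + d ^ 2 - (ζ.im + d) ^ 2 := by linarith only [hR'sq, h5]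
      rwa [div_le_iff₀ hA, mul_comm] at h6
    · have e1 : (p + ζ • ((1 : ℂ), (2 * x0 : ℂ))).1 = p.1 + ζ := by simp
      have e2 : (p + ζ • ((1 : ℂ), (2 * x0 : ℂ))).2 = p.2 + ζ * (2 * x0) := by simp
      have h7 : |ζ.im| ≤ 2 * R := abs_le.2 ⟨by linarith only [hRR, hdR'2, h2], by linarith only [hRR, hdR'2, h3]⟩
      have h8 : ‖ζ‖ ≤ 4 * R := by
        have := Complex.norm_le_abs_re_add_abs_im ζ
        linarith only [h1, h7, this]
      refine ⟨?_, ?_, ?_, ?_⟩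
      · rw [e1, e2]
        have : p.2 + ζ * (2 * x0) - p.2 - 2 * x0 * (p.1 + ζ - p.1) = (0 : ℂ) := by ring
        rw [this]; simp
      · rw [e1]
        have : p.1 + ζ - p.1 = ζ := by ring
        rw [this]
        calc lam ^ k * ‖ζ‖ ≤ lam ^ k * (4 * R) := by (clear * - h8 hlam3; gcongr)
          _ = 4 * (lam ^ k * R) := by ring
          _ ≤ 4 * (9 / 4) := by (clear * - hkR; gcongr)
          _ = 9 := by norm_num
      · rw [e1]
        have : (p.1 + ζ).im - x0 = ζ.im + d := by rw [hd]; simp only [Complex.add_im]; ring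
        rw [this]
        calc lam ^ k * |ζ.im + d| ≤ lam ^ k * R := by gcongr; linarith only [hRR, h4]
          _ ≤ 9 / 4 := hkR
          _ ≤ 9 := by norm_num
      · rw [← hd]
        calc lam ^ k * |d| ≤ lam ^ k * R := by gcongr; linarith only [hRR, hdR']
          _ ≤ 9 / 4 := hkR
          _ ≤ 9 := by norm_num
  refine ⟨x0, R, -R' - d, R' - d, hR0, by linarith only [hdR'2], by linarith only [hdR'2], by linarith only [hRR], ?_, ?_⟩
  · intro ζ h1 h2 h3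
    obtain ⟨h4, h5⟩ := hrect ζ h1 h2 h3
    have h6 := pos_of hl0 (by norm_num) h4
    refine ⟨h6, ?_⟩
    have h7 : rho p ≤ lam ^ 2 * rho (p + ζ • ((1 : ℂ), (2 * x0 : ℂ))) := by
      have h8 : lam ^ (2 * k) * rho p
          ≤ lam ^ (2 * k) * (lam ^ 2 * rho (p + ζ • ((1 : ℂ), (2 * x0 : ℂ)))) := by
        rw [← mul_assoc, mul_comm (lam ^ (2 * k)) (lam ^ 2), ← hAA]
        linarith only [hk2, h4]
      exact le_of_mul_le_mul_left h8 ha
    have h9 := phi_close hΨ hL hLip hl2 hlamL hε hεlog h6 hρ h5 h4 hk1 h7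
    have h10 := hSk ζ h6.le
    linarith only [h9, h10]
  · intro ζ h1 h2
    apply edge_phi hΨ hL hLip hlam3 hlamL hε hεlog (N := k + 1)
    rw [rho_line, ← hd]
    have h6 : (ζ.im + d) ^ 2 = R' ^ 2 := by
      rcases h2 with h | h
      · rw [h]; ring
      · rw [h]; ring
    rw [h6, hR'sq]
    field_simp
    ring

end Vale.Agent.P250
end
end
end

section

section

section

/-! The Christoffel tensor and the curvature numerator at the centre of the ball. -/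

set_option maxSynthPendingDepth 3

namespace Vale.Agent.P250

open Complex

section PointAlg

variable {V : Type*} [NormedAddCommGroup V] [InnerProductSpace ℂ V]

lemma csmul_eq (x : ℂ) (X : V) : x • X = x.re • X + x.im • (I • X) := by
  conv_lhs => rw [← Complex.re_add_im x]
  rw [add_smul, mul_smul]
  simp

lemma I_smul_I_smul (X : V) : I • I • X = -X := by
  rw [smul_smul, Complex.I_mul_I, neg_one_smul]

lemma sR_add_left (X Y Z : V) : sR (X + Y) Z = sR X Z + sR Y Z := by simp [sR]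

lemma sR_add_right (X Y Z : V) : sR X (Y + Z) = sR X Y + sR X Z := by simp [sR]

lemma sR_smul_left (r : ℝ) (X Z : V) : sR (r • X) Z = r * sR X Z := by
  have : (r • X : V) = ((r : ℂ) • X : V) := by simp
  simp only [sR]
  rw [this, inner_smul_left]
  simp

lemma sR_smul_right (r : ℝ) (X Z : V) : sR X (r • Z) = r * sR X Z := by
  have : (r • Z : V) = ((r : ℂ) • Z : V) := by simp
  simp only [sR]
  rw [this, inner_smul_right]
  simp

lemma sR_neg_right (X Z : V) : sR X (-Z) = -sR X Z := by simp [sR]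

lemma sR_comm (a b : V) : sR a b = sR b a := by
  simp only [sR]
  rw [← inner_conj_symm b a, Complex.conj_re]

lemma sR_J (X Y : V) : sR (I • X) (I • Y) = sR X Y := by
  simp only [sR]
  rw [inner_smul_left, inner_smul_right, ← mul_assoc]
  simp

lemma sR_nsq (a : V) : sR a a = ‖a‖ ^ 2 := by
  simp only [sR]
  have := inner_self_eq_norm_sq (𝕜 := ℂ) a
  simpa using this

lemma rip_eq_sR (X Y : V) : rip X Y = sR X Y := rfl

variable {δ u : ℝ} (D : AlgData V δ u)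

/-- The Christoffel tensor at the point. -/
noncomputable def AlgData.AA (X Y : V × ℂ) : V × ℂ :=
  ((2 * δ * (u + u ^ 2)) • D.K (Y.2 • X.1 + X.2 • Y.1) + (2 * δ * u) • D.C X.1 Y.1,
    (1 + 2 * u) * (X.2 * Y.2))

variable (c2 : V →L[ℝ] V →L[ℝ] ℝ) (c3 : V →L[ℝ] V →L[ℝ] V →L[ℝ] ℝ)
  (c4 : V →L[ℝ] V →L[ℝ] V →L[ℝ] V →L[ℝ] ℝ)

theorem gA_eq (hβ : ∀ X Y, D.β X Y = (1 / 2) * c2 X Y) (X Y : V × ℂ) :
    gA δ u c2 X Y = D.gg X.1 Y.1 X.2 Y.2 := by
  have hJ := D.β_J X.1 Y.1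
  rw [hβ, hβ] at hJ
  simp only [gA, D2P, AlgData.gg, AlgData.h, hβ, rip_eq_sR, Prod.smul_fst, Prod.smul_snd, sR_J,
    smul_eq_mul, Complex.mul_re, Complex.I_re, Complex.I_im, Complex.conj_re, Complex.conj_im]
  linear_combination (δ * u) * hJ

theorem koszul_AA (hβ : ∀ X Y, D.β X Y = (1 / 2) * c2 X Y)
    (hγ : ∀ X Y Z, D.γ X Y Z = (1 / 8) * (c3 X Y Z - c3 (I • X) (I • Y) Z
      + c3 X (I • Y) (I • Z) + c3 (I • X) Y (I • Z)))
    (s2 : ∀ X Y, c2 X Y = c2 Y X) (j2 : ∀ X Y, c2 (I • X) (I • Y) = c2 X Y)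
    (s3 : ∀ X Y Z, c3 X Y Z = c3 Y X Z) (s3' : ∀ X Y Z, c3 X Y Z = c3 X Z Y)
    (X Y Z : V × ℂ) :
    2 * gA δ u c2 (D.AA X Y) Z = dgA δ u c2 c3 X Y Z + dgA δ u c2 c3 Y X Z
      - dgA δ u c2 c3 Z X Y := by
  rw [gA_eq D c2 hβ]
  obtain ⟨X, x⟩ := X
  obtain ⟨Y, y⟩ := Y
  obtain ⟨Z, z⟩ := Z
  have hK := D.K_spec (y • X + x • Y) Z
  have hC := D.C_spec X Y Z
  have e1 : D.gg (D.AA (X, x) (Y, y)).1 Z (D.AA (X, x) (Y, y)).2 z
      = (2 * δ * (u + u ^ 2)) * D.β (y • X + x • Y) Z + (2 * δ * u) * D.γ X Y Z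
        + δ * (u + u ^ 2) * (((1 + 2 * u) * (x * y)) * (starRingEnd ℂ) z).re := by
    rw [← hK, ← hC]
    simp only [AlgData.gg, AlgData.h, AlgData.AA, map_add, rip_eq_sR, sR_add_left, sR_smul_left, map_smul, LinearMap.add_apply, LinearMap.smul_apply, smul_eq_mul]
    ring
  have jj : ∀ A B : V, c2 (I • A) B = - c2 A (I • B) := fun A B => by
    have := j2 A (I • B)
    rw [I_smul_I_smul] at this
    rw [← this]
    simp only [map_neg, neg_neg]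
  rw [show 2 * D.gg (D.AA (X, x) (Y, y)).1 (Z, z).1 (D.AA (X, x) (Y, y)).2 (Z, z).2
    = 2 * D.gg (D.AA (X, x) (Y, y)).1 Z (D.AA (X, x) (Y, y)).2 z from rfl, e1, hβ, hγ]
  simp only [dgA, D3P, Prod.smul_snd, Prod.smul_fst]
  rw [csmul_eq y X, csmul_eq x Y]
  simp only [map_add, map_smul, add_apply, smul_apply, smul_eq_mul, jj, mul_re, add_re, one_re, ofReal_re, ofReal_im, add_im, one_im, mul_im, conj_re, conj_im, I_re, I_im]
  have a1 := s3 Y X Z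
  have a2 := s3 Z X Y
  have a3 := s3' X Z Y
  have a4 := s3 Y (I • X) (I • Z)
  have a5 := s3 Z (I • X) (I • Y)
  have a6 := s3' (I • X) Z (I • Y)
  have b1 := s2 Y X
  have b2 := s2 Z Y
  have b3 := s2 Z X
  have b4 := s2 Y (I • X)
  have b5 := s2 Z (I • X)
  have b6 := s2 Z (I • Y)
  simp only [re_ofNat, im_ofNat, I_smul_I_smul, map_neg, b1, a1, b4, jj, a4, b2, b3, a2, a3, b6, b5, a5, a6]
  ring

/-! ### the numerator -/

lemma AlgData.k_symm (X Y : V) : D.β (D.K X) Y = D.β (D.K Y) X := by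
  rw [D.β_symm (D.K X) Y, ← D.h_K Y (D.K X), D.h_comm, D.h_K, D.β_symm]

lemma AlgData.h_comb (a b a' b' : ℝ) (P Q P' Q' : V) :
    D.h (a • P + b • Q) (a' • P' + b' • Q') = a * a' * D.h P P' + a * b' * D.h P Q'
      + b * a' * D.h Q P' + b * b' * D.h Q Q' := by
  simp only [AlgData.h, rip_eq_sR, sR_add_left, sR_add_right, sR_smul_left, sR_smul_right,
      map_add, map_smul, LinearMap.add_apply, LinearMap.smul_apply, smul_eq_mul]
  ring

lemma AlgData.gg_AA (X Y X' Y' : V × ℂ) :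
    D.gg (D.AA X Y).1 (D.AA X' Y').1 (D.AA X Y).2 (D.AA X' Y').2
      = (2 * δ * (u + u ^ 2)) ^ 2 * D.β (D.K (Y.2 • X.1 + X.2 • Y.1)) (Y'.2 • X'.1 + X'.2 • Y'.1)
      + (2 * δ * (u + u ^ 2)) * (2 * δ * u) * D.γ X'.1 Y'.1 (D.K (Y.2 • X.1 + X.2 • Y.1))
      + (2 * δ * (u + u ^ 2)) * (2 * δ * u) * D.γ X.1 Y.1 (D.K (Y'.2 • X'.1 + X'.2 • Y'.1))
      + (2 * δ * u) ^ 2 * D.h (D.C X.1 Y.1) (D.C X'.1 Y'.1)
      + δ * (u + u ^ 2) * (1 + 2 * u) ^ 2
        * ((X.2 * Y.2) * (starRingEnd ℂ) (X'.2 * Y'.2)).re := by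
  have e1 : D.h (D.K (Y.2 • X.1 + X.2 • Y.1)) (D.K (Y'.2 • X'.1 + X'.2 • Y'.1))
      = D.β (D.K (Y.2 • X.1 + X.2 • Y.1)) (Y'.2 • X'.1 + X'.2 • Y'.1) := by
    rw [D.h_comm, D.h_K, D.β_symm]
  have e2 : D.h (D.K (Y.2 • X.1 + X.2 • Y.1)) (D.C X'.1 Y'.1)
      = D.γ X'.1 Y'.1 (D.K (Y.2 • X.1 + X.2 • Y.1)) := by
    rw [D.h_comm, D.h_C]
  have e3 : D.h (D.C X.1 Y.1) (D.K (Y'.2 • X'.1 + X'.2 • Y'.1))
      = D.γ X.1 Y.1 (D.K (Y'.2 • X'.1 + X'.2 • Y'.1)) := by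
    rw [D.h_C]
  have e4 : (((1 + 2 * (u : ℂ)) * (X.2 * Y.2)) * (starRingEnd ℂ) ((1 + 2 * (u : ℂ)) * (X'.2 * Y'.2))).re
      = (1 + 2 * u) ^ 2 * ((X.2 * Y.2) * (starRingEnd ℂ) (X'.2 * Y'.2)).re := by
    have h1 : ((1 + 2 * (u : ℂ)) * (X.2 * Y.2)) * (starRingEnd ℂ) ((1 + 2 * (u : ℂ)) * (X'.2 * Y'.2))
      = (((1 + 2 * u) ^ 2 : ℝ) : ℂ) * ((X.2 * Y.2) * (starRingEnd ℂ) (X'.2 * Y'.2)) := by
      simp only [map_mul, map_add, map_one, conj_ofNat, conj_ofReal]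
      push_cast
      ring
    rw [h1, Complex.re_ofReal_mul]
  simp only [AlgData.gg]
  simp only [AlgData.AA]
  rw [D.h_comb, e1, e2, e3, e4]
  ring

lemma AlgData.γ_I_mid (X Y Z : V) : D.γ X (I • Y) Z = -D.γ X Y (I • Z) := by
  rw [D.γ_symm, D.γ_I_left, D.γ_symm]

/-- the terms which involve `γ` and `K` -/
lemma AlgData.mixed (hKJ : ∀ X, D.K (I • X) = I • D.K X) (X Y : V) (x y : ℂ) :
    - 2 * D.γ X Y (D.K (y • X + x • Y)) + D.γ Y Y (D.K (x • X + x • X)) 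
      + D.γ X X (D.K (y • Y + y • Y))
      = 2 * (D.γ X ((starRingEnd ℂ) y • X - (starRingEnd ℂ) x • Y) (D.K Y)
      - D.γ Y ((starRingEnd ℂ) y • X - (starRingEnd ℂ) x • Y) (D.K X)) := by
  rw [csmul_eq y X, csmul_eq x Y, csmul_eq x X, csmul_eq y Y, csmul_eq ((starRingEnd ℂ) y) X,
    csmul_eq ((starRingEnd ℂ) x) Y]
  simp only [map_add, map_smul, hKJ, smul_eq_mul, conj_re, conj_im, map_sub, LinearMap.sub_apply, LinearMap.add_apply, LinearMap.smul_apply, D.γ_I_mid]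
  rw [D.γ_symm Y X (D.K X), D.γ_symm Y X (I • D.K X)]
  ring

/-- the terms quadratic in `K` -/
lemma AlgData.quadK (hKJ : ∀ X, D.K (I • X) = I • D.K X) (X Y : V) (x y : ℂ) :
    D.β (D.K (y • X + x • Y)) (y • X + x • Y) - D.β (D.K (x • X + x • X)) (y • Y + y • Y)
      = D.β (D.K ((starRingEnd ℂ) y • X - (starRingEnd ℂ) x • Y))
        ((starRingEnd ℂ) y • X - (starRingEnd ℂ) x • Y)
      + 4 * (x * (starRingEnd ℂ) y).im * D.β (D.K X) (I • Y) := by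
  have h1 : D.β (D.K Y) (I • X) = - D.β (D.K X) (I • Y) := by
    rw [D.k_symm, hKJ, D.β_I_left]
  have h2 : ∀ Z, D.β (D.K Z) (I • Z) = 0 := fun Z => by
    have : D.β (D.K Z) (I • Z) = - D.β (D.K Z) (I • Z) := by
      conv_lhs => rw [D.k_symm, hKJ, D.β_I_left]
    linarith only [this]
  rw [csmul_eq y X, csmul_eq x Y, csmul_eq x X, csmul_eq y Y, csmul_eq ((starRingEnd ℂ) y) X,
    csmul_eq ((starRingEnd ℂ) x) Y]
  simp only [map_add, map_smul, hKJ, LinearMap.add_apply, LinearMap.smul_apply, smul_eq_mul, D.β_I_left, h2, D.k_symm Y X, h1, I_smul_I_smul, map_neg, conj_re, conj_im, map_sub, LinearMap.sub_apply, mul_im]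
  ring

/-- the terms which are cubic in the derivatives of `χ` -/
lemma cubic_part (c3 : V →L[ℝ] V →L[ℝ] V →L[ℝ] ℝ)
    (hγ : ∀ X Y Z, D.γ X Y Z = (1 / 8) * (c3 X Y Z - c3 (I • X) (I • Y) Z
      + c3 X (I • Y) (I • Z) + c3 (I • X) Y (I • Z)))
    (s3 : ∀ X Y Z, c3 X Y Z = c3 Y X Z) (s3' : ∀ X Y Z, c3 X Y Z = c3 X Z Y)
    (X Y : V) (x y : ℂ) :
    (1 / 2) * ((2 * x.re * c3 X (I • Y) (I • Y) - 2 * y.im * c3 X X (I • Y))
      + (2 * y.re * c3 Y (I • X) (I • X) - 2 * x.im * c3 Y Y (I • X))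
      - 2 * (x.re * c3 Y (I • X) (I • Y) + y.re * c3 X (I • X) (I • Y)
        - x.im * c3 X Y (I • Y) - y.im * c3 X Y (I • X)))
      = - 4 * (D.γ X ((starRingEnd ℂ) y • X - (starRingEnd ℂ) x • Y) Y
      - D.γ Y ((starRingEnd ℂ) y • X - (starRingEnd ℂ) x • Y) X) := by
  rw [csmul_eq ((starRingEnd ℂ) y) X, csmul_eq ((starRingEnd ℂ) x) Y]
  simp only [conj_re, conj_im, map_sub, map_add, map_smul, LinearMap.sub_apply, LinearMap.add_apply, LinearMap.smul_apply, hγ, smul_eq_mul, I_smul_I_smul, map_neg, neg_apply]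
  generalize I • X = P
  generalize I • Y = Q
  have e1 : c3 Y X Y = c3 X Y Y := s3 _ _ _
  have e2 : c3 Y Y X = c3 X Y Y := by rw [s3', s3]
  have e4 : c3 Y X X = c3 X X Y := by rw [s3, s3']
  have f1 : c3 Y P P = c3 P P Y := by rw [s3, s3']
  have f2 : c3 Y P Q = c3 P Q Y := by rw [s3, s3']
  have f3 : c3 X P Q = c3 P Q X := by rw [s3, s3']
  have f4 : c3 X Q P = c3 P Q X := by rw [s3', s3, s3']
  have f5 : c3 P X Q = c3 P Q X := s3' _ _ _
  have f6 : c3 P Y Q = c3 P Q Y := s3' _ _ _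
  have f7 : c3 X P Y = c3 X Y P := s3' _ _ _
  have f8 : c3 P X Y = c3 X Y P := by rw [s3, s3']
  have f9 : c3 X Q Q = c3 Q Q X := by rw [s3, s3']
  have g1 : c3 X Q Y = c3 X Y Q := s3' _ _ _
  have g2 : c3 P Y Y = c3 Y Y P := by rw [s3, s3']
  have g3 : c3 Q P X = c3 P Q X := s3 _ _ _
  have g4 : c3 Q X P = c3 P Q X := by rw [s3', s3]
  have g5 : c3 Y P X = c3 X Y P := by rw [s3', s3]
  have g6 : c3 Q X X = c3 X X Q := by rw [s3, s3']
  have g7 : c3 Y X P = c3 X Y P := s3 _ _ _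
  have g8 : c3 Q P P = c3 P P Q := by rw [s3, s3']
  have g9 : c3 Y Q P = c3 P Q Y := by rw [s3', s3, s3']
  have h1 : c3 Q Y P = c3 P Q Y := by rw [s3', s3]
  have h2 : c3 Y Q X = c3 X Y Q := by rw [s3', s3]
  have h3 : c3 Q Y X = c3 X Y Q := by rw [s3, s3', s3]
  have h4 : c3 Q Q P = c3 P Q Q := by rw [s3', s3]
  simp only [e1, e2, e4, f1, f2, f3, f4, f5, f6, f7, f8, f9, g1, g2, g3, g4, g5, g6, g7, g8, g9,
    h1, h2, h3, h4]
  ring

lemma sR_I_left (X Y : V) : sR (I • X) Y = -sR X (I • Y) := by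
  have := sR_J X (I • Y)
  rw [I_smul_I_smul, sR_neg_right] at this
  linarith only [this]

lemma sR_I_self (X : V) : sR X (I • X) = 0 := by
  have := sR_I_left X X
  rw [sR_comm] at this
  linarith only [this]

lemma AlgData.β_I_self (X : V) : D.β X (I • X) = 0 := by
  have := D.β_I_left X X
  rw [D.β_symm] at this
  linarith only [this]

/-- the terms which involve only the fibre derivatives and `β` -/
lemma AlgData.betaPart (X Y : V) (x y : ℂ) :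
    D.β ((starRingEnd ℂ) y • X - (starRingEnd ℂ) x • Y)
        ((starRingEnd ℂ) y • X - (starRingEnd ℂ) x • Y)
      = (y.re ^ 2 + y.im ^ 2) * D.β X X + (x.re ^ 2 + x.im ^ 2) * D.β Y Y
        - 2 * ((x.re * y.re + x.im * y.im) * D.β X Y
          - (x.im * y.re - x.re * y.im) * D.β X (I • Y)) := by
  rw [csmul_eq ((starRingEnd ℂ) y) X, csmul_eq ((starRingEnd ℂ) x) Y]
  simp only [conj_re, conj_im, map_sub, map_add, map_smul, LinearMap.sub_apply, LinearMap.add_apply, LinearMap.smul_apply, smul_eq_mul, D.β_I_left, D.β_I_self, D.β_symm Y X, I_smul_I_smul, map_neg]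
  have h1 : D.β Y (I • X) = - D.β X (I • Y) := by
    rw [D.β_symm, D.β_I_left]
  rw [h1]
  ring

lemma AlgData.NN_expand (N4 : ℝ) (X Y : V) (x y : ℂ) (W : V)
    (hW : (starRingEnd ℂ) y • X - (starRingEnd ℂ) x • Y = W) :
    D.NN N4 X Y x y = (‖X‖ ^ 2 * ‖Y‖ ^ 2 - sR X Y ^ 2 + 3 * sR X (I • Y) ^ 2)
      + 4 * δ * (u + u ^ 2) ^ 2 * (x.im * y.re - x.re * y.im) ^ 2
      + 2 * δ * (u + u ^ 2) * (u * D.β W W + (1 + u) * (D.β W W - 2 * δ * u * D.β (D.K W) W))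
      + 8 * δ * (u + u ^ 2) * (x.im * y.re - x.re * y.im)
        * (u * D.β X (I • Y) + (1 + u) * (D.β X (I • Y) - 2 * δ * u * D.β (D.K X) (I • Y)))
      + 4 * δ * (u + u ^ 2) * (D.β X X * D.β Y Y - D.β X Y ^ 2 + 3 * D.β X (I • Y) ^ 2)
      + 2 * δ * u * N4
      - 4 * δ ^ 2 * u ^ 2 * (D.h (D.C X Y) (D.C X Y) - D.h (D.C X X) (D.C Y Y))
      - 4 * δ * (u + u ^ 2) * ((D.γ X W Y - 2 * δ * u * D.γ X W (D.K Y))
        - (D.γ Y W X - 2 * δ * u * D.γ Y W (D.K X))) := by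
  simp only [AlgData.NN, hW, AlgData.low, map_sub, map_smul, LinearMap.sub_apply,
    LinearMap.smul_apply, smul_eq_mul, rip_eq_sR, Complex.mul_im, Complex.conj_re,
    Complex.conj_im]
  ring

theorem num_AA (c2 : V →L[ℝ] V →L[ℝ] ℝ) (c3 : V →L[ℝ] V →L[ℝ] V →L[ℝ] ℝ)
    (c4 : V →L[ℝ] V →L[ℝ] V →L[ℝ] V →L[ℝ] ℝ)
    (hβ : ∀ X Y, D.β X Y = (1 / 2) * c2 X Y)
    (hγ : ∀ X Y Z, D.γ X Y Z = (1 / 8) * (c3 X Y Z - c3 (I • X) (I • Y) Z
      + c3 X (I • Y) (I • Z) + c3 (I • X) Y (I • Z)))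
    (s3 : ∀ X Y Z, c3 X Y Z = c3 Y X Z) (s3' : ∀ X Y Z, c3 X Y Z = c3 X Z Y)
    (hKJ : ∀ X, D.K (I • X) = I • D.K X) (X Y : V × ℂ) :
    (1 / 8) * (D4P δ u c2 c3 c4 X X (I • Y) (I • Y) + D4P δ u c2 c3 c4 Y Y (I • X) (I • X)
      - 2 * D4P δ u c2 c3 c4 X Y (I • X) (I • Y))
      - gA δ u c2 (D.AA X Y) (D.AA X Y) + gA δ u c2 (D.AA X X) (D.AA Y Y)
    = D.NN ((1 / 8) * (c4 X.1 X.1 (I • Y.1) (I • Y.1) + c4 Y.1 Y.1 (I • X.1) (I • X.1)
        - 2 * c4 X.1 Y.1 (I • X.1) (I • Y.1))) X.1 Y.1 X.2 Y.2 := by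
  rw [gA_eq D c2 hβ, gA_eq D c2 hβ, D.gg_AA, D.gg_AA]
  obtain ⟨X, x⟩ := X
  obtain ⟨Y, y⟩ := Y
  have hm := D.mixed hKJ X Y x y
  have hq := D.quadK hKJ X Y x y
  have hc := cubic_part D c3 hγ s3 s3' X Y x y
  have hb := D.betaPart X Y x y
  obtain ⟨W, hW⟩ : ∃ W, (starRingEnd ℂ) y • X - (starRingEnd ℂ) x • Y = W := ⟨_, rfl⟩
  rw [D.NN_expand _ X Y x y W hW]
  rw [hW] at hm hq hc hb
  have hc2 : ∀ A B, c2 A B = 2 * D.β A B := fun A B => by rw [hβ]; ring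
  have hs1 : sR Y (I • X) = - sR X (I • Y) := by rw [sR_comm, sR_I_left]
  have hb1 : D.β Y (I • X) = - D.β X (I • Y) := by rw [D.β_symm, D.β_I_left]
  simp only [D4P, Prod.smul_fst, Prod.smul_snd, hc2, smul_eq_mul]
  simp only [mul_im, conj_im, conj_re, mul_re, I_re, I_im, map_mul] at hq ⊢
  simp only [D.β_I_left, D.β_I_self, sR_I_left, sR_I_self, I_smul_I_smul, sR_neg_right,
    map_neg, sR_nsq, hs1, hb1, norm_smul, Complex.norm_I, one_mul]
  linear_combination (-(2 * δ * (u + u ^ 2)) ^ 2) * hq + (4 * δ ^ 2 * (u + u ^ 2) * u) * hm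
    + (δ * (u + u ^ 2)) * hc - (2 * δ * (u + u ^ 2) * (1 + 2 * u)) * hb

end PointAlg

end Vale.Agent.P250
end
end
end

section

section

section

/-! Upper bound for minus the curvature numerator. -/

set_option maxSynthPendingDepth 3

namespace Vale.Agent.P250

open Complex

section AlgUpper

variable {V : Type*} [NormedAddCommGroup V] [InnerProductSpace ℂ V]

theorem abs_rip_le (X Y : V) : |rip X Y| ≤ ‖X‖ * ‖Y‖ :=
  (Complex.abs_re_le_norm _).trans (norm_inner_le_norm X Y)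

/-- a bilinear form invariant under `I` behaves well under complex scalars. -/
theorem form_smul_self (B : V →ₗ[ℝ] V →ₗ[ℝ] ℝ) (hs : ∀ X Y, B X Y = B Y X)
    (hJ : ∀ X Y, B (I • X) (I • Y) = B X Y) (c : ℂ) (X : V) :
    B (c • X) (c • X) = ‖c‖ ^ 2 * B X X := by
  have h1 : c • X = c.re • X + c.im • (I • X) := by
    rw [← Complex.coe_smul, ← Complex.coe_smul c.im, smul_smul, ← add_smul]
    congr 1
    exact (Complex.re_add_im c).symm
  have h2 : B X (I • X) = 0 := by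
    have h3 : B X (I • X) = B (I • X) (I • (I • X)) := (hJ _ _).symm
    have h4 : I • (I • X) = -X := by
      rw [smul_smul, I_mul_I, neg_one_smul]
    rw [h4, map_neg, hs (I • X) X] at h3
    linarith only [h3]
  rw [h1]
  simp only [map_add, map_smul, LinearMap.add_apply, LinearMap.smul_apply, smul_eq_mul]
  rw [hJ, hs (I • X) X, h2, Complex.sq_norm, Complex.normSq_apply]
  ring

theorem form_sub_le (B : V →ₗ[ℝ] V →ₗ[ℝ] ℝ) (hs : ∀ X Y, B X Y = B Y X)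
    (h0 : ∀ X, 0 ≤ B X X) (X Y : V) : B (X - Y) (X - Y) ≤ 2 * B X X + 2 * B Y Y := by
  have h := h0 (X + Y)
  simp only [map_add, LinearMap.add_apply, map_sub, LinearMap.sub_apply] at h ⊢
  rw [hs Y X] at h ⊢
  linarith only [h]

theorem form_cs (B : V →ₗ[ℝ] V →ₗ[ℝ] ℝ) (hs : ∀ X Y, B X Y = B Y X)
    (h0 : ∀ X, 0 ≤ B X X) (X Y : V) : B X Y ^ 2 ≤ B X X * B Y Y := by
  have := LinearMap.BilinForm.apply_mul_apply_le_of_forall_zero_le B h0 X Y
  rw [hs Y X] at this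
  rw [sq]
  exact this

/-- weighted Cauchy-Schwarz. -/
theorem form_amgm (B : V →ₗ[ℝ] V →ₗ[ℝ] ℝ) (hs : ∀ X Y, B X Y = B Y X)
    (h0 : ∀ X, 0 ≤ B X X) (X Y : V) (p q ν : ℝ) (hν : |ν| ≤ p * q) :
    2 * (ν * B X Y) ≤ q ^ 2 * B X X + p ^ 2 * B Y Y := by
  have h1 := h0 (q • X + p • Y)
  have h2 := h0 (q • X - p • Y)
  simp only [map_add, map_smul, LinearMap.add_apply, LinearMap.smul_apply, smul_eq_mul, map_sub, LinearMap.sub_apply] at h1 h2
  rw [hs Y X] at h1 h2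
  have h3 : |ν * B X Y| ≤ (p * q) * |B X Y| := by
    rw [abs_mul]
    exact mul_le_mul_of_nonneg_right hν (abs_nonneg _)
  have h4 : ν * B X Y ≤ (p * q) * |B X Y| := (le_abs_self _).trans h3
  rcases le_total 0 (B X Y) with h5 | h5
  · rw [abs_of_nonneg h5] at h4
    linarith
  · rw [abs_of_nonpos h5] at h4
    linarith only [h1, h4]

namespace AlgData

variable {δ u : ℝ}

theorem h_symm (D : AlgData V δ u) (X Y : V) : D.h X Y = D.h Y X := by
  unfold h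
  rw [rip_comm, D.β_symm]

theorem h_self (D : AlgData V δ u) (X : V) : D.h X X = ‖X‖ ^ 2 + 2 * δ * u * D.β X X := by
  unfold h
  rw [rip_self]

/-- the form `B(X,Z) = β(X^h, Z)`. -/
noncomputable def lowB (D : AlgData V δ u) : V →ₗ[ℝ] V →ₗ[ℝ] ℝ :=
  D.β - (2 * δ * u) • D.β.comp D.K

theorem lowB_apply (D : AlgData V δ u) (X Z : V) : D.lowB X Z = D.β (D.low X) Z := by
  unfold lowB low
  simp

theorem lowB_eq (D : AlgData V δ u) (X Z : V) :
    D.lowB X Z = D.β X Z - 2 * δ * u * D.h (D.K X) (D.K Z) := by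
  have h1 : D.h (D.K X) (D.K Z) = D.β (D.K X) Z := by
    rw [h_symm, h_K, D.β_symm]
  rw [h1]
  unfold lowB
  simp only [LinearMap.sub_apply, LinearMap.smul_apply, LinearMap.coe_comp, Function.comp_apply, smul_eq_mul]

theorem lowB_symm (D : AlgData V δ u) (X Z : V) : D.lowB X Z = D.lowB Z X := by
  rw [lowB_eq, lowB_eq, D.β_symm, D.h_symm]

theorem lowB_self_eq (D : AlgData V δ u) (X : V) :
    D.lowB X X = D.β (D.low X) (D.low X) + 2 * δ * u * ‖D.K X‖ ^ 2 := by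
  have h1 : D.β (D.low X) (D.low X) = D.lowB X (D.low X) := (D.lowB_apply _ _).symm
  have h2 : D.lowB X (D.low X) = D.lowB X X - 2 * δ * u * D.lowB X (D.K X) := by
    conv_lhs => rw [low]
    simp
  have h3 : D.lowB X (D.K X) = ‖D.K X‖ ^ 2 := by
    rw [lowB_eq, ← h_K D X (D.K X), D.h_symm (D.K X) (D.K (D.K X)), h_K D (D.K X) (D.K X), h_self]
    ring
  rw [h1, h2, h3]
  ring

section Bd

variable {ε C0 C3 : ℝ} {D : AlgData V δ u}

theorem Bounds.beta_nonneg (hB : D.Bounds ε C0 C3) (hε : 0 < ε) (X : V) : 0 ≤ D.β X X :=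
  le_trans (by positivity) (hB.low X)

theorem Bounds.h_ge (hB : D.Bounds ε C0 C3) (hδ : 0 < δ) (hu : 0 < u) (X : V) :
    (1 + 2 * δ * u * ε) * ‖X‖ ^ 2 ≤ D.h X X := by
  rw [h_self]
  have h1 := mul_le_mul_of_nonneg_left (hB.low X) (by positivity : 0 ≤ 2 * δ * u)
  linarith only [h1]

theorem Bounds.h_nonneg (hB : D.Bounds ε C0 C3) (hε : 0 < ε) (hδ : 0 < δ) (hu : 0 < u) (X : V) :
    0 ≤ D.h X X := le_trans (by positivity) (hB.h_ge hδ hu X)

theorem Bounds.lowB_nonneg (hB : D.Bounds ε C0 C3) (hε : 0 < ε) (hδ : 0 < δ) (hu : 0 < u) (X : V) :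
    0 ≤ D.lowB X X := by
  rw [lowB_self_eq]
  have h1 := hB.beta_nonneg hε (D.low X)
  positivity

theorem Bounds.lowB_le (hB : D.Bounds ε C0 C3) (hε : 0 < ε) (hδ : 0 < δ) (hu : 0 < u) (X : V) :
    2 * δ * (1 + u) * D.lowB X X ≤ (2 * δ * C0 + 1) * ‖X‖ ^ 2 := by
  have h1 : D.lowB X X ≤ C0 * ‖X‖ ^ 2 := by
    refine le_trans ?_ (hB.up X)
    rw [lowB_eq]
    have := hB.h_nonneg hε hδ hu (D.K X)
    have h2 : 0 ≤ 2 * δ * u * D.h (D.K X) (D.K X) := by (clear * - hδ hu this; positivity)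
    linarith only [h2]
  have h2 : 2 * δ * u * D.lowB X X ≤ ‖X‖ ^ 2 := by
    have h3 : D.h (D.low X) X = rip (D.low X) X + 2 * δ * u * D.β (D.low X) X := rfl
    rw [h_low, rip_self] at h3
    have h4 : rip (D.low X) X = D.h (D.low X) (D.low X) := by
      rw [h_low, rip_comm]
    have h5 := hB.h_nonneg hε hδ hu (D.low X)
    rw [lowB_apply]
    linarith only [h3, h4, h5]
  have h3 := mul_le_mul_of_nonneg_left h1 (by positivity : 0 ≤ 2 * δ)
  linarith only [h2, h3]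

theorem Bounds.norm_low (hB : D.Bounds ε C0 C3) (hε : 0 < ε) (hδ : 0 < δ) (hu : 0 < u) (X : V) :
    ‖D.low X‖ ≤ ‖X‖ / (1 + 2 * δ * u * ε) := by
  rw [le_div_iff₀ (by (clear * - hδ hu hε; positivity))]
  have h1 := hB.h_ge hδ hu (D.low X)
  rw [h_low] at h1
  have h2 := (le_abs_self _).trans (abs_rip_le X (D.low X))
  rcases (norm_nonneg (D.low X)).eq_or_lt with h3 | h3
  · rw [← h3, zero_mul]
    positivity
  · have h4 : (‖D.low X‖ * (1 + 2 * δ * u * ε)) * ‖D.low X‖ ≤ ‖X‖ * ‖D.low X‖ := by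
      linarith only [h1, h2]
    exact le_of_mul_le_mul_right h4 h3

theorem Bounds.norm_C (hB : D.Bounds ε C0 C3) (hε : 0 < ε) (h3 : 0 < C3) (hδ : 0 < δ) (hu : 0 < u)
    (X Y : V) : ‖D.C X Y‖ ≤ C3 * ‖X‖ * ‖Y‖ := by
  have h1 : ‖D.C X Y‖ ^ 2 ≤ D.h (D.C X Y) (D.C X Y) := by
    have := hB.h_ge hδ hu (D.C X Y)
    have h2 : 0 ≤ 2 * δ * u * ε * ‖D.C X Y‖ ^ 2 := by (clear * - hδ hu hε; positivity)
    linarith only [this, h2]
  have h2 : D.h (D.C X Y) (D.C X Y) = D.γ X Y (D.C X Y) := D.C_spec X Y _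
  have h4 := (le_abs_self _).trans (hB.c3 X Y (D.C X Y))
  rcases (norm_nonneg (D.C X Y)).eq_or_lt with h5 | h5
  · rw [← h5]
    (clear * - h3; positivity)
  · have h6 : ‖D.C X Y‖ * ‖D.C X Y‖ ≤ (C3 * ‖X‖ * ‖Y‖) * ‖D.C X Y‖ := by
      linarith
    exact le_of_mul_le_mul_right h6 h5

end Bd

end AlgData

section RealLemmas

theorem r_sq_add (m n : ℝ) : (m + n) ^ 2 ≤ 2 * (m ^ 2 + n ^ 2) := by
  linarith only [sq_nonneg (m - n)]

theorem r_sum {δ Θ p q hX hY G : ℝ} (hδ : 0 < δ) (h1 : (δ * Θ * q ^ 2) * hX ≤ G)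
    (h2 : (δ * Θ * p ^ 2) * hY ≤ G) : Θ * (q ^ 2 * hX + p ^ 2 * hY) ≤ (2 / δ) * G := by
  rw [div_mul_eq_mul_div, le_div_iff₀ hδ]
  have e : Θ * (q ^ 2 * hX + p ^ 2 * hY) * δ =
    (δ * Θ * q ^ 2) * hX + (δ * Θ * p ^ 2) * hY := by ring
  rw [e]
  linarith only [h1, h2]

theorem r_T2 {δ Θ p q ν G : ℝ} (hδ : 0 < δ) (hν : ν ^ 2 ≤ p ^ 2 * q ^ 2)
    (hpq : (δ * Θ * p ^ 2) * (δ * Θ * q ^ 2) ≤ G) :
    4 * δ * Θ ^ 2 * ν ^ 2 ≤ (4 / δ) * G := by
  rw [div_mul_eq_mul_div, le_div_iff₀ hδ]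
  have h2 : (4 * δ * Θ ^ 2 * δ) * ν ^ 2 ≤ (4 * δ * Θ ^ 2 * δ) * (p ^ 2 * q ^ 2) :=
    mul_le_mul_of_nonneg_left hν (by (clear * - hδ; positivity))
  have e : (4 * δ * Θ ^ 2 * δ) * (p ^ 2 * q ^ 2) =
    4 * ((δ * Θ * p ^ 2) * (δ * Θ * q ^ 2)) := by ring
  rw [e] at h2
  linarith only [hpq, h2]

theorem r_T34a {δ Θ u p q bX bY hX hY G : ℝ} (hΘ : 0 < Θ)
    (hbX : 2 * δ * u * bX ≤ hX) (hbY : 2 * δ * u * bY ≤ hY)
    (hs : Θ * (q ^ 2 * hX + p ^ 2 * hY) ≤ (2 / δ) * G) :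
    4 * δ * Θ * u * (q ^ 2 * bX + p ^ 2 * bY) ≤ (4 / δ) * G := by
  have h2 : q ^ 2 * (2 * δ * u * bX) ≤ q ^ 2 * hX := mul_le_mul_of_nonneg_left hbX (sq_nonneg q)
  have h2' : p ^ 2 * (2 * δ * u * bY) ≤ p ^ 2 * hY := mul_le_mul_of_nonneg_left hbY (sq_nonneg p)
  calc 4 * δ * Θ * u * (q ^ 2 * bX + p ^ 2 * bY)
      = 2 * (Θ * (q ^ 2 * (2 * δ * u * bX) + p ^ 2 * (2 * δ * u * bY))) := by ring
    _ ≤ 2 * (Θ * (q ^ 2 * hX + p ^ 2 * hY)) := by
        have := mul_le_mul_of_nonneg_left (add_le_add h2 h2') hΘ.le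
        linarith only [this]
    _ ≤ 2 * ((2 / δ) * G) := by linarith only [hs]
    _ = _ := by ring

theorem r_T34b {δ Θ c p q a b G L1 L2 : ℝ} (hΘ : 0 < Θ) (hc : 0 ≤ c)
    (h1 : L1 ≤ c * a ^ 2) (h2 : L2 ≤ c * b ^ 2)
    (hs : Θ * (q ^ 2 * a ^ 2 + p ^ 2 * b ^ 2) ≤ (2 / δ) * G) :
    2 * Θ * (q ^ 2 * L1 + p ^ 2 * L2) ≤ (c * (4 / δ)) * G := by
  have k1 : q ^ 2 * L1 ≤ q ^ 2 * (c * a ^ 2) := mul_le_mul_of_nonneg_left h1 (sq_nonneg q)
  have k2 : p ^ 2 * L2 ≤ p ^ 2 * (c * b ^ 2) := mul_le_mul_of_nonneg_left h2 (sq_nonneg p)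
  calc 2 * Θ * (q ^ 2 * L1 + p ^ 2 * L2)
      ≤ 2 * Θ * (q ^ 2 * (c * a ^ 2) + p ^ 2 * (c * b ^ 2)) :=
        mul_le_mul_of_nonneg_left (add_le_add k1 k2) (by positivity)
    _ = (2 * c) * (Θ * (q ^ 2 * a ^ 2 + p ^ 2 * b ^ 2)) := by ring
    _ ≤ (2 * c) * ((2 / δ) * G) := mul_le_mul_of_nonneg_left hs (by positivity)
    _ = _ := by ring

theorem r_T5 {δ u C0 bX bY G : ℝ} (hδ : 0 < δ)
    (h6 : (2 * δ * u * bX) * (2 * δ * u * bY) ≤ G)
    (h7 : (2 * δ * u * bX) * bY ≤ C0 * G) :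
    4 * δ * (u + u ^ 2) * (4 * (bX * bY)) ≤ (4 / δ + 8 * C0) * G := by
  have h9 : 4 * δ * (u + u ^ 2) * (4 * (bX * bY)) =
      (4 / δ) * ((2 * δ * u * bX) * (2 * δ * u * bY)) + 8 * ((2 * δ * u * bX) * bY) := by
    field_simp
    ring
  rw [h9]
  have h10 : (4 / δ) * ((2 * δ * u * bX) * (2 * δ * u * bY)) ≤ (4 / δ) * G :=
    mul_le_mul_of_nonneg_left h6 (by positivity)
  linarith only [h7, h10]

theorem r_T8 {δ Θ a b r q M G : ℝ} (hδ : 0 < δ) (hΘ : 0 < Θ)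
    (hqa : (δ * Θ * q ^ 2) * a ^ 2 ≤ G) (hMr : δ * Θ * r ^ 2 ≤ M) (hM : 0 ≤ M)
    (hab : a ^ 2 * b ^ 2 ≤ G) :
    δ * Θ * (a * b * r * (q * a)) ≤ (1 / 2) * ((1 + M) * G) := by
  have g1 : 0 ≤ (δ * Θ * a ^ 2) * (q - r * b) ^ 2 := by positivity
  have g3 : (δ * Θ * r ^ 2) * (a ^ 2 * b ^ 2) ≤ M * G :=
    mul_le_mul hMr hab (by (clear * -; positivity)) hM
  have e : (δ * Θ * a ^ 2) * (q - r * b) ^ 2 = (δ * Θ * q ^ 2) * a ^ 2
    - 2 * (δ * Θ * (a * b * r * (q * a))) + (δ * Θ * r ^ 2) * (a ^ 2 * b ^ 2) := by ring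
  rw [e] at g1
  linarith only [hqa, g1, g3]

theorem r_M {δ ε u : ℝ} (hδ : 0 < δ) (hε : 0 < ε) (hu : 0 < u) :
    δ * (u + u ^ 2) * (1 / (1 + 2 * δ * u * ε)) ^ 2 ≤ δ * (1 + 1 / (2 * δ * ε)) ^ 2 := by
  have g1 : (1 + u) * (1 / (1 + 2 * δ * u * ε)) ≤ 1 + 1 / (2 * δ * ε) := by
    rw [mul_one_div, div_le_iff₀ (by positivity)]
    have g2 : (1 + 1 / (2 * δ * ε)) * (1 + 2 * δ * u * ε) =
        1 + 2 * δ * u * ε + 1 / (2 * δ * ε) + u := by
      field_simp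
      ring
    rw [g2]
    have g3 : 0 ≤ 2 * δ * u * ε := by positivity
    have g4 : 0 ≤ 1 / (2 * δ * ε) := by positivity
    linarith only [g3, g4]
  have g2 : ((1 + u) * (1 / (1 + 2 * δ * u * ε))) ^ 2 ≤ (1 + 1 / (2 * δ * ε)) ^ 2 :=
    pow_le_pow_left₀ (by positivity) g1 2
  have g3 : (u + u ^ 2) * (1 / (1 + 2 * δ * u * ε)) ^ 2 ≤
      ((1 + u) * (1 / (1 + 2 * δ * u * ε))) ^ 2 := by
    rw [mul_pow]
    apply mul_le_mul_of_nonneg_right _ (by positivity)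
    linarith only [hu]
  rw [mul_assoc]
  exact mul_le_mul_of_nonneg_left (g3.trans g2) hδ.le

end RealLemmas

section Terms

variable {δ u ε C0 C3 : ℝ} {D : AlgData V δ u}

theorem term7 (hε : 0 < ε) (h3 : 0 < C3) (hδ : 0 < δ) (hu : 0 < u) (hB : D.Bounds ε C0 C3)
    (X Y : V) (G : ℝ) (hG : (2 * δ * u * ε * ‖X‖ ^ 2) * (2 * δ * u * ε * ‖Y‖ ^ 2) ≤ G) :
    -(4 * δ ^ 2 * u ^ 2 * (D.h (D.C X Y) (D.C X Y) - D.h (D.C X X) (D.C Y Y))) ≤
      (C3 ^ 2 / ε ^ 2) * G := by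
  have h1 : 0 ≤ D.h (D.C X Y) (D.C X Y) := hB.h_nonneg hε hδ hu _
  have h2 : D.h (D.C X X) (D.C Y Y) ≤ C3 ^ 2 * (‖X‖ ^ 2 * ‖Y‖ ^ 2) := by
    have e1 : D.h (D.C X X) (D.C Y Y) = D.γ X X (D.C Y Y) := D.C_spec X X _
    rw [e1]
    refine (le_abs_self _).trans ((hB.c3 X X _).trans ?_)
    have e2 := hB.norm_C hε h3 hδ hu Y Y
    calc C3 * ‖X‖ * ‖X‖ * ‖D.C Y Y‖ ≤ C3 * ‖X‖ * ‖X‖ * (C3 * ‖Y‖ * ‖Y‖) := by (clear * - e2 h3; gcongr)
      _ = _ := by ring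
  have h5 : -(4 * δ ^ 2 * u ^ 2 * (D.h (D.C X Y) (D.C X Y) - D.h (D.C X X) (D.C Y Y))) ≤
      4 * δ ^ 2 * u ^ 2 * (C3 ^ 2 * (‖X‖ ^ 2 * ‖Y‖ ^ 2)) := by
    have h6 : 0 ≤ 4 * δ ^ 2 * u ^ 2 := by positivity
    have h7 := mul_le_mul_of_nonneg_left h2 h6
    have h8 := mul_nonneg h6 h1
    linarith only [h7, h8]
  refine h5.trans ?_
  rw [div_mul_eq_mul_div, le_div_iff₀ (by positivity)]
  calc _ = C3 ^ 2 * ((2 * δ * u * ε * ‖X‖ ^ 2) * (2 * δ * u * ε * ‖Y‖ ^ 2)) := by ring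
    _ ≤ _ := by gcongr

theorem term8 (hε : 0 < ε) (h3 : 0 < C3) (hδ : 0 < δ) (hu : 0 < u) (hB : D.Bounds ε C0 C3)
    (X Y W : V) (p q G : ℝ) (hp : 0 ≤ p) (hq : 0 ≤ q) (hW : ‖W‖ ≤ q * ‖X‖ + p * ‖Y‖)
    (hqa : (δ * (u + u ^ 2) * q ^ 2) * ‖X‖ ^ 2 ≤ G)
    (hpb : (δ * (u + u ^ 2) * p ^ 2) * ‖Y‖ ^ 2 ≤ G)
    (hab : ‖X‖ ^ 2 * ‖Y‖ ^ 2 ≤ G) :
    -(4 * δ * (u + u ^ 2) * (D.γ X W (D.low Y) - D.γ Y W (D.low X))) ≤
      (8 * C3 * (1 + δ * (1 + 1 / (2 * δ * ε)) ^ 2)) * G := by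
  obtain ⟨r, hr⟩ : ∃ r : ℝ, r = 1 / (1 + 2 * δ * u * ε) := ⟨_, rfl⟩
  have hr0 : 0 < r := by rw [hr]; positivity
  have e1 : ‖D.low Y‖ ≤ r * ‖Y‖ := by
    have := hB.norm_low hε hδ hu Y
    rw [hr, div_mul_eq_mul_div, one_mul]
    exact this
  have e2 : ‖D.low X‖ ≤ r * ‖X‖ := by
    have := hB.norm_low hε hδ hu X
    rw [hr, div_mul_eq_mul_div, one_mul]
    exact this
  have f1 : |D.γ X W (D.low Y)| ≤ C3 * ‖X‖ * (q * ‖X‖ + p * ‖Y‖) * (r * ‖Y‖) := by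
    refine (hB.c3 _ _ _).trans ?_
    (clear * - hW h3 e1 hq hp; gcongr)
  have f2 : |D.γ Y W (D.low X)| ≤ C3 * ‖Y‖ * (q * ‖X‖ + p * ‖Y‖) * (r * ‖X‖) := by
    refine (hB.c3 _ _ _).trans ?_
    (clear * - hW h3 e2 hq hp; gcongr)
  have f3 : -(D.γ X W (D.low Y) - D.γ Y W (D.low X)) ≤
      2 * (C3 * (‖X‖ * ‖Y‖ * r * (q * ‖X‖ + p * ‖Y‖))) := by
    have g1 := neg_abs_le (D.γ X W (D.low Y))
    have g2 := le_abs_self (D.γ Y W (D.low X))
    have g3 : C3 * ‖X‖ * (q * ‖X‖ + p * ‖Y‖) * (r * ‖Y‖) =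
      C3 * (‖X‖ * ‖Y‖ * r * (q * ‖X‖ + p * ‖Y‖)) := by ring
    have g4 : C3 * ‖Y‖ * (q * ‖X‖ + p * ‖Y‖) * (r * ‖X‖) =
      C3 * (‖X‖ * ‖Y‖ * r * (q * ‖X‖ + p * ‖Y‖)) := by ring
    rw [g3] at f1
    rw [g4] at f2
    linarith only [f1, f2, g1, g2]
  have hΘ : 0 < u + u ^ 2 := by positivity
  have hMr := r_M hδ hε hu
  rw [← hr] at hMr
  have hM0 : 0 ≤ δ * (1 + 1 / (2 * δ * ε)) ^ 2 := by positivity
  have k1 := r_T8 hδ hΘ hqa hMr hM0 hab
  have k2 := r_T8 hδ hΘ hpb hMr hM0 (by rw [mul_comm]; exact hab)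
  have f4 : 4 * δ * (u + u ^ 2) * (-(D.γ X W (D.low Y) - D.γ Y W (D.low X))) ≤
      4 * δ * (u + u ^ 2) * (2 * (C3 * (‖X‖ * ‖Y‖ * r * (q * ‖X‖ + p * ‖Y‖)))) :=
    mul_le_mul_of_nonneg_left f3 (by positivity)
  calc _ = 4 * δ * (u + u ^ 2) * (-(D.γ X W (D.low Y) - D.γ Y W (D.low X))) := by ring
    _ ≤ _ := f4
    _ = 8 * C3 * (δ * (u + u ^ 2) * (‖X‖ * ‖Y‖ * r * (q * ‖X‖)) +
        δ * (u + u ^ 2) * (‖Y‖ * ‖X‖ * r * (p * ‖Y‖))) := by ring
    _ ≤ 8 * C3 * ((1 / 2) * ((1 + δ * (1 + 1 / (2 * δ * ε)) ^ 2) * G) +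
        (1 / 2) * ((1 + δ * (1 + 1 / (2 * δ * ε)) ^ 2) * G)) :=
        mul_le_mul_of_nonneg_left (add_le_add k1 k2) (by positivity)
    _ = _ := by ring

end Terms

theorem mul_conj_re_self (z : ℂ) : (z * (starRingEnd ℂ) z).re = ‖z‖ ^ 2 := by
  rw [Complex.mul_conj, Complex.ofReal_re, Complex.sq_norm]

/-- T8b -/
theorem alg_upper (ε C0 C3 C4 : ℝ) (hε : 0 < ε) (h0 : 0 < C0) (h3 : 0 < C3) (h4 : 0 < C4)
    (δ : ℝ) (hδ : 0 < δ) : ∃ b > 0, ∀ u > 0, ∀ D : AlgData V δ u,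
      D.Bounds ε C0 C3 → ∀ (N4 : ℝ) (X Y : V) (x y : ℂ), |N4| ≤ C4 * ‖X‖ ^ 2 * ‖Y‖ ^ 2 →
      D.gg X Y x y = 0 → D.NN N4 X Y x y ≤ b * D.ar X Y x y := by
  refine ⟨4 + 4 / δ + (4 / δ + (2 * δ * C0 + 1) * (4 / δ)) + (4 / δ + (2 * δ * C0 + 1) * (4 / δ))
    + (4 / δ + 8 * C0) + C4 / ε + C3 ^ 2 / ε ^ 2
    + 8 * C3 * (1 + δ * (1 + 1 / (2 * δ * ε)) ^ 2), by positivity, ?_⟩
  intro u hu D hB N4 X Y x y hN4 hgg
  have hΘ0 : 0 < u + u ^ 2 := by positivity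
  have hbX0 : 0 ≤ D.β X X := hB.beta_nonneg hε X
  have hbY0 : 0 ≤ D.β Y Y := hB.beta_nonneg hε Y
  have hIY : ‖I • Y‖ = ‖Y‖ := by rw [norm_smul, norm_I, one_mul]
  have hbIY : D.β (I • Y) (I • Y) = D.β Y Y := D.β_J Y Y
  have hν1 : |(x * (starRingEnd ℂ) y).im| ≤ ‖x‖ * ‖y‖ := by
    refine (Complex.abs_im_le_norm _).trans (le_of_eq ?_)
    rw [norm_mul, RCLike.norm_conj]
  obtain ⟨W, hW⟩ : ∃ W : V, W = (starRingEnd ℂ) y • X - (starRingEnd ℂ) x • Y := ⟨_, rfl⟩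
  have hWn : ‖W‖ ≤ ‖y‖ * ‖X‖ + ‖x‖ * ‖Y‖ := by
    rw [hW]
    refine (norm_sub_le _ _).trans (le_of_eq ?_)
    rw [norm_smul, norm_smul, RCLike.norm_conj, RCLike.norm_conj]
  have hWn2 : ‖W‖ ^ 2 ≤ 2 * ((‖y‖ * ‖X‖) ^ 2 + (‖x‖ * ‖Y‖) ^ 2) :=
    (pow_le_pow_left₀ (norm_nonneg _) hWn 2).trans (r_sq_add _ _)
  have hWβ : D.β W W ≤ 2 * (‖y‖ ^ 2 * D.β X X + ‖x‖ ^ 2 * D.β Y Y) := by
    have h1 := form_sub_le D.β D.β_symm (hB.beta_nonneg hε) ((starRingEnd ℂ) y • X)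
      ((starRingEnd ℂ) x • Y)
    rw [form_smul_self D.β D.β_symm D.β_J, form_smul_self D.β D.β_symm D.β_J, RCLike.norm_conj,
      RCLike.norm_conj] at h1
    rw [hW]
    linarith only [h1]
  -- the metric
  obtain ⟨hX, hhX⟩ : ∃ r, r = D.h X X := ⟨_, rfl⟩
  obtain ⟨hY, hhY⟩ : ∃ r, r = D.h Y Y := ⟨_, rfl⟩
  have ehX : hX = ‖X‖ ^ 2 + 2 * δ * u * D.β X X := by rw [hhX, AlgData.h_self]
  have ehY : hY = ‖Y‖ ^ 2 + 2 * δ * u * D.β Y Y := by rw [hhY, AlgData.h_self]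
  have haX : ‖X‖ ^ 2 ≤ hX := by
    have : 0 ≤ 2 * δ * u * D.β X X := by (clear * - hδ hu hbX0; positivity)
    linarith only [ehX, this]
  have haY : ‖Y‖ ^ 2 ≤ hY := by
    have : 0 ≤ 2 * δ * u * D.β Y Y := by (clear * - hδ hu hbY0; positivity)
    linarith only [ehY, this]
  have hbX' : 2 * δ * u * D.β X X ≤ hX := by
    have : 0 ≤ ‖X‖ ^ 2 := by (clear * -; positivity)
    linarith only [ehX, this]
  have hbY' : 2 * δ * u * D.β Y Y ≤ hY := by
    have : 0 ≤ ‖Y‖ ^ 2 := by (clear * -; positivity)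
    linarith only [ehY, this]
  have hX0 : 0 ≤ hX := le_trans (by (clear * -; positivity)) haX
  have hY0 : 0 ≤ hY := le_trans (by (clear * -; positivity)) haY
  obtain ⟨GX, hGX⟩ : ∃ r, r = hX + δ * (u + u ^ 2) * ‖x‖ ^ 2 := ⟨_, rfl⟩
  obtain ⟨GY, hGY⟩ : ∃ r, r = hY + δ * (u + u ^ 2) * ‖y‖ ^ 2 := ⟨_, rfl⟩
  have hXG : hX ≤ GX := by
    have : 0 ≤ δ * (u + u ^ 2) * ‖x‖ ^ 2 := by (clear * - hδ hu; positivity)
    linarith only [hGX, this]
  have hYG : hY ≤ GY := by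
    have : 0 ≤ δ * (u + u ^ 2) * ‖y‖ ^ 2 := by (clear * - hδ hu; positivity)
    linarith only [hGY, this]
  have hGX0 : 0 ≤ GX := hX0.trans hXG
  have hGY0 : 0 ≤ GY := hY0.trans hYG
  have har : D.ar X Y x y = GX * GY := by
    unfold AlgData.ar
    rw [hgg]
    unfold AlgData.gg
    rw [mul_conj_re_self, mul_conj_re_self, ← hhX, ← hhY, hGX, hGY]
    ring
  have hpG : δ * (u + u ^ 2) * ‖x‖ ^ 2 ≤ GX := by linarith only [ehX, haX, hbX', hGX]
  have hqG : δ * (u + u ^ 2) * ‖y‖ ^ 2 ≤ GY := by linarith only [ehY, haY, hbY', hGY]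
  have hP0 : 0 ≤ GX * GY := mul_nonneg hGX0 hGY0
  -- products
  have hab : ‖X‖ ^ 2 * ‖Y‖ ^ 2 ≤ GX * GY :=
    mul_le_mul (haX.trans hXG) (haY.trans hYG) (by (clear * -; positivity)) hGX0
  have hhh : hX * hY ≤ GX * GY := mul_le_mul hXG hYG hY0 hGX0
  have hpq : (δ * (u + u ^ 2) * ‖x‖ ^ 2) * (δ * (u + u ^ 2) * ‖y‖ ^ 2) ≤ GX * GY :=
    mul_le_mul hpG hqG (by (clear * - hδ hu; positivity)) hGX0
  have hqh : (δ * (u + u ^ 2) * ‖y‖ ^ 2) * hX ≤ GX * GY := by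
    rw [mul_comm]
    exact mul_le_mul hXG hqG (by (clear * - hδ hu; positivity)) hGX0
  have hph : (δ * (u + u ^ 2) * ‖x‖ ^ 2) * hY ≤ GX * GY := mul_le_mul hpG hYG hY0 hGX0
  have hqa : (δ * (u + u ^ 2) * ‖y‖ ^ 2) * ‖X‖ ^ 2 ≤ GX * GY :=
    (mul_le_mul_of_nonneg_left haX (by (clear * - hδ hu; positivity))).trans hqh
  have hpb : (δ * (u + u ^ 2) * ‖x‖ ^ 2) * ‖Y‖ ^ 2 ≤ GX * GY :=
    (mul_le_mul_of_nonneg_left haY (by (clear * - hδ hu; positivity))).trans hph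
  have hsum := r_sum hδ hqh hph
  have hsum2 := r_sum hδ hqa hpb
  have hc1 : 0 ≤ 2 * δ * C0 + 1 := by positivity
  -- terms
  have T1 : ‖X‖ ^ 2 * ‖Y‖ ^ 2 - rip X Y ^ 2 + 3 * rip X (I • Y) ^ 2 ≤ 4 * (GX * GY) := by
    have h1 : rip X (I • Y) ^ 2 ≤ ‖X‖ ^ 2 * ‖Y‖ ^ 2 := by
      have h2 := abs_rip_le X (I • Y)
      rw [hIY] at h2
      have h3 := pow_le_pow_left₀ (abs_nonneg _) h2 2
      rw [sq_abs, mul_pow] at h3
      exact h3
    have h2 : 0 ≤ rip X Y ^ 2 := sq_nonneg _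
    linarith only [hab, h1, h2]
  have T2 : 4 * δ * (u + u ^ 2) ^ 2 * (x * (starRingEnd ℂ) y).im ^ 2 ≤ (4 / δ) * (GX * GY) := by
    refine r_T2 hδ ?_ hpq
    have h3 := pow_le_pow_left₀ (abs_nonneg _) hν1 2
    rw [sq_abs, mul_pow] at h3
    exact h3
  have T34a := r_T34a hΘ0 hbX' hbY' hsum
  have T3a : 2 * δ * (u + u ^ 2) * (u * D.β W W) ≤ (4 / δ) * (GX * GY) := by
    refine le_trans ?_ T34a
    have h1 := mul_le_mul_of_nonneg_left hWβ (by positivity : 0 ≤ 2 * δ * (u + u ^ 2) * u)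
    linarith only [h1]
  have T3b : 2 * δ * (u + u ^ 2) * ((1 + u) * D.lowB W W) ≤
      ((2 * δ * C0 + 1) * (4 / δ)) * (GX * GY) := by
    have h1 := hB.lowB_le hε hδ hu W
    have h2 : (u + u ^ 2) * (2 * δ * (1 + u) * D.lowB W W) ≤
        (u + u ^ 2) * ((2 * δ * C0 + 1) * ‖W‖ ^ 2) := mul_le_mul_of_nonneg_left h1 hΘ0.le
    have h3' : (u + u ^ 2) * ((2 * δ * C0 + 1) * ‖W‖ ^ 2) ≤ (u + u ^ 2) *
        ((2 * δ * C0 + 1) * (2 * ((‖y‖ * ‖X‖) ^ 2 + (‖x‖ * ‖Y‖) ^ 2))) :=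
      mul_le_mul_of_nonneg_left (mul_le_mul_of_nonneg_left hWn2 hc1) hΘ0.le
    have h4' := r_T34b (L1 := (2 * δ * C0 + 1) * ‖X‖ ^ 2) (L2 := (2 * δ * C0 + 1) * ‖Y‖ ^ 2)
      hΘ0 hc1 le_rfl le_rfl hsum2
    calc _ = (u + u ^ 2) * (2 * δ * (1 + u) * D.lowB W W) := by ring
      _ ≤ _ := h2
      _ ≤ _ := h3'
      _ = 2 * (u + u ^ 2) * (‖y‖ ^ 2 * ((2 * δ * C0 + 1) * ‖X‖ ^ 2) +
          ‖x‖ ^ 2 * ((2 * δ * C0 + 1) * ‖Y‖ ^ 2)) := by ring
      _ ≤ _ := h4'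
  have T4a : 8 * δ * (u + u ^ 2) * (x * (starRingEnd ℂ) y).im * (u * D.β X (I • Y)) ≤
      (4 / δ) * (GX * GY) := by
    have h1 := form_amgm D.β D.β_symm (hB.beta_nonneg hε) X (I • Y) ‖x‖ ‖y‖ _ hν1
    rw [hbIY] at h1
    have h1' := mul_le_mul_of_nonneg_left h1 (by positivity : 0 ≤ 4 * δ * (u + u ^ 2) * u)
    linarith only [T34a, h1']
  have T4b : 8 * δ * (u + u ^ 2) * (x * (starRingEnd ℂ) y).im * ((1 + u) * D.lowB X (I • Y)) ≤
      ((2 * δ * C0 + 1) * (4 / δ)) * (GX * GY) := by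
    have h1 := form_amgm D.lowB D.lowB_symm (hB.lowB_nonneg hε hδ hu) X (I • Y) ‖x‖ ‖y‖ _ hν1
    have h1' := mul_le_mul_of_nonneg_left h1
      (by positivity : 0 ≤ 4 * δ * (u + u ^ 2) * (1 + u))
    have e1 := hB.lowB_le hε hδ hu X
    have e2 := hB.lowB_le hε hδ hu (I • Y)
    rw [hIY] at e2
    have h2 := r_T34b hΘ0 hc1 e1 e2 hsum2
    linarith only [h1', h2]
  have T5 : 4 * δ * (u + u ^ 2) * (D.β X X * D.β Y Y - D.β X Y ^ 2 + 3 * D.β X (I • Y) ^ 2) ≤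
      (4 / δ + 8 * C0) * (GX * GY) := by
    have h1 := form_cs D.β D.β_symm (hB.beta_nonneg hε) X (I • Y)
    rw [hbIY] at h1
    have h2 : 0 ≤ D.β X Y ^ 2 := sq_nonneg _
    have h5 : 4 * δ * (u + u ^ 2) * (D.β X X * D.β Y Y - D.β X Y ^ 2 + 3 * D.β X (I • Y) ^ 2) ≤
        4 * δ * (u + u ^ 2) * (4 * (D.β X X * D.β Y Y)) := by
      apply mul_le_mul_of_nonneg_left _ (by positivity)
      linarith only [h1, h2]
    refine h5.trans (r_T5 hδ ?_ ?_)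
    · exact (mul_le_mul hbX' hbY' (by (clear * - hδ hu hbY0; positivity)) hX0).trans hhh
    · have h8 : D.β Y Y ≤ C0 * ‖Y‖ ^ 2 := hB.up Y
      calc (2 * δ * u * D.β X X) * D.β Y Y ≤ hX * (C0 * ‖Y‖ ^ 2) :=
            mul_le_mul hbX' h8 hbY0 hX0
        _ = C0 * (hX * ‖Y‖ ^ 2) := by ring
        _ ≤ C0 * (GX * GY) := mul_le_mul_of_nonneg_left
            ((mul_le_mul_of_nonneg_left haY hX0).trans hhh) h0.le
  have hsa : 2 * δ * u * ε * ‖X‖ ^ 2 ≤ hX := by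
    have := hB.h_ge hδ hu X
    rw [← hhX] at this
    have h2 : 0 ≤ ‖X‖ ^ 2 := by (clear * -; positivity)
    linarith only [ehX, hbX', this]
  have hsb : 2 * δ * u * ε * ‖Y‖ ^ 2 ≤ hY := by
    have := hB.h_ge hδ hu Y
    rw [← hhY] at this
    have h2 : 0 ≤ ‖Y‖ ^ 2 := by (clear * -; positivity)
    linarith only [ehY, hbY', this]
  have T6 : 2 * δ * u * N4 ≤ (C4 / ε) * (GX * GY) := by
    have h1 : N4 ≤ C4 * ‖X‖ ^ 2 * ‖Y‖ ^ 2 := (le_abs_self _).trans hN4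
    rw [div_mul_eq_mul_div, le_div_iff₀ hε]
    have h2 := mul_le_mul_of_nonneg_left h1 (by positivity : 0 ≤ 2 * δ * u * ε)
    have h5 : (2 * δ * u * ε * ‖X‖ ^ 2) * ‖Y‖ ^ 2 ≤ GX * GY :=
      (mul_le_mul hsa haY (by (clear * -; positivity)) hX0).trans hhh
    have h6 := mul_le_mul_of_nonneg_left h5 h4.le
    linarith only [h2, h6]
  have T7 := term7 hε h3 hδ hu hB X Y (GX * GY)
    ((mul_le_mul hsa hsb (by (clear * - hδ hu hε; positivity)) hX0).trans hhh)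
  have T8 := term8 hε h3 hδ hu hB X Y W ‖x‖ ‖y‖ (GX * GY) (norm_nonneg _) (norm_nonneg _) hWn
    hqa hpb hab
  have hNN : D.NN N4 X Y x y =
      (‖X‖ ^ 2 * ‖Y‖ ^ 2 - rip X Y ^ 2 + 3 * rip X (I • Y) ^ 2)
      + 4 * δ * (u + u ^ 2) ^ 2 * (x * (starRingEnd ℂ) y).im ^ 2
      + (2 * δ * (u + u ^ 2) * (u * D.β W W) + 2 * δ * (u + u ^ 2) * ((1 + u) * D.lowB W W))
      + (8 * δ * (u + u ^ 2) * (x * (starRingEnd ℂ) y).im * (u * D.β X (I • Y))
        + 8 * δ * (u + u ^ 2) * (x * (starRingEnd ℂ) y).im * ((1 + u) * D.lowB X (I • Y)))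
      + 4 * δ * (u + u ^ 2) * (D.β X X * D.β Y Y - D.β X Y ^ 2 + 3 * D.β X (I • Y) ^ 2)
      + 2 * δ * u * N4
      + -(4 * δ ^ 2 * u ^ 2 * (D.h (D.C X Y) (D.C X Y) - D.h (D.C X X) (D.C Y Y)))
      + -(4 * δ * (u + u ^ 2) * (D.γ X W (D.low Y) - D.γ Y W (D.low X))) := by
    unfold AlgData.NN
    rw [AlgData.lowB_apply, AlgData.lowB_apply, ← hW]
    ring
  rw [hNN, har]
  have hfin := add_le_add (add_le_add (add_le_add (add_le_add (add_le_add (add_le_add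
    (add_le_add T1 T2) (add_le_add T3a T3b)) (add_le_add T4a T4b)) T5) T6) T7) T8
  refine hfin.trans (le_of_eq ?_)
  ring

end AlgUpper

end Vale.Agent.P250
end
end
end

section

section

section

/-!
Transport of the whole situation along a complex-linear equivalence.
-/

set_option maxSynthPendingDepth 3

namespace Vale.Agent.P250.G

open Set Filter Topology Vale.Agent.P250

namespace Tr

variable {E : Type*} [NormedAddCommGroup E] [NormedSpace ℂ E]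
  {E' : Type*} [NormedAddCommGroup E'] [NormedSpace ℂ E']
  {F : Type*} [NormedAddCommGroup F] [NormedSpace ℝ F]

/-- The underlying real-linear equivalence. -/
noncomputable def re (e : E ≃L[ℂ] E') : E ≃L[ℝ] E' where
  toLinearEquiv := e.toLinearEquiv.restrictScalars ℝ
  continuous_toFun := e.continuous
  continuous_invFun := e.symm.continuous

lemma fderiv_comp (s : E' ≃L[ℂ] E) (f : E → F) (p v : E') :
    fderiv ℝ (fun q => f (s q)) p v = fderiv ℝ f (s p) (s v) := by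
  have h := (re s).comp_right_fderiv (f := f) (x := p)
  have h1 : (f ∘ (re s)) = fun q => f (s q) := rfl
  rw [h1] at h
  rw [h]
  rfl

lemma fderiv_comp' (e : E ≃L[ℂ] E') (f : E → E) (p v : E') :
    fderiv ℝ (fun q => e (f (e.symm q))) p v = e (fderiv ℝ f (e.symm p) (e.symm v)) := by
  have h := (re e).comp_fderiv (f := fun q => f (e.symm q)) (x := p)
  have h1 : ((re e) ∘ fun q => f (e.symm q)) = fun q => e (f (e.symm q)) := rfl
  rw [h1] at h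
  rw [h]
  change e (fderiv ℝ (fun q => f (e.symm q)) p v) = _
  rw [fderiv_comp]

end Tr

open Tr

/-- Everything is invariant under a complex-linear equivalence. -/
theorem transport {E : Type*} [NormedAddCommGroup E] [NormedSpace ℂ E] [FiniteDimensional ℂ E]
    {E' : Type*} [NormedAddCommGroup E'] [NormedSpace ℂ E'] [FiniteDimensional ℂ E']
    (e : E ≃L[ℂ] E') (M : Set E) (g : E → E → E → ℝ) (Γ : E → E → E → E)
    (h1 : IsOpen M) (h2 : SimplyConnectedSpace M) (h3 : S.IsKaehlerMetric g M)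
    (h4 : S.IsLeviCivita g Γ M) (h5 : S.GeodesicallyComplete Γ M)
    (h6 : ∃ a b : ℝ, 0 < a ∧ a ≤ b ∧ ∀ p ∈ M, ∀ X Y, LinearIndependent ℝ ![X, Y] →
      -b ≤ S.sectional g Γ p X Y ∧ S.sectional g Γ p X Y ≤ -a)
    (h7 : ¬ S.BiholomorphicToBoundedDomain M) :
    ∃ (M' : Set E') (g' : E' → E' → E' → ℝ) (Γ' : E' → E' → E' → E'),
    IsOpen M' ∧ SimplyConnectedSpace M' ∧ S.IsKaehlerMetric g' M' ∧ S.IsLeviCivita g' Γ' M' ∧
    S.GeodesicallyComplete Γ' M' ∧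
    (∃ a b : ℝ, 0 < a ∧ a ≤ b ∧ ∀ p ∈ M', ∀ X Y, LinearIndependent ℝ ![X, Y] →
      -b ≤ S.sectional g' Γ' p X Y ∧ S.sectional g' Γ' p X Y ≤ -a) ∧
    ¬ S.BiholomorphicToBoundedDomain M' := by
  set M' : Set E' := e.symm ⁻¹' M with hM'
  set g' : E' → E' → E' → ℝ := fun p X Y => g (e.symm p) (e.symm X) (e.symm Y) with hg'
  set Γ' : E' → E' → E' → E' := fun p X Y => e (Γ (e.symm p) (e.symm X) (e.symm Y)) with hΓ'
  have hsm : ContDiff ℝ (⊤ : ℕ∞) (fun q : E' => e.symm q) := (re e.symm).contDiff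
  have hem : ContDiff ℝ (⊤ : ℕ∞) (fun q : E => e q) := (re e).contDiff
  have hmaps : MapsTo (fun q : E' => e.symm q) M' M := fun q hq => hq
  have hsr : ∀ (r : ℝ) (X : E'), e.symm (r • X) = r • e.symm X := fun r X => (re e.symm).map_smul r X
  have hI : ∀ X : E', e.symm (Complex.I • X) = Complex.I • e.symm X := fun X => map_smul _ _ _
  have hriem : ∀ p X Y Z, S.riem Γ' p X Y Z =
      e (S.riem Γ (e.symm p) (e.symm X) (e.symm Y) (e.symm Z)) := by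
    intro p X Y Z
    unfold S.riem
    rw [fderiv_comp' e (fun q => Γ q (e.symm Y) (e.symm Z)),
      fderiv_comp' e (fun q => Γ q (e.symm X) (e.symm Z))]
    simp only [hΓ', ContinuousLinearEquiv.symm_apply_apply, map_add, map_sub]
  refine ⟨M', g', Γ', h1.preimage e.symm.continuous, ?_, ?_, ?_, ?_, ?_, ?_⟩
  · let φ : M' ≃ₜ M := e.symm.toHomeomorph.subtype fun q => Iff.rfl
    exact φ.toHomotopyEquiv.simplyConnectedSpace
  · refine ⟨⟨?_, ?_, ?_, ?_⟩, ?_, ?_⟩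
    · intro X Y
      exact (h3.smooth (e.symm X) (e.symm Y)).comp hsm.contDiffOn hmaps
    · intro p hp r X Y Z
      change g _ (e.symm (X + r • Y)) _ = _
      rw [map_add, hsr]
      exact h3.linear _ hp _ _ _ _
    · intro p hp X Y
      exact h3.symm _ hp _ _
    · intro p hp X hX
      exact h3.pos _ hp _ (by simpa using hX)
    · intro p hp X Y
      change g _ (e.symm (Complex.I • X)) (e.symm (Complex.I • Y)) = _
      rw [hI, hI]
      exact h3.hermitian _ hp _ _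
    · intro p hp X Y Z
      have hd : ∀ X Y Z : E', fderiv ℝ (fun q => g' q (Complex.I • Y) Z) p X =
          fderiv ℝ (fun q => g q (Complex.I • e.symm Y) (e.symm Z)) (e.symm p) (e.symm X) := by
        intro X Y Z
        rw [← hI]
        exact fderiv_comp e.symm (fun q => g q (e.symm (Complex.I • Y)) (e.symm Z)) p X
      rw [hd, hd, hd]
      exact h3.closed _ hp _ _ _
  · refine ⟨?_, ?_⟩
    · intro X Y
      exact hem.comp_contDiffOn
        ((h4.smooth (e.symm X) (e.symm Y)).comp hsm.contDiffOn hmaps)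
    · intro p hp X Y Z
      have hd : ∀ X Y Z : E', fderiv ℝ (fun q => g' q Y Z) p X =
          fderiv ℝ (fun q => g q (e.symm Y) (e.symm Z)) (e.symm p) (e.symm X) :=
        fun X Y Z => fderiv_comp e.symm (fun q => g q (e.symm Y) (e.symm Z)) p X
      rw [hd, hd, hd]
      change 2 * g (e.symm p) (e.symm (e (Γ (e.symm p) (e.symm X) (e.symm Y)))) (e.symm Z) = _
      rw [ContinuousLinearEquiv.symm_apply_apply]
      exact h4.koszul _ hp _ _ _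
  · intro p hp X
    obtain ⟨γ, γ', h0, h0', hγ⟩ := h5 (e.symm p) hp (e.symm X)
    refine ⟨fun t => e (γ t), fun t => e (γ' t), by simp [h0], by simp [h0'], fun t => ?_⟩
    obtain ⟨ha, hb, hc⟩ := hγ t
    refine ⟨?_, ?_, ?_⟩
    · change e.symm (e (γ t)) ∈ M
      rwa [ContinuousLinearEquiv.symm_apply_apply]
    · exact ((re e).hasFDerivAt (x := γ t)).comp_hasDerivAt t hb
    · have := ((re e).hasFDerivAt (x := γ' t)).comp_hasDerivAt t hc
      simp only [hΓ', ContinuousLinearEquiv.symm_apply_apply]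
      rw [← map_neg]
      exact this
  · obtain ⟨a, b, ha, hab, h⟩ := h6
    refine ⟨a, b, ha, hab, fun p hp X Y hXY => ?_⟩
    have hli : LinearIndependent ℝ ![e.symm X, e.symm Y] := by
      have h8 := hXY.map' ((re e.symm : E' ≃L[ℝ] E) : E' →ₗ[ℝ] E)
        (LinearMap.ker_eq_bot.2 (re e.symm).injective)
      have h9 : (((re e.symm : E' ≃L[ℝ] E) : E' →ₗ[ℝ] E) ∘ ![X, Y]) = ![e.symm X, e.symm Y] := by
        funext i
        fin_cases i <;> rfl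
      rwa [h9] at h8
    have hsec : S.sectional g' Γ' p X Y = S.sectional g Γ (e.symm p) (e.symm X) (e.symm Y) := by
      unfold S.sectional
      rw [hriem]
      simp only [hg', ContinuousLinearEquiv.symm_apply_apply]
    rw [hsec]
    exact h _ hp _ _ hli
  · rintro ⟨U, F, G, hU, hUc, hUb, hF, hG, hFU, hGM, hGF, hFG⟩
    apply h7
    refine ⟨e ⁻¹' U, fun q => e.symm (F (e q)), fun q => e.symm (G (e q)), hU.preimage e.continuous,
      ?_, ?_, ?_, ?_, ?_, ?_, ?_, ?_⟩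
    · have : e ⁻¹' U = e.symm '' U := by
        rw [← e.image_symm_eq_preimage]
      rw [this]
      exact hUc.image _ e.symm.continuous.continuousOn
    · have : e ⁻¹' U = e.symm '' U := by
        rw [← e.image_symm_eq_preimage]
      rw [this]
      exact (e.symm : E' →L[ℂ] E).lipschitz.isBounded_image hUb
    · intro q hq
      have hq' : e q ∈ M' := by
        change e.symm (e q) ∈ M
        rwa [ContinuousLinearEquiv.symm_apply_apply]
      have hd : DifferentiableWithinAt ℂ (fun q => F (e q)) M q :=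
        (hF (e q) hq').comp q e.differentiableAt.differentiableWithinAt (fun y hy => by
          change e.symm (e y) ∈ M
          rwa [ContinuousLinearEquiv.symm_apply_apply])
      exact e.symm.differentiableAt.comp_differentiableWithinAt q hd
    · intro q hq
      have hd : DifferentiableWithinAt ℂ (fun q => G (e q)) (e ⁻¹' U) q :=
        (hG (e q) hq).comp q e.differentiableAt.differentiableWithinAt (fun y hy => hy)
      exact e.symm.differentiableAt.comp_differentiableWithinAt q hd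
    · intro q hq
      change e (e.symm (F (e q))) ∈ U
      rw [ContinuousLinearEquiv.apply_symm_apply]
      refine hFU ?_
      change e.symm (e q) ∈ M
      rwa [ContinuousLinearEquiv.symm_apply_apply]
    · intro q hq
      exact hGM hq
    · intro q hq
      change e.symm (G (e (e.symm (F (e q))))) = q
      rw [ContinuousLinearEquiv.apply_symm_apply, hGF, ContinuousLinearEquiv.symm_apply_apply]
      change e.symm (e q) ∈ M
      rwa [ContinuousLinearEquiv.symm_apply_apply]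
    · intro q hq
      change e.symm (F (e (e.symm (G (e q))))) = q
      rw [ContinuousLinearEquiv.apply_symm_apply, hFG _ hq,
        ContinuousLinearEquiv.symm_apply_apply]

end Vale.Agent.P250.G
end
end
end

section

section

section

/-! Jets of the normalised potential at the centre of the ball. -/

set_option maxSynthPendingDepth 3

namespace Vale.Agent.P250

open Set Filter Topology

section Lin

variable {E : Type*} [NormedAddCommGroup E] [NormedSpace ℝ E]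
variable {F : Type*} [NormedAddCommGroup F] [NormedSpace ℝ F]

lemma contDiffAt_comp_linear {f : F → ℝ} {n : ℕ} (L : E →L[ℝ] F) {p : E}
    (hf : ContDiffAt ℝ (n : ℕ) f (L p)) : ContDiffAt ℝ (n : ℕ) (fun q => f (L q)) p :=
  hf.comp p L.contDiff.contDiffAt

lemma D1_linear {f : F → ℝ} (L : E →L[ℝ] F) {p : E} (hf : DifferentiableAt ℝ f (L p)) (a : E) :
    D1 (fun q => f (L q)) p a = D1 f (L p) (L a) := by
  have := hf.hasFDerivAt.comp p L.hasFDerivAt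
  simp only [D1]
  rw [show (fun q => f (L q)) = f ∘ L from rfl, this.fderiv]
  simp only [ContinuousLinearMap.comp_apply]

lemma D2_linear {f : F → ℝ} (L : E →L[ℝ] F) {p : E} (hf : ContDiffAt ℝ (4 : ℕ) f (L p))
    (a b : E) : D2 (fun q => f (L q)) p a b = D2 f (L p) (L a) (L b) := by
  have hf2 : ContDiffAt ℝ (2 : ℕ) f (L p) := hf.of_le (by norm_cast)
  rw [← fderiv_D1 (contDiffAt_comp_linear L hf2), ← fderiv_D1 hf2]
  have heq : (fun q => D1 (fun q => f (L q)) q b) =ᶠ[𝓝 p] fun q => D1 f (L q) (L b) := by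
    filter_upwards [L.continuous.continuousAt.eventually (ev_cda hf)] with q h1
    exact D1_linear L (h1.differentiableAt (by norm_cast)) b
  rw [heq.fderiv_eq]
  exact D1_linear (f := fun x => D1 f x (L b)) L (D1_diff hf2 (L b)) a

lemma D3_linear {f : F → ℝ} (L : E →L[ℝ] F) {p : E} (hf : ContDiffAt ℝ (4 : ℕ) f (L p))
    (a b c : E) : D3 (fun q => f (L q)) p a b c = D3 f (L p) (L a) (L b) (L c) := by
  have hf3 : ContDiffAt ℝ (3 : ℕ) f (L p) := hf.of_le (by norm_cast)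
  rw [← fderiv_D2 (contDiffAt_comp_linear L hf3), ← fderiv_D2 hf3]
  have heq : (fun q => D2 (fun q => f (L q)) q b c) =ᶠ[𝓝 p] fun q => D2 f (L q) (L b) (L c) := by
    filter_upwards [L.continuous.continuousAt.eventually (ev_cda hf)] with q h1
    exact D2_linear L h1 b c
  rw [heq.fderiv_eq]
  exact D1_linear (f := fun x => D2 f x (L b) (L c)) L (D2_diff hf3 (L b) (L c)) a

lemma D4_linear {f : F → ℝ} (L : E →L[ℝ] F) {p : E} (hf : ContDiffAt ℝ (4 : ℕ) f (L p))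
    (a b c d : E) : D4 (fun q => f (L q)) p a b c d = D4 f (L p) (L a) (L b) (L c) (L d) := by
  rw [← fderiv_D3 (contDiffAt_comp_linear L hf), ← fderiv_D3 hf]
  have heq : (fun q => D3 (fun q => f (L q)) q b c d) =ᶠ[𝓝 p]
      fun q => D3 f (L q) (L b) (L c) (L d) := by
    filter_upwards [L.continuous.continuousAt.eventually (ev_cda hf)] with q h1
    exact D3_linear L h1 b c d
  rw [heq.fderiv_eq]
  exact D1_linear (f := fun x => D3 f x (L b) (L c) (L d)) L (D3_diff hf (L b) (L c) (L d)) a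

/-! linear combinations -/

lemma D1_lin {f g : E → ℝ} {p : E} (r s : ℝ) (hf : DifferentiableAt ℝ f p)
    (hg : DifferentiableAt ℝ g p) (a : E) :
    D1 (fun q => r * f q + s * g q) p a = r * D1 f p a + s * D1 g p a := by
  have := (hf.hasFDerivAt.const_mul r).add (hg.hasFDerivAt.const_mul s)
  simp only [D1]
  rw [show (fun q => r * f q + s * g q) = ((fun q => r * f q) + fun q => s * g q) from rfl,
    this.fderiv]
  simp only [add_apply, smul_apply, smul_eq_mul]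

lemma contDiffAt_lin {f g : E → ℝ} {p : E} {n : ℕ} (r s : ℝ) (hf : ContDiffAt ℝ (n : ℕ) f p)
    (hg : ContDiffAt ℝ (n : ℕ) g p) : ContDiffAt ℝ (n : ℕ) (fun q => r * f q + s * g q) p :=
  (contDiffAt_const.mul hf).add (contDiffAt_const.mul hg)

lemma D2_lin {f g : E → ℝ} {p : E} (r s : ℝ) (hf : ContDiffAt ℝ (4 : ℕ) f p)
    (hg : ContDiffAt ℝ (4 : ℕ) g p) (a b : E) :
    D2 (fun q => r * f q + s * g q) p a b = r * D2 f p a b + s * D2 g p a b := by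
  have hf2 : ContDiffAt ℝ (2 : ℕ) f p := hf.of_le (by norm_cast)
  have hg2 : ContDiffAt ℝ (2 : ℕ) g p := hg.of_le (by norm_cast)
  rw [← fderiv_D1 (contDiffAt_lin r s hf2 hg2), ← fderiv_D1 hf2, ← fderiv_D1 hg2]
  have heq : (fun q => D1 (fun q => r * f q + s * g q) q b) =ᶠ[𝓝 p]
      fun q => r * D1 f q b + s * D1 g q b := by
    filter_upwards [ev_cda hf, ev_cda hg] with q h1 h2
    exact D1_lin r s (h1.differentiableAt (by norm_cast)) (h2.differentiableAt (by norm_cast)) b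
  rw [heq.fderiv_eq]
  exact D1_lin (f := fun x => D1 f x b) (g := fun x => D1 g x b) r s (D1_diff hf2 b)
    (D1_diff hg2 b) a

lemma D3_lin {f g : E → ℝ} {p : E} (r s : ℝ) (hf : ContDiffAt ℝ (4 : ℕ) f p)
    (hg : ContDiffAt ℝ (4 : ℕ) g p) (a b c : E) :
    D3 (fun q => r * f q + s * g q) p a b c = r * D3 f p a b c + s * D3 g p a b c := by
  have hf3 : ContDiffAt ℝ (3 : ℕ) f p := hf.of_le (by norm_cast)
  have hg3 : ContDiffAt ℝ (3 : ℕ) g p := hg.of_le (by norm_cast)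
  rw [← fderiv_D2 (contDiffAt_lin r s hf3 hg3), ← fderiv_D2 hf3, ← fderiv_D2 hg3]
  have heq : (fun q => D2 (fun q => r * f q + s * g q) q b c) =ᶠ[𝓝 p]
      fun q => r * D2 f q b c + s * D2 g q b c := by
    filter_upwards [ev_cda hf, ev_cda hg] with q h1 h2
    exact D2_lin r s h1 h2 b c
  rw [heq.fderiv_eq]
  exact D1_lin (f := fun x => D2 f x b c) (g := fun x => D2 g x b c) r s (D2_diff hf3 b c)
    (D2_diff hg3 b c) a

lemma D4_lin {f g : E → ℝ} {p : E} (r s : ℝ) (hf : ContDiffAt ℝ (4 : ℕ) f p)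
    (hg : ContDiffAt ℝ (4 : ℕ) g p) (a b c d : E) :
    D4 (fun q => r * f q + s * g q) p a b c d = r * D4 f p a b c d + s * D4 g p a b c d := by
  rw [← fderiv_D3 (contDiffAt_lin r s hf hg), ← fderiv_D3 hf, ← fderiv_D3 hg]
  have heq : (fun q => D3 (fun q => r * f q + s * g q) q b c d) =ᶠ[𝓝 p]
      fun q => r * D3 f q b c d + s * D3 g q b c d := by
    filter_upwards [ev_cda hf, ev_cda hg] with q h1 h2
    exact D3_lin r s h1 h2 b c d
  rw [heq.fderiv_eq]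
  exact D1_lin (f := fun x => D3 f x b c d) (g := fun x => D3 g x b c d) r s (D3_diff hf b c d)
    (D3_diff hg b c d) a

/-! a continuous linear functional -/

lemma D1_clm (L : E →L[ℝ] ℝ) (p a : E) : D1 (fun q => L q) p a = L a := by
  simp [D1]

lemma D2_clm (L : E →L[ℝ] ℝ) (p a b : E) : D2 (fun q => L q) p a b = 0 := by
  have : fderiv ℝ (fun q => L q) = fun _ => L := by
    ext q v
    simp
  simp only [D2, this]
  simp only [fderiv_fun_const, Pi.zero_apply, zero_apply]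

lemma D3_clm (L : E →L[ℝ] ℝ) (p a b c : E) : D3 (fun q => L q) p a b c = 0 := by
  have : fderiv ℝ (fun q => L q) = fun _ => L := by
    ext q v
    simp
  simp only [D3, this]
  simp

lemma D4_clm (L : E →L[ℝ] ℝ) (p a b c d : E) : D4 (fun q => L q) p a b c d = 0 := by
  have : fderiv ℝ (fun q => L q) = fun _ => L := by
    ext q v
    simp
  simp only [D4, this]
  simp only [fderiv_fun_const, fderiv_zero, Pi.zero_apply, zero_apply]

end Lin

section NormSq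

variable {V : Type*} [NormedAddCommGroup V] [InnerProductSpace ℂ V]

/-- The real inner product as a bilinear map. -/
noncomputable def sRL : V →L[ℝ] V →L[ℝ] ℝ :=
  LinearMap.mkContinuous₂ (LinearMap.mk₂ ℝ (fun a b : V => (inner ℂ a b).re)
    (fun a b c => by simp)
    (fun r a b => by
      have : (r • a : V) = ((r : ℂ) • a : V) := by simp
      rw [this, inner_smul_left]
      simp)
    (fun a b c => by simp)
    (fun r a b => by
      have : (r • b : V) = ((r : ℂ) • b : V) := by simp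
      rw [this, inner_smul_right]
      simp)) 1 (fun a b => by
        simp only [LinearMap.mk₂_apply, one_mul, Real.norm_eq_abs]
        exact (Complex.abs_re_le_norm _).trans (norm_inner_le_norm a b))

@[simp] lemma sRL_apply (a b : V) : sRL a b = sR a b := by
  simp [sRL, sR]

lemma sR_symm (a b : V) : sR a b = sR b a := by
  simp only [sR]
  rw [← inner_conj_symm b a, Complex.conj_re]

lemma sR_self (a : V) : sR a a = ‖a‖ ^ 2 := by
  simp only [sR]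
  have := inner_self_eq_norm_sq (𝕜 := ℂ) a
  simpa only [inner_self_eq_norm_sq_to_K, Complex.coe_algebraMap, RCLike.re_to_complex] using this

lemma fderiv_nsq : fderiv ℝ (fun ζ : V => ‖ζ‖ ^ 2) =
    fun ζ => ((2 : ℝ) • (sRL : V →L[ℝ] V →L[ℝ] ℝ)) ζ := by
  funext ζ
  have h : HasFDerivAt (fun ζ : V => sRL ζ ζ) _ ζ :=
    ContinuousLinearMap.hasFDerivAt_of_bilinear (sRL : V →L[ℝ] V →L[ℝ] ℝ) (hasFDerivAt_id ζ)
      (hasFDerivAt_id ζ)
  have h2 : (fun ζ : V => ‖ζ‖ ^ 2) = fun ζ : V => sRL ζ ζ := by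
    funext ζ
    rw [sRL_apply, sR_self]
  rw [h2, h.fderiv]
  ext v
  simp only [ContinuousLinearMap.precompR_apply, ContinuousLinearMap.compL_apply, ContinuousLinearMap.comp_id, add_apply, sRL_apply, ContinuousLinearMap.precompL_apply, ContinuousLinearMap.id_apply, smul_apply, smul_eq_mul]
  rw [sR_symm v ζ]
  ring

lemma D1_nsq (p a : V) : D1 (fun ζ : V => ‖ζ‖ ^ 2) p a = 2 * sR p a := by
  simp only [D1, fderiv_nsq]
  simp

lemma D2_nsq (p a b : V) : D2 (fun ζ : V => ‖ζ‖ ^ 2) p a b = 2 * sR a b := by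
  simp only [D2, fderiv_nsq]
  rw [ContinuousLinearMap.fderiv]
  simp

lemma fderiv2_nsq : fderiv ℝ (fderiv ℝ (fun ζ : V => ‖ζ‖ ^ 2)) =
    fun _ => ((2 : ℝ) • (sRL : V →L[ℝ] V →L[ℝ] ℝ)) := by
  rw [fderiv_nsq]
  funext ζ
  rw [ContinuousLinearMap.fderiv]

lemma D3_nsq (p a b c : V) : D3 (fun ζ : V => ‖ζ‖ ^ 2) p a b c = 0 := by
  simp only [D3, fderiv2_nsq]
  simp only [fderiv_fun_const, Pi.zero_apply, zero_apply]

lemma D4_nsq (p a b c d : V) : D4 (fun ζ : V => ‖ζ‖ ^ 2) p a b c d = 0 := by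
  simp only [D4, fderiv2_nsq]
  simp

lemma contDiffAt_nsq {n : ℕ} (p : V) : ContDiffAt ℝ (n : ℕ) (fun ζ : V => ‖ζ‖ ^ 2) p := by
  have h2 : (fun ζ : V => ‖ζ‖ ^ 2) = fun ζ : V => sRL ζ ζ := by
    funext ζ
    rw [sRL_apply, sR_self]
  rw [h2]
  exact (ContinuousLinearMap.contDiff (sRL : V →L[ℝ] V →L[ℝ] ℝ)).contDiffAt.clm_apply contDiffAt_id

end NormSq

section Der

/-- `-log (1 - t)` at `0`. -/
lemma der4_log : Der4 (fun t => -Real.log (1 - t)) (fun t => (1 - t)⁻¹)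
    (fun t => ((1 - t) ^ 2)⁻¹) (fun t => 2 * ((1 - t) ^ 3)⁻¹) (fun t => 6 * ((1 - t) ^ 4)⁻¹) 0 := by
  have hne : ∀ᶠ s : ℝ in 𝓝 0, 0 < 1 - s := by
    have : ∀ᶠ s : ℝ in 𝓝 0, s < 1 := Iio_mem_nhds one_pos
    filter_upwards [this] with s hs
    linarith only [hs]
  have hd : ∀ s : ℝ, HasDerivAt (fun t : ℝ => 1 - t) (-1) s := fun s => by
    simpa using (hasDerivAt_id s).const_sub 1
  refine ⟨?_, ?_, ?_, ?_, ?_⟩
  · filter_upwards [hne] with s hs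
    refine HasDerivAt.congr_deriv (((hd s).log hs.ne').neg) ?_
    (clear * - hs; field_simp)
  · filter_upwards [hne] with s hs
    refine HasDerivAt.congr_deriv ((hd s).inv hs.ne') ?_
    simp
  · filter_upwards [hne] with s hs
    refine HasDerivAt.congr_deriv (((hd s).pow 2).inv (pow_ne_zero 2 hs.ne')) ?_
    field_simp
    norm_num
    ring
  · filter_upwards [hne] with s hs
    refine HasDerivAt.congr_deriv ((((hd s).pow 3).inv (pow_ne_zero 3 hs.ne')).const_mul 2) ?_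
    field_simp
    norm_num
    ring
  · have : ContDiffAt ℝ (4 : ℕ) (fun t : ℝ => 1 - t) 0 := contDiffAt_const.sub contDiffAt_id
    exact (this.log (by norm_num)).neg

/-- `Lf` at a negative point. -/
lemma der4_Lf {y : ℝ} (hy : y < 0) : Der4 Lf (fun t => Real.exp t / (1 - Real.exp t))
    (fun t => Real.exp t / (1 - Real.exp t) ^ 2)
    (fun t => Real.exp t * (1 + Real.exp t) / (1 - Real.exp t) ^ 3)
    (fun t => Real.exp t * (1 + 4 * Real.exp t + Real.exp t ^ 2) / (1 - Real.exp t) ^ 4) y := by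
  have hne : ∀ᶠ s : ℝ in 𝓝 y, 0 < 1 - Real.exp s := by
    have : ∀ᶠ s : ℝ in 𝓝 y, s < 0 := Iio_mem_nhds hy
    filter_upwards [this] with s hs
    have := Real.exp_lt_one_iff.2 hs
    linarith only [this]
  have he : ∀ s : ℝ, HasDerivAt Real.exp (Real.exp s) s := Real.hasDerivAt_exp
  have hd : ∀ s : ℝ, HasDerivAt (fun t : ℝ => 1 - Real.exp t) (-Real.exp s) s := fun s => by
    simpa only using (he s).const_sub 1
  refine ⟨?_, ?_, ?_, ?_, ?_⟩
  · filter_upwards [hne] with s hs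
    refine HasDerivAt.congr_deriv (((hd s).log hs.ne').neg) ?_
    (clear * - hs; field_simp)
  · filter_upwards [hne] with s hs
    refine HasDerivAt.congr_deriv ((he s).div (hd s) hs.ne') ?_
    field_simp
    ring
  · filter_upwards [hne] with s hs
    refine HasDerivAt.congr_deriv ((he s).div ((hd s).pow 2) (pow_ne_zero 2 hs.ne')) ?_
    field_simp
    ring
  · filter_upwards [hne] with s hs
    refine HasDerivAt.congr_deriv (((he s).mul ((he s).const_add 1)).div ((hd s).pow 3)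
      (pow_ne_zero 3 hs.ne')) ?_
    simp only [Pi.mul_apply]
    field_simp
    ring
  · have h1 : ContDiffAt ℝ (4 : ℕ) (fun t : ℝ => 1 - Real.exp t) y :=
      contDiffAt_const.sub Real.contDiff_exp.contDiffAt
    have := Real.exp_lt_one_iff.2 hy
    exact (h1.log (by linarith)).neg

end Der

section Phat

variable {V : Type*} [NormedAddCommGroup V] [InnerProductSpace ℂ V]

/-- the projection to `V` -/
noncomputable def prV : V × ℂ →L[ℝ] V := ContinuousLinearMap.fst ℝ V ℂ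

@[simp] lemma prV_apply (q : V × ℂ) : prV q = q.1 := rfl

/-- twice the real part of the fibre coordinate -/
noncomputable def reF : V × ℂ →L[ℝ] ℝ :=
  (2 : ℝ) • Complex.reCLM.comp (ContinuousLinearMap.snd ℝ V ℂ)

@[simp] lemma reF_apply (q : V × ℂ) : (reF q : ℝ) = 2 * q.2.re := rfl

/-- the squared norm of the base variable -/
noncomputable def tf (q : V × ℂ) : ℝ := ‖q.1‖ ^ 2

/-- the logarithm of the fibre variable -/
noncomputable def yf (χ : V → ℝ) (q : V × ℂ) : ℝ := 1 * reF q + 2 * χ (prV q)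

lemma reF_smooth (p : V × ℂ) : ContDiffAt ℝ (4 : ℕ) (fun q : V × ℂ => reF (V := V) q) p :=
  (reF (V := V)).contDiff.contDiffAt

lemma tf_smooth (p : V × ℂ) : ContDiffAt ℝ (4 : ℕ) (tf (V := V)) p :=
  contDiffAt_comp_linear (f := fun ζ : V => ‖ζ‖ ^ 2) prV (contDiffAt_nsq _)

lemma yf_smooth {χ : V → ℝ} {p : V × ℂ} (hχ : ContDiffAt ℝ (4 : ℕ) χ p.1) :
    ContDiffAt ℝ (4 : ℕ) (yf χ) p :=
  contDiffAt_lin (f := fun q : V × ℂ => reF (V := V) q) (g := fun q => χ (prV q)) 1 2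
    (reF_smooth _) (contDiffAt_comp_linear (f := χ) prV hχ)

lemma D1_tf (p a : V × ℂ) : D1 (tf (V := V)) p a = 2 * sR p.1 a.1 :=
  (D1_linear (f := fun ζ : V => ‖ζ‖ ^ 2) prV
    ((contDiffAt_nsq (n := 1) _).differentiableAt (by norm_cast)) a).trans (D1_nsq _ _)

lemma D2_tf (p a b : V × ℂ) : D2 (tf (V := V)) p a b = 2 * sR a.1 b.1 :=
  (D2_linear (f := fun ζ : V => ‖ζ‖ ^ 2) prV (contDiffAt_nsq _) a b).trans (D2_nsq _ _ _)

lemma D3_tf (p a b c : V × ℂ) : D3 (tf (V := V)) p a b c = 0 :=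
  (D3_linear (f := fun ζ : V => ‖ζ‖ ^ 2) prV (contDiffAt_nsq _) a b c).trans (D3_nsq _ _ _ _)

lemma D4_tf (p a b c d : V × ℂ) : D4 (tf (V := V)) p a b c d = 0 :=
  (D4_linear (f := fun ζ : V => ‖ζ‖ ^ 2) prV (contDiffAt_nsq _) a b c d).trans
    (D4_nsq _ _ _ _ _)

lemma D1_yf {χ : V → ℝ} {p : V × ℂ} (hχ : ContDiffAt ℝ (4 : ℕ) χ p.1) (a : V × ℂ) :
    D1 (yf χ) p a = 2 * a.2.re + 2 * D1 χ p.1 a.1 := by
  unfold yf
  rw [D1_lin (f := fun q : V × ℂ => reF (V := V) q) (g := fun q => χ (prV q)) 1 2 ((reF_smooth _).differentiableAt (by norm_cast))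
    ((contDiffAt_comp_linear (f := χ) prV hχ).differentiableAt (by norm_cast)), D1_clm,
    D1_linear (f := χ) prV (hχ.differentiableAt (by norm_cast))]
  simp only [reF_apply, one_mul, prV_apply]

lemma D2_yf {χ : V → ℝ} {p : V × ℂ} (hχ : ContDiffAt ℝ (4 : ℕ) χ p.1) (a b : V × ℂ) :
    D2 (yf χ) p a b = 2 * D2 χ p.1 a.1 b.1 := by
  unfold yf
  rw [D2_lin (f := fun q : V × ℂ => reF (V := V) q) (g := fun q => χ (prV q)) 1 2 (reF_smooth _)
    (contDiffAt_comp_linear (f := χ) prV hχ), D2_clm,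
    D2_linear (f := χ) prV hχ]
  simp only [mul_zero, prV_apply, zero_add]

lemma D3_yf {χ : V → ℝ} {p : V × ℂ} (hχ : ContDiffAt ℝ (4 : ℕ) χ p.1) (a b c : V × ℂ) :
    D3 (yf χ) p a b c = 2 * D3 χ p.1 a.1 b.1 c.1 := by
  unfold yf
  rw [D3_lin (f := fun q : V × ℂ => reF (V := V) q) (g := fun q => χ (prV q)) 1 2 (reF_smooth _)
    (contDiffAt_comp_linear (f := χ) prV hχ), D3_clm,
    D3_linear (f := χ) prV hχ]
  simp only [mul_zero, prV_apply, zero_add]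

lemma D4_yf {χ : V → ℝ} {p : V × ℂ} (hχ : ContDiffAt ℝ (4 : ℕ) χ p.1) (a b c d : V × ℂ) :
    D4 (yf χ) p a b c d = 2 * D4 χ p.1 a.1 b.1 c.1 d.1 := by
  unfold yf
  rw [D4_lin (f := fun q : V × ℂ => reF (V := V) q) (g := fun q => χ (prV q)) 1 2 (reF_smooth _)
    (contDiffAt_comp_linear (f := χ) prV hχ), D4_clm,
    D4_linear (f := χ) prV hχ]
  simp only [mul_zero, prV_apply, zero_add]

lemma Phat_eq (δ : ℝ) (χ : V → ℝ) :
    Phat δ χ = fun q => 1 * (fun t => -Real.log (1 - t)) (tf q) + δ * Lf (yf χ q) := by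
  funext q
  simp only [Phat, tf, mul_neg, one_mul, yf, reF_apply, prV_apply]

lemma phat_jets {δ : ℝ} {χ : V → ℝ} (hχ : ContDiffAt ℝ (4 : ℕ) χ 0) (hd : fderiv ℝ χ 0 = 0)
    {ξ0 : ℂ} (hξ : 2 * ξ0.re + 2 * χ 0 < 0) :
    ContDiffAt ℝ (4 : ℕ) (Phat δ χ) ((0 : V), ξ0) ∧ ∃ u : ℝ, 0 < u ∧
    (∀ X Y, D2 (Phat δ χ) ((0 : V), ξ0) X Y = D2P δ u (fderiv ℝ (fderiv ℝ χ) 0) X Y) ∧
    (∀ X Y Z, D3 (Phat δ χ) ((0 : V), ξ0) X Y Z
      = D3P δ u (fderiv ℝ (fderiv ℝ χ) 0) (fderiv ℝ (fderiv ℝ (fderiv ℝ χ)) 0) X Y Z) ∧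
    (∀ X Y Z W, D4 (Phat δ χ) ((0 : V), ξ0) X Y Z W
      = D4P δ u (fderiv ℝ (fderiv ℝ χ) 0) (fderiv ℝ (fderiv ℝ (fderiv ℝ χ)) 0)
        (fderiv ℝ (fderiv ℝ (fderiv ℝ (fderiv ℝ χ))) 0) X Y Z W) := by
  set p : V × ℂ := ((0 : V), ξ0) with hp
  have hp1 : p.1 = 0 := rfl
  have hχ' : ContDiffAt ℝ (4 : ℕ) χ p.1 := hχ
  have ht0 : tf p = 0 := by simp [tf, hp1]
  have hy0 : yf χ p = 2 * ξ0.re + 2 * χ 0 := by simp only [yf, hp, reF_apply, one_mul, prV_apply]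
  have hyneg : yf χ p < 0 := by rw [hy0]; exact hξ
  have hderT : Der4 (fun t => -Real.log (1 - t)) (fun t => (1 - t)⁻¹)
    (fun t => ((1 - t) ^ 2)⁻¹) (fun t => 2 * ((1 - t) ^ 3)⁻¹) (fun t => 6 * ((1 - t) ^ 4)⁻¹)
    (tf p) := by rw [ht0]; exact der4_log
  have hderY := der4_Lf hyneg
  have hT := tf_smooth p
  have hY := yf_smooth hχ'
  have hTc : ContDiffAt ℝ (4 : ℕ) (fun q => (fun t => -Real.log (1 - t)) (tf q)) p :=
    comp_contDiffAt (L := fun t => -Real.log (1 - t)) hderT.smooth hT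
  have hYc : ContDiffAt ℝ (4 : ℕ) (fun q => Lf (yf χ q)) p := comp_contDiffAt hderY.smooth hY
  have hs : ∀ a b : V × ℂ, D2 (Phat δ χ) p a b =
      1 * D2 (fun q => (fun t => -Real.log (1 - t)) (tf q)) p a b
        + δ * D2 (fun q => Lf (yf χ q)) p a b := fun a b => by
    rw [Phat_eq]
    exact D2_lin 1 δ hTc hYc a b
  have hs3 : ∀ a b c : V × ℂ, D3 (Phat δ χ) p a b c =
      1 * D3 (fun q => (fun t => -Real.log (1 - t)) (tf q)) p a b c
        + δ * D3 (fun q => Lf (yf χ q)) p a b c := fun a b c => by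
    rw [Phat_eq]
    exact D3_lin 1 δ hTc hYc a b c
  have hs4 : ∀ a b c d : V × ℂ, D4 (Phat δ χ) p a b c d =
      1 * D4 (fun q => (fun t => -Real.log (1 - t)) (tf q)) p a b c d
        + δ * D4 (fun q => Lf (yf χ q)) p a b c d := fun a b c d => by
    rw [Phat_eq]
    exact D4_lin 1 δ hTc hYc a b c d
  have he : Real.exp (yf χ p) < 1 := Real.exp_lt_one_iff.2 hyneg
  have he0 : 0 < Real.exp (yf χ p) := Real.exp_pos _
  set e := Real.exp (yf χ p) with hedef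
  have h1e : 0 < 1 - e := by linarith only [he]
  have hd1 : ∀ a : V, D1 χ (0 : V) a = 0 := fun a => by simp [D1, hd]
  have ht1 : ∀ a : V × ℂ, D1 (tf (V := V)) p a = 0 := fun a => by
    rw [D1_tf, hp1]
    simp [sR]
  have hy1 : ∀ a : V × ℂ, D1 (yf χ) p a = 2 * a.2.re := fun a => by
    rw [D1_yf hχ', hp1, hd1]
    ring
  refine ⟨?_, e / (1 - e), div_pos he0 h1e, fun X Y => ?_, fun X Y Z => ?_, fun X Y Z W => ?_⟩
  · rw [Phat_eq]
    exact contDiffAt_lin 1 δ hTc hYc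
  · rw [hs, D2_comp hderT hT, D2_comp hderY hY]
    simp only [ht1, hy1, D2_tf, D2_yf hχ', ht0]
    simp only [D2P, D2, ← hedef, hp1]
    field_simp
    ring
  · rw [hs3, D3_comp hderT hT, D3_comp hderY hY]
    simp only [ht0, ht1, D2_tf, D3_tf, hy1, D2_yf hχ', D3_yf hχ']
    simp only [D3P, D2, D3, ← hedef, hp1]
    field_simp
    ring
  · rw [hs4, D4_comp hderT hT, D4_comp hderY hY]
    simp only [ht0, ht1, D2_tf, D3_tf, D4_tf, hy1, D2_yf hχ', D3_yf hχ', D4_yf hχ']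
    simp only [D4P, D2, D3, D4, ← hedef, hp1]
    field_simp
    ring

end Phat

end Vale.Agent.P250
end
end
end

section

section

section

/-! Symmetry of the higher derivatives, derivatives of the Levi form metric, and invariance of
the curvature numerator. -/

set_option maxSynthPendingDepth 3

namespace Vale.Agent.P250

open Set Filter Topology

section Symm

variable {E : Type*} [NormedAddCommGroup E] [NormedSpace ℝ E] {f : E → ℝ} {p : E}

lemma D2_symm (hf : ContDiffAt ℝ (2 : ℕ) f p) (a b : E) : D2 f p a b = D2 f p b a :=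
  hf.isSymmSndFDerivAt (by simp) a b

lemma D3_symm12 (hf : ContDiffAt ℝ (3 : ℕ) f p) (a b c : E) : D3 f p a b c = D3 f p b a c := by
  have h1 : ContDiffAt ℝ (2 : ℕ) (fderiv ℝ f) p := contDiffAt_fderiv_of hf
  exact congrArg (fun L : E →L[ℝ] ℝ => L c) (h1.isSymmSndFDerivAt (by simp) a b)

lemma D3_symm23 (hf : ContDiffAt ℝ (3 : ℕ) f p) (a b c : E) : D3 f p a b c = D3 f p a c b := by
  rw [← fderiv_D2 hf, ← fderiv_D2 hf]
  congr 1
  refine Filter.EventuallyEq.fderiv_eq ?_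
  filter_upwards [ev_cda hf] with q hq
  exact D2_symm (hq.of_le (by norm_cast)) b c

lemma D4_symm12 (hf : ContDiffAt ℝ (4 : ℕ) f p) (a b c d : E) :
    D4 f p a b c d = D4 f p b a c d := by
  have h1 : ContDiffAt ℝ (2 : ℕ) (fderiv ℝ (fderiv ℝ f)) p :=
    contDiffAt_fderiv_of (contDiffAt_fderiv_of hf)
  exact congrArg (fun L : E →L[ℝ] E →L[ℝ] ℝ => L c d) (h1.isSymmSndFDerivAt (by simp) a b)

lemma D4_symm23 (hf : ContDiffAt ℝ (4 : ℕ) f p) (a b c d : E) :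
    D4 f p a b c d = D4 f p a c b d := by
  rw [← fderiv_D3 hf, ← fderiv_D3 hf]
  congr 1
  refine Filter.EventuallyEq.fderiv_eq ?_
  filter_upwards [ev_cda hf] with q hq
  exact D3_symm12 (hq.of_le (by norm_cast)) b c d

lemma D4_symm34 (hf : ContDiffAt ℝ (4 : ℕ) f p) (a b c d : E) :
    D4 f p a b c d = D4 f p a b d c := by
  rw [← fderiv_D3 hf, ← fderiv_D3 hf]
  congr 1
  refine Filter.EventuallyEq.fderiv_eq ?_
  filter_upwards [ev_cda hf] with q hq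
  exact D3_symm23 (hq.of_le (by norm_cast)) b c d

/-- exchange of the first and the second pair of arguments -/
lemma D4_symm_pair (hf : ContDiffAt ℝ (4 : ℕ) f p) (a b c d : E) :
    D4 f p a b c d = D4 f p c d a b := by
  rw [D4_symm23 hf a b c d, D4_symm12 hf a c b d, D4_symm34 hf c a b d, D4_symm23 hf c a d b]

end Symm

section GP

variable {E : Type*} [NormedAddCommGroup E] [NormedSpace ℂ E] {P : E → ℝ} {p : E}

lemma gP_eq_D2 (P : E → ℝ) (p X Y : E) :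
    gP P p X Y = (1 / 4) * (D2 P p X Y + D2 P p (Complex.I • X) (Complex.I • Y)) :=
  gP_apply P p X Y

lemma gP_symm (hP : ContDiffAt ℝ (2 : ℕ) P p) (X Y : E) : gP P p X Y = gP P p Y X := by
  rw [gP_eq_D2, gP_eq_D2, D2_symm hP X Y, D2_symm hP (Complex.I • X)]

lemma contDiffAt_gP {n : ℕ} (hP : ContDiffAt ℝ ((n + 2 : ℕ) : WithTop ℕ∞) P p) :
    ContDiffAt ℝ (n : ℕ) (gP P) p := by
  have h1 : ContDiffAt ℝ (n : ℕ) (fderiv ℝ (fderiv ℝ P)) p :=
    contDiffAt_fderiv_of (contDiffAt_fderiv_of hP)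
  have h2 : ContDiffAt ℝ (n : ℕ)
      (fun q => (fderiv ℝ (fderiv ℝ P) q).bilinearComp (Jc : E →L[ℝ] E) Jc) p :=
    contDiffAt_pullback (D := fun _ => (Jc : E →L[ℝ] E)) h1 contDiffAt_const
      (Filter.Eventually.of_forall fun q X Y => rfl)
  exact (h1.add h2).const_smul (1 / 4 : ℝ)

lemma fderiv_gP_D3 (hP : ContDiffAt ℝ (3 : ℕ) P p) (X Y Z : E) :
    fderiv ℝ (gP P) p X Y Z =
      (1 / 4) * (D3 P p X Y Z + D3 P p X (Complex.I • Y) (Complex.I • Z)) := by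
  have h1 : DifferentiableAt ℝ (gP P) p :=
    (contDiffAt_gP (n := 1) hP).differentiableAt (by norm_cast)
  rw [← fderiv_c2 h1]
  have h2 : (fun q => gP P q Y Z) = fun q =>
      (1 / 4 : ℝ) * (D2 P q Y Z + D2 P q (Complex.I • Y) (Complex.I • Z)) :=
    funext fun q => gP_eq_D2 P q Y Z
  rw [h2, fderiv_const_mul ((D2_diff hP _ _).fun_add (D2_diff hP _ _)),
    fderiv_fun_add (D2_diff hP _ _) (D2_diff hP _ _)]
  simp only [_root_.smul_apply, _root_.add_apply, smul_eq_mul, fderiv_D2 hP]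

lemma fderiv2_gP (hP : ContDiffAt ℝ (4 : ℕ) P p) (X Y Z W : E) :
    fderiv ℝ (fderiv ℝ (gP P)) p X Y Z W =
      (1 / 4) * (D4 P p X Y Z W + D4 P p X Y (Complex.I • Z) (Complex.I • W)) := by
  have h0 : ContDiffAt ℝ (2 : ℕ) (gP P) p := contDiffAt_gP (n := 2) hP
  have h1 : DifferentiableAt ℝ (fderiv ℝ (gP P)) p :=
    (contDiffAt_fderiv_of (n := 1) h0).differentiableAt (by norm_cast)
  rw [← fderiv_c3 h1]
  have h2 : (fun q => fderiv ℝ (gP P) q Y Z W) =ᶠ[𝓝 p] fun q =>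
      (1 / 4 : ℝ) * (D3 P q Y Z W + D3 P q Y (Complex.I • Z) (Complex.I • W)) := by
    filter_upwards [ev_cda hP] with q hq
    exact fderiv_gP_D3 (hq.of_le (by norm_cast)) Y Z W
  rw [h2.fderiv_eq, fderiv_const_mul ((D3_diff hP _ _ _).fun_add (D3_diff hP _ _ _)),
    fderiv_fun_add (D3_diff hP _ _ _) (D3_diff hP _ _ _)]
  simp only [_root_.smul_apply, _root_.add_apply, smul_eq_mul, fderiv_D3 hP]

lemma fderiv2_gP_symm12 (hP : ContDiffAt ℝ (4 : ℕ) P p) (X Y Z W : E) :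
    fderiv ℝ (fderiv ℝ (gP P)) p X Y Z W = fderiv ℝ (fderiv ℝ (gP P)) p Y X Z W := by
  rw [fderiv2_gP hP, fderiv2_gP hP, D4_symm12 hP X Y Z W, D4_symm12 hP X Y]

lemma fderiv2_gP_symm34 (hP : ContDiffAt ℝ (4 : ℕ) P p) (X Y Z W : E) :
    fderiv ℝ (fderiv ℝ (gP P)) p X Y Z W = fderiv ℝ (fderiv ℝ (gP P)) p X Y W Z := by
  rw [fderiv2_gP hP, fderiv2_gP hP, D4_symm34 hP X Y Z W, D4_symm34 hP X Y (Complex.I • Z)]

/-- The curvature numerator of a Levi form metric. -/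
lemma num_gP (hP : ContDiffAt ℝ (4 : ℕ) P p) (A : E → E → E) (X Y : E) :
    num (gP P) p A X Y =
      -((1 / 8) * (D4 P p X X (Complex.I • Y) (Complex.I • Y)
          + D4 P p Y Y (Complex.I • X) (Complex.I • X)
          - 2 * D4 P p X Y (Complex.I • X) (Complex.I • Y))
        - gP P p (A X Y) (A X Y) + gP P p (A X X) (A Y Y)) := by
  simp only [num]
  rw [fderiv2_gP hP, fderiv2_gP hP, fderiv2_gP hP]
  have e1 : D4 P p X X Y Y = D4 P p X Y X Y := D4_symm23 hP X X Y Y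
  have e2 : D4 P p Y Y X X = D4 P p X Y X Y := by
    rw [← e1, D4_symm_pair hP]
  rw [e1, e2]
  ring

end GP

section Invariance

variable {E : Type*} [NormedAddCommGroup E] [NormedSpace ℝ E]
  {g : E → E →L[ℝ] E →L[ℝ] ℝ} {p : E} {A : E → E → E}

lemma num_add_smul (hs : ∀ X Y, g p X Y = g p Y X)
    (h12 : ∀ X Y Z W, fderiv ℝ (fderiv ℝ g) p X Y Z W = fderiv ℝ (fderiv ℝ g) p Y X Z W)
    (h34 : ∀ X Y Z W, fderiv ℝ (fderiv ℝ g) p X Y Z W = fderiv ℝ (fderiv ℝ g) p X Y W Z)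
    (hA : ∀ X Y, A X Y = A Y X) (hadd : ∀ X Y Z, A X (Y + Z) = A X Y + A X Z)
    (hsmul : ∀ (r : ℝ) (X Y : E), A X (r • Y) = r • A X Y) (r : ℝ) (X Y : E) :
    num g p A X (Y + r • X) = num g p A X Y := by
  have hadd' : ∀ X Y Z, A (X + Y) Z = A X Z + A Y Z := by
    intro X Y Z
    rw [hA, hadd, hA Z X, hA Z Y]
  have hsmul' : ∀ (r : ℝ) (X Y : E), A (r • X) Y = r • A X Y := by
    intro r X Y
    rw [hA, hsmul, hA Y X]
  simp only [num, hadd, hsmul, hadd', hsmul', map_add, map_smul, _root_.add_apply,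
    _root_.smul_apply, smul_eq_mul]
  have e1 := h12 Y X X X
  have e2 := h34 X X Y X
  have e3 := hA Y X
  have e4 := hs (A X Y) (A X X)
  rw [e3]
  rw [e1, e2, e4]
  ring

lemma area_add_smul (hs : ∀ X Y, g p X Y = g p Y X) (r : ℝ) (X Y : E) :
    area g p X (Y + r • X) = area g p X Y := by
  simp only [area, map_add, map_smul, _root_.add_apply, _root_.smul_apply, smul_eq_mul]
  rw [hs Y X]
  ring

end Invariance

end Vale.Agent.P250
end
end
end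

section

section

section

/-! Pinching of the curvature at a normalised point. -/

set_option maxSynthPendingDepth 3

namespace Vale.Agent.P250

open Complex

section Point

variable {V : Type*} [NormedAddCommGroup V] [InnerProductSpace ℂ V]

variable {δ u : ℝ} {D : AlgData V δ u} {ε C0 C3 : ℝ}

lemma AlgData.AA_comm (hB : D.Bounds ε C0 C3) (hε : 0 ≤ ε) (hδ : 0 ≤ δ) (hu : 0 ≤ u)
    (X Y : V × ℂ) : D.AA X Y = D.AA Y X := by
  simp only [AlgData.AA]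
  rw [AlgData.C_symm hB hε hδ hu X.1 Y.1, add_comm (Y.2 • X.1), mul_comm X.2]

lemma AlgData.AA_add (hB : D.Bounds ε C0 C3) (hε : 0 ≤ ε) (hδ : 0 ≤ δ) (hu : 0 ≤ u)
    (X Y Z : V × ℂ) : D.AA X (Y + Z) = D.AA X Y + D.AA X Z := by
  simp only [AlgData.AA, Prod.fst_add, Prod.snd_add, Prod.mk_add_mk]
  rw [AlgData.C_add_right hB hε hδ hu]
  refine Prod.ext ?_ ?_
  · simp only [add_smul, smul_add, map_add]
    abel
  · simp only
    ring

lemma AlgData.AA_smul (hB : D.Bounds ε C0 C3) (hε : 0 ≤ ε) (hδ : 0 ≤ δ) (hu : 0 ≤ u)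
    (r : ℝ) (X Y : V × ℂ) : D.AA X (r • Y) = r • D.AA X Y := by
  simp only [AlgData.AA, Prod.smul_fst, Prod.smul_snd, Prod.smul_mk]
  rw [AlgData.C_smul_right hB hε hδ hu]
  refine Prod.ext ?_ ?_
  · simp only
    rw [smul_comm X.2 r Y.1, smul_assoc r Y.2 X.1, ← smul_add, map_smul, smul_add,
      smul_comm (2 * δ * (u + u ^ 2)) r, smul_comm (2 * δ * u) r]
  · simp only [Complex.real_smul]
    ring

lemma quartic_bound {C4 : ℝ} (c4 : V →L[ℝ] V →L[ℝ] V →L[ℝ] V →L[ℝ] ℝ)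
    (h : ∀ X Y Z W : V, |c4 X Y Z W| ≤ C4 * ‖X‖ * ‖Y‖ * ‖Z‖ * ‖W‖) (X Y : V) :
    |(1 / 8) * (c4 X X (I • Y) (I • Y)
      + c4 Y Y (I • X) (I • X) - 2 * c4 X Y (I • X) (I • Y))| ≤ C4 / 2 * ‖X‖ ^ 2 * ‖Y‖ ^ 2 := by
  have hI : ∀ W : V, ‖I • W‖ = ‖W‖ := fun W => by rw [norm_smul]; simp
  have d1 := abs_le.1 (h X X (I • Y) (I • Y))
  have d2 := abs_le.1 (h Y Y (I • X) (I • X))
  have d3 := abs_le.1 (h X Y (I • X) (I • Y))
  simp only [hI] at d1 d2 d3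
  have e1 : C4 * ‖X‖ * ‖X‖ * ‖Y‖ * ‖Y‖ = C4 * ‖X‖ ^ 2 * ‖Y‖ ^ 2 := by ring
  have e2 : C4 * ‖Y‖ * ‖Y‖ * ‖X‖ * ‖X‖ = C4 * ‖X‖ ^ 2 * ‖Y‖ ^ 2 := by ring
  have e3 : C4 * ‖X‖ * ‖Y‖ * ‖X‖ * ‖Y‖ = C4 * ‖X‖ ^ 2 * ‖Y‖ ^ 2 := by ring
  have e4 : C4 / 2 * ‖X‖ ^ 2 * ‖Y‖ ^ 2 = (C4 * ‖X‖ ^ 2 * ‖Y‖ ^ 2) / 2 := by ring
  rw [e1] at d1
  rw [e2] at d2
  rw [e3] at d3
  rw [e4, abs_le]
  constructor <;> linarith only [d1, d2, d3]

/-- everything in terms of the algebraic data -/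
theorem point_data [FiniteDimensional ℂ V] {ε0 C0 C3 C4 : ℝ} (h0 : 0 < ε0) {χ : V → ℝ}
    (hχ : NormalJet ε0 C0 C3 C4 χ) {δ : ℝ} (hδ : 0 < δ) {ξ0 : ℂ}
    (hξ : 2 * ξ0.re + 2 * χ 0 < 0) :
    ContDiffAt ℝ (4 : ℕ) (Phat δ χ) ((0 : V), ξ0) ∧
    ∃ u : ℝ, 0 < u ∧ ∃ D : AlgData V δ u, D.Bounds (ε0 / 2) (C0 / 2) (C3 / 2) ∧
      (∀ X Y, gP (Phat δ χ) ((0 : V), ξ0) X Y = D.gg X.1 Y.1 X.2 Y.2) ∧
      KoszulAt (gP (Phat δ χ)) ((0 : V), ξ0) D.AA ∧
      (∀ X Y, ∃ N4 : ℝ, |N4| ≤ C4 / 2 * ‖X.1‖ ^ 2 * ‖Y.1‖ ^ 2 ∧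
        num (gP (Phat δ χ)) ((0 : V), ξ0) D.AA X Y = - D.NN N4 X.1 Y.1 X.2 Y.2) := by
  have hχ4 : ContDiffAt ℝ (4 : ℕ) χ 0 := hχ.smooth.of_le (by norm_cast)
  have hχ3 : ContDiffAt ℝ (3 : ℕ) χ 0 := hχ4.of_le (by norm_cast)
  have hχ2 : ContDiffAt ℝ (2 : ℕ) χ 0 := hχ4.of_le (by norm_cast)
  obtain ⟨hsm, u, hu, e2, e3, e4⟩ := phat_jets (δ := δ) hχ4 hχ.d1 hξ
  obtain ⟨D, hβ, hγ, hB⟩ := exists_algData χ ε0 C0 C3 C4 h0 hχ δ u hδ hu
  have hsm3 : ContDiffAt ℝ (3 : ℕ) (Phat δ χ) ((0 : V), ξ0) := hsm.of_le (by norm_cast)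
  have hγ' : ∀ X Y Z, D.γ X Y Z = (1 / 8) * (fderiv ℝ (fderiv ℝ (fderiv ℝ χ)) 0 X Y Z
      - fderiv ℝ (fderiv ℝ (fderiv ℝ χ)) 0 (I • X) (I • Y) Z
      + fderiv ℝ (fderiv ℝ (fderiv ℝ χ)) 0 X (I • Y) (I • Z)
      + fderiv ℝ (fderiv ℝ (fderiv ℝ χ)) 0 (I • X) Y (I • Z)) := hγ
  have s2 : ∀ X Y, fderiv ℝ (fderiv ℝ χ) 0 X Y = fderiv ℝ (fderiv ℝ χ) 0 Y X :=
    fun X Y => D2_symm hχ2 X Y
  have s3 : ∀ X Y Z, fderiv ℝ (fderiv ℝ (fderiv ℝ χ)) 0 X Y Z
      = fderiv ℝ (fderiv ℝ (fderiv ℝ χ)) 0 Y X Z := fun X Y Z => D3_symm12 hχ3 X Y Z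
  have s3' : ∀ X Y Z, fderiv ℝ (fderiv ℝ (fderiv ℝ χ)) 0 X Y Z
      = fderiv ℝ (fderiv ℝ (fderiv ℝ χ)) 0 X Z Y := fun X Y Z => D3_symm23 hχ3 X Y Z
  have hg : ∀ X Y, gP (Phat δ χ) ((0 : V), ξ0) X Y = gA δ u (fderiv ℝ (fderiv ℝ χ) 0) X Y :=
    fun X Y => by
      rw [gP_eq_D2, e2, e2]
      rfl
  have hKJ : ∀ X, D.K (I • X) = I • D.K X := AlgData.K_I hB (by positivity) hδ.le hu.le
  refine ⟨hsm, u, hu, D, hB, fun X Y => ?_, fun X Y Z => ?_, fun X Y => ?_⟩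
  · rw [hg, gA_eq D _ hβ]
  · rw [fderiv_gP_D3 hsm3, fderiv_gP_D3 hsm3, fderiv_gP_D3 hsm3, hg, koszul_AA D _ _ hβ hγ' s2 hχ.pure2
      s3 s3']
    simp only [e3]
    rfl
  · refine ⟨_, quartic_bound _ hχ.d4 X.1 Y.1, ?_⟩
    rw [num_gP hsm, hg, hg, e4, e4, e4, ← num_AA D _ _ _ hβ hγ' s3 s3' hKJ X Y]

lemma AlgData.gg_self_ge (hB : D.Bounds ε C0 C3) (hε : 0 ≤ ε) (hδ : 0 ≤ δ) (hu : 0 ≤ u)
    (X : V) (x : ℂ) : ‖X‖ ^ 2 + δ * (u + u ^ 2) * ‖x‖ ^ 2 ≤ D.gg X X x x := by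
  simp only [AlgData.gg]
  have h1 := AlgData.le_h hB hε hδ hu X
  have h2 : (x * (starRingEnd ℂ) x).re = ‖x‖ ^ 2 := by
    rw [Complex.mul_conj, Complex.ofReal_re, Complex.normSq_eq_norm_sq]
  rw [h2]
  linarith only [h1]

lemma AlgData.eq_zero_of_gg (hB : D.Bounds ε C0 C3) (hε : 0 ≤ ε) (hδ : 0 < δ) (hu : 0 < u)
    (X : V × ℂ) (h : D.gg X.1 X.1 X.2 X.2 = 0) : X = 0 := by
  have hX' := AlgData.gg_self_ge hB hε hδ.le hu.le X.1 X.2
  rw [h] at hX'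
  have hΘ : 0 < δ * (u + u ^ 2) := by positivity
  have h1 : 0 ≤ δ * (u + u ^ 2) * ‖X.2‖ ^ 2 := by positivity
  have g1 : ‖X.1‖ ^ 2 = 0 := le_antisymm (by linarith only [hX', h1]) (sq_nonneg _)
  have g2 : δ * (u + u ^ 2) * ‖X.2‖ ^ 2 = 0 := le_antisymm (by linarith only [hX', g1]) h1
  have g3 : ‖X.2‖ ^ 2 = 0 := by
    rcases mul_eq_zero.1 g2 with h | h
    · exact absurd h hΘ.ne'
    · exact h
  exact Prod.ext (norm_eq_zero.1 (pow_eq_zero_iff (two_ne_zero) |>.1 g1))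
    (norm_eq_zero.1 (pow_eq_zero_iff (two_ne_zero) |>.1 g3))

theorem point_pinching_of [FiniteDimensional ℂ V]
    (alg_lower : ∀ (ε C0 C3 C4 : ℝ), 0 < ε → 0 < C0 → 0 < C3 → 0 < C4 →
      ∃ δ0 > 0, ∀ δ, 0 < δ → δ < δ0 → ∃ a > 0, ∀ u > 0, ∀ D : AlgData V δ u,
      D.Bounds ε C0 C3 → ∀ (N4 : ℝ) (X Y : V) (x y : ℂ), |N4| ≤ C4 * ‖X‖ ^ 2 * ‖Y‖ ^ 2 →
      rip X Y = 0 → a * D.ar X Y x y ≤ D.NN N4 X Y x y)
    (alg_upper : ∀ (ε C0 C3 C4 : ℝ), 0 < ε → 0 < C0 → 0 < C3 → 0 < C4 →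
      ∀ (δ : ℝ), 0 < δ → ∃ b > 0, ∀ u > 0, ∀ D : AlgData V δ u,
      D.Bounds ε C0 C3 → ∀ (N4 : ℝ) (X Y : V) (x y : ℂ), |N4| ≤ C4 * ‖X‖ ^ 2 * ‖Y‖ ^ 2 →
      D.gg X Y x y = 0 → D.NN N4 X Y x y ≤ b * D.ar X Y x y)
    (ε0 C0 C3 C4 : ℝ) (h0 : 0 < ε0) (h1 : 0 < C0) (h3 : 0 < C3)
    (h4 : 0 < C4) : ∃ δ0 > 0, ∀ δ, 0 < δ → δ < δ0 → ∃ a b, 0 < a ∧ a ≤ b ∧
      ∀ χ : V → ℝ, NormalJet ε0 C0 C3 C4 χ → ∀ ξ0 : ℂ, 2 * ξ0.re + 2 * χ 0 < 0 →
      ∃ A : V × ℂ → V × ℂ → V × ℂ, KoszulAt (gP (Phat δ χ)) ((0 : V), ξ0) A ∧ ∀ X Y : V × ℂ,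
        -b * area (gP (Phat δ χ)) ((0 : V), ξ0) X Y ≤ num (gP (Phat δ χ)) ((0 : V), ξ0) A X Y ∧
        num (gP (Phat δ χ)) ((0 : V), ξ0) A X Y ≤
          -a * area (gP (Phat δ χ)) ((0 : V), ξ0) X Y := by
  obtain ⟨δ0, hδ0, Hl⟩ := alg_lower (ε0 / 2) (C0 / 2) (C3 / 2) (C4 / 2) (by positivity)
    (by positivity) (by positivity) (by positivity)
  refine ⟨δ0, hδ0, fun δ hδ hδ' => ?_⟩
  obtain ⟨a, ha, Hl⟩ := Hl δ hδ hδ'
  obtain ⟨b, hb, Hu⟩ := alg_upper (ε0 / 2) (C0 / 2) (C3 / 2) (C4 / 2) (by positivity)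
    (by positivity) (by positivity) (by positivity) δ hδ
  refine ⟨a, max a b, ha, le_max_left _ _, fun χ hχ ξ0 hξ => ?_⟩
  obtain ⟨hsm, u, hu, D, hB, hgg, hK, hnum⟩ := point_data h0 hχ hδ hξ
  generalize ((0 : V), ξ0) = p at *
  generalize Phat δ χ = P at *
  have hε' : 0 ≤ ε0 / 2 := by positivity
  have hs := gP_symm (P := P) (p := p) (hsm.of_le (by norm_cast))
  have h12 := fderiv2_gP_symm12 (P := P) (p := p) hsm
  have h34 := fderiv2_gP_symm34 (P := P) (p := p) hsm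
  have hA := AlgData.AA_comm hB hε' hδ.le hu.le
  have hadd := AlgData.AA_add hB hε' hδ.le hu.le
  have hsmul := AlgData.AA_smul hB hε' hδ.le hu.le
  have hinv : ∀ (r : ℝ) (X Y : V × ℂ), num (gP P) p D.AA X (Y + r • X) = num (gP P) p D.AA X Y :=
    num_add_smul hs h12 h34 hA hadd hsmul
  have hainv : ∀ (r : ℝ) (X Y : V × ℂ), area (gP P) p X (Y + r • X) = area (gP P) p X Y :=
    area_add_smul hs
  have harea : ∀ X Y, area (gP P) p X Y = D.ar X.1 Y.1 X.2 Y.2 := fun X Y => by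
    simp only [area, hgg, AlgData.ar]
  have hnn : ∀ X : V × ℂ, 0 ≤ gP P p X X := fun X => by
    rw [hgg]
    exact le_trans (by (clear * - hδ hu; positivity)) (AlgData.gg_self_ge hB hε' hδ.le hu.le X.1 X.2)
  have horth : ∀ X Y : V × ℂ, ∃ r : ℝ, gP P p X (Y + r • X) = 0 := fun X Y => by
    by_cases hX : gP P p X X = 0
    · refine ⟨0, ?_⟩
      rw [hgg] at hX
      have : X = 0 := AlgData.eq_zero_of_gg hB hε' hδ hu X hX
      rw [this]
      simp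
    · refine ⟨-(gP P p X Y) / gP P p X X, ?_⟩
      rw [map_add, map_smul, smul_eq_mul]
      field_simp
      ring
  refine ⟨D.AA, hK, fun X Y => ⟨?_, ?_⟩⟩
  · obtain ⟨r, hr⟩ := horth X Y
    rw [← hinv r, ← hainv r]
    generalize Y + r • X = Y' at *
    obtain ⟨N4, hN4, hN⟩ := hnum X Y'
    have h5 := Hu u hu D hB N4 X.1 Y'.1 X.2 Y'.2 hN4 (by rw [← hgg]; exact hr)
    have h6 : 0 ≤ area (gP P) p X Y' := by
      simp only [area, hr]
      linarith only [mul_nonneg (hnn X) (hnn Y')]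
    rw [hN]
    rw [harea] at h6 ⊢
    have h7 : b * D.ar X.1 Y'.1 X.2 Y'.2 ≤ max a b * D.ar X.1 Y'.1 X.2 Y'.2 :=
      mul_le_mul_of_nonneg_right (le_max_right _ _) h6
    linarith only [h5, h7]
  · obtain ⟨r, hr⟩ : ∃ r : ℝ, rip X.1 (Y + r • X).1 = 0 := by
      by_cases hX : X.1 = 0
      · exact ⟨0, by simp [hX, rip]⟩
      · have hX' : 0 < ‖X.1‖ := norm_pos_iff.2 hX
        refine ⟨-(rip X.1 Y.1) / ‖X.1‖ ^ 2, ?_⟩
        rw [Prod.fst_add, Prod.smul_fst, rip_add_right, rip_smul_right, rip_self]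
        field_simp
        ring
    rw [← hinv r, ← hainv r]
    generalize Y + r • X = Y' at *
    obtain ⟨N4, hN4, hN⟩ := hnum X Y'
    have h5 := Hl u hu D hB N4 X.1 Y'.1 X.2 Y'.2 hN4 hr
    rw [hN, harea]
    linarith only [h5]

end Point

theorem point_pinching {V : Type*} [NormedAddCommGroup V] [InnerProductSpace ℂ V]
    [FiniteDimensional ℂ V] (ε0 C0 C3 C4 : ℝ) (h0 : 0 < ε0) (h1 : 0 < C0) (h3 : 0 < C3)
    (h4 : 0 < C4) : ∃ δ0 > 0, ∀ δ, 0 < δ → δ < δ0 → ∃ a b, 0 < a ∧ a ≤ b ∧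
      ∀ χ : V → ℝ, NormalJet ε0 C0 C3 C4 χ → ∀ ξ0 : ℂ, 2 * ξ0.re + 2 * χ 0 < 0 →
      ∃ A : V × ℂ → V × ℂ → V × ℂ, KoszulAt (gP (Phat δ χ)) ((0 : V), ξ0) A ∧ ∀ X Y : V × ℂ,
        -b * area (gP (Phat δ χ)) ((0 : V), ξ0) X Y ≤ num (gP (Phat δ χ)) ((0 : V), ξ0) A X Y ∧
        num (gP (Phat δ χ)) ((0 : V), ξ0) A X Y ≤ -a * area (gP (Phat δ χ)) ((0 : V), ξ0) X Y :=
  point_pinching_of alg_lower alg_upper ε0 C0 C3 C4 h0 h1 h3 h4

end Vale.Agent.P250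
end
end
end

section

section

section

/-!
The curvature of `MM χ` is pinched: transfer of the pointwise computation to the disc bundle.
-/

set_option maxSynthPendingDepth 3

namespace Vale.Agent.P250

open Set Filter Topology

section real2
variable {E : Type*} [NormedAddCommGroup E] [NormedSpace ℝ E]
variable {F : Type*} [NormedAddCommGroup F] [NormedSpace ℝ F]

lemma differentiableAt_fderiv2 {P : E → F} {p : E} (hP : ContDiffAt ℝ 2 P p) :
    DifferentiableAt ℝ (fderiv ℝ P) p :=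
  (hP.fderiv_right (m := 1) (by norm_num)).differentiableAt (by simp)

lemma eventually_differentiableAt2 {P : E → F} {p : E} (hP : ContDiffAt ℝ 2 P p) :
    ∀ᶠ q in 𝓝 p, DifferentiableAt ℝ P q :=
  (hP.eventually (by norm_num)).mono fun _ hx => hx.differentiableAt (by norm_num)

/-- the second derivative of a composition -/
lemma fderiv_fderiv_comp2 {E' : Type*} [NormedAddCommGroup E'] [NormedSpace ℝ E']
    (P : E → F) (Φ : E' → E) (q : E') (hΦ : ContDiffAt ℝ 2 Φ q)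
    (hP : ContDiffAt ℝ 2 P (Φ q)) (X Y : E') :
    fderiv ℝ (fderiv ℝ (fun q => P (Φ q))) q X Y =
      fderiv ℝ (fderiv ℝ P) (Φ q) (fderiv ℝ Φ q X) (fderiv ℝ Φ q Y) +
        fderiv ℝ P (Φ q) (fderiv ℝ (fderiv ℝ Φ) q X Y) := by
  have h1 : fderiv ℝ (fun q => P (Φ q)) =ᶠ[𝓝 q]
      fun q' => (fderiv ℝ P (Φ q')).comp (fderiv ℝ Φ q') := by
    have hΦc : ContinuousAt Φ q := hΦ.continuousAt
    filter_upwards [eventually_differentiableAt2 hΦ, hΦc.eventually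
      (eventually_differentiableAt2 hP)] with q' h1 h2
    exact fderiv_comp q' h2 h1
  rw [h1.fderiv_eq]
  have hd1 : DifferentiableAt ℝ (fun q' => fderiv ℝ P (Φ q')) q :=
    (differentiableAt_fderiv2 hP).comp q (hΦ.differentiableAt (by norm_num))
  have hd2 : DifferentiableAt ℝ (fderiv ℝ Φ) q := differentiableAt_fderiv2 hΦ
  rw [fderiv_clm_comp hd1 hd2]
  have h3 : fderiv ℝ (fun q' => fderiv ℝ P (Φ q')) q =
      (fderiv ℝ (fderiv ℝ P) (Φ q)).comp (fderiv ℝ Φ q) :=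
    fderiv_comp q (differentiableAt_fderiv2 hP) (hΦ.differentiableAt (by norm_num))
  rw [h3]
  simp [add_comm]

end real2

section complex2
variable {E : Type*} [NormedAddCommGroup E] [NormedSpace ℂ E]
variable {E' : Type*} [NormedAddCommGroup E'] [NormedSpace ℂ E']

lemma fderiv_fderiv_complex2 (Φ : E' → E) (q : E') (hΦ : ContDiffAt ℂ 2 Φ q) (X Y : E') :
    fderiv ℝ (fderiv ℝ Φ) q X Y = fderiv ℂ (fderiv ℂ Φ) q X Y := by
  have h1 : fderiv ℝ Φ =ᶠ[𝓝 q] fun q' =>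
      ContinuousLinearMap.restrictScalarsL ℂ E' E ℝ ℝ (fderiv ℂ Φ q') := by
    have h : ∀ᶠ q' in 𝓝 q, ContDiffAt ℂ 2 Φ q' := hΦ.eventually (by norm_num)
    filter_upwards [h] with q' hq'
    exact (hq'.differentiableAt (by norm_num)).fderiv_restrictScalars ℝ
  rw [h1.fderiv_eq]
  have h2 : HasFDerivAt (𝕜 := ℂ) (fderiv ℂ Φ) (fderiv ℂ (fderiv ℂ Φ) q) q := by
    have h3 : ContDiffAt ℂ 1 (fderiv ℂ Φ) q := hΦ.fderiv_right (by norm_num)
    exact (h3.differentiableAt (by simp)).hasFDerivAt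
  have h3 := h2.restrictScalars ℝ
  have h4 := (ContinuousLinearMap.restrictScalarsL ℂ E' E ℝ ℝ).hasFDerivAt.comp q h3
  have h5 := h4.fderiv
  have h6 : (fun q' => ContinuousLinearMap.restrictScalarsL ℂ E' E ℝ ℝ (fderiv ℂ Φ q')) =
    (⇑(ContinuousLinearMap.restrictScalarsL ℂ E' E ℝ ℝ) ∘ fderiv ℂ Φ) := rfl
  rw [h6, h5]
  simp

theorem gP_comp2 (P : E → ℝ) (F : E' → E) (q : E') (hF : ContDiffAt ℂ 2 F q)
    (hP : ContDiffAt ℝ 2 P (F q)) (X Y : E') :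
    gP (fun q => P (F q)) q X Y = gP P (F q) (fderiv ℝ F q X) (fderiv ℝ F q Y) := by
  have hFR : ContDiffAt ℝ 2 F q := hF.restrict_scalars ℝ
  have hd : fderiv ℝ F q = (fderiv ℂ F q).restrictScalars ℝ :=
    (hF.differentiableAt (by norm_num)).fderiv_restrictScalars ℝ
  have hI : ∀ Z : E', fderiv ℝ F q (Complex.I • Z) = Complex.I • fderiv ℝ F q Z := by
    intro Z
    rw [hd]
    simp
  rw [gP_apply, gP_apply, fderiv_fderiv_comp2 P F q hFR hP, fderiv_fderiv_comp2 P F q hFR hP,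
    fderiv_fderiv_complex2 F q hF, fderiv_fderiv_complex2 F q hF]
  have h2 : fderiv ℂ (fderiv ℂ F) q (Complex.I • X) (Complex.I • Y) =
      -fderiv ℂ (fderiv ℂ F) q X Y := by
    simp [smul_smul]
  rw [h2, hI, hI, map_neg]
  ring

theorem gP_re2 (H : E → ℂ) (q : E) (hH : ContDiffAt ℂ 2 H q) :
    gP (fun q => (H q).re) q = 0 := by
  ext X Y
  have h := gP_comp2 (fun z : ℂ => z.re) H q hH Complex.reCLM.contDiff.contDiffAt X Y
  rw [h]
  have h2 : ∀ z : ℂ, fderiv ℝ (fderiv ℝ (fun z : ℂ => z.re)) z = 0 := by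
    intro z
    have h3 : fderiv ℝ (fun z : ℂ => z.re) = fun _ => Complex.reCLM := by
      funext w
      exact Complex.reCLM.hasFDerivAt.fderiv
    rw [h3]
    simp only [fderiv_fun_const, Pi.zero_apply]
  rw [gP_apply, h2]
  simp

lemma gP_sub2 {P Q : E → ℝ} {p : E} (hP : ContDiffAt ℝ 2 P p) (hQ : ContDiffAt ℝ 2 Q p) :
    gP (fun x => P x - Q x) p = gP P p - gP Q p := by
  have h1 : fderiv ℝ (fun x => P x - Q x) =ᶠ[𝓝 p] fun x => fderiv ℝ P x - fderiv ℝ Q x := by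
    filter_upwards [eventually_differentiableAt2 hP, eventually_differentiableAt2 hQ] with x hx hy
    exact fderiv_fun_sub hx hy
  rw [gP_eq_AJ, gP_eq_AJ, gP_eq_AJ, h1.fderiv_eq,
    fderiv_fun_sub (differentiableAt_fderiv2 hP) (differentiableAt_fderiv2 hQ), map_sub]

end complex2

/-- The two-dimensional model space. -/
abbrev V2 := EuclideanSpace ℂ (Fin 2)

section Chart

variable (B : V2 → ℂ × ℂ) (h : V2 → ℂ)

/-- The chart of `MM χ`. -/
noncomputable def Fc (q : V2 × ℂ) : ℂ × ℂ × ℂ :=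
  ((B q.1).1, (B q.1).2, Complex.exp (q.2 - h q.1))

variable {B h}

lemma Fc_contDiffAt {n : WithTop ℕ∞} (hB : ContDiffAt ℂ n B 0) (hh : ContDiffAt ℂ n h 0) (ξ0 : ℂ) :
    ContDiffAt ℂ n (Fc B h) ((0 : V2), ξ0) := by
  have h1 : ContDiffAt ℂ n (fun q : V2 × ℂ => B q.1) ((0 : V2), ξ0) :=
    ContDiffAt.comp ((0 : V2), ξ0) (g := B) (f := Prod.fst) hB contDiffAt_fst
  have h2 : ContDiffAt ℂ n (fun q : V2 × ℂ => h q.1) ((0 : V2), ξ0) :=
    ContDiffAt.comp ((0 : V2), ξ0) (g := h) (f := Prod.fst) hh contDiffAt_fst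
  exact (h1.fst).prodMk ((h1.snd).prodMk ((contDiffAt_snd.sub h2).cexp))

lemma Fc_zero {ξ0 : ℂ} (p : ℂ × ℂ × ℂ) (hB0 : B 0 = (p.1, p.2.1)) (hh0 : h 0 = 0)
    (hv : Complex.exp ξ0 = p.2.2) :
    Fc B h ((0 : V2), ξ0) = p := by
  simp only [Fc, hB0, hh0, sub_zero, hv, Prod.mk.eta]

lemma Fc_fderiv (hB : ContDiffAt ℂ 1 B 0) (hh : ContDiffAt ℂ 1 h 0) (ξ0 : ℂ) (X : V2 × ℂ) :
    fderiv ℂ (Fc B h) ((0 : V2), ξ0) X = ((fderiv ℂ B 0 X.1).1, (fderiv ℂ B 0 X.1).2,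
      Complex.exp (ξ0 - h 0) * (X.2 - fderiv ℂ h 0 X.1)) := by
  have hB' : HasFDerivAt B (fderiv ℂ B 0) 0 := (hB.differentiableAt (by simp)).hasFDerivAt
  have hh' : HasFDerivAt h (fderiv ℂ h 0) 0 := (hh.differentiableAt (by simp)).hasFDerivAt
  have h1 : HasFDerivAt (fun q : V2 × ℂ => B q.1)
      ((fderiv ℂ B 0).comp (ContinuousLinearMap.fst ℂ V2 ℂ)) ((0 : V2), ξ0) :=
    HasFDerivAt.comp ((0 : V2), ξ0) (g := B) (f := Prod.fst) hB' hasFDerivAt_fst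
  have h2 : HasFDerivAt (fun q : V2 × ℂ => h q.1)
      ((fderiv ℂ h 0).comp (ContinuousLinearMap.fst ℂ V2 ℂ)) ((0 : V2), ξ0) :=
    HasFDerivAt.comp ((0 : V2), ξ0) (g := h) (f := Prod.fst) hh' hasFDerivAt_fst
  have h3 := (h1.fst).prodMk ((h1.snd).prodMk ((hasFDerivAt_snd.fun_sub h2).cexp))
  rw [show Fc B h = fun q : V2 × ℂ => ((B q.1).1, (B q.1).2, Complex.exp (q.2 - h q.1)) from rfl,
    h3.fderiv]
  simp

lemma exists_equiv_of_injective {G G' : Type*} [NormedAddCommGroup G] [NormedSpace ℂ G]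
    [FiniteDimensional ℂ G] [NormedAddCommGroup G'] [NormedSpace ℂ G'] [FiniteDimensional ℂ G']
    (L : G →L[ℝ] G') (hL : Function.Injective L)
    (hd : Module.finrank ℂ G = Module.finrank ℂ G') : ∃ e : G ≃L[ℝ] G', (e : G →L[ℝ] G') = L := by
  have : FiniteDimensional ℝ G := FiniteDimensional.complexToReal G
  have : FiniteDimensional ℝ G' := FiniteDimensional.complexToReal G'
  have hd' : Module.finrank ℝ G = Module.finrank ℝ G' := by
    rw [finrank_real_of_complex, finrank_real_of_complex, hd]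
  refine ⟨(LinearMap.linearEquivOfInjective (L : G →ₗ[ℝ] G') hL hd').toContinuousLinearEquiv, ?_⟩
  ext x
  simp

lemma Fc_equiv (hB : ContDiffAt ℂ 1 B 0) (hh : ContDiffAt ℂ 1 h 0)
    (he : ∃ e : V2 ≃L[ℂ] (ℂ × ℂ), (e : _ →L[ℂ] _) = fderiv ℂ B 0) (ξ0 : ℂ) :
    ∃ e : (V2 × ℂ) ≃L[ℝ] (ℂ × ℂ × ℂ), (e : (V2 × ℂ) →L[ℝ] (ℂ × ℂ × ℂ))
      = fderiv ℝ (Fc B h) ((0 : V2), ξ0) := by
  apply exists_equiv_of_injective
  · have hd : DifferentiableAt ℂ (Fc B h) ((0 : V2), ξ0) :=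
      (Fc_contDiffAt hB hh ξ0).differentiableAt (by simp)
    rw [hd.fderiv_restrictScalars ℝ]
    rw [injective_iff_map_eq_zero]
    intro X hX
    have hX' : fderiv ℂ (Fc B h) ((0 : V2), ξ0) X = 0 := hX
    rw [Fc_fderiv hB hh] at hX'
    obtain ⟨e, he⟩ := he
    simp only [Prod.mk_eq_zero] at hX'
    obtain ⟨h1, h2, h3⟩ := hX'
    have h4 : e X.1 = 0 := by
      have : (e : V2 →L[ℂ] ℂ × ℂ) X.1 = 0 := by
        rw [he]; exact Prod.ext h1 h2
      simpa using this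
    have h5 : X.1 = 0 := by simpa using h4
    rw [h5] at h3
    have h6 : X.2 = 0 := by
      rcases mul_eq_zero.1 h3 with h | h
      · exact absurd h (Complex.exp_ne_zero _)
      · simpa using h
    exact Prod.ext h5 h6
  · simp

/-- The weight in the chart. -/
noncomputable def chic (B : V2 → ℂ × ℂ) (h : V2 → ℂ) (χ : ℂ × ℂ → ℝ) (ζ : V2) : ℝ :=
  χ (B ζ) - (h ζ).re

lemma PP_Fc (δ : ℝ) (χ : ℂ × ℂ → ℝ) (q : V2 × ℂ) :
    PP δ χ (Fc B h q) = -Real.log (rho (B q.1))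
      + δ * Lf (2 * q.2.re + 2 * chic B h χ q.1) := by
  have h1 : ‖Complex.exp (q.2 - h q.1)‖ ^ 2 * Real.exp (2 * χ (B q.1))
      = Real.exp (2 * q.2.re + 2 * chic B h χ q.1) := by
    rw [Complex.norm_exp, ← Real.exp_nat_mul, ← Real.exp_add]
    congr 1
    simp only [chic, Complex.sub_re]
    push_cast
    ring
  simp only [PP, Fc, Prod.mk.eta, Lf]
  rw [h1]
  ring

lemma PP_Fc_eventually (δ : ℝ) (χ : ℂ × ℂ → ℝ) (H : V2 → ℂ) (ξ0 : ℂ)
    (hH : ∀ᶠ ζ in 𝓝 (0 : V2), -Real.log (rho (B ζ)) = -Real.log (1 - ‖ζ‖ ^ 2) + (H ζ).re) :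
    ∀ᶠ q in 𝓝 ((0 : V2), ξ0), Phat δ (chic B h χ) q = PP δ χ (Fc B h q) - (H q.1).re := by
  have h1 : ∀ᶠ q in 𝓝 ((0 : V2), ξ0),
      -Real.log (rho (B q.1)) = -Real.log (1 - ‖q.1‖ ^ 2) + (H q.1).re :=
    (continuous_fst.tendsto ((0 : V2), ξ0)).eventually hH
  filter_upwards [h1] with q hq
  rw [PP_Fc, hq]
  simp only [Phat]
  ring

end Chart

section Chart2

variable {B : V2 → ℂ × ℂ} {h H : V2 → ℂ}

lemma gP_Phat_eventually (δ : ℝ) (χ : ℂ × ℂ → ℝ) (hχ : ContDiffOn ℝ (⊤ : ℕ∞) χ DD)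
    (hB : ContDiffAt ℂ (⊤ : ℕ∞) B 0) (hh : ContDiffAt ℂ (⊤ : ℕ∞) h 0)
    (hHs : ContDiffAt ℂ (⊤ : ℕ∞) H 0)
    (hH : ∀ᶠ ζ in 𝓝 (0 : V2), -Real.log (rho (B ζ)) = -Real.log (1 - ‖ζ‖ ^ 2) + (H ζ).re)
    (ξ0 : ℂ) (hF : Fc B h ((0 : V2), ξ0) ∈ MM χ) :
    ∀ᶠ q in 𝓝 ((0 : V2), ξ0), ∀ X Y, gP (Phat δ (chic B h χ)) q X Y
      = gP (PP δ χ) (Fc B h q) (fderiv ℝ (Fc B h) q X) (fderiv ℝ (Fc B h) q Y) := by
  have hM : IsOpen (MM χ) := isOpen_MM χ hχ.continuousOn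
  have hFs : ContDiffAt ℂ (⊤ : ℕ∞) (Fc B h) ((0 : V2), ξ0) := Fc_contDiffAt hB hh ξ0
  have hF2 : ∀ᶠ q in 𝓝 ((0 : V2), ξ0), ContDiffAt ℂ 2 (Fc B h) q :=
    (hFs.of_le two_le_smooth).eventually (by norm_num)
  have hHf : ContDiffAt ℂ (⊤ : ℕ∞) (fun q : V2 × ℂ => H q.1) ((0 : V2), ξ0) :=
    ContDiffAt.comp ((0 : V2), ξ0) (g := H) (f := Prod.fst) hHs contDiffAt_fst
  have hH2 : ∀ᶠ q in 𝓝 ((0 : V2), ξ0), ContDiffAt ℂ 2 (fun q : V2 × ℂ => H q.1) q :=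
    (hHf.of_le two_le_smooth).eventually (by norm_num)
  have hmem : ∀ᶠ q in 𝓝 ((0 : V2), ξ0), Fc B h q ∈ MM χ :=
    hFs.continuousAt.eventually (hM.mem_nhds hF)
  have hev := eventually_eventually_nhds.2 (PP_Fc_eventually (h := h) δ χ H ξ0 hH)
  filter_upwards [hF2, hH2, hmem, hev] with q h1 h2 h3 h4 X Y
  have hPP : ContDiffAt ℝ 2 (PP δ χ) (Fc B h q) :=
    ((PP_contDiffOn δ χ hχ).contDiffAt (hM.mem_nhds h3)).of_le two_le_smooth
  have h5 : gP (Phat δ (chic B h χ)) q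
      = gP (fun q => PP δ χ (Fc B h q) - (H q.1).re) q := gP_congr h4
  have hPPF : ContDiffAt ℝ 2 (fun q => PP δ χ (Fc B h q)) q :=
    ContDiffAt.comp q (g := PP δ χ) (f := Fc B h) hPP (h1.restrict_scalars ℝ)
  have hre : ContDiffAt ℝ 2 (fun q : V2 × ℂ => (H q.1).re) q :=
    ContDiffAt.comp q (g := fun z : ℂ => z.re) (f := fun q : V2 × ℂ => H q.1)
      Complex.reCLM.contDiff.contDiffAt (h2.restrict_scalars ℝ)
  rw [h5, gP_sub2 hPPF hre, gP_re2 (fun q : V2 × ℂ => H q.1) q h2, sub_zero,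
    gP_comp2 (PP δ χ) (Fc B h) q h1 hPP]

end Chart2

section Positivity

lemma mem_MM_lt {χ : ℂ × ℂ → ℝ} {p : ℂ × ℂ × ℂ} (hp : p ∈ MM χ) :
    0 < 1 - ‖p.2.2‖ ^ 2 * Real.exp (2 * χ (p.1, p.2.1)) := by
  have := hp.2
  linarith only [this]

theorem gP_PP_pos (δ : ℝ) (hδ : 0 < δ) (χ : ℂ × ℂ → ℝ) (hχ : ContDiffOn ℝ (⊤ : ℕ∞) χ DD)
    (hpos : ∀ q ∈ DD, ∀ X, 0 ≤ gP χ q X X) (p : ℂ × ℂ × ℂ) (hp : p ∈ MM χ)
    (X : ℂ × ℂ × ℂ) (hX : X ≠ 0) : 0 < gP (PP δ χ) p X X := by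
  have hD : (p.1, p.2.1) ∈ DD := hp.1
  have hr : 0 < rho (p.1, p.2.1) := hD
  have hx := mem_MM_lt hp
  have h1 := hpos _ hD (X.1, X.2.1)
  rw [gP_PP δ χ hχ p hp X, gP_rho _ hD]
  simp only
  set x := ‖p.2.2‖ ^ 2 * Real.exp (2 * χ (p.1, p.2.1)) with hxdef
  have hx0 : 0 ≤ x := by (clear * -; positivity)
  have t2 : 0 ≤ 2 * x / (1 - x) * gP χ (p.1, p.2.1) (X.1, X.2.1) (X.1, X.2.1) := by
    (clear * - hx h1; positivity)
  set β := X.2.2 + p.2.2 * ((fderiv ℝ χ (p.1, p.2.1) (X.1, X.2.1) : ℝ)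
            - Complex.I * (fderiv ℝ χ (p.1, p.2.1) (Complex.I * X.1, Complex.I * X.2.1) : ℝ)) with hβ
  have t3 : 0 ≤ Real.exp (2 * χ (p.1, p.2.1)) * ‖β‖ ^ 2 / (1 - x) ^ 2 := by (clear * - hx; positivity)
  have t1 : 0 ≤ ‖X.1‖ ^ 2 / (2 * rho (p.1, p.2.1)) := by (clear * - hr; positivity)
  have t1' : 0 ≤ ‖X.2.1 - 2 * p.1.im * X.1‖ ^ 2 / (4 * rho (p.1, p.2.1) ^ 2) := by (clear * - hr; positivity)
  by_cases hX1 : X.1 = 0
  · by_cases hX2 : X.2.1 = 0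
    · have hX3 : X.2.2 ≠ 0 := by
        intro h3
        exact hX (Prod.ext hX1 (Prod.ext hX2 h3))
      have hβ2 : β = X.2.2 := by
        rw [hβ, hX1, hX2, mul_zero]
        have : ((0 : ℂ), (0 : ℂ)) = 0 := rfl
        rw [this, map_zero]
        simp only [Complex.ofReal_zero, mul_zero, sub_self, add_zero]
      have t3' : 0 < Real.exp (2 * χ (p.1, p.2.1)) * ‖β‖ ^ 2 / (1 - x) ^ 2 := by
        rw [hβ2]
        have : 0 < ‖X.2.2‖ := norm_pos_iff.2 hX3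
        (clear * - hX3 hx; positivity)
      have : 0 < δ * (2 * x / (1 - x) * gP χ (p.1, p.2.1) (X.1, X.2.1) (X.1, X.2.1)
        + Real.exp (2 * χ (p.1, p.2.1)) * ‖β‖ ^ 2 / (1 - x) ^ 2) := by
        apply mul_pos hδ
        linarith only [t2, t3']
      linarith only [t1, t1', this]
    · have t1'' : 0 < ‖X.2.1 - 2 * p.1.im * X.1‖ ^ 2 / (4 * rho (p.1, p.2.1) ^ 2) := by
        rw [hX1, mul_zero, sub_zero]
        have : 0 < ‖X.2.1‖ := norm_pos_iff.2 hX2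
        (clear * - hX2 hr; positivity)
      have : 0 ≤ δ * (2 * x / (1 - x) * gP χ (p.1, p.2.1) (X.1, X.2.1) (X.1, X.2.1)
        + Real.exp (2 * χ (p.1, p.2.1)) * ‖β‖ ^ 2 / (1 - x) ^ 2) := by
        apply mul_nonneg hδ.le
        linarith only [t2, t3]
      linarith only [t1, t1'', this]
  · have t1'' : 0 < ‖X.1‖ ^ 2 / (2 * rho (p.1, p.2.1)) := by
      have : 0 < ‖X.1‖ := norm_pos_iff.2 hX1
      positivity
    have : 0 ≤ δ * (2 * x / (1 - x) * gP χ (p.1, p.2.1) (X.1, X.2.1) (X.1, X.2.1)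
        + Real.exp (2 * χ (p.1, p.2.1)) * ‖β‖ ^ 2 / (1 - x) ^ 2) := by
        apply mul_nonneg hδ.le
        linarith only [t2, t3]
    linarith

end Positivity

section Main

/-- The conclusion of the pointwise computation for given constants. -/
def PointPinched (ε0 C0 C3 C4 δ a b : ℝ) : Prop :=
  ∀ χ : V2 → ℝ, NormalJet ε0 C0 C3 C4 χ → ∀ ξ0 : ℂ, 2 * ξ0.re + 2 * χ 0 < 0 →
      ∃ A : V2 × ℂ → V2 × ℂ → V2 × ℂ, KoszulAt (gP (Phat δ χ)) ((0 : V2), ξ0) A ∧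
        ∀ X Y : V2 × ℂ,
        -b * area (gP (Phat δ χ)) ((0 : V2), ξ0) X Y ≤ num (gP (Phat δ χ)) ((0 : V2), ξ0) A X Y ∧
        num (gP (Phat δ χ)) ((0 : V2), ξ0) A X Y ≤ -a * area (gP (Phat δ χ)) ((0 : V2), ξ0) X Y

theorem pinched_of_ne_zero (ε0 C0 C3 C4 δ a b : ℝ) (hpt : PointPinched ε0 C0 C3 C4 δ a b)
    (χ : ℂ × ℂ → ℝ) (hχ : ContDiffOn ℝ (⊤ : ℕ∞) χ DD) (hU : UniformJets ε0 C0 C3 C4 χ)
    (hg : IsRiemannianMetric (gP (PP δ χ)) (MM χ))
    (Γ : ℂ × ℂ × ℂ → (ℂ × ℂ × ℂ) →L[ℝ] (ℂ × ℂ × ℂ) →L[ℝ] (ℂ × ℂ × ℂ))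
    (hΓ : IsLeviCivita (gP (PP δ χ)) Γ (MM χ)) (p : ℂ × ℂ × ℂ) (hp : p ∈ MM χ)
    (hv : p.2.2 ≠ 0) (X Y : ℂ × ℂ × ℂ) :
    -b * area (gP (PP δ χ)) p X Y ≤ gP (PP δ χ) p (riem Γ p X Y Y) X ∧
      gP (PP δ χ) p (riem Γ p X Y Y) X ≤ -a * area (gP (PP δ χ)) p X Y := by
  have hM : IsOpen (MM χ) := isOpen_MM χ hχ.continuousOn
  obtain ⟨B, h, H, hB, hh, hHs, hB0, hh0, he, hH, hN⟩ := hU (p.1, p.2.1) hp.1
  set ξ0 : ℂ := Complex.log p.2.2 with hξ
  have hexp : Complex.exp ξ0 = p.2.2 := Complex.exp_log hv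
  have hF0 : Fc B h ((0 : V2), ξ0) = p := Fc_zero p hB0 hh0 hexp
  obtain ⟨e, he'⟩ := Fc_equiv (hB.of_le one_le_smooth) (hh.of_le one_le_smooth) he ξ0
  have hneg : 2 * ξ0.re + 2 * chic B h χ 0 < 0 := by
    have h1 : ‖p.2.2‖ ^ 2 * Real.exp (2 * χ (p.1, p.2.1))
        = Real.exp (2 * ξ0.re + 2 * chic B h χ 0) := by
      rw [← hexp, Complex.norm_exp, ← Real.exp_nat_mul, ← Real.exp_add]
      congr 1
      simp only [chic, hB0, hh0, Complex.zero_re]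
      push_cast
      ring
    have h2 := hp.2
    rw [h1] at h2
    exact Real.exp_lt_one_iff.1 h2
  obtain ⟨A, hA, hAb⟩ := hpt (chic B h χ) hN ξ0 hneg
  have hFs : ContDiffAt ℝ (⊤ : ℕ∞) (Fc B h) ((0 : V2), ξ0) :=
    (Fc_contDiffAt hB hh ξ0).restrict_scalars ℝ
  have hFm : Fc B h ((0 : V2), ξ0) ∈ MM χ := by rw [hF0]; exact hp
  have hnhds : MM χ ∈ 𝓝 (Fc B h ((0 : V2), ξ0)) := hM.mem_nhds hFm
  have hev := gP_Phat_eventually δ χ hχ hB hh hHs hH ξ0 hFm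
  obtain ⟨X', rfl⟩ := e.surjective X
  obtain ⟨Y', rfl⟩ := e.surjective Y
  have hkey := riem_pullback (Fc B h) ((0 : V2), ξ0) e hFs he' (gP (PP δ χ)) Γ
    (hg.smooth.contDiffAt hnhds) (hΓ.smooth.contDiffAt hnhds)
    (Filter.eventually_of_mem hnhds fun q hq => hg.symm q hq)
    (Filter.eventually_of_mem hnhds fun q hq => hg.pos q hq)
    (Filter.eventually_of_mem hnhds fun q hq => hΓ.koszul q hq)
    (gP (Phat δ (chic B h χ))) hev A hA X' Y'
  have hself := hev.self_of_nhds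
  have hfd : ∀ Z, fderiv ℝ (Fc B h) ((0 : V2), ξ0) Z = e Z := by
    intro Z
    rw [← he']
    rfl
  have harea : area (gP (Phat δ (chic B h χ))) ((0 : V2), ξ0) X' Y'
      = area (gP (PP δ χ)) p (e X') (e Y') := by
    simp only [area, hself, hfd, hF0]
  rw [hF0] at hkey
  rw [hkey, ← harea]
  exact hAb X' Y'

lemma continuousAt_num_side (χ : ℂ × ℂ → ℝ) (hM : IsOpen (MM χ))
    (g : ℂ × ℂ × ℂ → (ℂ × ℂ × ℂ) →L[ℝ] (ℂ × ℂ × ℂ) →L[ℝ] ℝ)
    (hg : IsRiemannianMetric g (MM χ))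
    (Γ : ℂ × ℂ × ℂ → (ℂ × ℂ × ℂ) →L[ℝ] (ℂ × ℂ × ℂ) →L[ℝ] (ℂ × ℂ × ℂ))
    (hΓ : IsLeviCivita g Γ (MM χ)) (p : ℂ × ℂ × ℂ) (hp : p ∈ MM χ) (X Y : ℂ × ℂ × ℂ) :
    ContinuousAt (fun q => g q (riem Γ q X Y Y) X) p := by
  have hgc : ContinuousAt g p := (hg.smooth.contDiffAt (hM.mem_nhds hp)).continuousAt
  have hΓs : ContDiffAt ℝ (⊤ : ℕ∞) Γ p := hΓ.smooth.contDiffAt (hM.mem_nhds hp)
  have hΓc : ContinuousAt Γ p := hΓs.continuousAt
  have hdc : ContinuousAt (fderiv ℝ Γ) p := (contDiffAt_fderiv hΓs).continuousAt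
  have hcX : ContinuousAt (fun _ : ℂ × ℂ × ℂ => X) p := continuousAt_const
  have hcY : ContinuousAt (fun _ : ℂ × ℂ × ℂ => Y) p := continuousAt_const
  have hr : ContinuousAt (fun q => riem Γ q X Y Y) p := by
    unfold riem
    exact (((((hdc.clm_apply hcX).clm_apply hcY).clm_apply hcY).sub
      (((hdc.clm_apply hcY).clm_apply hcX).clm_apply hcY)).add
      ((hΓc.clm_apply hcX).clm_apply ((hΓc.clm_apply hcY).clm_apply hcY))).sub
      ((hΓc.clm_apply hcY).clm_apply ((hΓc.clm_apply hcX).clm_apply hcY))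
  exact (hgc.clm_apply hr).clm_apply hcX

lemma continuousAt_area (χ : ℂ × ℂ → ℝ) (hM : IsOpen (MM χ))
    (g : ℂ × ℂ × ℂ → (ℂ × ℂ × ℂ) →L[ℝ] (ℂ × ℂ × ℂ) →L[ℝ] ℝ)
    (hg : IsRiemannianMetric g (MM χ)) (p : ℂ × ℂ × ℂ) (hp : p ∈ MM χ) (X Y : ℂ × ℂ × ℂ) :
    ContinuousAt (fun q => area g q X Y) p := by
  have hgc : ContinuousAt g p := (hg.smooth.contDiffAt (hM.mem_nhds hp)).continuousAt
  have hcX : ContinuousAt (fun _ : ℂ × ℂ × ℂ => X) p := continuousAt_const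
  have hcY : ContinuousAt (fun _ : ℂ × ℂ × ℂ => Y) p := continuousAt_const
  unfold area
  exact (((hgc.clm_apply hcX).clm_apply hcX).mul ((hgc.clm_apply hcY).clm_apply hcY)).sub
    (((hgc.clm_apply hcX).clm_apply hcY).pow 2)

lemma tendsto_fiber (p : ℂ × ℂ × ℂ) (hv : p.2.2 = 0) :
    Tendsto (fun t : ℂ => ((p.1, p.2.1, t) : ℂ × ℂ × ℂ)) (𝓝[≠] 0) (𝓝 p) := by
  have h1 : Continuous (fun t : ℂ => ((p.1, p.2.1, t) : ℂ × ℂ × ℂ)) := by fun_prop
  have h2 : Tendsto (fun t : ℂ => ((p.1, p.2.1, t) : ℂ × ℂ × ℂ)) (𝓝 0) (𝓝 (p.1, p.2.1, 0)) :=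
    h1.tendsto 0
  have h3 : ((p.1, p.2.1, (0 : ℂ)) : ℂ × ℂ × ℂ) = p := by
    rw [← hv]
  rw [h3] at h2
  exact h2.mono_left nhdsWithin_le_nhds

theorem pinched_all (ε0 C0 C3 C4 δ a b : ℝ) (hpt : PointPinched ε0 C0 C3 C4 δ a b)
    (χ : ℂ × ℂ → ℝ) (hχ : ContDiffOn ℝ (⊤ : ℕ∞) χ DD) (hU : UniformJets ε0 C0 C3 C4 χ)
    (hg : IsRiemannianMetric (gP (PP δ χ)) (MM χ))
    (Γ : ℂ × ℂ × ℂ → (ℂ × ℂ × ℂ) →L[ℝ] (ℂ × ℂ × ℂ) →L[ℝ] (ℂ × ℂ × ℂ))
    (hΓ : IsLeviCivita (gP (PP δ χ)) Γ (MM χ)) (p : ℂ × ℂ × ℂ) (hp : p ∈ MM χ)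
    (X Y : ℂ × ℂ × ℂ) :
    -b * area (gP (PP δ χ)) p X Y ≤ gP (PP δ χ) p (riem Γ p X Y Y) X ∧
      gP (PP δ χ) p (riem Γ p X Y Y) X ≤ -a * area (gP (PP δ χ)) p X Y := by
  have hM : IsOpen (MM χ) := isOpen_MM χ hχ.continuousOn
  by_cases hv : p.2.2 = 0
  · have ht := tendsto_fiber p hv
    have hc1 := (continuousAt_num_side χ hM _ hg Γ hΓ p hp X Y).tendsto.comp ht
    have hc2 := (continuousAt_area χ hM _ hg p hp X Y).tendsto.comp ht
    have hev : ∀ᶠ t : ℂ in 𝓝[≠] 0, ((p.1, p.2.1, t) : ℂ × ℂ × ℂ) ∈ MM χ ∧ t ≠ 0 := by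
      refine (ht.eventually (hM.mem_nhds hp)).and ?_
      exact eventually_mem_nhdsWithin
    constructor
    · refine le_of_tendsto_of_tendsto (hc2.const_mul (-b)) hc1 ?_
      filter_upwards [hev] with t ht
      exact (pinched_of_ne_zero ε0 C0 C3 C4 δ a b hpt χ hχ hU hg Γ hΓ _ ht.1 ht.2 X Y).1
    · refine le_of_tendsto_of_tendsto hc1 (hc2.const_mul (-a)) ?_
      filter_upwards [hev] with t ht
      exact (pinched_of_ne_zero ε0 C0 C3 C4 δ a b hpt χ hχ hU hg Γ hΓ _ ht.1 ht.2 X Y).2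
  · exact pinched_of_ne_zero ε0 C0 C3 C4 δ a b hpt χ hχ hU hg Γ hΓ p hp hv X Y

theorem isKaehlerMetric_PP (ε0 C0 C3 C4 : ℝ) (h0 : 0 < ε0) (δ : ℝ) (hδ : 0 < δ)
    (χ : ℂ × ℂ → ℝ) (hχ : ContDiffOn ℝ (⊤ : ℕ∞) χ DD) (hU : UniformJets ε0 C0 C3 C4 χ) :
    IsKaehlerMetric (gP (PP δ χ)) (MM χ) :=
  isKaehlerMetric_gP _ _ (isOpen_MM χ hχ.continuousOn) (PP_contDiffOn δ χ hχ)
    fun p hp X hX => gP_PP_pos δ hδ χ hχ
      (fun q hq X => gP_pos_of_uniformJets ε0 C0 C3 C4 h0 χ hχ hU q hq X) p hp X hX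

theorem MM_pinched (ε0 C0 C3 C4 : ℝ) (h0 : 0 < ε0) (h1 : 0 < C0) (h3 : 0 < C3)
    (h4 : 0 < C4) (χ : ℂ × ℂ → ℝ) (hχ : ContDiffOn ℝ (⊤ : ℕ∞) χ DD)
    (hU : UniformJets ε0 C0 C3 C4 χ) : ∃ δ > 0, ∃ a b, 0 < a ∧ a ≤ b ∧
      ∀ Γ : ℂ × ℂ × ℂ → (ℂ × ℂ × ℂ) →L[ℝ] (ℂ × ℂ × ℂ) →L[ℝ] (ℂ × ℂ × ℂ),
      IsLeviCivita (gP (PP δ χ)) Γ (MM χ) → ∀ p ∈ MM χ, ∀ X Y,
        -b * area (gP (PP δ χ)) p X Y ≤ gP (PP δ χ) p (riem Γ p X Y Y) X ∧
        gP (PP δ χ) p (riem Γ p X Y Y) X ≤ -a * area (gP (PP δ χ)) p X Y := by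
  obtain ⟨δ0, hδ0, hδ⟩ := point_pinching (V := V2) ε0 C0 C3 C4 h0 h1 h3 h4
  obtain ⟨a, b, ha, hab, hpt⟩ := hδ (δ0 / 2) (half_pos hδ0) (half_lt_self hδ0)
  refine ⟨δ0 / 2, half_pos hδ0, a, b, ha, hab, fun Γ hΓ p hp X Y => ?_⟩
  exact pinched_all ε0 C0 C3 C4 (δ0 / 2) a b hpt χ hχ hU
    (isKaehlerMetric_PP ε0 C0 C3 C4 h0 _ (half_pos hδ0) χ hχ hU).toIsRiemannianMetric
    Γ hΓ p hp X Y

end Main

end Vale.Agent.P250
end
end
end
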