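import Vale.Agent.P250.MathlibUsed
import Vale.Agent.P250.Bdl.B1
import Vale.Agent.P250.Bdl.B2

set_option linter.all false

section

section

section

/-! Bounds for iterated derivatives used for the jets of the potential. -/

set_option maxSynthPendingDepth 3

namespace Vale.Agent.P250.PJ

open Set Filter Topology

lemma nat_le_top (n : ℕ) : (n : WithTop ℕ∞) ≤ ((⊤ : ℕ∞) : WithTop ℕ∞) := by
  exact_mod_cast le_top

section General

variable {V W : Type*} [NormedAddCommGroup V] [NormedSpace ℝ V] [NormedAddCommGroup W]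
  [NormedSpace ℝ W]

lemma norm_fderiv2 (f : V → ℝ) (x : V) :
    ‖fderiv ℝ (fderiv ℝ f) x‖ = ‖iteratedFDeriv ℝ 2 f x‖ := by
  rw [← norm_iteratedFDeriv_one, norm_iteratedFDeriv_fderiv]

lemma norm_fderiv3 (f : V → ℝ) (x : V) :
    ‖fderiv ℝ (fderiv ℝ (fderiv ℝ f)) x‖ = ‖iteratedFDeriv ℝ 3 f x‖ := by
  rw [← norm_iteratedFDeriv_one, norm_iteratedFDeriv_fderiv, norm_iteratedFDeriv_fderiv]

lemma norm_fderiv4 (f : V → ℝ) (x : V) :
    ‖fderiv ℝ (fderiv ℝ (fderiv ℝ (fderiv ℝ f))) x‖ = ‖iteratedFDeriv ℝ 4 f x‖ := by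
  rw [← norm_iteratedFDeriv_one, norm_iteratedFDeriv_fderiv, norm_iteratedFDeriv_fderiv,
    norm_iteratedFDeriv_fderiv]

lemma abs_fderiv2_le (f : V → ℝ) (x : V) (X Y : V) :
    |fderiv ℝ (fderiv ℝ f) x X Y| ≤ ‖iteratedFDeriv ℝ 2 f x‖ * ‖X‖ * ‖Y‖ := by
  rw [← norm_fderiv2, ← Real.norm_eq_abs]
  exact ContinuousLinearMap.le_opNorm₂ _ _ _

lemma abs_fderiv3_le (f : V → ℝ) (x : V) (X Y Z : V) :
    |fderiv ℝ (fderiv ℝ (fderiv ℝ f)) x X Y Z|
      ≤ ‖iteratedFDeriv ℝ 3 f x‖ * ‖X‖ * ‖Y‖ * ‖Z‖ := by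
  rw [← norm_fderiv3, ← Real.norm_eq_abs]
  refine (ContinuousLinearMap.le_opNorm _ _).trans ?_
  gcongr
  exact ContinuousLinearMap.le_opNorm₂ _ _ _

lemma abs_fderiv4_le (f : V → ℝ) (x : V) (X Y Z U : V) :
    |fderiv ℝ (fderiv ℝ (fderiv ℝ (fderiv ℝ f))) x X Y Z U|
      ≤ ‖iteratedFDeriv ℝ 4 f x‖ * ‖X‖ * ‖Y‖ * ‖Z‖ * ‖U‖ := by
  rw [← norm_fderiv4, ← Real.norm_eq_abs]
  refine (ContinuousLinearMap.le_opNorm _ _).trans ?_
  gcongr
  refine (ContinuousLinearMap.le_opNorm _ _).trans ?_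
  gcongr
  exact ContinuousLinearMap.le_opNorm₂ _ _ _

/-- Composition with a fixed germ of a smooth map multiplies derivative bounds by a constant. -/
lemma comp_bound (c : V → W) (x : V) (hc : ContDiffAt ℝ (⊤ : ℕ∞) c x) :
    ∃ D : ℝ, 1 ≤ D ∧ ∀ g : W → ℝ, ContDiff ℝ (⊤ : ℕ∞) g → ∀ C : ℝ,
      (∀ i ≤ 4, ‖iteratedFDeriv ℝ i g (c x)‖ ≤ C) → ∀ n ≤ 4,
        ‖iteratedFDeriv ℝ n (fun v => g (c v)) x‖ ≤ D * C := by
  have h4t : (4 : WithTop ℕ∞) ≤ ((⊤ : ℕ∞) : WithTop ℕ∞) := nat_le_top 4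
  have hc4 : ContDiffAt ℝ 4 c x := hc.of_le h4t
  obtain ⟨u, hu, hcu⟩ := hc4.contDiffOn (m := 4) le_rfl (by simp)
  obtain ⟨s, hsu, hs, hxs⟩ := mem_nhds_iff.mp hu
  have hcs : ContDiffOn ℝ 4 c s := hcu.mono (hsu)
  set M : ℝ := ∑ i ∈ Finset.range 5, ‖iteratedFDeriv ℝ i c x‖ with hM
  have hM0 : 0 ≤ M := Finset.sum_nonneg fun _ _ => norm_nonneg _
  have hMi : ∀ i ≤ 4, ‖iteratedFDeriv ℝ i c x‖ ≤ M := fun i hi =>
    Finset.single_le_sum (f := fun i => ‖iteratedFDeriv ℝ i c x‖)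
      (fun _ _ => norm_nonneg _) (Finset.mem_range.mpr (by omega))
  refine ⟨24 * (1 + M) ^ 4, ?_, ?_⟩
  · have : (1 : ℝ) ≤ (1 + M) ^ 4 := one_le_pow₀ (by linarith only [hM0])
    linarith only [this]
  · intro g hg C hC n hn
    have hC0 : 0 ≤ C := le_trans (norm_nonneg _) (hC 0 (by norm_num))
    have key := norm_iteratedFDerivWithin_comp_le (𝕜 := ℝ) (g := g) (f := c) (n := n) (s := s)
      (t := univ) (x := x) (N := 4) (C := C) (D := 1 + M)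
      ((hg.of_le h4t).contDiffOn) hcs (by exact_mod_cast hn)
      uniqueDiffOn_univ hs.uniqueDiffOn (mapsTo_univ _ _) hxs
      (fun i hi => by
        rw [iteratedFDerivWithin_univ]
        exact hC i (hi.trans hn))
      (fun i h1 hi => by
        rw [iteratedFDerivWithin_of_isOpen i hs hxs]
        calc ‖iteratedFDeriv ℝ i c x‖ ≤ M := hMi i (hi.trans hn)
          _ ≤ 1 + M := by linarith only []
          _ ≤ (1 + M) ^ i := le_self_pow₀ (by linarith only [hM0]) (by omega))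
    rw [iteratedFDerivWithin_of_isOpen n hs hxs] at key
    refine le_trans key ?_
    have h1 : (n.factorial : ℝ) ≤ 24 := by
      have : n.factorial ≤ Nat.factorial 4 := Nat.factorial_le hn
      have h4 : Nat.factorial 4 = 24 := rfl
      rw [h4] at this
      exact_mod_cast this
    have h2 : (1 + M) ^ n ≤ (1 + M) ^ 4 := pow_le_pow_right₀ (by linarith only [hM0]) hn
    calc (n.factorial : ℝ) * C * (1 + M) ^ n ≤ 24 * C * (1 + M) ^ 4 := by (clear * - h1 hC0 h2; gcongr)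
      _ = 24 * (1 + M) ^ 4 * C := by ring

end General

section Psi

variable {CΨ Λ : ℝ} {Ψ : ℂ → ℝ}

lemma iteratedFDeriv_Psi_zero (hΨ : IsPsi CΨ Λ Ψ) (n : ℕ) {ζ : ℂ}
    (hζ : ‖ζ‖ ≤ Real.exp (-5)) : iteratedFDeriv ℝ n Ψ ζ = 0 := by
  have hcont : Continuous (iteratedFDeriv ℝ n Ψ) :=
    hΨ.smooth.continuous_iteratedFDeriv (by exact_mod_cast le_top)
  have hcl : IsClosed {ζ : ℂ | iteratedFDeriv ℝ n Ψ ζ = 0} :=
    isClosed_eq hcont continuous_const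
  have hball : Metric.ball (0 : ℂ) (Real.exp (-5)) ⊆ {ζ : ℂ | iteratedFDeriv ℝ n Ψ ζ = 0} := by
    intro w hw
    have h1 : Ψ =ᶠ[𝓝 w] fun _ => (0 : ℝ) := by
      filter_upwards [Metric.isOpen_ball.mem_nhds hw] with v hv
      apply hΨ.zero
      have : ‖v‖ < Real.exp (-5) := by simpa using hv
      exact this.le
    have h2 := (h1.iteratedFDeriv ℝ n).eq_of_nhds
    change iteratedFDeriv ℝ n Ψ w = 0
    rw [h2]
    have h3 := iteratedFDeriv_fun_zero (𝕜 := ℝ) (E := ℂ) (F := ℝ) (n := n)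
    exact congrFun h3 w
  have hsub := hcl.closure_subset_iff.mpr hball
  rw [closure_ball _ (Real.exp_pos _).ne'] at hsub
  exact hsub (by simpa only [Metric.mem_closedBall, dist_zero_right] using hζ)

lemma exists_Psi_bound (hΨ : IsPsi CΨ Λ Ψ) :
    ∃ C : ℝ, 0 ≤ C ∧ ∀ ζ : ℂ, ‖ζ‖ ≤ 1 → ∀ n ≤ 4, ‖iteratedFDeriv ℝ n Ψ ζ‖ ≤ C := by
  have h : ∀ n : ℕ, ∃ C : ℝ, ∀ ζ ∈ Metric.closedBall (0 : ℂ) 1, ‖iteratedFDeriv ℝ n Ψ ζ‖ ≤ C := by
    intro n
    have hcont : Continuous (iteratedFDeriv ℝ n Ψ) :=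
      hΨ.smooth.continuous_iteratedFDeriv (by exact_mod_cast le_top)
    exact (isCompact_closedBall (0 : ℂ) 1).exists_bound_of_continuousOn hcont.continuousOn
  choose C hC using h
  refine ⟨∑ n ∈ Finset.range 5, |C n|, Finset.sum_nonneg fun _ _ => abs_nonneg _, ?_⟩
  intro ζ hζ n hn
  refine (hC n ζ (by simpa only [Metric.mem_closedBall, dist_zero_right] using hζ)).trans ((le_abs_self _).trans ?_)
  exact Finset.single_le_sum (f := fun n => |C n|) (fun _ _ => abs_nonneg _)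
    (Finset.mem_range.mpr (by omega))

/-- `N e ω = Ψ(e exp(iω))`. -/
noncomputable def Nf (Ψ : ℂ → ℝ) (e ω : ℂ) : ℝ := Ψ (e * Complex.exp (Complex.I * ω))

lemma contDiff_Nf (hΨ : IsPsi CΨ Λ Ψ) (e : ℂ) : ContDiff ℝ (⊤ : ℕ∞) (Nf Ψ e) := by
  unfold Nf
  apply hΨ.smooth.comp
  fun_prop

lemma exists_Nf_bound (hΨ : IsPsi CΨ Λ Ψ) :
    ∃ C : ℝ, 0 ≤ C ∧ ∀ e : ℂ, ‖e‖ ≤ 1 → ∀ n ≤ 4, ‖iteratedFDeriv ℝ n (Nf Ψ e) 0‖ ≤ C ∧
      (‖e‖ ≤ Real.exp (-5) → iteratedFDeriv ℝ n (Nf Ψ e) 0 = 0) := by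
  obtain ⟨C, hC0, hC⟩ := exists_Psi_bound hΨ
  have hE : ContDiff ℝ (⊤ : ℕ∞) (fun ω : ℂ => Complex.exp (Complex.I * ω)) := by fun_prop
  set M : ℝ := ∑ i ∈ Finset.range 5,
    ‖iteratedFDeriv ℝ i (fun ω : ℂ => Complex.exp (Complex.I * ω)) 0‖ with hM
  have hM0 : 0 ≤ M := Finset.sum_nonneg fun _ _ => norm_nonneg _
  have hD : ∀ e : ℂ, ‖e‖ ≤ 1 → ∀ i, 1 ≤ i → i ≤ 4 →
      ‖iteratedFDeriv ℝ i (fun ω : ℂ => e * Complex.exp (Complex.I * ω)) 0‖ ≤ (1 + M) ^ i := by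
    intro e he i hi1 hi4
    have h1 := iteratedFDeriv_const_smul_apply' (𝕜 := ℝ) (i := i) (a := e)
      (f := fun ω : ℂ => Complex.exp (Complex.I * ω)) (x := 0)
      (hE.contDiffAt.of_le (by exact_mod_cast le_top))
    simp only [smul_eq_mul] at h1
    rw [h1]
    calc ‖e • iteratedFDeriv ℝ i (fun ω : ℂ => Complex.exp (Complex.I * ω)) 0‖
        ≤ ‖e‖ * ‖iteratedFDeriv ℝ i (fun ω : ℂ => Complex.exp (Complex.I * ω)) 0‖ :=
          norm_smul_le _ _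
      _ ≤ 1 * M := by
        gcongr
        exact Finset.single_le_sum (f := fun i => ‖iteratedFDeriv ℝ i
          (fun ω : ℂ => Complex.exp (Complex.I * ω)) 0‖) (fun _ _ => norm_nonneg _)
          (Finset.mem_range.mpr (by omega))
      _ ≤ 1 + M := by linarith only []
      _ ≤ (1 + M) ^ i := le_self_pow₀ (by linarith only [hM0]) (by omega)
  have key : ∀ e : ℂ, ‖e‖ ≤ 1 → ∀ C' : ℝ, 0 ≤ C' →
      (∀ i ≤ 4, ‖iteratedFDeriv ℝ i Ψ e‖ ≤ C') → ∀ n ≤ 4,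
      ‖iteratedFDeriv ℝ n (Nf Ψ e) 0‖ ≤ 24 * C' * (1 + M) ^ 4 := by
    intro e he C' hC' hb n hn
    have h1 := norm_iteratedFDeriv_comp_le (𝕜 := ℝ) (g := Ψ)
      (f := fun ω : ℂ => e * Complex.exp (Complex.I * ω)) (n := n) (N := (⊤ : ℕ∞)) hΨ.smooth
      (by (clear * -; fun_prop)) (by exact_mod_cast le_top) 0 (C := C') (D := 1 + M)
      (fun i hi => by
        simpa only [mul_zero, Complex.exp_zero, mul_one] using hb i (hi.trans hn))
      (fun i h1 hi => hD e he i h1 (hi.trans hn))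
    refine le_trans h1 ?_
    have h1 : (n.factorial : ℝ) ≤ 24 := by
      have : n.factorial ≤ Nat.factorial 4 := Nat.factorial_le hn
      have h4 : Nat.factorial 4 = 24 := rfl
      rw [h4] at this
      exact_mod_cast this
    have h2 : (1 + M) ^ n ≤ (1 + M) ^ 4 := pow_le_pow_right₀ (by linarith only [hM0]) hn
    have h3 : (n.factorial : ℝ) * C' * (1 + M) ^ n ≤ 24 * C' * (1 + M) ^ 4 := by (clear * - h1 hC' h2; gcongr)
    exact h3
  refine ⟨24 * C * (1 + M) ^ 4, by (clear * - hC0; positivity), ?_⟩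
  intro e he n hn
  refine ⟨key e he C hC0 (fun i hi => hC e he i hi) n hn, ?_⟩
  intro he5
  have h0 := key e he 0 le_rfl (fun i _ => by
    rw [iteratedFDeriv_Psi_zero hΨ i he5, norm_zero]) n hn
  have h1 : ‖iteratedFDeriv ℝ n (Nf Ψ e) 0‖ ≤ 0 := by simpa only [norm_le_zero_iff, mul_zero, zero_mul] using h0
  exact norm_le_zero_iff.mp h1

/-- The `k`-th term in the coordinates centred at the base point. -/
noncomputable def gk (Ψ : ℂ → ℝ) (e : ℂ) (t y : ℝ) (v : ℂ × ℂ) : ℝ :=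
  Nf Ψ e (t * (t * v.2 - 2 * y * v.1))

/-- the linear form in `gk` -/
noncomputable def Lk (t y : ℝ) : ℂ × ℂ →L[ℂ] ℂ :=
  (t : ℂ) • ((t : ℂ) • ContinuousLinearMap.snd ℂ ℂ ℂ - (2 * y : ℂ) • ContinuousLinearMap.fst ℂ ℂ ℂ)

lemma Lk_apply (t y : ℝ) (v : ℂ × ℂ) : Lk t y v = t * (t * v.2 - 2 * y * v.1) := by
  simp [Lk]

lemma norm_Lk_le (t y : ℝ) (ht : 0 ≤ t) (h : t ^ 2 + y ^ 2 ≤ 5) : ‖Lk t y‖ ≤ 8 * t := by
  apply ContinuousLinearMap.opNorm_le_bound _ (by positivity)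
  intro v
  rw [Lk_apply]
  have hy : |y| ≤ 5 / 2 := abs_le_of_sq_le_sq (by nlinarith) (by norm_num) |> fun h => h
  have ht2 : t ≤ 5 / 2 := by nlinarith only [h]
  have h1 : ‖v.1‖ ≤ ‖v‖ := norm_fst_le v
  have h2 : ‖v.2‖ ≤ ‖v‖ := norm_snd_le v
  calc ‖(t : ℂ) * (t * v.2 - 2 * y * v.1)‖ = t * ‖(t : ℂ) * v.2 - 2 * y * v.1‖ := by
        rw [norm_mul, Complex.norm_real, Real.norm_of_nonneg ht]
    _ ≤ t * (‖(t : ℂ) * v.2‖ + ‖(2 : ℂ) * y * v.1‖) := by gcongr; exact norm_sub_le _ _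
    _ = t * (t * ‖v.2‖ + 2 * |y| * ‖v.1‖) := by
        simp [Complex.norm_real, abs_of_nonneg ht]
    _ ≤ t * (5 / 2 * ‖v‖ + 2 * (5 / 2) * ‖v‖) := by gcongr
    _ ≤ 8 * t * ‖v‖ := by linarith only [mul_nonneg ht (norm_nonneg v)]

lemma contDiff_gk (hΨ : IsPsi CΨ Λ Ψ) (e : ℂ) (t y : ℝ) :
    ContDiff ℝ (⊤ : ℕ∞) (gk Ψ e t y) := by
  unfold gk
  apply (contDiff_Nf hΨ e).comp
  fun_prop

lemma exists_gk_bound (hΨ : IsPsi CΨ Λ Ψ) :
    ∃ C : ℝ, 0 ≤ C ∧ ∀ (e : ℂ) (t y : ℝ), 0 < t → ‖e‖ = Real.exp (-(t ^ 2 + y ^ 2)) →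
      ∀ n, 1 ≤ n → n ≤ 4 → ‖iteratedFDeriv ℝ n (gk Ψ e t y) 0‖ ≤
        C * (if t ^ 2 ≤ 5 then t else 0) := by
  obtain ⟨C, hC0, hC⟩ := exists_Nf_bound hΨ
  refine ⟨C * 8 ^ 4 * 3 ^ 4, by positivity, ?_⟩
  intro e t y ht he n hn1 hn
  have he1 : ‖e‖ ≤ 1 := by
    rw [he]
    exact Real.exp_le_one_iff.mpr (by linarith only [sq_nonneg y, sq_nonneg t])
  have hfun : gk Ψ e t y = Nf Ψ e ∘ ((Lk t y).restrictScalars ℝ) := by
    funext v
    simp only [gk, Function.comp_apply, ContinuousLinearMap.coe_restrictScalars', Lk_apply]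
  have hder : iteratedFDeriv ℝ n (gk Ψ e t y) 0 =
      (iteratedFDeriv ℝ n (Nf Ψ e) 0).compContinuousLinearMap
        fun _ => (Lk t y).restrictScalars ℝ := by
    rw [hfun, ContinuousLinearMap.iteratedFDeriv_comp_right _ (contDiff_Nf hΨ e) 0
      (by exact_mod_cast le_top)]
    simp
  have hnorm : ‖iteratedFDeriv ℝ n (gk Ψ e t y) 0‖ ≤
      ‖iteratedFDeriv ℝ n (Nf Ψ e) 0‖ * ‖Lk t y‖ ^ n := by
    rw [hder]
    refine (ContinuousMultilinearMap.norm_compContinuousLinearMap_le _ _).trans ?_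
    simp only [ContinuousLinearMap.norm_restrictScalars, Finset.prod_const, Finset.card_univ, Fintype.card_fin, Std.le_refl]
  by_cases hact : t ^ 2 + y ^ 2 ≤ 5
  · have ht5 : t ^ 2 ≤ 5 := by linarith only [hact, sq_nonneg y]
    rw [if_pos ht5]
    have ht3 : t ≤ 3 := by nlinarith only [hact]
    have hL := norm_Lk_le t y ht.le hact
    calc ‖iteratedFDeriv ℝ n (gk Ψ e t y) 0‖ ≤ ‖iteratedFDeriv ℝ n (Nf Ψ e) 0‖ * ‖Lk t y‖ ^ n :=
          hnorm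
      _ ≤ C * (8 * t) ^ n := by
          gcongr
          exact (hC e he1 n hn).1
      _ = C * 8 ^ n * (t ^ (n - 1) * t) := by
          rw [mul_pow, ← pow_succ, Nat.sub_add_cancel hn1]; ring
      _ ≤ C * 8 ^ 4 * (3 ^ 4 * t) := by
          have e1 : (8 : ℝ) ^ n ≤ 8 ^ 4 := pow_le_pow_right₀ (by norm_num) hn
          have e2 : t ^ (n - 1) ≤ 3 ^ 4 := by
            calc t ^ (n - 1) ≤ 3 ^ (n - 1) := pow_le_pow_left₀ ht.le ht3 _
              _ ≤ 3 ^ 4 := pow_le_pow_right₀ (by norm_num) (by omega)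
          (clear * - e1 hC0 e2 ht; gcongr)
      _ = C * 8 ^ 4 * 3 ^ 4 * t := by ring
  · have h5 : ‖e‖ ≤ Real.exp (-5) := by
      rw [he]
      exact Real.exp_le_exp.mpr (by linarith only [hact])
    rw [hder, (hC e he1 n hn).2 h5]
    have : (0 : ContinuousMultilinearMap ℝ (fun _ : Fin n => ℂ) ℝ).compContinuousLinearMap
        (fun _ => (Lk t y).restrictScalars ℝ) = 0 := by
      ext; simp
    rw [this, norm_zero]
    split_ifs
    · (clear * - hC0 ht; positivity)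
    · simp

end Psi

/-- geometric sum over the scales -/
lemma geom_sum_bound (lam r : ℝ) (hlam : 2 ≤ lam) (hr : 0 < r) (K : ℕ) :
    ∑ k ∈ Finset.range K, (if (lam ^ k * r) ^ 2 ≤ 5 then lam ^ k * r else 0) ≤ 5 := by
  have key : ∀ K : ℕ, ∑ k ∈ Finset.range K,
      (if (lam ^ k * r) ^ 2 ≤ 5 then lam ^ k * r else 0) ≤ min (lam ^ K * r) 5 := by
    intro K
    induction K with
    | zero => simp only [Finset.range_zero, Finset.sum_empty, pow_zero, one_mul]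
              exact le_min hr.le (by norm_num)
    | succ K ih =>
      rw [Finset.sum_range_succ]
      have h1 := ih.trans (min_le_left _ _)
      have h2 := ih.trans (min_le_right _ _)
      have hpos : 0 < lam ^ K * r := by positivity
      have h3 : 2 * (lam ^ K * r) ≤ lam ^ (K + 1) * r := by
        rw [pow_succ]; nlinarith only [hlam, hpos]
      split_ifs with h
      · have h4 : lam ^ K * r ≤ 5 / 2 := by nlinarith only [h]
        exact le_min (by linarith only [h1, h3]) (by linarith only [h1, h4])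
      · exact le_min (by linarith) (by linarith)
  exact (key K).trans (min_le_right _ _)

end Vale.Agent.P250.PJ
end
end
end

section

section

section

/-! `MM χ` is not biholomorphic to a bounded domain if `NoFunction χ` holds. -/

set_option maxSynthPendingDepth 3

namespace Vale.Agent.P250
open Set Filter Topology

theorem mem_MM_zero {χ : ℂ × ℂ → ℝ} {q : ℂ × ℂ} (hq : q ∈ DD) :
    ((q.1, q.2, (0 : ℂ)) : ℂ × ℂ × ℂ) ∈ MM χ := by
  refine ⟨hq, ?_⟩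
  simp only [norm_zero, ne_eq, OfNat.ofNat_ne_zero, not_false_eq_true, zero_pow, Prod.mk.eta, zero_mul, zero_lt_one]

theorem not_biholo (χ : ℂ × ℂ → ℝ) (hχ : ContinuousOn χ DD) (hN : NoFunction χ) :
    ¬ BiholomorphicToBoundedDomain (MM χ) := by
  rintro ⟨U, F, G, hU, -, hUb, hF, hG, hFU, hGM, hGF, -⟩
  have hM : IsOpen (MM χ) := isOpen_MM χ hχ
  set v : ℂ × ℂ × ℂ := (0, 0, 1) with hv
  let inj : ℂ × ℂ → ℂ × ℂ × ℂ := fun q => (q.1, q.2, 0)
  obtain ⟨C, hC⟩ := hUb.exists_norm_le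
  have hFC : ∀ p ∈ MM χ, ‖F p‖ ≤ C := fun p hp => hC _ (hFU hp)
  have hdiff : DifferentiableOn ℂ (fun q : ℂ × ℂ => fderiv ℂ F (inj q) v) DD := by
    refine (differentiableOn_fderiv_apply hM hF v).comp ?_ (fun q hq => mem_MM_zero hq)
    fun_prop
  have hbound : ∀ q ∈ DD, ‖fderiv ℂ F (inj q) v‖ ≤ (2 * C) * Real.exp (χ q) := by
    intro q hq
    have hmem : ∀ t : ℂ, ‖t‖ < Real.exp (-χ q) → inj q + t • v ∈ MM χ := by
      intro t ht
      refine ⟨?_, ?_⟩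
      · show ((inj q + t • v).1, (inj q + t • v).2.1) ∈ DD
        simpa [inj, hv] using hq
      · show ‖(inj q + t • v).2.2‖ ^ 2 * Real.exp (2 * χ ((inj q + t • v).1, (inj q + t • v).2.1)) < 1
        have e1 : (inj q + t • v).2.2 = t := by simp [inj, hv]
        have e2 : ((inj q + t • v).1, (inj q + t • v).2.1) = q := by simp [inj, hv]
        rw [e1, e2]
        have h1 : ‖t‖ ^ 2 < Real.exp (-χ q) ^ 2 := by
          apply pow_lt_pow_left₀ ht (norm_nonneg _)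
          norm_num
        calc ‖t‖ ^ 2 * Real.exp (2 * χ q) < Real.exp (-χ q) ^ 2 * Real.exp (2 * χ q) :=
              mul_lt_mul_of_pos_right h1 (Real.exp_pos _)
          _ = 1 := by
              rw [← Real.exp_nat_mul, ← Real.exp_add]
              have : ((2 : ℕ) : ℝ) * -χ q + 2 * χ q = 0 := by push_cast; ring
              rw [this, Real.exp_zero]
    have hFd : DifferentiableAt ℂ F (inj q) := hF.differentiableAt (hM.mem_nhds (mem_MM_zero hq))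
    have hder : deriv (fun t : ℂ => F (inj q + t • v)) 0 = fderiv ℂ F (inj q) v := by
      have h1 : HasDerivAt (fun t : ℂ => inj q + t • v) v 0 := by
        simpa using ((hasDerivAt_id (0 : ℂ)).smul_const v).const_add (inj q)
      have h2 : HasFDerivAt F (fderiv ℂ F (inj q)) (inj q + (0 : ℂ) • v) := by
        simpa using hFd.hasFDerivAt
      exact (h2.comp_hasDerivAt (0 : ℂ) h1).deriv
    have hr : 0 < Real.exp (-χ q) / 2 := by positivity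
    have hlt : Real.exp (-χ q) / 2 < Real.exp (-χ q) := by
      have := Real.exp_pos (-χ q)
      linarith only [hr]
    rw [← hder]
    have h3 : ‖deriv (fun t : ℂ => F (inj q + t • v)) 0‖ ≤ C / (Real.exp (-χ q) / 2) := by
      apply Complex.norm_deriv_le_of_forall_mem_sphere_norm_le hr
      · have hd : DifferentiableOn ℂ (fun t : ℂ => F (inj q + t • v))
            (Metric.ball 0 (Real.exp (-χ q))) := by
          refine hF.comp (by fun_prop) fun t ht => hmem t ?_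
          rwa [mem_ball_zero_iff] at ht
        exact (hd.mono (Metric.closedBall_subset_ball hlt)).diffContOnCl_ball (le_refl _)
      · intro t ht
        rw [mem_sphere_zero_iff_norm] at ht
        exact hFC _ (hmem t (by rw [ht]; exact hlt))
    refine h3.trans (le_of_eq ?_)
    rw [Real.exp_neg]
    (clear * -; field_simp)
  have h1 : ∀ q ∈ DD, (fderiv ℂ F (inj q) v).1 = 0 :=
    hN (fun q => (fderiv ℂ F (inj q) v).1) hdiff.fst
      ⟨2 * C, fun q hq => (norm_fst_le _).trans (hbound q hq)⟩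
  have h2 : ∀ q ∈ DD, (fderiv ℂ F (inj q) v).2.1 = 0 :=
    hN (fun q => (fderiv ℂ F (inj q) v).2.1) hdiff.snd.fst
      ⟨2 * C, fun q hq => (norm_fst_le _).trans ((norm_snd_le _).trans (hbound q hq))⟩
  have h3 : ∀ q ∈ DD, (fderiv ℂ F (inj q) v).2.2 = 0 :=
    hN (fun q => (fderiv ℂ F (inj q) v).2.2) hdiff.snd.snd
      ⟨2 * C, fun q hq => (norm_snd_le _).trans ((norm_snd_le _).trans (hbound q hq))⟩
  have hq0 : ((0 : ℂ), Complex.I) ∈ DD := by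
    show 0 < rho (0, Complex.I)
    simp only [rho, Complex.I_im, Complex.zero_im, ne_eq, OfNat.ofNat_ne_zero, not_false_eq_true, zero_pow, sub_zero, zero_lt_one]
  set p0 : ℂ × ℂ × ℂ := inj (0, Complex.I) with hp0
  have hp0M : p0 ∈ MM χ := mem_MM_zero hq0
  have hz : fderiv ℂ F p0 v = 0 :=
    Prod.ext (h1 _ hq0) (Prod.ext (h2 _ hq0) (h3 _ hq0))
  have hFd : HasFDerivAt F (fderiv ℂ F p0) p0 :=
    (hF.differentiableAt (hM.mem_nhds hp0M)).hasFDerivAt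
  have hGd : HasFDerivAt G (fderiv ℂ G (F p0)) (F p0) :=
    (hG.differentiableAt (hU.mem_nhds (hFU hp0M))).hasFDerivAt
  have hcomp : HasFDerivAt (fun p => G (F p)) ((fderiv ℂ G (F p0)).comp (fderiv ℂ F p0)) p0 :=
    hGd.comp p0 hFd
  have hid : HasFDerivAt (fun p => G (F p)) (ContinuousLinearMap.id ℂ (ℂ × ℂ × ℂ)) p0 := by
    refine (hasFDerivAt_id p0).congr_of_eventuallyEq ?_
    filter_upwards [hM.mem_nhds hp0M] with p hp using hGF p hp
  have heq := hcomp.unique hid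
  have h4 := congrArg (fun L : (ℂ × ℂ × ℂ) →L[ℂ] (ℂ × ℂ × ℂ) => (L v).2.2) heq
  simp only [ContinuousLinearMap.comp_apply, hz, map_zero, ContinuousLinearMap.id_apply] at h4
  simp [hv] at h4

end Vale.Agent.P250
end
end
end

section

section

section

/-! The normalised jet bounds for a finite sum of wells in a fixed chart. -/

set_option maxSynthPendingDepth 3

namespace Vale.Agent.P250.PJ

open Set Filter Topology

section gP
variable {E : Type*} [NormedAddCommGroup E] [NormedSpace ℂ E]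

lemma gP_const' (a : ℝ) (p : E) : gP (fun _ : E => a) p = 0 := by
  have h : (fderiv ℝ (fun _ : E => a)) = fun _ => 0 := by
    funext x; exact fderiv_const_apply a
  ext X Y
  rw [gP_apply, h]
  simp only [one_div, fderiv_fun_const, Pi.zero_apply, zero_apply, add_zero, mul_zero]

lemma gP_sum' {ι : Type*} (t : Finset ι) (f : ι → E → ℝ) (p : E)
    (hf : ∀ i ∈ t, ContDiffAt ℝ (⊤ : ℕ∞) (f i) p) :
    gP (fun q => ∑ i ∈ t, f i q) p = ∑ i ∈ t, gP (f i) p := by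
  classical
  induction t using Finset.induction_on with
  | empty => simpa only [Finset.sum_empty] using gP_const' (0 : ℝ) p
  | insert a t ha ih =>
    have h1 : (fun q => ∑ i ∈ insert a t, f i q) = fun q => f a q + ∑ i ∈ t, f i q := by
      funext q; rw [Finset.sum_insert ha]
    rw [h1, gP_add (hf a (Finset.mem_insert_self a t))
      (ContDiffAt.sum fun i hi => hf i (Finset.mem_insert_of_mem hi)),
      Finset.sum_insert ha, ih fun i hi => hf i (Finset.mem_insert_of_mem hi)]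

lemma gP_I_I (v : E → ℝ) (p X Y : E) :
    gP v p (Complex.I • X) (Complex.I • Y) = gP v p X Y := by
  have h1 : Complex.I • Complex.I • X = -X := by
    rw [smul_smul, Complex.I_mul_I, neg_one_smul]
  have h2 : Complex.I • Complex.I • Y = -Y := by
    rw [smul_smul, Complex.I_mul_I, neg_one_smul]
  rw [gP_apply, gP_apply, h1, h2]
  simp only [map_neg, neg_apply, neg_neg]
  ring

end gP

section Abstract
variable {V : Type*} [NormedAddCommGroup V] [InnerProductSpace ℂ V]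

lemma contDiffAt_neglog :
    ContDiffAt ℝ (⊤ : ℕ∞) (fun ζ : V => -Real.log (1 - ‖ζ‖ ^ 2)) 0 := by
  have h1 : ContDiff ℝ (⊤ : ℕ∞) (fun ζ : V => ‖ζ‖ ^ 2) := contDiff_norm_sq ℂ
  exact ((contDiffAt_const.sub h1.contDiffAt).log (by simp)).neg

lemma gP_neglog (X : V) : gP (fun ζ : V => -Real.log (1 - ‖ζ‖ ^ 2)) 0 X X = ‖X‖ ^ 2 := by
  let _i : InnerProductSpace ℝ V := InnerProductSpace.complexToReal
  have hN : ContDiff ℝ (⊤ : ℕ∞) (fun ζ : V => ‖ζ‖ ^ 2) := contDiff_norm_sq ℂ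
  have hφ : ContDiffAt ℝ (⊤ : ℕ∞) (fun x : ℝ => -Real.log (1 - x)) ((fun ζ : V => ‖ζ‖ ^ 2) 0) :=
    ((contDiffAt_const.sub contDiffAt_id).log (by simp)).neg
  have hN1 : fderiv ℝ (fun ζ : V => ‖ζ‖ ^ 2)
      = fun ζ : V => (2 : ℝ) • (innerSL ℝ ζ : V →L[ℝ] ℝ) := by
    funext ζ
    have h := (hasStrictFDerivAt_norm_sq ζ).hasFDerivAt.fderiv
    rw [h]
    ext Y
    simp
  have hN2 : ∀ Y Z : V, fderiv ℝ (fderiv ℝ (fun ζ : V => ‖ζ‖ ^ 2)) 0 Y Z
      = 2 * inner ℝ Y Z := by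
    intro Y Z
    rw [hN1]
    have h := ((innerSL ℝ (E := V)).hasFDerivAt (x := 0)).const_smul (2 : ℝ)
    have h' : fderiv ℝ (fun ζ : V => (2 : ℝ) • (innerSL ℝ ζ : V →L[ℝ] ℝ)) 0
        = (2 : ℝ) • (innerSL ℝ : V →L[ℝ] V →L[ℝ] ℝ) := h.fderiv
    rw [h']
    simp only [smul_apply, smul_eq_mul, mul_eq_mul_left_iff, OfNat.ofNat_ne_zero, or_false]
    rfl
  have hφ1 : ∀ a : ℝ, fderiv ℝ (fun x : ℝ => -Real.log (1 - x)) ((fun ζ : V => ‖ζ‖ ^ 2) 0) a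
      = a := by
    intro a
    have h0 : ((fun ζ : V => ‖ζ‖ ^ 2) 0) = (0 : ℝ) := by simp
    rw [h0]
    have h : HasDerivAt (fun x : ℝ => -Real.log (1 - x)) 1 0 := by
      have h2 := (((hasDerivAt_id (0 : ℝ)).const_sub 1).log (by simp)).neg
      refine HasDerivAt.congr_deriv h2 ?_
      simp
    rw [h.hasFDerivAt.fderiv]
    simp only [ContinuousLinearMap.toSpanSingleton_apply, smul_eq_mul, mul_one]
  have key : ∀ Y : V, fderiv ℝ (fderiv ℝ (fun ζ : V => -Real.log (1 - ‖ζ‖ ^ 2))) 0 Y Y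
      = 2 * ‖Y‖ ^ 2 := by
    intro Y
    have h := fderiv_fderiv_comp (fun x : ℝ => -Real.log (1 - x)) (fun ζ : V => ‖ζ‖ ^ 2) 0
      hN.contDiffAt hφ Y Y
    rw [h, hφ1, hN2, real_inner_self_eq_norm_sq]
    have h3 : fderiv ℝ (fun ζ : V => ‖ζ‖ ^ 2) 0 Y = 0 := by
      rw [hN1]; simp
    rw [h3]
    simp only [norm_zero, ne_eq, OfNat.ofNat_ne_zero, not_false_eq_true, zero_pow, fderiv_eq_smul_deriv, zero_smul, zero_apply, zero_add]
  rw [gP_apply, key, key, norm_smul, Complex.norm_I]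
  ring

lemma normalJet_congr {ε0 C0 C3 C4 : ℝ} {f g : V → ℝ} (κ : ℝ)
    (h : f =ᶠ[𝓝 0] fun ζ => κ + g ζ) (hg : NormalJet ε0 C0 C3 C4 g) :
    NormalJet ε0 C0 C3 C4 f := by
  have h1 : fderiv ℝ f =ᶠ[𝓝 0] fderiv ℝ g := by
    refine h.fderiv.trans ?_
    have : fderiv ℝ (fun ζ => κ + g ζ) = fderiv ℝ g := by
      funext ζ
      exact fderiv_const_add κ
    rw [this]
  have h2 := h1.fderiv (𝕜 := ℝ)
  have h3 := h2.fderiv (𝕜 := ℝ)
  have h4 := h3.fderiv (𝕜 := ℝ)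
  refine ⟨?_, ?_, ?_, ?_, ?_, ?_, ?_⟩
  · exact (contDiffAt_const.add hg.smooth).congr_of_eventuallyEq h
  · rw [h1.eq_of_nhds]; exact hg.d1
  · rw [h2.eq_of_nhds]; exact hg.pure2
  · rw [h2.eq_of_nhds]; exact hg.lower
  · rw [h2.eq_of_nhds]; exact hg.upper
  · rw [h3.eq_of_nhds]; exact hg.d3
  · rw [h4.eq_of_nhds]; exact hg.d4

lemma norm_iteratedFDeriv_sub_const {W : Type*} [NormedAddCommGroup W] [NormedSpace ℝ W]
    (g : W → ℝ) (a : ℝ) (x : W) (n : ℕ) (hn : 1 ≤ n) :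
    ‖iteratedFDeriv ℝ n (fun v => g v - a) x‖ = ‖iteratedFDeriv ℝ n g x‖ := by
  obtain ⟨m, rfl⟩ := Nat.exists_eq_add_of_le' hn
  rw [← norm_iteratedFDeriv_fderiv, ← norm_iteratedFDeriv_fderiv]
  have : fderiv ℝ (fun v => g v - a) = fderiv ℝ g := by
    funext ζ
    exact fderiv_sub_const a
  rw [this]

/-- Levi form of a well is nonnegative. -/
lemma gP_well_nonneg {CΨ Λ : ℝ} {Ψ : ℂ → ℝ} (hΨ : IsPsi CΨ Λ Ψ) (c : V → ℂ × ℂ)
    (hc : ContDiffAt ℂ (⊤ : ℕ∞) c 0) (hc0 : c 0 = 0) (e : ℂ) (he : ‖e‖ < 1) (t y : ℝ) (X : V) :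
    0 ≤ gP (fun ζ => gk Ψ e t y (c ζ)) 0 X X := by
  have h1 : (fun ζ => gk Ψ e t y (c ζ))
      = fun ζ => Ψ (e * Complex.exp (Complex.I * (t * (t * (c ζ).2 - 2 * y * (c ζ).1)))) := rfl
  have hF : ContDiffAt ℂ (⊤ : ℕ∞)
      (fun ζ => e * Complex.exp (Complex.I * (t * (t * (c ζ).2 - 2 * y * (c ζ).1)))) 0 := by
    apply contDiffAt_const.mul
    apply ContDiffAt.cexp
    apply contDiffAt_const.mul
    apply contDiffAt_const.mul
    exact (contDiffAt_const.mul hc.snd).sub (contDiffAt_const.mul hc.fst)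
  rw [h1, gP_comp Ψ _ 0 hF hΨ.smooth.contDiffAt X X, gP_apply]
  have h2 := hΨ.sub (e * Complex.exp (Complex.I * (t * (t * (c 0).2 - 2 * y * (c 0).1))))
    (by rw [hc0]; simpa only [Prod.snd_zero, mul_zero, Prod.fst_zero, sub_self, Complex.exp_zero, mul_one] using he)
    (fderiv ℝ (fun ζ => e * Complex.exp (Complex.I * (t * (t * (c ζ).2 - 2 * y * (c ζ).1)))) 0 X)
  simp only [smul_eq_mul]
  linarith

/-- Removing the pluriharmonic part of the 2-jet gives a normalised jet. -/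
lemma normalJet_of_bounds (v : V → ℝ) (hvs : ContDiffAt ℝ (⊤ : ℕ∞) v 0) (Cw a : ℝ)
    (hvb : ∀ n ≤ 4, ‖iteratedFDeriv ℝ n v 0‖ ≤ Cw)
    (hgv : ∀ X, a * ‖X‖ ^ 2 ≤ 2 * gP v 0 X X) :
    ∃ h : V → ℂ, ContDiffAt ℂ (⊤ : ℕ∞) h 0 ∧ h 0 = 0 ∧
      NormalJet a Cw Cw Cw (fun ζ => v ζ - (h ζ).re) := by
  obtain ⟨h, hh, hh0, d1, d2, d3, d4⟩ := exists_removal v hvs
  refine ⟨h, hh.contDiffAt, hh0, ?_⟩
  refine ⟨?_, d1, ?_, ?_, ?_, ?_, ?_⟩
  · exact hvs.sub (Complex.reCLM.contDiff.contDiffAt.comp 0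
      (hh.contDiffAt.restrict_scalars ℝ))
  · intro X Y
    rw [d2, d2, gP_I_I]
  · intro X
    rw [d2]
    exact hgv X
  · intro X
    rw [d2]
    have b1 := (le_abs_self _).trans (abs_fderiv2_le v 0 X X)
    have b2 := (le_abs_self _).trans (abs_fderiv2_le v 0 (Complex.I • X) (Complex.I • X))
    rw [norm_smul, Complex.norm_I, one_mul] at b2
    have b3 := hvb 2 (by norm_num)
    have b4 : ‖iteratedFDeriv ℝ 2 v 0‖ * ‖X‖ * ‖X‖ ≤ Cw * ‖X‖ * ‖X‖ :=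
      mul_le_mul_of_nonneg_right (mul_le_mul_of_nonneg_right b3 (norm_nonneg _)) (norm_nonneg _)
    rw [gP_apply]
    linarith only [b1, b2, b4]
  · intro X Y Z
    rw [d3]
    refine (abs_fderiv3_le v 0 X Y Z).trans ?_
    have b3 := hvb 3 (by norm_num)
    exact mul_le_mul_of_nonneg_right (mul_le_mul_of_nonneg_right
      (mul_le_mul_of_nonneg_right b3 (norm_nonneg _)) (norm_nonneg _)) (norm_nonneg _)
  · intro X Y Z U
    rw [d4]
    refine (abs_fderiv4_le v 0 X Y Z U).trans ?_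
    have b4 := hvb 4 (by norm_num)
    exact mul_le_mul_of_nonneg_right (mul_le_mul_of_nonneg_right (mul_le_mul_of_nonneg_right
      (mul_le_mul_of_nonneg_right b4 (norm_nonneg _)) (norm_nonneg _)) (norm_nonneg _))
      (norm_nonneg _)

theorem jet_assembly (c : V → ℂ × ℂ) (hc : ContDiffAt ℂ (⊤ : ℕ∞) c 0) (hc0 : c 0 = 0)
    (H : V → ℂ) (hH : ContDiffAt ℂ (⊤ : ℕ∞) H 0)
    {CΨ Λ : ℝ} {Ψ : ℂ → ℝ} (hΨ : IsPsi CΨ Λ Ψ) (lam ε s : ℝ) (hlam : 2 ≤ lam) (hε : 0 < ε)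
    (hs : 0 < s) : ∃ ε0 C0 C3 C4 : ℝ, 0 < ε0 ∧ 0 < C0 ∧ 0 < C3 ∧ 0 < C4 ∧
      ∀ (r : ℝ) (K : ℕ) (e : ℕ → ℂ) (y : ℕ → ℝ) (κ : ℝ) (u : V → ℝ), 0 < r →
        (∀ k, ‖e k‖ = Real.exp (-((lam ^ k * r) ^ 2 + y k ^ 2))) →
        (u =ᶠ[𝓝 0] fun ζ => κ + s * (ε * (-Real.log (1 - ‖ζ‖ ^ 2) + (H ζ).re)
          + ∑ k ∈ Finset.range K, gk Ψ (e k) (lam ^ k * r) (y k) (c ζ))) →
        ∃ h : V → ℂ, ContDiffAt ℂ (⊤ : ℕ∞) h 0 ∧ h 0 = 0 ∧
          NormalJet ε0 C0 C3 C4 (fun ζ => u ζ - (h ζ).re) := by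
  have hcR : ContDiffAt ℝ (⊤ : ℕ∞) c 0 := hc.restrict_scalars ℝ
  obtain ⟨D, hD1, hD⟩ := comp_bound c 0 hcR
  obtain ⟨Cg, hCg0, hCg⟩ := exists_gk_bound hΨ
  have hHre : ContDiffAt ℝ (⊤ : ℕ∞) (fun ζ : V => (H ζ).re) 0 :=
    Complex.reCLM.contDiff.contDiffAt.comp 0 (hH.restrict_scalars ℝ)
  set W0 : V → ℝ := fun ζ : V => -Real.log (1 - ‖ζ‖ ^ 2) + (H ζ).re with hW0def
  have hW0 : ContDiffAt ℝ (⊤ : ℕ∞) W0 0 := contDiffAt_neglog.add hHre
  have hgW0 : ∀ X : V, gP W0 0 X X = ‖X‖ ^ 2 := by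
    intro X
    rw [hW0def, gP_add contDiffAt_neglog hHre, gP_re H 0 hH]
    simp only [add_zero, gP_neglog]
  set A : ℝ := ∑ n ∈ Finset.range 5, ‖iteratedFDeriv ℝ n W0 0‖ with hA
  have hA0 : 0 ≤ A := Finset.sum_nonneg fun _ _ => norm_nonneg _
  have hAn : ∀ n ≤ 4, ‖iteratedFDeriv ℝ n W0 0‖ ≤ A := fun n hn =>
    Finset.single_le_sum (f := fun n => ‖iteratedFDeriv ℝ n W0 0‖)
      (fun _ _ => norm_nonneg _) (Finset.mem_range.mpr (by omega))
  set Cw : ℝ := s * (ε * A + D * (Cg * 5)) + 1 with hCw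
  have hCw0 : 0 < Cw := by (clear * - hs hε hD1 hCg0; positivity)
  refine ⟨2 * s * ε, Cw, Cw, Cw, by positivity, hCw0, hCw0, hCw0, ?_⟩
  intro r K e y κ u hr he hu
  have hgs : ∀ k, ContDiff ℝ (⊤ : ℕ∞) (gk Ψ (e k) (lam ^ k * r) (y k)) :=
    fun k => contDiff_gk hΨ _ _ _
  set S : ℂ × ℂ → ℝ := fun v => ∑ k ∈ Finset.range K, gk Ψ (e k) (lam ^ k * r) (y k) v with hS
  have hSs : ContDiff ℝ (⊤ : ℕ∞) S := ContDiff.sum fun k _ => hgs k
  set G : ℂ × ℂ → ℝ := fun v => S v - S 0 with hG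
  have hGs : ContDiff ℝ (⊤ : ℕ∞) G := hSs.sub contDiff_const
  have hlam0 : 0 < lam := by linarith only [hlam]
  have hGb : ∀ i ≤ 4, ‖iteratedFDeriv ℝ i G (c 0)‖ ≤ Cg * 5 := by
    intro i hi
    rw [hc0]
    rcases Nat.eq_zero_or_pos i with rfl | hi0
    · rw [norm_iteratedFDeriv_zero, hG]
      simp only [sub_self, norm_zero]
      (clear * - hCg0; positivity)
    · rw [hG, norm_iteratedFDeriv_sub_const S (S 0) 0 i hi0, hS,
        iteratedFDeriv_fun_sum_apply fun k _ => ((hgs k).of_le (nat_le_top i)).contDiffAt]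
      refine (norm_sum_le _ _).trans ?_
      calc ∑ k ∈ Finset.range K, ‖iteratedFDeriv ℝ i (gk Ψ (e k) (lam ^ k * r) (y k)) 0‖
          ≤ ∑ k ∈ Finset.range K, Cg * (if (lam ^ k * r) ^ 2 ≤ 5 then lam ^ k * r else 0) := by
            apply Finset.sum_le_sum
            intro k _
            exact hCg (e k) (lam ^ k * r) (y k) (by (clear * - hlam hr; positivity)) (he k) i hi0 hi
        _ = Cg * ∑ k ∈ Finset.range K, (if (lam ^ k * r) ^ 2 ≤ 5 then lam ^ k * r else 0) := by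
            rw [Finset.mul_sum]
        _ ≤ Cg * 5 := by
            gcongr
            exact geom_sum_bound lam r hlam hr K
  have hGc : ContDiffAt ℝ (⊤ : ℕ∞) (fun ζ : V => G (c ζ)) 0 := hGs.contDiffAt.comp 0 hcR
  have hGcb := hD G hGs (Cg * 5) hGb
  set v : V → ℝ := fun ζ => s * (ε * W0 ζ + G (c ζ)) with hv
  have hv1 : ContDiffAt ℝ (⊤ : ℕ∞) (fun ζ => ε * W0 ζ + G (c ζ)) 0 :=
    (contDiffAt_const.mul hW0).add hGc
  have hvs : ContDiffAt ℝ (⊤ : ℕ∞) v 0 := contDiffAt_const.mul hv1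
  have hvb : ∀ n ≤ 4, ‖iteratedFDeriv ℝ n v 0‖ ≤ Cw := by
    intro n hn
    have e1 : iteratedFDeriv ℝ n v 0 = s • iteratedFDeriv ℝ n (fun ζ => ε * W0 ζ + G (c ζ)) 0 :=
      iteratedFDeriv_const_smul_apply' (a := s) (hv1.of_le (nat_le_top n))
    have e2 : iteratedFDeriv ℝ n (fun ζ => ε * W0 ζ + G (c ζ)) 0
        = iteratedFDeriv ℝ n (fun ζ => ε * W0 ζ) 0 + iteratedFDeriv ℝ n (fun ζ => G (c ζ)) 0 :=
      iteratedFDeriv_add_apply ((contDiffAt_const.mul hW0).of_le (nat_le_top n))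
        (hGc.of_le (nat_le_top n))
    have e3 : iteratedFDeriv ℝ n (fun ζ => ε * W0 ζ) 0 = ε • iteratedFDeriv ℝ n W0 0 :=
      iteratedFDeriv_const_smul_apply' (a := ε) (hW0.of_le (nat_le_top n))
    rw [e1, e2, e3, norm_smul, Real.norm_of_nonneg hs.le]
    calc s * ‖ε • iteratedFDeriv ℝ n W0 0 + iteratedFDeriv ℝ n (fun ζ => G (c ζ)) 0‖
        ≤ s * (‖ε • iteratedFDeriv ℝ n W0 0‖ + ‖iteratedFDeriv ℝ n (fun ζ => G (c ζ)) 0‖) := by
          gcongr; exact norm_add_le _ _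
      _ ≤ s * (ε * A + D * (Cg * 5)) := by
          rw [norm_smul, Real.norm_of_nonneg hε.le]
          gcongr
          · exact hAn n hn
          · exact hGcb n hn
      _ ≤ Cw := by rw [hCw]; linarith only []
  have hgv : ∀ X : V, s * (ε * ‖X‖ ^ 2) ≤ gP v 0 X X := by
    intro X
    have a1 : gP v 0 = s • gP (fun ζ => ε * W0 ζ + G (c ζ)) 0 := gP_const_mul hv1 s
    have a2 : gP (fun ζ => ε * W0 ζ + G (c ζ)) 0
        = gP (fun ζ => ε * W0 ζ) 0 + gP (fun ζ => G (c ζ)) 0 :=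
      gP_add (contDiffAt_const.mul hW0) hGc
    have a3 : gP (fun ζ => ε * W0 ζ) 0 = ε • gP W0 0 := gP_const_mul hW0 ε
    have hSc : ContDiffAt ℝ (⊤ : ℕ∞) (fun ζ : V => S (c ζ)) 0 := hSs.contDiffAt.comp 0 hcR
    have a4 : gP (fun ζ : V => G (c ζ)) 0 = gP (fun ζ : V => S (c ζ)) 0 := by
      have : (fun ζ : V => G (c ζ)) = fun ζ : V => S (c ζ) + (-(S 0)) := by
        funext ζ; simp only [hG, sub_eq_add_neg]
      rw [this, gP_add hSc contDiffAt_const, gP_const', add_zero]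
    have a5 : gP (fun ζ : V => S (c ζ)) 0
        = ∑ k ∈ Finset.range K, gP (fun ζ : V => gk Ψ (e k) (lam ^ k * r) (y k) (c ζ)) 0 :=
      gP_sum' _ _ _ fun k _ => (hgs k).contDiffAt.comp 0 hcR
    have a6 : 0 ≤ gP (fun ζ : V => G (c ζ)) 0 X X := by
      rw [a4, a5]
      simp only [FunLike.coe_sum, Finset.sum_apply]
      apply Finset.sum_nonneg
      intro k _
      apply gP_well_nonneg hΨ c hc hc0
      rw [he k]
      rw [← Real.exp_zero, Real.exp_lt_exp]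
      have : 0 < lam ^ k * r := by (clear * - hlam hr; positivity)
      linarith only [sq_nonneg (y k), sq_pos_of_pos this]
    rw [a1, a2, a3]
    simp only [smul_apply, add_apply, hgW0, smul_eq_mul]
    have := mul_nonneg hs.le a6
    linarith only [this]
  obtain ⟨h, hh, hh0, main⟩ := normalJet_of_bounds v hvs Cw (2 * s * ε) hvb
    (fun X => by have := hgv X; linarith)
  refine ⟨h, hh, hh0, ?_⟩
  refine normalJet_congr (κ + s * S 0) ?_ main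
  filter_upwards [hu] with ζ hζ
  rw [hζ]
  simp only [hv, hG, hS, hW0def]
  ring

end Abstract

end Vale.Agent.P250.PJ
end
end
end

section

section

section

/-! The normalised jet bounds for a finite sum of wells, general dimension. -/

set_option maxSynthPendingDepth 3

namespace Vale.Agent.P250.G.JA

open Set Filter Topology Vale.Agent.P250 Vale.Agent.P250.PJ

variable {V : Type*} [NormedAddCommGroup V] [InnerProductSpace ℂ V]
  {U : Type*} [NormedAddCommGroup U] [NormedSpace ℂ U]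

lemma contDiff_NfL {CΨ Λ : ℝ} {Ψ : ℂ → ℝ} (hΨ : IsPsi CΨ Λ Ψ) (e : ℂ) (L : U →L[ℂ] ℂ) :
    ContDiff ℝ (⊤ : ℕ∞) (fun v : U => Nf Ψ e (L v)) :=
  (contDiff_Nf hΨ e).comp (L.restrictScalars ℝ).contDiff

lemma exists_NfL_bound {CΨ Λ : ℝ} {Ψ : ℂ → ℝ} (hΨ : IsPsi CΨ Λ Ψ) (A : ℝ) (hA : 0 ≤ A) :
    ∃ C : ℝ, 0 ≤ C ∧ ∀ (e : ℂ) (t : ℝ) (L : U →L[ℂ] ℂ), 0 < t → ‖e‖ < 1 →
      (Real.exp (-5) < ‖e‖ → t ^ 2 ≤ 5 ∧ ‖L‖ ≤ A * t) →
      ∀ n, 1 ≤ n → n ≤ 4 → ‖iteratedFDeriv ℝ n (fun v : U => Nf Ψ e (L v)) 0‖ ≤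
        C * (if t ^ 2 ≤ 5 then t else 0) := by
  obtain ⟨C, hC0, hC⟩ := exists_Nf_bound hΨ
  refine ⟨C * (1 + A) ^ 4 * 3 ^ 4, by (clear * - hC0 hA; positivity), ?_⟩
  intro e t L ht he hact n hn1 hn
  have hfun : (fun v : U => Nf Ψ e (L v)) = Nf Ψ e ∘ (L.restrictScalars ℝ) := by
    funext v
    simp only [Function.comp_apply, ContinuousLinearMap.coe_restrictScalars']
  have hder : iteratedFDeriv ℝ n (fun v : U => Nf Ψ e (L v)) 0 =
      (iteratedFDeriv ℝ n (Nf Ψ e) 0).compContinuousLinearMap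
        fun _ => L.restrictScalars ℝ := by
    rw [hfun, ContinuousLinearMap.iteratedFDeriv_comp_right _ (contDiff_Nf hΨ e) 0
      (by exact_mod_cast le_top)]
    simp only [ContinuousLinearMap.coe_restrictScalars', map_zero]
  by_cases h5 : Real.exp (-5) < ‖e‖
  · obtain ⟨ht5, hL⟩ := hact h5
    rw [if_pos ht5]
    have ht3 : t ≤ 3 := by nlinarith only [ht5]
    have hL' : ‖L‖ ≤ (1 + A) * t := hL.trans (by linarith only [ht])
    have hnorm : ‖iteratedFDeriv ℝ n (fun v : U => Nf Ψ e (L v)) 0‖ ≤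
        ‖iteratedFDeriv ℝ n (Nf Ψ e) 0‖ * ‖L‖ ^ n := by
      rw [hder]
      refine (ContinuousMultilinearMap.norm_compContinuousLinearMap_le _ _).trans ?_
      simp only [ContinuousLinearMap.norm_restrictScalars, Finset.prod_const, Finset.card_univ, Fintype.card_fin, Std.le_refl]
    calc ‖iteratedFDeriv ℝ n (fun v : U => Nf Ψ e (L v)) 0‖
        ≤ ‖iteratedFDeriv ℝ n (Nf Ψ e) 0‖ * ‖L‖ ^ n := hnorm
      _ ≤ C * ((1 + A) * t) ^ n := by
          gcongr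
          exact (hC e he.le n hn).1
      _ = C * (1 + A) ^ n * (t ^ (n - 1) * t) := by
          rw [mul_pow, ← pow_succ, Nat.sub_add_cancel hn1]; ring
      _ ≤ C * (1 + A) ^ 4 * (3 ^ 4 * t) := by
          have e1 : (1 + A) ^ n ≤ (1 + A) ^ 4 := pow_le_pow_right₀ (by linarith only [hA]) hn
          have e2 : t ^ (n - 1) ≤ 3 ^ 4 := by
            calc t ^ (n - 1) ≤ 3 ^ (n - 1) := pow_le_pow_left₀ ht.le ht3 _
              _ ≤ 3 ^ 4 := pow_le_pow_right₀ (by norm_num) (by omega)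
          (clear * - e1 hC0 e2 ht hA; gcongr)
      _ = C * (1 + A) ^ 4 * 3 ^ 4 * t := by ring
  · rw [hder, (hC e he.le n hn).2 (not_lt.mp h5)]
    have : (0 : ContinuousMultilinearMap ℝ (fun _ : Fin n => ℂ) ℝ).compContinuousLinearMap
        (fun _ => L.restrictScalars ℝ) = 0 := by
      ext; simp
    rw [this, norm_zero]
    split_ifs
    · (clear * - hC0 hA ht; positivity)
    · simp

/-- Levi form of a well is nonnegative. -/
lemma gP_wellL_nonneg {CΨ Λ : ℝ} {Ψ : ℂ → ℝ} (hΨ : IsPsi CΨ Λ Ψ) (c : V → U)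
    (hc : ContDiffAt ℂ (⊤ : ℕ∞) c 0) (hc0 : c 0 = 0) (e : ℂ) (he : ‖e‖ < 1) (L : U →L[ℂ] ℂ)
    (X : V) : 0 ≤ gP (fun ζ => Nf Ψ e (L (c ζ))) 0 X X := by
  have h1 : (fun ζ => Nf Ψ e (L (c ζ)))
      = fun ζ => Ψ (e * Complex.exp (Complex.I * L (c ζ))) := rfl
  have hF : ContDiffAt ℂ (⊤ : ℕ∞)
      (fun ζ => e * Complex.exp (Complex.I * L (c ζ))) 0 := by
    apply contDiffAt_const.mul
    apply ContDiffAt.cexp
    apply contDiffAt_const.mul
    exact L.contDiff.contDiffAt.comp 0 hc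
  rw [h1, gP_comp Ψ _ 0 hF hΨ.smooth.contDiffAt X X, gP_apply]
  have h2 := hΨ.sub (e * Complex.exp (Complex.I * L (c 0)))
    (by rw [hc0]; simpa only [map_zero, mul_zero, Complex.exp_zero, mul_one] using he)
    (fderiv ℝ (fun ζ => e * Complex.exp (Complex.I * L (c ζ))) 0 X)
  simp only [smul_eq_mul]
  linarith only [h2]

theorem jet_assemblyG (c : V → U) (hc : ContDiffAt ℂ (⊤ : ℕ∞) c 0) (hc0 : c 0 = 0)
    (H : V → ℂ) (hH : ContDiffAt ℂ (⊤ : ℕ∞) H 0) (A : ℝ) (hA : 0 ≤ A)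
    {CΨ Λ : ℝ} {Ψ : ℂ → ℝ} (hΨ : IsPsi CΨ Λ Ψ) (lam ε s : ℝ) (hlam : 2 ≤ lam) (hε : 0 < ε)
    (hs : 0 < s) : ∃ ε0 C0 C3 C4 : ℝ, 0 < ε0 ∧ 0 < C0 ∧ 0 < C3 ∧ 0 < C4 ∧
      ∀ (r : ℝ) (K : ℕ) (e : ℕ → ℂ) (L : ℕ → U →L[ℂ] ℂ) (κ : ℝ) (u : V → ℝ), 0 < r →
        (∀ k, ‖e k‖ < 1) →
        (∀ k, Real.exp (-5) < ‖e k‖ → (lam ^ k * r) ^ 2 ≤ 5 ∧ ‖L k‖ ≤ A * (lam ^ k * r)) →
        (u =ᶠ[𝓝 0] fun ζ => κ + s * (ε * (-Real.log (1 - ‖ζ‖ ^ 2) + (H ζ).re)
          + ∑ k ∈ Finset.range K, Nf Ψ (e k) (L k (c ζ)))) →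
        ∃ h : V → ℂ, ContDiffAt ℂ (⊤ : ℕ∞) h 0 ∧ h 0 = 0 ∧
          NormalJet ε0 C0 C3 C4 (fun ζ => u ζ - (h ζ).re) := by
  have hcR : ContDiffAt ℝ (⊤ : ℕ∞) c 0 := hc.restrict_scalars ℝ
  obtain ⟨D, hD1, hD⟩ := comp_bound c 0 hcR
  obtain ⟨Cg, hCg0, hCg⟩ := exists_NfL_bound (U := U) hΨ A hA
  have hHre : ContDiffAt ℝ (⊤ : ℕ∞) (fun ζ : V => (H ζ).re) 0 :=
    Complex.reCLM.contDiff.contDiffAt.comp 0 (hH.restrict_scalars ℝ)
  set W0 : V → ℝ := fun ζ : V => -Real.log (1 - ‖ζ‖ ^ 2) + (H ζ).re with hW0def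
  have hW0 : ContDiffAt ℝ (⊤ : ℕ∞) W0 0 := contDiffAt_neglog.add hHre
  have hgW0 : ∀ X : V, gP W0 0 X X = ‖X‖ ^ 2 := by
    intro X
    rw [hW0def, gP_add contDiffAt_neglog hHre, gP_re H 0 hH]
    simp [gP_neglog]
  set B : ℝ := ∑ n ∈ Finset.range 5, ‖iteratedFDeriv ℝ n W0 0‖ with hB
  have hB0 : 0 ≤ B := Finset.sum_nonneg fun _ _ => norm_nonneg _
  have hBn : ∀ n ≤ 4, ‖iteratedFDeriv ℝ n W0 0‖ ≤ B := fun n hn =>
    Finset.single_le_sum (f := fun n => ‖iteratedFDeriv ℝ n W0 0‖)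
      (fun _ _ => norm_nonneg _) (Finset.mem_range.mpr (by omega))
  set Cw : ℝ := s * (ε * B + D * (Cg * 5)) + 1 with hCw
  have hCw0 : 0 < Cw := by (clear * - hs hε hD1 hCg0; positivity)
  refine ⟨2 * s * ε, Cw, Cw, Cw, by positivity, hCw0, hCw0, hCw0, ?_⟩
  intro r K e L κ u hr he hact hu
  have hgs : ∀ k, ContDiff ℝ (⊤ : ℕ∞) (fun v : U => Nf Ψ (e k) (L k v)) :=
    fun k => contDiff_NfL hΨ _ _
  set S : U → ℝ := fun v => ∑ k ∈ Finset.range K, Nf Ψ (e k) (L k v) with hS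
  have hSs : ContDiff ℝ (⊤ : ℕ∞) S := ContDiff.sum fun k _ => hgs k
  set G : U → ℝ := fun v => S v - S 0 with hG
  have hGs : ContDiff ℝ (⊤ : ℕ∞) G := hSs.sub contDiff_const
  have hlam0 : 0 < lam := by linarith only [hlam]
  have hGb : ∀ i ≤ 4, ‖iteratedFDeriv ℝ i G (c 0)‖ ≤ Cg * 5 := by
    intro i hi
    rw [hc0]
    rcases Nat.eq_zero_or_pos i with rfl | hi0
    · rw [norm_iteratedFDeriv_zero, hG]
      simp only [sub_self, norm_zero]
      (clear * - hCg0; positivity)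
    · rw [hG, norm_iteratedFDeriv_sub_const S (S 0) 0 i hi0, hS,
        iteratedFDeriv_fun_sum_apply fun k _ => ((hgs k).of_le (nat_le_top i)).contDiffAt]
      refine (norm_sum_le _ _).trans ?_
      calc ∑ k ∈ Finset.range K, ‖iteratedFDeriv ℝ i (fun v : U => Nf Ψ (e k) (L k v)) 0‖
          ≤ ∑ k ∈ Finset.range K, Cg * (if (lam ^ k * r) ^ 2 ≤ 5 then lam ^ k * r else 0) := by
            apply Finset.sum_le_sum
            intro k _
            exact hCg (e k) (lam ^ k * r) (L k) (by (clear * - hlam hr; positivity)) (he k) (hact k) i hi0 hi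
        _ = Cg * ∑ k ∈ Finset.range K, (if (lam ^ k * r) ^ 2 ≤ 5 then lam ^ k * r else 0) := by
            rw [Finset.mul_sum]
        _ ≤ Cg * 5 := by
            gcongr
            exact geom_sum_bound lam r hlam hr K
  have hGc : ContDiffAt ℝ (⊤ : ℕ∞) (fun ζ : V => G (c ζ)) 0 := hGs.contDiffAt.comp 0 hcR
  have hGcb := hD G hGs (Cg * 5) hGb
  set v : V → ℝ := fun ζ => s * (ε * W0 ζ + G (c ζ)) with hv
  have hv1 : ContDiffAt ℝ (⊤ : ℕ∞) (fun ζ => ε * W0 ζ + G (c ζ)) 0 :=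
    (contDiffAt_const.mul hW0).add hGc
  have hvs : ContDiffAt ℝ (⊤ : ℕ∞) v 0 := contDiffAt_const.mul hv1
  have hvb : ∀ n ≤ 4, ‖iteratedFDeriv ℝ n v 0‖ ≤ Cw := by
    intro n hn
    have e1 : iteratedFDeriv ℝ n v 0 = s • iteratedFDeriv ℝ n (fun ζ => ε * W0 ζ + G (c ζ)) 0 :=
      iteratedFDeriv_const_smul_apply' (a := s) (hv1.of_le (nat_le_top n))
    have e2 : iteratedFDeriv ℝ n (fun ζ => ε * W0 ζ + G (c ζ)) 0
        = iteratedFDeriv ℝ n (fun ζ => ε * W0 ζ) 0 + iteratedFDeriv ℝ n (fun ζ => G (c ζ)) 0 :=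
      iteratedFDeriv_add_apply ((contDiffAt_const.mul hW0).of_le (nat_le_top n))
        (hGc.of_le (nat_le_top n))
    have e3 : iteratedFDeriv ℝ n (fun ζ => ε * W0 ζ) 0 = ε • iteratedFDeriv ℝ n W0 0 :=
      iteratedFDeriv_const_smul_apply' (a := ε) (hW0.of_le (nat_le_top n))
    rw [e1, e2, e3, norm_smul, Real.norm_of_nonneg hs.le]
    calc s * ‖ε • iteratedFDeriv ℝ n W0 0 + iteratedFDeriv ℝ n (fun ζ => G (c ζ)) 0‖
        ≤ s * (‖ε • iteratedFDeriv ℝ n W0 0‖ + ‖iteratedFDeriv ℝ n (fun ζ => G (c ζ)) 0‖) := by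
          gcongr; exact norm_add_le _ _
      _ ≤ s * (ε * B + D * (Cg * 5)) := by
          rw [norm_smul, Real.norm_of_nonneg hε.le]
          gcongr
          · exact hBn n hn
          · exact hGcb n hn
      _ ≤ Cw := by rw [hCw]; linarith only []
  have hgv : ∀ X : V, s * (ε * ‖X‖ ^ 2) ≤ gP v 0 X X := by
    intro X
    have a1 : gP v 0 = s • gP (fun ζ => ε * W0 ζ + G (c ζ)) 0 := gP_const_mul hv1 s
    have a2 : gP (fun ζ => ε * W0 ζ + G (c ζ)) 0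
        = gP (fun ζ => ε * W0 ζ) 0 + gP (fun ζ => G (c ζ)) 0 :=
      gP_add (contDiffAt_const.mul hW0) hGc
    have a3 : gP (fun ζ => ε * W0 ζ) 0 = ε • gP W0 0 := gP_const_mul hW0 ε
    have hSc : ContDiffAt ℝ (⊤ : ℕ∞) (fun ζ : V => S (c ζ)) 0 := hSs.contDiffAt.comp 0 hcR
    have a4 : gP (fun ζ : V => G (c ζ)) 0 = gP (fun ζ : V => S (c ζ)) 0 := by
      have : (fun ζ : V => G (c ζ)) = fun ζ : V => S (c ζ) + (-(S 0)) := by
        funext ζ; simp only [hG, sub_eq_add_neg]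
      rw [this, gP_add hSc contDiffAt_const, gP_const', add_zero]
    have a5 : gP (fun ζ : V => S (c ζ)) 0
        = ∑ k ∈ Finset.range K, gP (fun ζ : V => Nf Ψ (e k) (L k (c ζ))) 0 :=
      gP_sum' _ _ _ fun k _ => (hgs k).contDiffAt.comp 0 hcR
    have a6 : 0 ≤ gP (fun ζ : V => G (c ζ)) 0 X X := by
      rw [a4, a5]
      simp only [FunLike.coe_sum, Finset.sum_apply]
      apply Finset.sum_nonneg
      intro k _
      exact gP_wellL_nonneg hΨ c hc hc0 (e k) (he k) (L k) X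
    rw [a1, a2, a3]
    simp only [smul_apply, add_apply, hgW0, smul_eq_mul]
    have := mul_nonneg hs.le a6
    linarith only [this]
  obtain ⟨h, hh, hh0, main⟩ := normalJet_of_bounds v hvs Cw (2 * s * ε) hvb
    (fun X => by have := hgv X; linarith only [this])
  refine ⟨h, hh, hh0, ?_⟩
  refine normalJet_congr (κ + s * S 0) ?_ main
  filter_upwards [hu] with ζ hζ
  rw [hζ]
  simp only [hv, hG, hS, hW0def]
  ring

end Vale.Agent.P250.G.JA
end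
end
end

section

section

section

/-! Topology of the disc bundle over a general convex base. -/

set_option maxSynthPendingDepth 3

namespace Vale.Agent.P250.G
open Set Filter Topology Vale.Agent.P250

section

variable {E : Type*} [NormedAddCommGroup E] [NormedSpace ℂ E]

theorem isOpen_MMg (Ω : Set E) (hΩ : IsOpen Ω) (χ : E → ℝ) (hχ : ContinuousOn χ Ω) :
    IsOpen (MMg Ω χ) := by
  have h1 : IsOpen {p : E × ℂ | p.1 ∈ Ω} := hΩ.preimage continuous_fst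
  have hc : ContinuousOn (fun p : E × ℂ => χ p.1) {p : E × ℂ | p.1 ∈ Ω} :=
    hχ.comp continuous_fst.continuousOn (fun p hp => hp)
  have h2 : ContinuousOn (fun p : E × ℂ => ‖p.2‖ ^ 2 * Real.exp (2 * χ p.1))
      {p : E × ℂ | p.1 ∈ Ω} :=
    ContinuousOn.mul (by (clear * -; fun_prop)) (Real.continuous_exp.comp_continuousOn
      (continuousOn_const.mul hc))
  exact h2.isOpen_inter_preimage h1 isOpen_Iio

namespace TopG

/-- the straight path from `q` to `q0` -/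
noncomputable def pathG (q0 : E) (t : ℝ) (q : E) : E :=
  ((1 - t : ℝ) : ℂ) • q + ((t : ℝ) : ℂ) • q0

theorem pathG_mem {Ω : Set E} (hΩ : Convex ℝ Ω) {q0 : E} (h0 : q0 ∈ Ω) {t : ℝ} (ht0 : 0 ≤ t)
    (ht1 : t ≤ 1) {q : E} (hq : q ∈ Ω) : pathG q0 t q ∈ Ω := by
  have h := hΩ hq h0 (sub_nonneg.2 ht1) ht0 (by ring)
  unfold pathG
  simpa only [Complex.coe_smul] using h

end TopG

open TopG in
theorem simplyConnected_MMg (Ω : Set E) (hΩ : Convex ℝ Ω) (hne : Ω.Nonempty) (χ : E → ℝ)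
    (hχ : ContinuousOn χ Ω) : SimplyConnectedSpace (MMg Ω χ) := by
  obtain ⟨q0, hq0⟩ := hne
  have hcontr : ContractibleSpace (MMg Ω χ) := by
    rw [contractible_iff_id_nullhomotopic]
    have hbase : (q0, (0 : ℂ)) ∈ MMg Ω χ := by
      refine ⟨hq0, ?_⟩
      simp
    refine ⟨⟨(q0, (0 : ℂ)), hbase⟩, ⟨?_⟩⟩
    let f : unitInterval × MMg Ω χ → E × ℂ := fun x =>
      (pathG q0 x.1 x.2.1.1,
        ((1 - (x.1 : ℝ) : ℝ) : ℂ) * x.2.1.2 *
          ((Real.exp (χ x.2.1.1 - χ (pathG q0 x.1 x.2.1.1)) : ℝ) : ℂ))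
    have hmem : ∀ x, f x ∈ MMg Ω χ := by
      rintro ⟨t, p, hp⟩
      refine ⟨?_, ?_⟩
      · exact pathG_mem hΩ hq0 t.2.1 t.2.2 hp.1
      · show ‖((1 - (t : ℝ) : ℝ) : ℂ) * p.2 *
          ((Real.exp (χ p.1 - χ (pathG q0 t p.1)) : ℝ) : ℂ)‖ ^ 2 *
            Real.exp (2 * χ (pathG q0 t p.1)) < 1
        have ht0 := t.2.1
        have ht1 := t.2.2
        have h := hp.2
        rw [norm_mul, norm_mul, Complex.norm_real, Complex.norm_real, Real.norm_eq_abs,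
          Real.norm_eq_abs, Real.abs_exp, mul_pow, mul_pow, sq_abs, ← Real.exp_nat_mul, mul_assoc,
          ← Real.exp_add]
        have e : ((2 : ℕ) : ℝ) * (χ p.1 - χ (pathG q0 t p.1)) +
            2 * χ (pathG q0 t p.1) = 2 * χ p.1 := by
          push_cast
          ring
        rw [e, mul_assoc]
        have h2 : (1 - (t : ℝ)) ^ 2 ≤ 1 := by nlinarith only [ht0, ht1]
        have h3 : 0 ≤ ‖p.2‖ ^ 2 * Real.exp (2 * χ p.1) := by (clear * -; positivity)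
        calc (1 - (t : ℝ)) ^ 2 * (‖p.2‖ ^ 2 * Real.exp (2 * χ p.1))
            ≤ 1 * (‖p.2‖ ^ 2 * Real.exp (2 * χ p.1)) :=
              mul_le_mul_of_nonneg_right h2 h3
          _ < 1 := by rw [one_mul]; exact h
    have hpc : Continuous (fun x : unitInterval × MMg Ω χ => pathG q0 x.1 x.2.1.1) := by
      unfold pathG
      fun_prop
    have hc1 : Continuous (fun x : unitInterval × MMg Ω χ => χ (pathG q0 x.1 x.2.1.1)) :=
      hχ.comp_continuous hpc (fun x => pathG_mem hΩ hq0 x.1.2.1 x.1.2.2 x.2.2.1)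
    have hc2 : Continuous (fun x : unitInterval × MMg Ω χ => χ x.2.1.1) :=
      hχ.comp_continuous (by fun_prop) (fun x => x.2.2.1)
    have hf : Continuous f := by
      refine hpc.prodMk ?_
      refine Continuous.mul (by fun_prop) ?_
      exact Complex.continuous_ofReal.comp (Real.continuous_exp.comp (hc2.sub hc1))
    refine ⟨⟨fun x => ⟨f x, hmem x⟩, hf.subtype_mk _⟩, ?_, ?_⟩
    · rintro ⟨p, hp⟩
      apply Subtype.ext
      show f (0, ⟨p, hp⟩) = p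
      simp only [pathG, Complex.ofReal_sub, Complex.ofReal_one, Complex.coe_smul, Complex.ofReal_exp, Icc.coe_zero, Complex.ofReal_zero, sub_zero, one_smul, zero_smul, add_zero, one_mul, sub_self, Complex.exp_zero, mul_one, Prod.mk.eta, f]
    · rintro ⟨p, hp⟩
      apply Subtype.ext
      show f (1, ⟨p, hp⟩) = (q0, 0)
      simp only [pathG, Complex.ofReal_sub, Complex.ofReal_one, Complex.coe_smul, Complex.ofReal_exp, Icc.coe_one, sub_self, zero_smul, one_smul, zero_add, zero_mul, f]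
  infer_instance

end

end Vale.Agent.P250.G
end
end
end

section

section

section

set_option maxSynthPendingDepth 3

namespace Vale.Agent.P250
open Set Filter Topology

namespace Compl

section Cutoff
variable {F : Type*} [NormedAddCommGroup F] [NormedSpace ℝ F] [FiniteDimensional ℝ F]

open scoped Manifold ContDiff in
lemma exists_cutoff (Ω A : Set F) (hΩ : IsOpen Ω) (hA : IsCompact A) (hAΩ : A ⊆ Ω)
    (V : F → F) (hV : ContDiffOn ℝ 1 V Ω) :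
    ∃ W : F → F, ContDiff ℝ 1 W ∧ HasCompactSupport W ∧ ∀ x ∈ A, W x = V x := by
  obtain ⟨L, hL, hAL, hLΩ⟩ := exists_compact_between hA hΩ hAΩ
  obtain ⟨f, hf1, hf0, -⟩ := exists_contMDiffMap_one_nhds_of_subset_interior (n := 1) 𝓘(ℝ, F)
    (s := A) (t := L) hA.isClosed hAL
  have hfs : ContDiff ℝ 1 (f : F → ℝ) := f.contMDiff.contDiff
  refine ⟨fun x => (f x) • V x, ?_, ?_, ?_⟩
  · rw [contDiff_iff_contDiffAt]
    intro x
    by_cases hx : x ∈ Ω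
    · exact (hfs.contDiffAt).smul (hV.contDiffAt (hΩ.mem_nhds hx))
    · have hx' : x ∈ Lᶜ := fun h => hx (hLΩ h)
      have hev : (fun x => (f x) • V x) =ᶠ[𝓝 x] fun _ => (0 : F) := by
        filter_upwards [hL.isClosed.isOpen_compl.mem_nhds hx'] with y hy
        simp [hf0 y hy]
      exact contDiffAt_const.congr_of_eventuallyEq hev
  · refine HasCompactSupport.intro hL ?_
    intro x hx
    simp only [WithTop.coe_one, hf0 x hx, zero_smul]
  · intro x hx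
    have := hf1.self_of_nhdsSet x hx
    simp [this]

lemma exists_solution (W : F → F) (hW : ContDiff ℝ 1 W) (hWc : HasCompactSupport W)
    (T : ℝ) (hT : 0 < T) (x₀ : F) :
    ∃ z : ℝ → F, z 0 = x₀ ∧ ∀ t ∈ Ioo (-T) T, HasDerivAt z (W (z t)) t := by
  have : CompleteSpace F := FiniteDimensional.complete ℝ F
  obtain ⟨K, hK⟩ := hW.lipschitzWith_of_hasCompactSupport hWc (by norm_num)
  obtain ⟨C, hC⟩ := hWc.exists_bound_of_continuous hW.continuous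
  have hC0 : 0 ≤ max C 0 := le_max_right _ _
  let L : NNReal := ⟨max C 0, hC0⟩
  let t0 : Icc (-T) T := ⟨0, by constructor <;> linarith only [hT]⟩
  have hPL : IsPicardLindelof (fun _ : ℝ => W) t0 x₀ (L * ⟨T, hT.le⟩) 0 L K := by
    apply IsPicardLindelof.of_time_independent
    · intro x _
      exact (hC x).trans (le_max_left _ _)
    · exact hK.lipschitzOnWith
    · simp only [t0, sub_zero, zero_sub, neg_neg, max_self, NNReal.coe_zero]
      change (L : ℝ) * T ≤ (L : ℝ) * T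
      exact le_rfl
  obtain ⟨z, hz0, hz⟩ := hPL.exists_eq_forall_mem_Icc_hasDerivWithinAt₀
  refine ⟨z, hz0, fun t ht => ?_⟩
  exact (hz t (Ioo_subset_Icc_self ht)).hasDerivAt (Icc_mem_nhds ht.1 ht.2)

end Cutoff

lemma trap {F : Type*} [TopologicalSpace F] (z : ℝ → F) (T : ℝ) (O A : Set F)
    (hO : IsOpen O) (hA : IsClosed A) (hOA : O ⊆ A) (hz : ContinuousOn z (Icc 0 T))
    (h0 : z 0 ∈ O) (hstep : ∀ t ∈ Icc (0 : ℝ) T, (∀ s ∈ Icc (0 : ℝ) t, z s ∈ A) → z t ∈ O) :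
    ∀ t ∈ Icc (0 : ℝ) T, z t ∈ O := by
  by_contra hcon
  push Not at hcon
  obtain ⟨t1, ht1, ht1O⟩ := hcon
  let B : Set ℝ := Icc 0 T ∩ z ⁻¹' Oᶜ
  have hBcl : IsClosed B := hz.preimage_isClosed_of_isClosed isClosed_Icc hO.isClosed_compl
  have hBcomp : IsCompact B := isCompact_Icc.of_isClosed_subset hBcl inter_subset_left
  obtain ⟨t, htB, htmin⟩ := hBcomp.exists_isLeast ⟨t1, ht1, ht1O⟩
  have htT : t ∈ Icc (0 : ℝ) T := htB.1
  have hlt : ∀ s ∈ Ico (0 : ℝ) t, z s ∈ A := by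
    intro s hs
    by_contra hsA
    have : s ∈ B := ⟨⟨hs.1, hs.2.le.trans htT.2⟩, fun h => hsA (hOA h)⟩
    exact absurd (htmin this) (not_le.mpr hs.2)
  have hle : ∀ s ∈ Icc (0 : ℝ) t, z s ∈ A := by
    rcases eq_or_lt_of_le htT.1 with h | h
    · intro s hs
      have : s = 0 := le_antisymm (by linarith only [h, hs.2]) hs.1
      rw [this]; exact hOA h0
    · have hcl : IsClosed (Icc 0 T ∩ z ⁻¹' A) := hz.preimage_isClosed_of_isClosed isClosed_Icc hA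
      have hsub : Ico 0 t ⊆ Icc 0 T ∩ z ⁻¹' A := fun s hs =>
        ⟨⟨hs.1, hs.2.le.trans htT.2⟩, hlt s hs⟩
      have := closure_minimal hsub hcl
      rw [closure_Ico h.ne] at this
      exact fun s hs => (this hs).2
  exact htB.2 (hstep t htT hle)

section Geod
variable {E : Type*} [NormedAddCommGroup E] [NormedSpace ℝ E] [FiniteDimensional ℝ E]

/-- the geodesic vector field -/
noncomputable def geoV (Γ : E → E →L[ℝ] E →L[ℝ] E) (z : E × E) : E × E :=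
  (z.2, -(Γ z.1 z.2 z.2))

omit [FiniteDimensional ℝ E] in
lemma geoV_contDiffOn (Γ : E → E →L[ℝ] E →L[ℝ] E) (M : Set E)
    (hΓ : ContDiffOn ℝ (⊤ : ℕ∞) Γ M) : ContDiffOn ℝ 1 (geoV Γ) (M ×ˢ (univ : Set E)) := by
  have h1 : ContDiffOn ℝ 1 (fun z : E × E => Γ z.1) (M ×ˢ (univ : Set E)) := by
    have : ContDiffOn ℝ 1 Γ M := hΓ.of_le (by exact_mod_cast le_top)
    exact this.comp contDiff_fst.contDiffOn (fun z hz => hz.1)
  have h2 : ContDiffOn ℝ 1 (fun z : E × E => z.2) (M ×ˢ (univ : Set E)) :=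
    contDiff_snd.contDiffOn
  exact h2.prodMk (((h1.clm_apply h2).clm_apply h2).neg)

variable (g : E → E →L[ℝ] E →L[ℝ] ℝ) (Γ : E → E →L[ℝ] E →L[ℝ] E)
    (M : Set E) (hM : IsOpen M) (hg : IsRiemannianMetric g M) (hΓ : IsLeviCivita g Γ M)

omit [FiniteDimensional ℝ E] in
include hM hg hΓ in
lemma energy_deriv (z : ℝ → E × E) (t : ℝ) (hzM : (z t).1 ∈ M)
    (hz : HasDerivAt z (geoV Γ (z t)) t) :
    HasDerivAt (fun s => g (z s).1 (z s).2 (z s).2) 0 t := by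
  have hx : HasDerivAt (fun s => (z s).1) (z t).2 t := by
    have := (hasFDerivAt_fst (𝕜 := ℝ) (E := E) (F := E) (p := z t)).comp_hasDerivAt t hz
    simpa only [Function.comp_def, geoV, ContinuousLinearMap.coe_fst'] using this
  have hv : HasDerivAt (fun s => (z s).2) (-(Γ (z t).1 (z t).2 (z t).2)) t := by
    have := (hasFDerivAt_snd (𝕜 := ℝ) (E := E) (F := E) (p := z t)).comp_hasDerivAt t hz
    simpa only [Function.comp_def, geoV, ContinuousLinearMap.coe_snd'] using this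
  have hgd : HasFDerivAt g (fderiv ℝ g (z t).1) (z t).1 := by
    have : DifferentiableAt ℝ g (z t).1 :=
      (hg.smooth.contDiffAt (hM.mem_nhds hzM)).differentiableAt (by simp)
    exact this.hasFDerivAt
  have hgx : HasDerivAt (fun s => g (z s).1) (fderiv ℝ g (z t).1 (z t).2) t :=
    hgd.comp_hasDerivAt t hx
  have h1 := (hgx.clm_apply hv).clm_apply hv
  refine h1.congr_deriv ?_
  have hk := hΓ.koszul _ hzM (z t).2 (z t).2 (z t).2
  have hs := hg.symm _ hzM (z t).2 (Γ (z t).1 (z t).2 (z t).2)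
  simp only [add_apply, map_neg, neg_apply]
  linarith

omit [FiniteDimensional ℝ E] in
include hM hg hΓ in
lemma energy_const (z : ℝ → E × E) (t : ℝ) (hz : ∀ s ∈ uIcc 0 t, (z s).1 ∈ M ∧
    HasDerivAt z (geoV Γ (z s)) s) :
    ∀ s ∈ uIcc 0 t, g (z s).1 (z s).2 (z s).2 = g (z 0).1 (z 0).2 (z 0).2 := by
  intro s hs
  have hd : ∀ u ∈ uIcc 0 t, HasDerivWithinAt (fun s => g (z s).1 (z s).2 (z s).2) 0 (uIcc 0 t) u :=
    fun u hu => (energy_deriv g Γ M hM hg hΓ z u (hz u hu).1 (hz u hu).2).hasDerivWithinAt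
  have := (convex_uIcc (0 : ℝ) t).norm_image_sub_le_of_norm_hasDerivWithin_le
    (C := 0) hd (by simp only [norm_zero, Std.le_refl, implies_true]) (left_mem_uIcc) hs
  simp only [zero_mul, norm_le_zero_iff] at this
  linarith

variable (f : E → ℝ) (hf : ContDiffOn ℝ 1 f M) (C : ℝ)
    (hC : ∀ p ∈ M, ∀ X, (fderiv ℝ f p X) ^ 2 ≤ C * g p X X)

include hM hg hΓ hf hC in
lemma f_bound (z : ℝ → E × E) (t : ℝ) (hz : ∀ s ∈ uIcc 0 t, (z s).1 ∈ M ∧
    HasDerivAt z (geoV Γ (z s)) s) :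
    |f (z t).1 - f (z 0).1| ≤ Real.sqrt (C * g (z 0).1 (z 0).2 (z 0).2) * |t| := by
  have hE := energy_const g Γ M hM hg hΓ z t hz
  have hd : ∀ u ∈ uIcc 0 t, HasDerivWithinAt (fun s => f (z s).1)
      (fderiv ℝ f (z u).1 (z u).2) (uIcc 0 t) u := by
    intro u hu
    have hx : HasDerivAt (fun s => (z s).1) (z u).2 u := by
      have := (hasFDerivAt_fst (𝕜 := ℝ) (E := E) (F := E) (p := z u)).comp_hasDerivAt u
        (hz u hu).2
      simpa only [Function.comp_def, geoV, ContinuousLinearMap.coe_fst'] using this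
    have hfd : HasFDerivAt f (fderiv ℝ f (z u).1) (z u).1 :=
      ((hf.contDiffAt (hM.mem_nhds (hz u hu).1)).differentiableAt (by norm_num)).hasFDerivAt
    exact (hfd.comp_hasDerivAt u hx).hasDerivWithinAt
  have hb : ∀ u ∈ uIcc 0 t, ‖fderiv ℝ f (z u).1 (z u).2‖
      ≤ Real.sqrt (C * g (z 0).1 (z 0).2 (z 0).2) := by
    intro u hu
    rw [Real.norm_eq_abs]
    apply Real.abs_le_sqrt
    rw [← hE u hu]
    exact hC _ (hz u hu).1 _
  have := (convex_uIcc (0 : ℝ) t).norm_image_sub_le_of_norm_hasDerivWithin_le hd hb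
    (left_mem_uIcc) (right_mem_uIcc)
  simpa only [ge_iff_le, Real.norm_eq_abs, sub_zero] using this

include hg in
lemma coercive (K : Set E) (hK : IsCompact K) (hKM : K ⊆ M) (c : ℝ) :
    ∃ ρ : ℝ, 0 < ρ ∧ ∀ x ∈ K, ∀ v : E, g x v v ≤ c → ‖v‖ < ρ := by
  have hcont : ContinuousOn (fun q : E × E => g q.1 q.2 q.2) (K ×ˢ Metric.sphere (0 : E) 1) := by
    have h1 : ContinuousOn (fun q : E × E => g q.1) (K ×ˢ Metric.sphere (0 : E) 1) :=
      (hg.smooth.continuousOn.mono hKM).comp continuousOn_fst (fun q hq => hq.1)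
    exact (h1.clm_apply continuousOn_snd).clm_apply continuousOn_snd
  have hcomp : IsCompact (K ×ˢ Metric.sphere (0 : E) 1) := hK.prod (isCompact_sphere 0 1)
  rcases (K ×ˢ Metric.sphere (0 : E) 1).eq_empty_or_nonempty with hemp | hne
  · refine ⟨1, one_pos, fun x hx v _ => ?_⟩
    by_contra hv
    have hv0 : v ≠ 0 := by
      rintro rfl
      simp only [norm_zero, zero_lt_one, not_true_eq_false] at hv
    have : (x, (‖v‖)⁻¹ • v) ∈ K ×ˢ Metric.sphere (0 : E) 1 := by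
      refine ⟨hx, ?_⟩
      simp only [mem_sphere_iff_norm, sub_zero, norm_smul, norm_inv, norm_norm, ne_eq, norm_eq_zero, hv0, not_false_eq_true, inv_mul_cancel₀]
    rw [hemp] at this
    exact this
  · obtain ⟨q, hq, hmin⟩ := hcomp.exists_isMinOn hne hcont
    have hq2 : q.2 ≠ 0 := by
      have := hq.2
      intro h
      simp only [h, mem_sphere_iff_norm, sub_self, norm_zero, zero_ne_one] at this
    have hm : 0 < g q.1 q.2 q.2 := hg.pos _ (hKM hq.1) _ hq2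
    set m := g q.1 q.2 q.2 with hmdef
    refine ⟨Real.sqrt (|c| / m) + 1, by (clear * -; positivity), fun x hx v hv => ?_⟩
    rcases eq_or_ne v 0 with rfl | hv0
    · simp only [norm_zero, abs_nonneg, Real.sqrt_div]; (clear * - hm; positivity)
    · have hn : 0 < ‖v‖ := norm_pos_iff.mpr hv0
      have h1 : m ≤ g x ((‖v‖)⁻¹ • v) ((‖v‖)⁻¹ • v) := by
        have := hmin (a := (x, (‖v‖)⁻¹ • v)) ⟨hx, by simp [norm_smul, hv0]⟩
        simpa only [map_smul, smul_apply, smul_eq_mul, ge_iff_le, mem_ofPred_eq] using this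
      have h2 : m * ‖v‖ ^ 2 ≤ g x v v := by
        simp only [map_smul, smul_apply, smul_eq_mul] at h1
        have : m * ‖v‖ ^ 2 ≤ (‖v‖⁻¹ * (‖v‖⁻¹ * g x v v)) * ‖v‖ ^ 2 :=
          mul_le_mul_of_nonneg_right h1 (by positivity)
        calc m * ‖v‖ ^ 2 ≤ (‖v‖⁻¹ * (‖v‖⁻¹ * g x v v)) * ‖v‖ ^ 2 := this
          _ = g x v v := by field_simp
      have h3 : ‖v‖ ^ 2 ≤ |c| / m := by
        rw [le_div_iff₀ hm]
        linarith only [hv, h2, le_abs_self c]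
      have h4 : ‖v‖ ≤ Real.sqrt (|c| / m) := Real.le_sqrt_of_sq_le h3
      linarith only [h4]


include hM hg hΓ hf hC in
/-- a solution on a bounded time interval, which stays in the domain -/
lemma exists_solution_on (hproper : ∀ R : ℝ, IsCompact {p | p ∈ M ∧ f p ≤ R})
    (p : E) (hp : p ∈ M) (X : E) (T : ℝ) (hT : 0 < T) :
    ∃ (z : ℝ → E × E) (W : E × E → E × E) (K : NNReal), LipschitzWith K W ∧ z 0 = (p, X) ∧
      (∀ t ∈ Icc (-T) T, (z t).1 ∈ M ∧ HasDerivAt z (geoV Γ (z t)) t) ∧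
      (∀ w : ℝ → E × E, w 0 = (p, X) →
        (∀ t ∈ Icc (-T) T, (w t).1 ∈ M ∧ HasDerivAt w (geoV Γ (w t)) t) →
        (∀ t ∈ Icc (-T) T, W (w t) = geoV Γ (w t))) := by
  set e0 := g p X X with he0
  set L := Real.sqrt (C * e0) with hL
  have hL0 : 0 ≤ L := Real.sqrt_nonneg _
  set R := f p + L * T + 1 with hR
  obtain ⟨ρ, hρ, hcoer⟩ := coercive g M hg {p | p ∈ M ∧ f p ≤ R} (hproper R)
    (fun x hx => hx.1) e0
  set A : Set (E × E) := {p | p ∈ M ∧ f p ≤ R} ×ˢ Metric.closedBall (0 : E) ρ with hA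
  set O : Set (E × E) := (M ∩ f ⁻¹' (Iio R)) ×ˢ Metric.ball (0 : E) ρ with hO
  have hAc : IsCompact A := (hproper R).prod (isCompact_closedBall _ _)
  have hOo : IsOpen O := (hf.continuousOn.isOpen_inter_preimage hM isOpen_Iio).prod
    Metric.isOpen_ball
  have hOA : O ⊆ A := prod_mono (fun x hx => ⟨hx.1, le_of_lt hx.2⟩) Metric.ball_subset_closedBall
  have hAΩ : A ⊆ M ×ˢ (univ : Set E) := fun q hq => ⟨hq.1.1, trivial⟩
  obtain ⟨W, hW, hWc, hWA⟩ := exists_cutoff (M ×ˢ (univ : Set E)) A (hM.prod isOpen_univ) hAc hAΩ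
    (geoV Γ) (geoV_contDiffOn Γ M hΓ.smooth)
  obtain ⟨K, hK⟩ := hW.lipschitzWith_of_hasCompactSupport hWc (by norm_num)
  obtain ⟨z, hz0, hz⟩ := exists_solution W hW hWc (T + 1) (by linarith only [hT]) (p, X)
  have hkey : ∀ w : ℝ → E × E, w 0 = (p, X) → ∀ t : ℝ, |t| ≤ T →
      (∀ s ∈ uIcc 0 t, (w s).1 ∈ M ∧ HasDerivAt w (geoV Γ (w s)) s) →
      w t ∈ O := by
    intro w hw0 t ht hw
    have hE := energy_const g Γ M hM hg hΓ w t hw t right_mem_uIcc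
    have hF := f_bound g Γ M hM hg hΓ f hf C hC w t hw
    rw [hw0] at hE hF
    simp only at hE hF
    rw [← he0] at hE hF
    rw [← hL] at hF
    have h1 : L * |t| ≤ L * T := mul_le_mul_of_nonneg_left ht hL0
    have h2 := (abs_le.mp hF).2
    have hMt := (hw t right_mem_uIcc).1
    have hlt : f (w t).1 < R := by rw [hR]; linarith only [h1, h2]
    refine ⟨⟨hMt, hlt⟩, ?_⟩
    simp only [Metric.mem_ball, dist_zero_right]
    exact hcoer _ ⟨hMt, hlt.le⟩ _ hE.le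
  have h0O : z 0 ∈ O := by
    rw [hz0]
    have h1 : 0 ≤ L * T := mul_nonneg hL0 hT.le
    have hlt : f p < R := by rw [hR]; linarith only [h1]
    refine ⟨⟨hp, hlt⟩, ?_⟩
    simp only [Metric.mem_ball, dist_zero_right]
    exact hcoer _ ⟨hp, hlt.le⟩ _ le_rfl
  have hzin : ∀ t ∈ Icc (-T) T, z t ∈ O := by
    have hpos : ∀ t ∈ Icc (0 : ℝ) T, z t ∈ O := by
      apply trap z T O A hOo hAc.isClosed hOA _ h0O
      · intro t ht hs
        apply hkey z hz0 t (by rw [abs_of_nonneg ht.1]; exact ht.2)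
        rw [uIcc_of_le ht.1]
        intro s hst
        refine ⟨(hs s hst).1.1, ?_⟩
        rw [← hWA _ (hs s hst)]
        exact hz s ⟨by linarith only [hT, hst.1], by linarith only [hst.2, ht.2]⟩
      · intro t ht
        exact (hz t ⟨by linarith only [hT, ht.1], by linarith only [ht.2]⟩).continuousAt.continuousWithinAt
    have hneg : ∀ t ∈ Icc (0 : ℝ) T, z (-t) ∈ O := by
      apply trap (fun t => z (-t)) T O A hOo hAc.isClosed hOA _ (by simpa using h0O)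
      · intro t ht hs
        apply hkey z hz0 (-t) (by rw [abs_neg, abs_of_nonneg ht.1]; exact ht.2)
        rw [uIcc_of_ge (by linarith only [ht.1])]
        intro s hst
        have hs' := hs (-s) ⟨by linarith only [hst.2], by linarith only [hst.1]⟩
        simp only [neg_neg] at hs'
        refine ⟨hs'.1.1, ?_⟩
        rw [← hWA _ hs']
        exact hz s ⟨by linarith only [hst.1, ht.2], by linarith only [hT, hst.2]⟩
      · intro t ht
        have h1 : ContinuousAt z (-t) :=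
          (hz (-t) ⟨by linarith only [ht.2], by linarith only [hT, ht.1]⟩).continuousAt
        exact (ContinuousAt.comp (f := fun t : ℝ => -t) (g := z) h1
          continuous_neg.continuousAt).continuousWithinAt
    intro t ht
    rcases le_total 0 t with h | h
    · exact hpos t ⟨h, ht.2⟩
    · have := hneg (-t) ⟨by linarith only [h], by linarith only [ht.1]⟩
      simpa using this
  refine ⟨z, W, K, hK, hz0, ?_, ?_⟩
  · intro t ht
    refine ⟨(hzin t ht).1.1, ?_⟩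
    rw [← hWA _ (hOA (hzin t ht))]
    exact hz t ⟨by linarith only [ht.1], by linarith only [ht.2]⟩
  · intro w hw0 hw t ht
    apply hWA
    apply hOA
    apply hkey w hw0 t (abs_le.mpr ht)
    intro s hs
    apply hw
    rcases le_total 0 t with h | h
    · rw [uIcc_of_le h] at hs
      exact ⟨by linarith only [hT, hs.1], hs.2.trans ht.2⟩
    · rw [uIcc_of_ge h] at hs
      exact ⟨ht.1.trans hs.1, by linarith only [hT, hs.2]⟩

end Geod

end Compl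

theorem complete_of_exhaustion {E : Type*} [NormedAddCommGroup E] [NormedSpace ℝ E]
    [FiniteDimensional ℝ E] (g : E → E →L[ℝ] E →L[ℝ] ℝ) (Γ : E → E →L[ℝ] E →L[ℝ] E)
    (M : Set E) (hM : IsOpen M) (hg : IsRiemannianMetric g M) (hΓ : IsLeviCivita g Γ M)
    (f : E → ℝ) (hf : ContDiffOn ℝ 1 f M) (C : ℝ)
    (hC : ∀ p ∈ M, ∀ X, (fderiv ℝ f p X) ^ 2 ≤ C * g p X X)
    (hproper : ∀ R : ℝ, IsCompact {p | p ∈ M ∧ f p ≤ R}) :
    GeodesicallyComplete Γ M := by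
  intro p hp X
  choose z W K hK hz0 hz hW using fun n : ℕ =>
    Compl.exists_solution_on g Γ M hM hg hΓ f hf C hC hproper p hp X ((n : ℝ) + 1) (by (clear * -; positivity))
  have hagree : ∀ n m : ℕ, n ≤ m → EqOn (z n) (z m) (Ioo (-((n : ℝ) + 1)) ((n : ℝ) + 1)) := by
    intro n m hnm
    have hnm' : (n : ℝ) ≤ m := by exact_mod_cast hnm
    have hzm : ∀ t ∈ Icc (-((n : ℝ) + 1)) ((n : ℝ) + 1), (z m t).1 ∈ M ∧
        HasDerivAt (z m) (Compl.geoV Γ (z m t)) t := fun t ht =>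
      hz m t ⟨by linarith only [hnm', ht.1], by linarith only [hnm', ht.2]⟩
    have hWn := hW n (z n) (hz0 n) (hz n)
    have hWm := hW n (z m) (hz0 m) hzm
    apply ODE_solution_unique_of_mem_Ioo (v := fun _ => W n) (s := fun _ => univ) (K := K n)
      (t₀ := 0) (fun t _ => (hK n).lipschitzOnWith)
    · have h0n : (0 : ℝ) ≤ n := by (clear * -; positivity)
      constructor <;> linarith only []
    · intro t ht
      refine ⟨?_, trivial⟩
      rw [hWn t (Ioo_subset_Icc_self ht)]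
      exact (hz n t (Ioo_subset_Icc_self ht)).2
    · intro t ht
      refine ⟨?_, trivial⟩
      rw [hWm t (Ioo_subset_Icc_self ht)]
      exact (hzm t (Ioo_subset_Icc_self ht)).2
    · rw [hz0, hz0]
  let Z : ℝ → E × E := fun t => z ⌊|t|⌋₊ t
  have hZ : ∀ (N : ℕ) (t : ℝ), |t| < N + 1 → Z t = z N t := by
    intro N t ht
    have h1 : ⌊|t|⌋₊ ≤ N := by
      have : ⌊|t|⌋₊ < N + 1 := by
        rw [Nat.floor_lt (abs_nonneg t)]
        exact_mod_cast ht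
      omega
    apply hagree _ _ h1
    have h2 : |t| < (⌊|t|⌋₊ : ℝ) + 1 := Nat.lt_floor_add_one _
    exact abs_lt.mp h2
  have hZd : ∀ t, (Z t).1 ∈ M ∧ HasDerivAt Z (Compl.geoV Γ (Z t)) t := by
    intro t
    obtain ⟨N, hN⟩ := exists_nat_gt |t|
    have hN' : |t| < (N : ℝ) + 1 := by linarith only [hN]
    have hev : Z =ᶠ[𝓝 t] z N := by
      have : ∀ᶠ s in 𝓝 t, |s| < (N : ℝ) + 1 :=
        (continuous_abs.continuousAt (x := t)).eventually (gt_mem_nhds hN')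
      filter_upwards [this] with s hs using hZ N s hs
    have hmem : t ∈ Icc (-((N : ℝ) + 1)) ((N : ℝ) + 1) := by
      have := abs_lt.mp hN'
      exact ⟨this.1.le, this.2.le⟩
    rw [hZ N t hN']
    exact ⟨(hz N t hmem).1, (hz N t hmem).2.congr_of_eventuallyEq hev⟩
  have hZ0 : Z 0 = (p, X) := by
    rw [hZ 0 0 (by simp only [abs_zero, CharP.cast_eq_zero, zero_add, zero_lt_one]), hz0]
  refine ⟨fun t => (Z t).1, fun t => (Z t).2, by simp [hZ0], by simp [hZ0], fun t => ?_⟩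
  refine ⟨(hZd t).1, ?_, ?_⟩
  · have := (hasFDerivAt_fst (𝕜 := ℝ) (E := E) (F := E) (p := Z t)).comp_hasDerivAt t (hZd t).2
    simpa only [Function.comp_def, Compl.geoV, ContinuousLinearMap.coe_fst'] using this
  · have := (hasFDerivAt_snd (𝕜 := ℝ) (E := E) (F := E) (p := Z t)).comp_hasDerivAt t (hZd t).2
    simpa only [Function.comp_def, Compl.geoV, ContinuousLinearMap.coe_snd'] using this

end Vale.Agent.P250
end
end
end

section

section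

section

/-!
The higher-dimensional model of the ball: basic properties and exhaustion function.
-/

set_option maxSynthPendingDepth 3

namespace Vale.Agent.P250.G

open Set Filter Topology Vale.Agent.P250

section B

variable {W : Type*} [NormedAddCommGroup W] [InnerProductSpace ℂ W]

namespace GBase

theorem contDiff_N {n : WithTop ℕ∞} : ContDiff ℝ n (fun η : W => ‖η‖ ^ 2) := contDiff_norm_sq ℂ

theorem fderiv_N (η X : W) : fderiv ℝ (fun η : W => ‖η‖ ^ 2) η X = 2 * (inner ℂ η X).re := by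
  let _ : InnerProductSpace ℝ W := InnerProductSpace.complexToReal
  have h : HasFDerivAt (fun η : W => ‖η‖ ^ 2) ((2 : ℝ) • innerSL ℝ η) η := by
    have h := (hasFDerivAt_id (𝕜 := ℝ) η).norm_sq
    simpa [two_smul] using h
  rw [h.fderiv]
  rfl

theorem d2_N (η X Y : W) : fderiv ℝ (fderiv ℝ (fun η : W => ‖η‖ ^ 2)) η X Y =
    2 * (inner ℂ X Y).re := by
  let _ : InnerProductSpace ℝ W := InnerProductSpace.complexToReal
  have h : fderiv ℝ (fun η : W => ‖η‖ ^ 2) = fun η => (2 : ℝ) • innerSL ℝ η := by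
    funext η
    have h : HasFDerivAt (fun η : W => ‖η‖ ^ 2) ((2 : ℝ) • innerSL ℝ η) η := by
      have h := (hasFDerivAt_id (𝕜 := ℝ) η).norm_sq
      simpa only [two_smul, id_eq, ContinuousLinearMap.comp_id] using h
    exact h.fderiv
  rw [h]
  have h2 : HasFDerivAt (fun η : W => (2 : ℝ) • innerSL ℝ η)
      ((2 : ℝ) • (innerSL ℝ : W →L[ℝ] W →L[ℝ] ℝ)) η :=
    (innerSL ℝ (E := W)).hasFDerivAt.const_smul (2 : ℝ)
  rw [h2.fderiv]
  rfl

theorem gP_N (η X : W) : gP (fun η : W => ‖η‖ ^ 2) η X X = ‖X‖ ^ 2 := by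
  rw [gP_apply, d2_N, d2_N]
  have h1 : (inner ℂ X X).re = ‖X‖ ^ 2 := by
    have := inner_self_eq_norm_sq (𝕜 := ℂ) X
    exact this
  have h2 : (inner ℂ (Complex.I • X) (Complex.I • X)).re = ‖X‖ ^ 2 := by
    have := inner_self_eq_norm_sq (𝕜 := ℂ) (Complex.I • X)
    rw [norm_smul, Complex.norm_I, one_mul] at this
    exact this
  rw [h1, h2]
  ring

theorem contDiff_rhoG {n : WithTop ℕ∞} : ContDiff ℝ n (rhoG (W := W)) := by
  unfold rhoG
  exact (MetricM.contDiff_rho.comp contDiff_fst).sub (contDiff_N.comp contDiff_snd)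

theorem rhoG_eq : rhoG (W := W) = fun q => rho q.1 + (-1) * ‖q.2‖ ^ 2 := by
  funext q
  rw [rhoG]
  ring

theorem fderiv_rhoG (q X : (ℂ × ℂ) × W) : fderiv ℝ rhoG q X =
    X.1.2.im - 2 * q.1.1.im * X.1.1.im - 2 * (inner ℂ q.2 X.2).re := by
  have h1 : DifferentiableAt ℝ (fun q : (ℂ × ℂ) × W => rho q.1) q :=
    ((MetricM.contDiff_rho (n := 1)).comp contDiff_fst).contDiffAt.differentiableAt (by norm_num)
  have h2 : DifferentiableAt ℝ (fun q : (ℂ × ℂ) × W => ‖q.2‖ ^ 2) q :=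
    ((contDiff_N (W := W) (n := 1)).comp contDiff_snd).contDiffAt.differentiableAt (by norm_num)
  have e : rhoG (W := W) = fun q => rho q.1 - ‖q.2‖ ^ 2 := by
    funext q; rfl
  rw [e, fderiv_fun_sub h1 h2]
  have h3 := Jet2.d1_comp_clm (f := rho) (ContinuousLinearMap.fst ℝ (ℂ × ℂ) W) (p := q)
    ((MetricM.contDiff_rho (n := 1)).contDiffAt.differentiableAt (by norm_num)) X
  have h4 := Jet2.d1_comp_clm (f := fun η : W => ‖η‖ ^ 2) (ContinuousLinearMap.snd ℝ (ℂ × ℂ) W)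
    (p := q) ((contDiff_N (W := W) (n := 1)).contDiffAt.differentiableAt (by norm_num)) X
  change fderiv ℝ (fun q : (ℂ × ℂ) × W => rho q.1) q X -
    fderiv ℝ (fun q : (ℂ × ℂ) × W => ‖q.2‖ ^ 2) q X = _
  have h3' : fderiv ℝ (fun q : (ℂ × ℂ) × W => rho q.1) q X =
    X.1.2.im - 2 * q.1.1.im * X.1.1.im := h3.trans (MetricM.fderiv_rho _ _)
  have h4' : fderiv ℝ (fun q : (ℂ × ℂ) × W => ‖q.2‖ ^ 2) q X = 2 * (inner ℂ q.2 X.2).re :=
    h4.trans (fderiv_N _ _)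
  rw [h3', h4']

theorem gP_rhoG (q X : (ℂ × ℂ) × W) : gP rhoG q X X = -(‖X.1.1‖ ^ 2 / 2 + ‖X.2‖ ^ 2) := by
  have h1 : ContDiffAt ℝ 2 (fun q : (ℂ × ℂ) × W => rho q.1) q :=
    (MetricM.contDiff_rho.comp contDiff_fst).contDiffAt
  have h2 : ContDiffAt ℝ 2 (fun q : (ℂ × ℂ) × W => ‖q.2‖ ^ 2) q :=
    (contDiff_N.comp contDiff_snd).contDiffAt
  have h3 := Jet2.gP_comp_clm (f := rho) (ContinuousLinearMap.fst ℂ (ℂ × ℂ) W) (p := q)
    MetricM.contDiff_rho.contDiffAt X X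
  have h4 := Jet2.gP_comp_clm (f := fun η : W => ‖η‖ ^ 2)
    (ContinuousLinearMap.snd ℂ (ℂ × ℂ) W) (p := q) contDiff_N.contDiffAt X X
  have h3' : gP (fun q : (ℂ × ℂ) × W => rho q.1) q X X = -(‖X.1.1‖ ^ 2 / 2) :=
    h3.trans (MetricM.gP_rho0 _ _)
  have h4' : gP (fun q : (ℂ × ℂ) × W => ‖q.2‖ ^ 2) q X X = ‖X.2‖ ^ 2 :=
    h4.trans (gP_N _ _)
  rw [rhoG_eq, Jet2.gP_add h1 (contDiffAt_const.mul h2), Jet2.gP_const_mul h2, h3', h4']
  ring

theorem re_inner_I (η X : W) : (inner ℂ η (Complex.I • X)).re = -(inner ℂ η X).im := by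
  rw [inner_smul_right, Complex.I_mul_re]

/-- the metric of the ball model -/
theorem gP_PhiG (q : (ℂ × ℂ) × W) (hq : q ∈ DDG W) (X : (ℂ × ℂ) × W) :
    gP PhiG q X X = (‖X.1.1‖ ^ 2 / 2 + ‖X.2‖ ^ 2) / rhoG q +
      ((X.1.2.im - 2 * q.1.1.im * X.1.1.im - 2 * (inner ℂ q.2 X.2).re) ^ 2 +
        (X.1.2.re - 2 * q.1.1.im * X.1.1.re + 2 * (inner ℂ q.2 X.2).im) ^ 2) /
        (4 * rhoG q ^ 2) := by
  have hr : 0 < rhoG q := hq
  have hu : ContDiffAt ℝ 2 (fun t : ℝ => -Real.log t) (rhoG q) :=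
    (Real.contDiffAt_log.mpr hr.ne').neg
  have h := Jet2.gP_comp_real (f := rhoG (W := W)) (p := q) contDiff_rhoG.contDiffAt hu X
  have h' : gP PhiG q X X = _ := h
  rw [h', MetricM.deriv2_neg_log, MetricM.deriv_neg_log, gP_rhoG, fderiv_rhoG, fderiv_rhoG]
  simp only [Prod.smul_fst, Prod.smul_snd, smul_eq_mul, Complex.I_mul_im, re_inner_I]
  field_simp
  ring

/-- the numerator of the exhaustion -/
theorem mm_eq' (q : ℂ × ℂ) : MetricM.mm q = MetricM.wr q ^ 2 + MetricM.wi q ^ 2 := by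
  rw [MetricM.mm]; ring

theorem mmG_ge {q : (ℂ × ℂ) × W} (hq : q ∈ DDG W) : 4 * rhoG q ≤ MetricM.mm q.1 := by
  have hr : 0 < rhoG q := hq
  have hr' : rhoG q = rho q.1 - ‖q.2‖ ^ 2 := rfl
  have h1 := MetricM.wi_eq q.1
  rw [mm_eq']
  have h2 : rhoG q + 1 ≤ MetricM.wi q.1 := by
    rw [h1, hr']
    have : 0 ≤ (q.1.1.re ^ 2 + q.1.1.im ^ 2) / 2 := by (clear * -; positivity)
    have : 0 ≤ ‖q.2‖ ^ 2 := by positivity
    (clear hq hr hr' h1; linarith)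
  nlinarith [sq_nonneg (MetricM.wi q.1 - 2 * rhoG q), sq_nonneg (MetricM.wr q.1)]

theorem mmG_pos {q : (ℂ × ℂ) × W} (hq : q ∈ DDG W) : 0 < MetricM.mm q.1 := by
  have hr : 0 < rhoG q := hq
  have := mmG_ge hq
  linarith only [hr, this]

theorem exG_eq : exG (W := W) = fun q => Real.log (MetricM.mm q.1 / rhoG q) := by
  funext q
  rw [exG, MetricM.norm_W]

theorem contDiff_mmG {n : WithTop ℕ∞} :
    ContDiff ℝ n (fun q : (ℂ × ℂ) × W => MetricM.mm q.1) :=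
  MetricM.contDiff_mm.comp contDiff_fst

theorem isOpen_DDG' : IsOpen (DDG W) :=
  isOpen_lt continuous_const (contDiff_rhoG (n := 0)).continuous

theorem fderiv_exG {q : (ℂ × ℂ) × W} (hq : q ∈ DDG W) (X : (ℂ × ℂ) × W) :
    fderiv ℝ exG q X = (MetricM.mm q.1)⁻¹ * fderiv ℝ MetricM.mm q.1 X.1 -
      (rhoG q)⁻¹ * fderiv ℝ rhoG q X := by
  have hr : rhoG q ≠ 0 := ne_of_gt hq
  have hm : MetricM.mm q.1 ≠ 0 := (mmG_pos hq).ne'
  have e : exG (W := W) =ᶠ[𝓝 q] fun q => Real.log (MetricM.mm q.1) - Real.log (rhoG q) := by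
    filter_upwards [isOpen_DDG'.mem_nhds hq] with q' hq'
    rw [exG_eq]
    exact Real.log_div (mmG_pos hq').ne' (ne_of_gt hq')
  have h1 : DifferentiableAt ℝ (fun q : (ℂ × ℂ) × W => MetricM.mm q.1) q :=
    (contDiff_mmG (n := 1)).contDiffAt.differentiableAt (by norm_num)
  have h2 : DifferentiableAt ℝ (rhoG (W := W)) q :=
    (contDiff_rhoG (n := 1)).contDiffAt.differentiableAt (by norm_num)
  have h := (h1.hasFDerivAt.log hm).sub (h2.hasFDerivAt.log hr)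
  have h3 := Jet2.d1_comp_clm (f := MetricM.mm) (ContinuousLinearMap.fst ℝ (ℂ × ℂ) W) (p := q)
    ((MetricM.contDiff_mm (n := 1)).contDiffAt.differentiableAt (by norm_num)) X
  have h3' : fderiv ℝ (fun q : (ℂ × ℂ) × W => MetricM.mm q.1) q X =
    fderiv ℝ MetricM.mm q.1 X.1 := h3
  rw [e.fderiv_eq]
  have h' : fderiv ℝ (fun q : (ℂ × ℂ) × W => Real.log (MetricM.mm q.1) - Real.log (rhoG q)) q =
    _ := h.fderiv
  rw [h']
  change (MetricM.mm q.1)⁻¹ * fderiv ℝ (fun q : (ℂ × ℂ) × W => MetricM.mm q.1) q X -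
    (rhoG q)⁻¹ * fderiv ℝ rhoG q X = _
  rw [h3']

theorem cs_five_aux {S U V D u v w : ℝ} (hD : 0 < D) (h4 : S ^ 2 ≤ U * V) (hU : 0 ≤ U)
    (hV : 0 ≤ V) (hw : w ^ 2 ≤ u ^ 2 * v ^ 2) :
    (S + w) ^ 2 ≤ (U + D * u ^ 2) * (V + v ^ 2 / D) := by
  have e : (U + D * u ^ 2) * (V + v ^ 2 / D) =
      U * V + (U * (v ^ 2 / D) + D * u ^ 2 * V) + u ^ 2 * v ^ 2 := by
    have e0 : D * u ^ 2 * (v ^ 2 / D) = u ^ 2 * v ^ 2 := by
      (clear * - hD; field_simp)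
    calc (U + D * u ^ 2) * (V + v ^ 2 / D)
        = U * V + (U * (v ^ 2 / D) + D * u ^ 2 * V) + D * u ^ 2 * (v ^ 2 / D) := by ring
      _ = _ := by rw [e0]
  rw [e]
  have hP : 0 ≤ U * (v ^ 2 / D) := mul_nonneg hU (div_nonneg (sq_nonneg _) hD.le)
  have hQ : 0 ≤ D * u ^ 2 * V := mul_nonneg (mul_nonneg hD.le (sq_nonneg _)) hV
  have h8 : 4 * (U * V) * (u ^ 2 * v ^ 2) = 4 * (U * (v ^ 2 / D)) * (D * u ^ 2 * V) := by
    (clear * - hD; field_simp)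
  obtain ⟨P, hPd⟩ : ∃ P, P = U * (v ^ 2 / D) := ⟨_, rfl⟩
  obtain ⟨Q, hQd⟩ : ∃ Q, Q = D * u ^ 2 * V := ⟨_, rfl⟩
  rw [← hPd] at hP h8 ⊢
  rw [← hQd] at hQ h8 ⊢
  have h5 : 2 * S * w ≤ P + Q := by
    have h6 : (2 * S * w) ^ 2 ≤ (P + Q) ^ 2 := by
      have h7 : (2 * S * w) ^ 2 ≤ 4 * (U * V) * (u ^ 2 * v ^ 2) := by
        have : (2 * S * w) ^ 2 = 4 * S ^ 2 * w ^ 2 := by ring
        rw [this]
        have h8 : S ^ 2 * w ^ 2 ≤ (U * V) * (u ^ 2 * v ^ 2) :=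
          mul_le_mul h4 hw (sq_nonneg _) (mul_nonneg hU hV)
        linarith only [h8]
      have h9 := sq_nonneg (P - Q)
      have h10 : (P + Q) ^ 2 = (P - Q) ^ 2 + 4 * P * Q := by ring
      rw [h10]
      linarith only [h8, h7, h9]
    exact abs_le_of_sq_le_sq' h6 (add_nonneg hP hQ) |>.2
  have h11 : (S + w) ^ 2 = S ^ 2 + 2 * S * w + w ^ 2 := by ring
  rw [h11]
  linarith only [h4, hw, h5]

/-- Cauchy-Schwarz inequality with weights -/
theorem cs_five {A B D : ℝ} (hA : 0 < A) (hB : 0 < B) (hD : 0 < D)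
    (p q r s c1 c2 x1 y1 u v w : ℝ) (hw : w ^ 2 ≤ u ^ 2 * v ^ 2) :
    (p * c1 + q * c2 + r * x1 + s * y1 + w) ^ 2 ≤
      (A * (p ^ 2 + q ^ 2) + B * (r ^ 2 + s ^ 2) + D * u ^ 2) *
        ((c1 ^ 2 + c2 ^ 2) / A + (x1 ^ 2 + y1 ^ 2) / B + v ^ 2 / D) := by
  have h4 := MetricM.cs_four hA hB p q r s c1 c2 x1 y1
  have hU : 0 ≤ A * (p ^ 2 + q ^ 2) + B * (r ^ 2 + s ^ 2) := by positivity
  have hV : 0 ≤ (c1 ^ 2 + c2 ^ 2) / A + (x1 ^ 2 + y1 ^ 2) / B := by positivity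
  exact cs_five_aux hD h4 hU hV hw

theorem exG_grad {q : (ℂ × ℂ) × W} (hq : q ∈ DDG W) (X : (ℂ × ℂ) × W) :
    (fderiv ℝ exG q X) ^ 2 ≤ 4 * gP PhiG q X X := by
  have hr : 0 < rhoG q := hq
  have hm := mmG_pos hq
  have hmg := mmG_ge hq
  rw [fderiv_exG hq, MetricM.fderiv_mm, fderiv_rhoG, gP_PhiG q hq]
  have n1 : ‖X.1.1‖ ^ 2 = X.1.1.re ^ 2 + X.1.1.im ^ 2 := by
    rw [← Complex.normSq_eq_norm_sq, Complex.normSq_apply]; ring
  have n2 : (inner ℂ q.2 X.2).re ^ 2 + (inner ℂ q.2 X.2).im ^ 2 ≤ ‖q.2‖ ^ 2 * ‖X.2‖ ^ 2 := by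
    have h1 : ‖(inner ℂ q.2 X.2 : ℂ)‖ ^ 2 =
        (inner ℂ q.2 X.2).re ^ 2 + (inner ℂ q.2 X.2).im ^ 2 := by
      rw [← Complex.normSq_eq_norm_sq, Complex.normSq_apply]; ring
    rw [← h1, ← mul_pow]
    exact pow_le_pow_left₀ (norm_nonneg _) (norm_inner_le_norm _ _) 2
  rw [n1]
  set R := (inner ℂ q.2 X.2).re
  set J := (inner ℂ q.2 X.2).im
  set c1 := X.1.2.re - 2 * q.1.1.im * X.1.1.re + 2 * J with hc1
  set c2 := X.1.2.im - 2 * q.1.1.im * X.1.1.im - 2 * R with hc2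
  have hwi := MetricM.wi_eq q.1
  have hrr : rho q.1 = rhoG q + ‖q.2‖ ^ 2 := by rw [rhoG]; ring
  rw [hrr] at hwi
  have hmm := mm_eq' q.1
  set x := q.1.1.re
  set y := q.1.1.im
  set x1 := X.1.1.re
  set y1 := X.1.1.im
  set ρ := rhoG q
  set m := MetricM.mm q.1
  set a := MetricM.wr q.1
  set b := MetricM.wi q.1
  set s := ‖q.2‖
  set t := ‖X.2‖
  have hw : (4 * ρ * (b * R - a * J)) ^ 2 ≤ (4 * ρ * Real.sqrt m * s) ^ 2 * t ^ 2 := by
    have h1 : (b * R - a * J) ^ 2 ≤ m * (R ^ 2 + J ^ 2) := by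
      have e0 : m * (R ^ 2 + J ^ 2) = (b * R - a * J) ^ 2 + (a * R + b * J) ^ 2 := by
        rw [hmm]; ring
      have := sq_nonneg (a * R + b * J)
      linarith only [e0, this]
    have h2 : (b * R - a * J) ^ 2 ≤ m * (s ^ 2 * t ^ 2) :=
      h1.trans (mul_le_mul_of_nonneg_left n2 hm.le)
    have h3 : (4 * ρ * Real.sqrt m * s) ^ 2 * t ^ 2 = 16 * ρ ^ 2 * (m * (s ^ 2 * t ^ 2)) := by
      have : Real.sqrt m ^ 2 = m := Real.sq_sqrt hm.le
      calc (4 * ρ * Real.sqrt m * s) ^ 2 * t ^ 2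
          = 16 * ρ ^ 2 * (Real.sqrt m ^ 2 * (s ^ 2 * t ^ 2)) := by ring
        _ = _ := by rw [this]
    rw [h3]
    have h4 : (4 * ρ * (b * R - a * J)) ^ 2 = 16 * ρ ^ 2 * (b * R - a * J) ^ 2 := by ring
    rw [h4]
    exact mul_le_mul_of_nonneg_left h2 (by (clear * - hr; positivity))
  have hcs := cs_five (A := 4 * ρ ^ 2) (B := 2 * ρ) (D := ρ) (by positivity) (by positivity) hr
    (2 * ρ * a) (2 * ρ * b - m) (2 * ρ * (a * y + b * x)) (2 * ρ * (b * y - a * x)) c1 c2 x1 y1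
    (4 * ρ * Real.sqrt m * s) t (4 * ρ * (b * R - a * J)) hw
  have e1 : (4 * ρ ^ 2 * ((2 * ρ * a) ^ 2 + (2 * ρ * b - m) ^ 2) +
      2 * ρ * ((2 * ρ * (a * y + b * x)) ^ 2 + (2 * ρ * (b * y - a * x)) ^ 2) +
      ρ * (4 * ρ * Real.sqrt m * s) ^ 2) = 4 * ρ ^ 2 * m * (m - 4 * ρ) := by
    have h1 : (4 * ρ * Real.sqrt m * s) ^ 2 = 16 * ρ ^ 2 * m * s ^ 2 := by
      have : Real.sqrt m ^ 2 = m := Real.sq_sqrt hm.le
      calc (4 * ρ * Real.sqrt m * s) ^ 2 = 16 * ρ ^ 2 * (Real.sqrt m ^ 2) * s ^ 2 := by ring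
        _ = _ := by rw [this]
    rw [h1]
    have h2 : (2 * ρ * a) ^ 2 + (2 * ρ * b - m) ^ 2 =
        m * (4 * ρ ^ 2 - 4 * ρ * b + m) := by
      rw [hmm]; ring
    have h3 : (2 * ρ * (a * y + b * x)) ^ 2 + (2 * ρ * (b * y - a * x)) ^ 2 =
        4 * ρ ^ 2 * m * (x ^ 2 + y ^ 2) := by
      rw [hmm]; ring
    rw [h2, h3, hwi]
    ring
  rw [e1] at hcs
  have e2 : m⁻¹ * (2 * (a * (X.1.2.re - x * y1 - y * x1) + b * (X.1.2.im + x * x1 - y * y1))) -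
      ρ⁻¹ * c2 =
      (2 * ρ * a * c1 + (2 * ρ * b - m) * c2 + 2 * ρ * (a * y + b * x) * x1
        + 2 * ρ * (b * y - a * x) * y1 + 4 * ρ * (b * R - a * J)) / (m * ρ) := by
    rw [hc1, hc2]
    field_simp
    ring
  rw [e2, div_pow, div_le_iff₀ (by (clear * - hm hr; positivity))]
  refine hcs.trans ?_
  have hG : 0 ≤ (c1 ^ 2 + c2 ^ 2) / (4 * ρ ^ 2) + (x1 ^ 2 + y1 ^ 2) / (2 * ρ) + t ^ 2 / ρ := by
    (clear * - hr; positivity)
  have h3 : 4 * ρ ^ 2 * m * (m - 4 * ρ) ≤ 4 * (m * ρ) ^ 2 := by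
    have h4 : 0 ≤ 16 * ρ ^ 3 * m := by (clear * - hr hm; positivity)
    have h5 : 4 * ρ ^ 2 * m * (m - 4 * ρ) = 4 * (m * ρ) ^ 2 - 16 * ρ ^ 3 * m := by ring
    linarith only [h4]
  calc 4 * ρ ^ 2 * m * (m - 4 * ρ) *
        ((c1 ^ 2 + c2 ^ 2) / (4 * ρ ^ 2) + (x1 ^ 2 + y1 ^ 2) / (2 * ρ) + t ^ 2 / ρ)
      ≤ 4 * (m * ρ) ^ 2 *
        ((c1 ^ 2 + c2 ^ 2) / (4 * ρ ^ 2) + (x1 ^ 2 + y1 ^ 2) / (2 * ρ) + t ^ 2 / ρ) :=
        mul_le_mul_of_nonneg_right h3 hG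
    _ = _ := by
        field_simp
        ring

theorem bounds {T ρ b a x y s : ℝ} (hT0 : 0 < T) (hr : 0 < ρ) (_ : 0 ≤ s)
    (hwi : b = ρ + s ^ 2 + (x ^ 2 + y ^ 2) / 2 + 1) (hq : a ^ 2 + b ^ 2 ≤ T * ρ) :
    |x| ≤ 1 + 2 * T ∧ |y| ≤ 1 + 2 * T ∧ s ≤ 1 + T ∧ |a + x * y| ≤ 4 * T ∧
      |ρ + s ^ 2 + y ^ 2| ≤ 4 * T := by
  have hx2 := sq_nonneg x
  have hy2 := sq_nonneg y
  have hs2 := sq_nonneg s
  have ha2 := sq_nonneg a
  have hb1 : ρ ≤ b := by linarith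
  have hb0 : 0 < b := lt_of_lt_of_le hr hb1
  have hbT : b ≤ T := by
    have h1 : b * b ≤ T * ρ := by linarith only [hq, ha2]
    have h2 : b * b ≤ T * b := h1.trans (mul_le_mul_of_nonneg_left hb1 hT0.le)
    exact le_of_mul_le_mul_right h2 hb0
  have hxy : x ^ 2 + y ^ 2 ≤ 2 * T := by linarith only [hr, hwi, hs2, hbT]
  have hsT : s ^ 2 ≤ T := by linarith only [hr, hwi, hx2, hy2, hbT]
  have haT : a ^ 2 ≤ T ^ 2 := by
    have h1 : T * ρ ≤ T * T := mul_le_mul_of_nonneg_left (hb1.trans hbT) hT0.le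
    have h2 := sq_nonneg b
    linarith only [hq, h1, h2]
  have haT' : |a| ≤ T := abs_le_of_sq_le_sq haT hT0.le
  have hT2 : 2 * T ≤ (1 + 2 * T) ^ 2 := by linarith only [hr, hwi, hx2, hy2, hs2, ha2, hbT, haT]
  refine ⟨?_, ?_, ?_, ?_, ?_⟩
  · exact abs_le_of_sq_le_sq (by linarith) (by linarith only [hr, hwi, hx2, hy2, hs2, hbT])
  · exact abs_le_of_sq_le_sq (by linarith) (by linarith only [hr, hwi, hx2, hy2, hs2, hbT])
  · linarith only [hr, hwi, hx2, hy2, hs2, hbT, sq_nonneg (s - 1)]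
  · have h2 : |x * y| ≤ 2 * T := by
      rw [abs_le]
      constructor <;> linarith [sq_nonneg (x + y), sq_nonneg (x - y)]
    exact (abs_add_le _ _).trans (by linarith)
  · rw [abs_of_nonneg (by (clear * - hr; positivity))]
    linarith only [hr, hwi, hx2, hy2, hs2, hbT]

end GBase

open GBase

theorem isOpen_DDG : IsOpen (DDG W) := isOpen_DDG'

theorem convex_DDG : Convex ℝ (DDG W) := by
  have h1 : ConvexOn ℝ univ (fun q : (ℂ × ℂ) × W => q.1.1.im ^ 2) := by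
    have h := (even_two.convexOn_pow (𝕜 := ℝ)).comp_linearMap
      (Complex.imLm.comp ((LinearMap.fst ℝ ℂ ℂ).comp (LinearMap.fst ℝ (ℂ × ℂ) W)))
    exact h
  have h2 : ConvexOn ℝ univ (fun q : (ℂ × ℂ) × W => ‖q.2‖ ^ 2) := by
    have h := (convexOn_univ_norm (E := W)).pow (fun _ _ => norm_nonneg _) 2
    exact h.comp_linearMap (LinearMap.snd ℝ (ℂ × ℂ) W)
  have h3 : ConcaveOn ℝ univ (fun q : (ℂ × ℂ) × W => q.1.2.im) :=
    (Complex.imLm.comp ((LinearMap.snd ℝ ℂ ℂ).comp (LinearMap.fst ℝ (ℂ × ℂ) W))).concaveOn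
      convex_univ
  have h4 := (h3.sub h1).sub h2
  have h5 := h4.convex_gt 0
  have e : DDG W = {q ∈ univ | 0 < ((fun q : (ℂ × ℂ) × W => q.1.2.im) -
      (fun q : (ℂ × ℂ) × W => q.1.1.im ^ 2) - fun q : (ℂ × ℂ) × W => ‖q.2‖ ^ 2) q} := by
    ext q
    simp only [DDG, rhoG, rho, sub_pos, mem_ofPred_eq, mem_univ, Pi.sub_apply, true_and]
  rw [e]
  exact h5

theorem DDG_nonempty : (DDG W).Nonempty := by
  refine ⟨((0, Complex.I), 0), ?_⟩
  change 0 < rhoG _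
  simp only [rhoG, rho, Complex.I_im, Complex.zero_im, ne_eq, OfNat.ofNat_ne_zero, not_false_eq_true, zero_pow, sub_zero, norm_zero, zero_lt_one]

theorem PhiG_contDiffOn : ContDiffOn ℝ (⊤ : ℕ∞) (PhiG (W := W)) (DDG W) := by
  intro q hq
  have hr : rhoG q ≠ 0 := ne_of_gt hq
  exact ((contDiff_rhoG.contDiffAt.log hr).neg).contDiffWithinAt

theorem goodExhaustion_DDG [FiniteDimensional ℂ W] :
    ∃ C : ℝ, GoodExhaustion (DDG W) (PhiG (W := W)) exG C := by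
  refine ⟨4, ?_, ?_, ?_, ?_⟩
  · intro q hq
    rw [exG_eq]
    have hr : rhoG q ≠ 0 := ne_of_gt hq
    have hm : MetricM.mm q.1 ≠ 0 := (mmG_pos hq).ne'
    exact ((contDiff_mmG.contDiffAt.div contDiff_rhoG.contDiffAt hr).log
      (div_ne_zero hm hr)).contDiffWithinAt
  · intro q hq X
    exact exG_grad hq X
  · intro R
    have : ProperSpace W := FiniteDimensional.proper ℂ W
    set T := Real.exp R with hT
    have hT0 : 0 < T := Real.exp_pos R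
    have hset : {q | q ∈ DDG W ∧ exG q ≤ R} =
        {q : (ℂ × ℂ) × W | T⁻¹ ≤ rhoG q ∧ MetricM.mm q.1 ≤ T * rhoG q} := by
      ext q
      constructor
      · rintro ⟨hq, hR⟩
        have hr : 0 < rhoG q := hq
        have hm := mmG_pos hq
        have h2 : MetricM.mm q.1 / rhoG q ≤ T := by
          rw [exG_eq] at hR
          rw [hT, ← Real.log_le_iff_le_exp (by (clear * - hm hr; positivity))]
          exact hR
        rw [div_le_iff₀ hr] at h2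
        refine ⟨?_, h2⟩
        have hwi := MetricM.wi_eq q.1
        have hrr : rho q.1 = rhoG q + ‖q.2‖ ^ 2 := by rw [rhoG]; ring
        have h5 : 1 ≤ MetricM.wi q.1 := by
          rw [hwi, hrr]
          linarith only [hr, sq_nonneg q.1.1.re, sq_nonneg q.1.1.im, sq_nonneg ‖q.2‖]
        have h6 : 1 ≤ MetricM.mm q.1 := by
          rw [mm_eq']
          nlinarith only [hr, hwi, hrr]
        rw [inv_le_iff_one_le_mul₀ hT0]
        linarith only [h2, h6]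
      · rintro ⟨h1, h2⟩
        have hr : 0 < rhoG q := lt_of_lt_of_le (inv_pos.mpr hT0) h1
        have hq : q ∈ DDG W := hr
        have hm := mmG_pos hq
        refine ⟨hq, ?_⟩
        rw [exG_eq]
        change Real.log (MetricM.mm q.1 / rhoG q) ≤ R
        rw [Real.log_le_iff_le_exp (by (clear * - hm hr; positivity)), div_le_iff₀ hr]
        exact h2
    rw [hset]
    apply Metric.isCompact_of_isClosed_isBounded
    · exact (isClosed_le continuous_const (contDiff_rhoG (n := 0)).continuous).inter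
        (isClosed_le (contDiff_mmG (n := 0)).continuous
          (continuous_const.mul (contDiff_rhoG (n := 0)).continuous))
    · rw [isBounded_iff_forall_norm_le]
      refine ⟨8 * T + 8, ?_⟩
      rintro q ⟨hq1, hq2⟩
      have hr : 0 < rhoG q := lt_of_lt_of_le (inv_pos.mpr hT0) hq1
      have hrr : rho q.1 = rhoG q + ‖q.2‖ ^ 2 := by rw [rhoG]; ring
      have hwr : q.1.2.re = MetricM.wr q.1 + q.1.1.re * q.1.1.im := by
        have : MetricM.wr q.1 = q.1.2.re - q.1.1.re * q.1.1.im := rfl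
        rw [this]; ring
      have hrho : q.1.2.im = rhoG q + ‖q.2‖ ^ 2 + q.1.1.im ^ 2 := by
        have : rho q.1 = q.1.2.im - q.1.1.im ^ 2 := rfl
        rw [← hrr, this]; ring
      have hwi : MetricM.wi q.1 = rhoG q + ‖q.2‖ ^ 2 + (q.1.1.re ^ 2 + q.1.1.im ^ 2) / 2 + 1 := by
        rw [MetricM.wi_eq, hrr]
      rw [mm_eq'] at hq2
      obtain ⟨h1, h2, h3, h4, h5⟩ := bounds hT0 hr (norm_nonneg q.2) hwi hq2
      rw [← hwr] at h4
      rw [← hrho] at h5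
      have hnormC : ∀ z : ℂ, ‖z‖ ≤ |z.re| + |z.im| := Complex.norm_le_abs_re_add_abs_im
      rw [Prod.norm_def, Prod.norm_def]
      apply max_le
      · apply max_le
        · exact (hnormC _).trans (by linarith only [hT0, h1, h2])
        · exact (hnormC _).trans (by linarith only [h4, h5])
      · linarith only [hT0, h3]
  · refine ⟨0, fun q hq => ?_⟩
    have hr : 0 < rhoG q := hq
    have h1 := mmG_ge hq
    rw [exG_eq]
    apply Real.log_nonneg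
    rw [le_div_iff₀ hr]
    linarith only [hr, h1]

end B

end Vale.Agent.P250.G
end
end
end

section

section

section

/-! The Cayley-type chart of the tube domain centred at a point. -/

set_option maxSynthPendingDepth 3

namespace Vale.Agent.P250.PJ

open Set Filter Topology

abbrev V2 : Type := EuclideanSpace ℂ (Fin 2)

/-- `1/(1-ζ₁)` -/
noncomputable def cs (ζ : V2) : ℂ := (1 - ζ 1)⁻¹

/-- the Cayley chart (shifted so that `0 ↦ 0`) -/
noncomputable def cc (ζ : V2) : ℂ × ℂ :=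
  ((√2 : ℝ) * ζ 0 * cs ζ, 2 * Complex.I * (ζ 1 * cs ζ) - Complex.I / 2 * ((√2 : ℝ) * ζ 0 * cs ζ) ^ 2)

/-- the chart centred at `p` -/
noncomputable def BB (p : ℂ × ℂ) (ζ : V2) : ℂ × ℂ :=
  (p.1 + (√(rho p) : ℝ) * (cc ζ).1,
    p.2 + (rho p : ℝ) * (cc ζ).2 + 2 * (√(rho p) : ℝ) * (p.1.im : ℝ) * (cc ζ).1)

/-- the pluriharmonic correction -/
noncomputable def H0 (ζ : V2) : ℂ := 2 * Complex.log (1 - ζ 1)

lemma cc_zero : cc 0 = 0 := by
  simp [cc, cs]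

lemma BB_zero (p : ℂ × ℂ) : BB p 0 = p := by
  simp [BB, cc_zero]

lemma contDiff_coord (i : Fin 2) {n : WithTop ℕ∞} : ContDiff ℂ n (fun ζ : V2 => ζ i) :=
  (EuclideanSpace.proj i : V2 →L[ℂ] ℂ).contDiff

lemma contDiffAt_cs {n : WithTop ℕ∞} : ContDiffAt ℂ n cs 0 := by
  unfold cs
  apply ContDiffAt.inv
  · exact contDiffAt_const.sub (contDiff_coord 1).contDiffAt
  · simp

lemma contDiffAt_cc {n : WithTop ℕ∞} : ContDiffAt ℂ n cc 0 := by
  unfold cc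
  have h0 : ContDiffAt ℂ n (fun ζ : V2 => ζ 0) 0 := (contDiff_coord 0).contDiffAt
  have h1 : ContDiffAt ℂ n (fun ζ : V2 => ζ 1) 0 := (contDiff_coord 1).contDiffAt
  have hs : ContDiffAt ℂ n cs 0 := contDiffAt_cs
  apply ContDiffAt.prodMk
  · exact (contDiffAt_const.mul h0).mul hs
  · exact (contDiffAt_const.mul (h1.mul hs)).sub
      (contDiffAt_const.mul (((contDiffAt_const.mul h0).mul hs).pow 2))

lemma contDiffAt_BB (p : ℂ × ℂ) {n : WithTop ℕ∞} : ContDiffAt ℂ n (BB p) 0 := by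
  unfold BB
  have h1 : ContDiffAt ℂ n (fun ζ : V2 => (cc ζ).1) 0 := contDiffAt_cc.fst
  have h2 : ContDiffAt ℂ n (fun ζ : V2 => (cc ζ).2) 0 := contDiffAt_cc.snd
  apply ContDiffAt.prodMk
  · exact contDiffAt_const.add (contDiffAt_const.mul h1)
  · exact (contDiffAt_const.add (contDiffAt_const.mul h2)).add (contDiffAt_const.mul h1)

lemma contDiffAt_H0 {n : WithTop ℕ∞} : ContDiffAt ℂ n H0 0 := by
  unfold H0
  apply contDiffAt_const.mul
  have h1 : ContDiffAt ℂ n (fun ζ : V2 => 1 - ζ 1) 0 :=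
    contDiffAt_const.sub (contDiff_coord 1).contDiffAt
  have h2 : AnalyticAt ℂ Complex.log ((fun ζ : V2 => 1 - ζ 1) 0) :=
    analyticAt_clog (by simp)
  exact ContDiffAt.comp (g := Complex.log) (f := fun ζ : V2 => 1 - ζ 1) 0 h2.contDiffAt h1

/-- the derivative of `BB p` at the centre is invertible -/
lemma exists_equiv_BB (p : ℂ × ℂ) (hp : p ∈ DD) :
    ∃ e : V2 ≃L[ℂ] (ℂ × ℂ), (e : V2 →L[ℂ] ℂ × ℂ) = fderiv ℂ (BB p) 0 := by
  have hr : 0 < rho p := hp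
  have hsr : 0 < √(rho p) := Real.sqrt_pos.mpr hr
  have h2 : (0 : ℝ) < √2 := by positivity
  set r : ℂ := ((√(rho p) : ℝ) : ℂ) with hrdef
  set s2 : ℂ := ((√2 : ℝ) : ℂ) with hs2
  have hr0 : r ≠ 0 := by
    rw [hrdef]; exact_mod_cast hsr.ne'
  have hs20 : s2 ≠ 0 := by
    rw [hs2]; exact_mod_cast h2.ne'
  have hrho0 : ((rho p : ℝ) : ℂ) ≠ 0 := by exact_mod_cast hr.ne'
  let P0 : V2 →L[ℂ] ℂ := EuclideanSpace.proj 0
  let P1 : V2 →L[ℂ] ℂ := EuclideanSpace.proj 1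
  have d0 : HasFDerivAt (fun ζ : V2 => ζ 0) P0 0 := P0.hasFDerivAt
  have d1 : HasFDerivAt (fun ζ : V2 => ζ 1) P1 0 := P1.hasFDerivAt
  have ds : HasFDerivAt cs P1 0 := by
    have h1 : HasFDerivAt (fun ζ : V2 => 1 - ζ 1) (-P1) 0 := by
      simpa only [Fin.isValue] using d1.const_sub 1
    have h3 : HasDerivAt (fun z : ℂ => z⁻¹) (-(((1 : ℂ) - (0 : V2) 1) ^ 2)⁻¹) (1 - (0 : V2) 1) :=
      hasDerivAt_inv (by simp)
    have h4 := h3.comp_hasFDerivAt (0 : V2) h1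
    refine h4.congr_fderiv ?_
    ext X
    simp
  have da : HasFDerivAt (fun ζ : V2 => s2 * ζ 0 * cs ζ) (s2 • P0) 0 := by
    have h := (d0.const_mul s2).mul ds
    refine h.congr_fderiv ?_
    ext X
    simp [cs]
  have db : HasFDerivAt (fun ζ : V2 => 2 * Complex.I * (ζ 1 * cs ζ)
      - Complex.I / 2 * (s2 * ζ 0 * cs ζ) ^ 2) ((2 * Complex.I) • P1) 0 := by
    have h := ((d1.mul ds).const_mul (2 * Complex.I)).sub ((da.pow 2).const_mul (Complex.I / 2))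
    refine h.congr_fderiv ?_
    ext X
    simp [cs]
  have dB : HasFDerivAt (BB p) ((r • s2 • P0).prod ((((rho p : ℝ) : ℂ) • (2 * Complex.I) • P1)
      + (2 * r * (p.1.im : ℝ)) • s2 • P0)) 0 := by
    unfold BB
    have hA := (da.const_mul r).const_add p.1
    have hB := ((db.const_mul ((rho p : ℝ) : ℂ)).const_add p.2).add
      (da.const_mul (2 * r * (p.1.im : ℝ)))
    exact hA.prodMk hB
  rw [dB.fderiv]
  let inv : ℂ × ℂ →L[ℂ] V2 :=
    ((EuclideanSpace.equiv (Fin 2) ℂ).symm : (Fin 2 → ℂ) →L[ℂ] V2).comp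
      (ContinuousLinearMap.pi ![(r * s2)⁻¹ • ContinuousLinearMap.fst ℂ ℂ ℂ,
        (((rho p : ℝ) : ℂ) * (2 * Complex.I))⁻¹ • (ContinuousLinearMap.snd ℂ ℂ ℂ
          - (2 * (p.1.im : ℂ)) • ContinuousLinearMap.fst ℂ ℂ ℂ)])
  refine ⟨ContinuousLinearEquiv.equivOfInverse ((r • s2 • P0).prod
    ((((rho p : ℝ) : ℂ) • (2 * Complex.I) • P1) + (2 * r * (p.1.im : ℝ)) • s2 • P0)) inv ?_ ?_, ?_⟩
  · intro X
    ext i
    fin_cases i
    · simp only [mul_inv_rev, Complex.inv_I, neg_mul, neg_smul, Fin.isValue, Complex.coe_smul, ContinuousLinearMap.prod_apply, smul_apply, PiLp.proj_apply, smul_eq_mul, add_apply, Complex.real_smul, ContinuousLinearMap.comp_apply, ContinuousLinearMap.coe_pi', ContinuousLinearEquiv.coe_coe, PiLp.continuousLinearEquiv_symm_apply, Fin.zero_eta, Matrix.cons_val_zero, ContinuousLinearMap.coe_fst', inv, P0, P1]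
      (clear * - hs20 hr0; field_simp)
    · simp [inv, P0, P1]
      field_simp
      ring_nf
      rw [Complex.I_sq]
      ring
  · intro X
    apply Prod.ext
    · simp only [Fin.isValue, Complex.coe_smul, mul_inv_rev, Complex.inv_I, neg_mul, neg_smul, ContinuousLinearMap.comp_apply, ContinuousLinearMap.coe_pi', ContinuousLinearEquiv.coe_coe, PiLp.continuousLinearEquiv_symm_apply, ContinuousLinearMap.prod_apply, smul_apply, PiLp.proj_apply, Matrix.cons_val_zero, ContinuousLinearMap.coe_fst', smul_eq_mul, add_apply, Matrix.cons_val_one, Matrix.cons_val_fin_one, neg_apply, sub_apply, ContinuousLinearMap.coe_snd', mul_neg, smul_neg, Complex.real_smul, P0, P1, inv]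
      (clear * - hr0 hs20; field_simp)
    · simp [inv, P0, P1]
      field_simp
      ring_nf
      rw [Complex.I_sq]
      ring
  · rfl

lemma cs_mul (ζ : V2) (h : ζ 1 ≠ 1) : ζ 1 * cs ζ = cs ζ - 1 := by
  have h1 : (1 : ℂ) - ζ 1 ≠ 0 := sub_ne_zero.mpr (Ne.symm h)
  unfold cs
  field_simp
  ring

lemma rho_cc (ζ : V2) (h : ζ 1 ≠ 1) :
    1 + rho (cc ζ) = (1 - ‖ζ‖ ^ 2) * ‖cs ζ‖ ^ 2 := by
  have e1 := cs_mul ζ h
  have e2 : ‖ζ‖ ^ 2 = ‖ζ 0‖ ^ 2 + ‖ζ 1‖ ^ 2 := by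
    rw [EuclideanSpace.norm_sq_eq, Fin.sum_univ_two]
  have e3 : ‖ζ 1‖ ^ 2 * ‖cs ζ‖ ^ 2 = ‖cs ζ - 1‖ ^ 2 := by
    rw [← e1, norm_mul, mul_pow]
  have e4 : ‖(√2 : ℝ) * ζ 0 * cs ζ‖ ^ 2 = 2 * (‖ζ 0‖ ^ 2 * ‖cs ζ‖ ^ 2) := by
    rw [norm_mul, norm_mul, mul_pow, mul_pow, Complex.norm_real, Real.norm_eq_abs, sq_abs,
      Real.sq_sqrt (by norm_num)]
    ring
  set z : ℂ := (√2 : ℝ) * ζ 0 * cs ζ with hz
  have e5 : rho (cc ζ) = 2 * (cs ζ - 1).re - (1 / 2) * ‖z‖ ^ 2 := by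
    unfold rho cc
    rw [e1, ← hz]
    have : ‖z‖ ^ 2 = z.re ^ 2 + z.im ^ 2 := by
      rw [← Complex.normSq_eq_norm_sq, Complex.normSq_apply]; ring
    rw [this]
    simp only [Fin.isValue, pow_two, Complex.sub_im, Complex.mul_im, Complex.mul_re, Complex.re_ofNat, Complex.I_re, mul_zero, Complex.im_ofNat, Complex.I_im, mul_one, sub_self, Complex.one_im, sub_zero, zero_mul, add_zero, Complex.sub_re, Complex.one_re, zero_add, Complex.div_ofNat_re, zero_div, Complex.div_ofNat_im, one_div]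
    ring
  have e6 : ‖cs ζ - 1‖ ^ 2 = ‖cs ζ‖ ^ 2 - 2 * (cs ζ).re + 1 := by
    rw [← Complex.normSq_eq_norm_sq, ← Complex.normSq_eq_norm_sq, Complex.normSq_apply,
      Complex.normSq_apply]
    simp only [Complex.sub_re, Complex.one_re, Complex.sub_im, Complex.one_im, sub_zero]
    ring
  rw [e5, e4, e2]
  have e7 : (cs ζ - 1).re = (cs ζ).re - 1 := by simp
  rw [e7]
  linear_combination e3 + e6

lemma rho_BB (p : ℂ × ℂ) (hp : p ∈ DD) (ζ : V2) :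
    rho (BB p ζ) = rho p * (1 + rho (cc ζ)) := by
  have hr : 0 < rho p := hp
  have hs : √(rho p) ^ 2 = rho p := Real.sq_sqrt hr.le
  have e1 : (BB p ζ).2.im = p.2.im + rho p * (cc ζ).2.im
      + 2 * √(rho p) * p.1.im * (cc ζ).1.im := by
    have : (BB p ζ).2 = p.2 + (rho p : ℝ) * (cc ζ).2
        + ((2 * √(rho p) * p.1.im : ℝ) : ℂ) * (cc ζ).1 := by
      simp only [BB, Complex.ofReal_mul, Complex.ofReal_ofNat]
    rw [this, Complex.add_im, Complex.add_im, Complex.im_ofReal_mul, Complex.im_ofReal_mul]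
  have e2 : (BB p ζ).1.im = p.1.im + √(rho p) * (cc ζ).1.im := by
    unfold BB
    rw [Complex.add_im, Complex.im_ofReal_mul]
  have e3 : rho (BB p ζ) = (BB p ζ).2.im - (BB p ζ).1.im ^ 2 := rfl
  have e4 : rho (cc ζ) = (cc ζ).2.im - (cc ζ).1.im ^ 2 := rfl
  have e5 : rho p = p.2.im - p.1.im ^ 2 := rfl
  rw [e3, e1, e2, e4]
  linear_combination (-(cc ζ).1.im ^ 2) * hs - e5

lemma norm_cs_sq_pos (ζ : V2) (h : ζ 1 ≠ 1) : 0 < ‖cs ζ‖ := by
  have h1 : (1 : ℂ) - ζ 1 ≠ 0 := sub_ne_zero.mpr (Ne.symm h)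
  exact norm_pos_iff.mpr (inv_ne_zero h1)

lemma log_rho_BB (p : ℂ × ℂ) (hp : p ∈ DD) :
    ∀ᶠ ζ in 𝓝 (0 : V2), -Real.log (rho (BB p ζ))
      = -Real.log (1 - ‖ζ‖ ^ 2) + (H0 ζ - (Real.log (rho p) : ℝ)).re := by
  have hr : 0 < rho p := hp
  have h1 : ∀ᶠ ζ in 𝓝 (0 : V2), ζ 1 ≠ 1 := by
    have hc : Continuous (fun ζ : V2 => ζ 1) := (contDiff_coord 1 (n := 0)).continuous
    have := hc.tendsto 0
    exact this.eventually_ne (by simp)
  have h2 : ∀ᶠ ζ in 𝓝 (0 : V2), ‖ζ‖ < 1 := by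
    filter_upwards [Metric.ball_mem_nhds (0 : V2) one_pos] with ζ hζ
    simpa only [Metric.mem_ball, dist_zero_right] using hζ
  filter_upwards [h1, h2] with ζ hζ hn
  have h3 : 0 < 1 - ‖ζ‖ ^ 2 := by nlinarith only [hn, norm_nonneg ζ]
  have h4 := norm_cs_sq_pos ζ hζ
  rw [rho_BB p hp, rho_cc ζ hζ, Real.log_mul hr.ne' (by (clear * - h3 h4; positivity)),
    Real.log_mul h3.ne' (by positivity), Real.log_pow]
  have h5 : (H0 ζ - (Real.log (rho p) : ℝ)).re = -(2 * Real.log ‖cs ζ‖) - Real.log (rho p) := by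
    have h6 : Real.log ‖cs ζ‖ = -Real.log ‖1 - ζ 1‖ := by
      unfold cs
      rw [norm_inv, Real.log_inv]
    rw [Complex.sub_re, Complex.ofReal_re, h6]
    have h7 : (H0 ζ).re = 2 * Real.log ‖1 - ζ 1‖ := by
      unfold H0
      have : (2 : ℂ) = ((2 : ℝ) : ℂ) := by norm_num
      rw [this, Complex.re_ofReal_mul, Complex.log_re]
    rw [h7]
    ring
  rw [h5]
  push_cast
  ring

end Vale.Agent.P250.PJ
end
end
end

section

section

section

/-! Existence of the Levi-Civita connection of a smooth Riemannian metric on an open subset of a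
finite dimensional space. -/

set_option maxSynthPendingDepth 3

namespace Vale.Agent.P250
open Set Filter Topology

section T10

variable {E : Type*} [NormedAddCommGroup E] [NormedSpace ℝ E]

/-- The metric at a point as an isomorphism onto the dual space. -/
theorem exists_equiv_of_pos [FiniteDimensional ℝ E] (a : E →L[ℝ] E →L[ℝ] ℝ)
    (hpos : ∀ X, X ≠ 0 → 0 < a X X) : ∃ e : E ≃L[ℝ] (E →L[ℝ] ℝ), (e : E →L[ℝ] E →L[ℝ] ℝ) = a := by
  have hinj : Function.Injective (a : E →ₗ[ℝ] (E →L[ℝ] ℝ)) := by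
    rw [← LinearMap.ker_eq_bot, LinearMap.ker_eq_bot']
    intro X hX
    by_contra hne
    have h := hpos X hne
    have hX' : a X = 0 := hX
    rw [hX'] at h
    simp at h
  have hdim : Module.finrank ℝ E = Module.finrank ℝ (E →L[ℝ] ℝ) := by
    have h1 : Module.finrank ℝ (E →ₗ[ℝ] ℝ) = Module.finrank ℝ (E →L[ℝ] ℝ) :=
      (LinearMap.toContinuousLinearMap (𝕜 := ℝ) (E := E) (F' := ℝ)).finrank_eq
    rw [← h1]
    exact (Subspace.dual_finrank_eq (K := ℝ) (V := E)).symm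
  refine ⟨(LinearMap.linearEquivOfInjective (a : E →ₗ[ℝ] (E →L[ℝ] ℝ)) hinj
    hdim).toContinuousLinearEquiv, ?_⟩
  ext X Y
  simp

/-- The Koszul functional. -/
noncomputable def koszulK (D : E →L[ℝ] E →L[ℝ] E →L[ℝ] ℝ) : E →L[ℝ] E →L[ℝ] E →L[ℝ] ℝ :=
  (1 / 2 : ℝ) • (D + D.flip -
    ((ContinuousLinearMap.flipₗᵢ ℝ E E ℝ).toContinuousLinearEquiv.toContinuousLinearMap).comp D.flip)

theorem koszulK_apply (D : E →L[ℝ] E →L[ℝ] E →L[ℝ] ℝ) (X Y Z : E) :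
    2 * koszulK D X Y Z = D X Y Z + D Y X Z - D Z X Y := by
  simp only [koszulK, one_div, smul_apply, sub_apply, add_apply, ContinuousLinearMap.comp_apply, ContinuousLinearEquiv.coe_coe, LinearIsometryEquiv.coe_toContinuousLinearEquiv, ContinuousLinearMap.coe_flipₗᵢ, ContinuousLinearMap.flip_apply, smul_eq_mul, ne_eq, OfNat.ofNat_ne_zero, not_false_eq_true, mul_inv_cancel_left₀]

theorem exists_leviCivita {E : Type*} [NormedAddCommGroup E] [NormedSpace ℝ E]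
    [FiniteDimensional ℝ E] (g : E → E →L[ℝ] E →L[ℝ] ℝ) (M : Set E) (hM : IsOpen M)
    (hg : IsRiemannianMetric g M) : ∃ Γ : E → E →L[ℝ] E →L[ℝ] E, IsLeviCivita g Γ M := by
  have : CompleteSpace E := FiniteDimensional.complete ℝ E
  let inv : E → ((E →L[ℝ] ℝ) →L[ℝ] E) := fun p => ContinuousLinearMap.inverse (g p)
  have hinv : ContDiffOn ℝ (⊤ : ℕ∞) inv M := by
    intro p hp
    obtain ⟨e, he⟩ := exists_equiv_of_pos (g p) (hg.pos p hp)
    have h1 : ContDiffAt ℝ (⊤ : ℕ∞) (ContinuousLinearMap.inverse (R := ℝ) (M := E)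
        (M₂ := (E →L[ℝ] ℝ))) (g p) := by
      rw [← he]
      exact contDiffAt_map_inverse e
    exact h1.comp_contDiffWithinAt p (hg.smooth p hp)
  have hD : ContDiffOn ℝ (⊤ : ℕ∞) (fderiv ℝ g) M :=
    hg.smooth.fderiv_of_isOpen hM (by simp)
  have hK : ContDiffOn ℝ (⊤ : ℕ∞) (fun p => koszulK (fderiv ℝ g p)) M := by
    unfold koszulK
    have hflip : ContDiffOn ℝ (⊤ : ℕ∞) (fun p => (fderiv ℝ g p).flip) M :=
      (ContinuousLinearMap.flipₗᵢ ℝ E E (E →L[ℝ] ℝ)).contDiff.comp_contDiffOn hD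
    exact ((hD.add hflip).sub (contDiffOn_const.clm_comp hflip)).const_smul _
  let Γ : E → E →L[ℝ] E →L[ℝ] E := fun p =>
    (ContinuousLinearMap.compL ℝ E (E →L[ℝ] ℝ) E (inv p)).comp (koszulK (fderiv ℝ g p))
  refine ⟨Γ, ?_, ?_⟩
  · exact ((ContinuousLinearMap.compL ℝ E (E →L[ℝ] ℝ) E).contDiff.comp_contDiffOn hinv).clm_comp hK
  · intro p hp X Y Z
    obtain ⟨e, he⟩ := exists_equiv_of_pos (g p) (hg.pos p hp)
    have h1 : Γ p X Y = inv p (koszulK (fderiv ℝ g p) X Y) := rfl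
    have h2 : g p (inv p (koszulK (fderiv ℝ g p) X Y)) = koszulK (fderiv ℝ g p) X Y := by
      show g p (ContinuousLinearMap.inverse (g p) _) = _
      rw [← he, ContinuousLinearMap.inverse_equiv]
      simp only [ContinuousLinearEquiv.coe_coe, ContinuousLinearEquiv.apply_symm_apply]
    rw [h1, h2, koszulK_apply]

end T10

end Vale.Agent.P250
end
end
end

section

section

section

/-! GEN-2 : the metric and the exhaustion function of a general disc bundle. -/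

set_option maxSynthPendingDepth 3

namespace Vale.Agent.P250.G
open Set Filter Topology Vale.Agent.P250 Vale.Agent.P250.Jet2

section

variable {E : Type*} [NormedAddCommGroup E] [NormedSpace ℂ E]

namespace GM

open Vale.Agent.P250.MetricM (deriv_u deriv2_u contDiffAt_u deriv_exp2 deriv2_exp2 contDiff_exp2)

/-- projection to the base -/
noncomputable def pr : (E × ℂ) →L[ℂ] E := ContinuousLinearMap.fst ℂ E ℂ

/-- real part of the fibre coordinate -/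
noncomputable def vr : (E × ℂ) →L[ℝ] ℝ :=
  Complex.reCLM.comp (ContinuousLinearMap.snd ℝ E ℂ)

/-- imaginary part of the fibre coordinate -/
noncomputable def vi : (E × ℂ) →L[ℝ] ℝ :=
  Complex.imCLM.comp (ContinuousLinearMap.snd ℝ E ℂ)

theorem vr_apply (p : E × ℂ) : vr p = p.2.re := rfl
theorem vi_apply (p : E × ℂ) : vi p = p.2.im := rfl

/-- `|v|²` -/
noncomputable def nv (p : E × ℂ) : ℝ := vr p * vr p + vi p * vi p

theorem nv_eq (p : E × ℂ) : nv p = ‖p.2‖ ^ 2 := by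
  rw [← Complex.normSq_eq_norm_sq, Complex.normSq_apply]; rfl

theorem contDiff_nv {n : WithTop ℕ∞} : ContDiff ℝ n (nv (E := E)) :=
  ((vr (E := E)).contDiff.mul (vr (E := E)).contDiff).add ((vi (E := E)).contDiff.mul (vi (E := E)).contDiff)

theorem fderiv_nv (p X : E × ℂ) :
    fderiv ℝ nv p X = 2 * (p.2.re * X.2.re + p.2.im * X.2.im) := by
  have h : HasFDerivAt nv ((vr p • vr + vr p • vr) + (vi p • vi + vi p • vi)) p :=
    ((vr (E := E)).hasFDerivAt.mul (vr (E := E)).hasFDerivAt).add ((vi (E := E)).hasFDerivAt.mul (vi (E := E)).hasFDerivAt)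
  rw [h.fderiv]
  show (vr p * vr X + vr p * vr X) + (vi p * vi X + vi p * vi X) = _
  rw [vr_apply, vi_apply, vr_apply, vi_apply]
  ring

theorem gP_nv (p X : E × ℂ) : gP nv p X X = X.2.re ^ 2 + X.2.im ^ 2 := by
  have h : nv = fun p : E × ℂ => vr p * vr p + vi p * vi p := rfl
  rw [h, Jet2.gP_add ((vr (E := E)).contDiff.mul (vr (E := E)).contDiff).contDiffAt ((vi (E := E)).contDiff.mul (vi (E := E)).contDiff).contDiffAt,
    gP_mul (vr (E := E)).contDiff.contDiffAt (vr (E := E)).contDiff.contDiffAt,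
    gP_mul (vi (E := E)).contDiff.contDiffAt (vi (E := E)).contDiff.contDiffAt, gP_clm, gP_clm, d1_clm, d1_clm, d1_clm,
    d1_clm]
  simp only [vr_apply, vi_apply, Prod.smul_snd, smul_eq_mul, Complex.I_mul_im, Complex.I_mul_re]
  ring

/-- `x = |v|² e^{2χ}` -/
noncomputable def xf (χ : E → ℝ) (p : E × ℂ) : ℝ := nv p * Real.exp (2 * χ (pr p))

theorem xf_eq (χ : E → ℝ) (p : E × ℂ) :
    xf χ p = ‖p.2‖ ^ 2 * Real.exp (2 * χ p.1) := by
  rw [xf, nv_eq]; rfl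

section
variable {χ : E → ℝ} {p : E × ℂ}

theorem contDiffAt_base (hχ : ContDiffAt ℝ 2 χ (pr p)) :
    ContDiffAt ℝ 2 (fun p => χ (pr p)) p :=
  hχ.comp p ((pr (E := E)).restrictScalars ℝ).contDiff.contDiffAt

theorem fderiv_base (hχ : ContDiffAt ℝ 2 χ (pr p)) (X : E × ℂ) :
    fderiv ℝ (fun p => χ (pr p)) p X = fderiv ℝ χ (pr p) (pr X) :=
  d1_comp_clm ((pr (E := E)).restrictScalars ℝ) (hχ.differentiableAt (by norm_num)) X

/-- the exponential factor -/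
noncomputable def ef (χ : E → ℝ) (p : E × ℂ) : ℝ := Real.exp (2 * χ (pr p))

theorem contDiffAt_ef (hχ : ContDiffAt ℝ 2 χ (pr p)) : ContDiffAt ℝ 2 (ef χ) p :=
  ContDiffAt.comp (g := fun t : ℝ => Real.exp (2 * t)) p contDiff_exp2.contDiffAt
    (contDiffAt_base hχ)

theorem fderiv_ef (hχ : ContDiffAt ℝ 2 χ (pr p)) (X : E × ℂ) :
    fderiv ℝ (ef χ) p X = 2 * ef χ p * fderiv ℝ χ (pr p) (pr X) := by
  have h := d1_comp (u := fun t : ℝ => Real.exp (2 * t))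
    ((contDiffAt_base hχ).differentiableAt (by norm_num))
    (contDiff_exp2.contDiffAt.differentiableAt (n := 1) (by norm_num)) X
  have h2 : fderiv ℝ (ef χ) p X = _ := h
  rw [h2, deriv_exp2, fderiv_base hχ]
  rfl

theorem gP_ef (hχ : ContDiffAt ℝ 2 χ (pr p)) (X : E × ℂ) :
    gP (ef χ) p X X = 2 * ef χ p * gP χ (pr p) (pr X) (pr X)
      + ef χ p * (fderiv ℝ χ (pr p) (pr X) ^ 2
        + fderiv ℝ χ (pr p) (pr (Complex.I • X)) ^ 2) := by
  have h := gP_comp_real (u := fun t : ℝ => Real.exp (2 * t)) (contDiffAt_base hχ)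
    contDiff_exp2.contDiffAt X
  have h2 : gP (ef χ) p X X = _ := h
  rw [h2, deriv2_exp2, deriv_exp2, fderiv_base hχ, fderiv_base hχ, gP_comp_clm (pr (E := E)) hχ]
  show 2 * ef χ p * _ + 4 * ef χ p / 4 * _ = _
  ring

theorem contDiffAt_xf (hχ : ContDiffAt ℝ 2 χ (pr p)) : ContDiffAt ℝ 2 (xf χ) p :=
  contDiff_nv.contDiffAt.mul (contDiffAt_ef hχ)

theorem fderiv_xf (hχ : ContDiffAt ℝ 2 χ (pr p)) (X : E × ℂ) :
    fderiv ℝ (xf χ) p X = 2 * ef χ p * (p.2.re * X.2.re + p.2.im * X.2.im)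
      + 2 * xf χ p * fderiv ℝ χ (pr p) (pr X) := by
  have h : fderiv ℝ (xf χ) p = nv p • fderiv ℝ (ef χ) p + ef χ p • fderiv ℝ nv p :=
    fderiv_fun_mul (contDiff_nv (n := 1).contDiffAt.differentiableAt (by norm_num))
      ((contDiffAt_ef hχ).differentiableAt (by norm_num))
  rw [h]
  show nv p * fderiv ℝ (ef χ) p X + ef χ p * fderiv ℝ nv p X = _
  rw [fderiv_ef hχ, fderiv_nv]
  show _ = 2 * ef χ p * _ + 2 * (nv p * ef χ p) * _
  ring

/-- the vertical component -/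
noncomputable def beta (χ : E → ℝ) (p X : E × ℂ) : ℂ :=
  X.2 + p.2 * ((fderiv ℝ χ p.1 X.1 : ℝ)
    - Complex.I * (fderiv ℝ χ p.1 (Complex.I • X.1) : ℝ))

theorem beta_re (χ : E → ℝ) (p X : E × ℂ) : (beta χ p X).re =
    X.2.re + p.2.re * fderiv ℝ χ (pr p) (pr X)
      + p.2.im * fderiv ℝ χ (pr p) (pr (Complex.I • X)) := by
  have e : fderiv ℝ χ p.1 (Complex.I • X.1) =
    fderiv ℝ χ (pr p) (pr (Complex.I • X)) := rfl
  have e' : fderiv ℝ χ p.1 X.1 = fderiv ℝ χ (pr p) (pr X) := rfl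
  rw [beta, e, e']
  simp only [map_smul, Complex.add_re, Complex.mul_re, Complex.sub_re, Complex.ofReal_re, Complex.I_re, zero_mul, Complex.I_im, Complex.ofReal_im, mul_zero, sub_self, sub_zero, Complex.sub_im, Complex.mul_im, one_mul, zero_add, zero_sub, mul_neg, sub_neg_eq_add]
  ring

theorem beta_im (χ : E → ℝ) (p X : E × ℂ) : (beta χ p X).im =
    X.2.im + p.2.im * fderiv ℝ χ (pr p) (pr X)
      - p.2.re * fderiv ℝ χ (pr p) (pr (Complex.I • X)) := by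
  have e : fderiv ℝ χ p.1 (Complex.I • X.1) =
    fderiv ℝ χ (pr p) (pr (Complex.I • X)) := rfl
  have e' : fderiv ℝ χ p.1 X.1 = fderiv ℝ χ (pr p) (pr X) := rfl
  rw [beta, e, e']
  simp only [map_smul, Complex.add_im, Complex.mul_im, Complex.sub_im, Complex.ofReal_im, Complex.I_re, mul_zero, Complex.I_im, Complex.ofReal_re, one_mul, zero_add, zero_sub, mul_neg, Complex.sub_re, Complex.mul_re, zero_mul, sub_self, sub_zero]
  ring

theorem norm_beta (χ : E → ℝ) (p X : E × ℂ) :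
    ‖beta χ p X‖ ^ 2 = (beta χ p X).re ^ 2 + (beta χ p X).im ^ 2 := by
  rw [← Complex.normSq_eq_norm_sq, Complex.normSq_apply]
  ring

theorem nv_eq' (p : E × ℂ) : nv p = p.2.re ^ 2 + p.2.im ^ 2 := by
  show vr p * vr p + vi p * vi p = _
  rw [vr_apply, vi_apply]; ring

theorem gP_xf (hχ : ContDiffAt ℝ 2 χ (pr p)) (X : E × ℂ) :
    gP (xf χ) p X X = ef χ p * ‖beta χ p X‖ ^ 2
      + 2 * xf χ p * gP χ (pr p) (pr X) (pr X) := by
  have h := gP_mul (E := E × ℂ) (f := nv) (g := ef χ) (p := p) contDiff_nv.contDiffAt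
    (contDiffAt_ef hχ) X
  have h2 : gP (xf χ) p X X = _ := h
  rw [h2, gP_ef hχ, gP_nv, fderiv_nv, fderiv_nv, fderiv_ef hχ, fderiv_ef hχ, norm_beta, beta_re,
    beta_im]
  have e : xf χ p = nv p * ef χ p := rfl
  rw [e, nv_eq']
  simp only [Prod.smul_snd, smul_eq_mul, Complex.I_mul_im, Complex.I_mul_re]
  ring

theorem xf_grad (hχ : ContDiffAt ℝ 2 χ (pr p)) (X : E × ℂ) :
    fderiv ℝ (xf χ) p X ^ 2 + fderiv ℝ (xf χ) p (Complex.I • X) ^ 2 =
      4 * xf χ p * (ef χ p * ‖beta χ p X‖ ^ 2) := by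
  rw [fderiv_xf hχ, fderiv_xf hχ, norm_beta, beta_re, beta_im]
  have e : xf χ p = nv p * ef χ p := rfl
  rw [e, nv_eq']
  simp only [Prod.smul_snd, smul_eq_mul, Complex.I_mul_im, Complex.I_mul_re]
  ring

end

theorem xf_lt {Ω : Set E} {χ : E → ℝ} {p : E × ℂ} (hp : p ∈ MMg Ω χ) : xf χ p < 1 := by
  rw [xf_eq]; exact hp.2

theorem xf_nonneg (χ : E → ℝ) (p : E × ℂ) : 0 ≤ xf χ p := by
  rw [xf_eq]; (clear * -; positivity)

theorem one_sub_xf {Ω : Set E} {χ : E → ℝ} {p : E × ℂ} (hp : p ∈ MMg Ω χ) :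
    0 < 1 - xf χ p := by
  have := xf_lt hp
  linarith

theorem PPg_eq (Φ : E → ℝ) (δ : ℝ) (χ : E → ℝ) :
    PPg Φ δ χ = fun p => Φ (pr p) + δ * (fun t => -Real.log (1 - t)) (xf χ p) := by
  funext p
  rw [PPg, xf_eq]
  show _ = Φ p.1 + δ * -Real.log _
  ring

theorem contDiffAt_chi {Ω : Set E} (hΩ : IsOpen Ω) {χ : E → ℝ}
    (hχ : ContDiffOn ℝ (⊤ : ℕ∞) χ Ω) {q : E} (hq : q ∈ Ω) : ContDiffAt ℝ 2 χ q :=
  (hχ.contDiffAt (hΩ.mem_nhds hq)).of_le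
    (WithTop.coe_le_coe.mpr (le_top : (2 : ℕ∞) ≤ ⊤))

end GM

open GM
open Vale.Agent.P250.MetricM (deriv_u deriv2_u contDiffAt_u deriv_exp2 deriv2_exp2 contDiff_exp2)

theorem PPg_contDiffOn (Ω : Set E) (hΩ : IsOpen Ω) (Φ : E → ℝ)
    (hΦ : ContDiffOn ℝ (⊤ : ℕ∞) Φ Ω) (δ : ℝ) (χ : E → ℝ)
    (hχ : ContDiffOn ℝ (⊤ : ℕ∞) χ Ω) : ContDiffOn ℝ (⊤ : ℕ∞) (PPg Φ δ χ) (MMg Ω χ) := by
  intro p hp
  rw [PPg_eq]
  apply ContDiffAt.contDiffWithinAt
  have hq : pr p ∈ Ω := hp.1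
  have h1 : ContDiffAt ℝ (⊤ : ℕ∞) (fun p => Φ (pr p)) p :=
    (hΦ.contDiffAt (hΩ.mem_nhds hq)).comp p ((pr (E := E)).restrictScalars ℝ).contDiff.contDiffAt
  have hχ' : ContDiffAt ℝ (⊤ : ℕ∞) χ (pr p) := hχ.contDiffAt (hΩ.mem_nhds hq)
  have h2 : ContDiffAt ℝ (⊤ : ℕ∞) (fun p => χ (pr p)) p :=
    hχ'.comp p ((pr (E := E)).restrictScalars ℝ).contDiff.contDiffAt
  have h3 : ContDiffAt ℝ (⊤ : ℕ∞) (xf χ) p :=
    contDiff_nv.contDiffAt.mul
      (ContDiffAt.comp (g := fun t : ℝ => Real.exp (2 * t)) p contDiff_exp2.contDiffAt h2)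
  exact h1.add (contDiffAt_const.mul ((contDiffAt_u (one_sub_xf hp).ne').comp p h3))

namespace GM

theorem key (Ω : Set E) (hΩ : IsOpen Ω) (Φ : E → ℝ) (hΦ : ContDiffOn ℝ (⊤ : ℕ∞) Φ Ω)
    (δ : ℝ) (χ : E → ℝ) (hχ : ContDiffOn ℝ (⊤ : ℕ∞) χ Ω)
    (p : E × ℂ) (hp : p ∈ MMg Ω χ) (X : E × ℂ) :
    gP (PPg Φ δ χ) p X X = gP Φ (pr p) (pr X) (pr X)
      + δ * (2 * xf χ p / (1 - xf χ p) * gP χ (pr p) (pr X) (pr X)
        + ef χ p * ‖beta χ p X‖ ^ 2 / (1 - xf χ p) ^ 2) := by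
  have hq : pr p ∈ Ω := hp.1
  have hχ' := contDiffAt_chi hΩ hχ hq
  have hΦ' := contDiffAt_chi hΩ hΦ hq
  have hx := contDiffAt_xf hχ'
  have h4 : 1 - xf χ p ≠ 0 := (one_sub_xf hp).ne'
  have h5 : ContDiffAt ℝ 2 (fun p => (fun t => -Real.log (1 - t)) (xf χ p)) p :=
    (contDiffAt_u h4).comp p hx
  have h1 : ContDiffAt ℝ 2 (fun p => Φ (pr p)) p := contDiffAt_base hΦ'
  rw [PPg_eq, Jet2.gP_add h1 (contDiffAt_const.mul h5), Jet2.gP_const_mul h5, gP_comp_clm (pr (E := E)) hΦ',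
    gP_comp_real hx (contDiffAt_u h4), deriv_u, deriv2_u _ h4, gP_xf hχ', xf_grad hχ']
  congr 2
  field_simp
  ring

end GM

theorem gP_PPg (Ω : Set E) (hΩ : IsOpen Ω) (Φ : E → ℝ) (hΦ : ContDiffOn ℝ (⊤ : ℕ∞) Φ Ω)
    (δ : ℝ) (χ : E → ℝ) (hχ : ContDiffOn ℝ (⊤ : ℕ∞) χ Ω)
    (p : E × ℂ) (hp : p ∈ MMg Ω χ) (X : E × ℂ) :
    gP (PPg Φ δ χ) p X X = gP Φ p.1 X.1 X.1
      + δ * (2 * (‖p.2‖ ^ 2 * Real.exp (2 * χ p.1)) / (1 - ‖p.2‖ ^ 2 * Real.exp (2 * χ p.1))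
            * gP χ p.1 X.1 X.1
        + Real.exp (2 * χ p.1) *
          ‖X.2 + p.2 * ((fderiv ℝ χ p.1 X.1 : ℝ)
            - Complex.I * (fderiv ℝ χ p.1 (Complex.I • X.1) : ℝ))‖ ^ 2
          / (1 - ‖p.2‖ ^ 2 * Real.exp (2 * χ p.1)) ^ 2) := by
  rw [GM.key Ω hΩ Φ hΦ δ χ hχ p hp X, xf_eq]
  rfl

/-- the Levi forms of `Φ` and `χ` on the base are positive / nonnegative -/
theorem gP_pos_of_uniformJetsG {V : Type*} [NormedAddCommGroup V] [InnerProductSpace ℂ V]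
    (Ω : Set E) (hΩ : IsOpen Ω) (Φ : E → ℝ)
    (hΦ : ContDiffOn ℝ (⊤ : ℕ∞) Φ Ω) (ε0 C0 C3 C4 : ℝ) (h0 : 0 < ε0) (χ : E → ℝ)
    (hχ : ContDiffOn ℝ (⊤ : ℕ∞) χ Ω) (hU : UniformJetsG V Ω Φ ε0 C0 C3 C4 χ) (q : E)
    (hq : q ∈ Ω) (X : E) : 0 ≤ gP χ q X X ∧ (X ≠ 0 → 0 < gP Φ q X X) := by
  obtain ⟨B, h, H, hB, hh, hH, hB0, hh0, ⟨e, he⟩, hlog, hN⟩ := hU q hq
  set Y := e.symm X with hY
  have hBr : ContDiffAt ℝ (⊤ : ℕ∞) B 0 := hB.restrict_scalars ℝ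
  have hhr : ContDiffAt ℝ (⊤ : ℕ∞) h 0 := hh.restrict_scalars ℝ
  have hHr : ContDiffAt ℝ (⊤ : ℕ∞) H 0 := hH.restrict_scalars ℝ
  have hfd : fderiv ℝ B 0 Y = X := by
    have h1 : HasFDerivAt B (fderiv ℂ B 0) 0 :=
      (hB.differentiableAt (by simp)).hasFDerivAt
    have h2 : fderiv ℝ B 0 = (fderiv ℂ B 0).restrictScalars ℝ := (h1.restrictScalars ℝ).fderiv
    rw [h2]
    show fderiv ℂ B 0 Y = X
    rw [← he]
    exact e.apply_symm_apply X
  constructor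
  · have hχq : ContDiffAt ℝ (⊤ : ℕ∞) χ (B 0) := by
      rw [hB0]; exact hχ.contDiffAt (hΩ.mem_nhds hq)
    have e1 : gP (fun ζ => χ (B ζ)) 0 Y Y = gP χ q X X := by
      rw [gP_comp χ B 0 hB hχq Y Y, hB0, hfd]
    have e2 : gP (fun ζ => (h ζ).re) 0 Y Y = 0 := by
      rw [gP_re h 0 hh]; rfl
    have c1 : ContDiffAt ℝ 2 (fun ζ => χ (B ζ)) 0 := (hχq.comp 0 hBr).of_le two_le_smooth
    have c2 : ContDiffAt ℝ 2 (fun ζ => (h ζ).re) 0 :=
      (Complex.reCLM.contDiff.contDiffAt.comp 0 hhr).of_le two_le_smooth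
    have e3 : gP (fun ζ => χ (B ζ) - (h ζ).re) 0 Y Y = gP χ q X X := by
      have : (fun ζ => χ (B ζ) - (h ζ).re) = fun ζ => χ (B ζ) + (-1) * (h ζ).re := by
        funext ζ; ring
      rw [this, Jet2.gP_add c1 (contDiffAt_const.mul c2), Jet2.gP_const_mul c2, e1, e2]
      ring
    rw [← e3, gP_apply, hN.pure2 Y Y]
    have h5 := hN.lower Y
    have h6 : 0 ≤ ε0 * ‖Y‖ ^ 2 := by (clear * - h0; positivity)
    linarith only [h5, h6]
  · intro hX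
    have hΦq : ContDiffAt ℝ (⊤ : ℕ∞) Φ (B 0) := by
      rw [hB0]; exact hΦ.contDiffAt (hΩ.mem_nhds hq)
    have hYne : Y ≠ 0 := by
      intro hY0
      apply hX
      have := e.apply_symm_apply X
      rw [← hY, hY0, map_zero] at this
      exact this.symm
    have e1 : gP (fun ζ => Φ (B ζ)) 0 Y Y = gP Φ q X X := by
      rw [gP_comp Φ B 0 hB hΦq Y Y, hB0, hfd]
    have e2 : gP (fun ζ => (H ζ).re) 0 Y Y = 0 := by
      rw [gP_re H 0 hH]; rfl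
    have c1 : ContDiffAt ℝ 2 (fun ζ : V => -Real.log (1 - ‖ζ‖ ^ 2)) 0 :=
      (PJ.contDiffAt_neglog (V := V)).of_le two_le_smooth
    have c2 : ContDiffAt ℝ 2 (fun ζ => (H ζ).re) 0 :=
      (Complex.reCLM.contDiff.contDiffAt.comp 0 hHr).of_le two_le_smooth
    have e3 : gP (fun ζ => Φ (B ζ)) 0 = gP (fun ζ : V => -Real.log (1 - ‖ζ‖ ^ 2) + (H ζ).re) 0 :=
      Jet2.gP_congr hlog
    rw [← e1, e3, Jet2.gP_add c1 c2, e2, PJ.gP_neglog]
    have : 0 < ‖Y‖ := norm_pos_iff.mpr hYne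
    (clear * - hYne; positivity)

/-- the exhaustion of the disc bundle -/
noncomputable def exhg (f χ : E → ℝ) (p : E × ℂ) : ℝ :=
  f p.1 - Real.log (1 - ‖p.2‖ ^ 2 * Real.exp (2 * χ p.1))

namespace GM

theorem exhg_eq (f χ : E → ℝ) :
    exhg f χ = fun p => f (pr p) + (fun t => -Real.log (1 - t)) (xf χ p) := by
  funext p
  rw [exhg, xf_eq]
  show _ = f p.1 + -Real.log _
  ring

theorem continuousOn_xf {Ω : Set E} {χ : E → ℝ} (hχ : ContinuousOn χ Ω) :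
    ContinuousOn (xf χ) (pr ⁻¹' Ω) := by
  have h1 : ContinuousOn (fun p => χ (pr p)) (pr ⁻¹' Ω) :=
    hχ.comp (pr (E := E)).continuous.continuousOn (fun p hp => hp)
  exact (contDiff_nv (n := 0)).continuous.continuousOn.mul
    (Real.continuous_exp.comp_continuousOn (continuousOn_const.mul h1))

end GM

theorem exhg_contDiffOn (Ω : Set E) (hΩ : IsOpen Ω) (f : E → ℝ) (hf : ContDiffOn ℝ 1 f Ω)
    (χ : E → ℝ) (hχ : ContDiffOn ℝ (⊤ : ℕ∞) χ Ω) :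
    ContDiffOn ℝ 1 (exhg f χ) (MMg Ω χ) := by
  intro p hp
  rw [exhg_eq]
  apply ContDiffAt.contDiffWithinAt
  have hq : pr p ∈ Ω := hp.1
  have h1 : ContDiffAt ℝ 1 (fun p => f (pr p)) p :=
    (hf.contDiffAt (hΩ.mem_nhds hq)).comp p ((pr (E := E)).restrictScalars ℝ).contDiff.contDiffAt
  have h3 : ContDiffAt ℝ 1 (xf χ) p :=
    (contDiffAt_xf (contDiffAt_chi hΩ hχ hq)).of_le (by norm_num)
  exact h1.add ((contDiffAt_u (one_sub_xf hp).ne').comp p h3)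

theorem exhg_gradient (Ω : Set E) (hΩ : IsOpen Ω) (Φ : E → ℝ)
    (hΦ : ContDiffOn ℝ (⊤ : ℕ∞) Φ Ω) (f : E → ℝ) (C : ℝ)
    (hf : GoodExhaustion Ω Φ f C) (δ : ℝ) (hδ : 0 < δ) (χ : E → ℝ)
    (hχ : ContDiffOn ℝ (⊤ : ℕ∞) χ Ω) (hΦpos : ∀ q ∈ Ω, ∀ X, 0 ≤ gP Φ q X X)
    (hpos : ∀ q ∈ Ω, ∀ X, 0 ≤ gP χ q X X) :
    ∃ C' : ℝ, ∀ p ∈ MMg Ω χ, ∀ X,
      (fderiv ℝ (exhg f χ) p X) ^ 2 ≤ C' * gP (PPg Φ δ χ) p X X := by
  refine ⟨2 * |C| + 8 / δ, fun p hp X => ?_⟩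
  have hq : pr p ∈ Ω := hp.1
  have hχ' := contDiffAt_chi hΩ hχ hq
  have hx := contDiffAt_xf hχ'
  have h4 := one_sub_xf hp
  have hx0 := xf_nonneg χ p
  have hfq : ContDiffAt ℝ 1 f (pr p) := hf.smooth.contDiffAt (hΩ.mem_nhds hq)
  have e1 : fderiv ℝ (exhg f χ) p X = fderiv ℝ f (pr p) (pr X)
      + (1 - xf χ p)⁻¹ * fderiv ℝ (xf χ) p X := by
    rw [exhg_eq]
    have d1 : DifferentiableAt ℝ (fun p => f (pr p)) p :=
      (hfq.comp p ((pr (E := E)).restrictScalars ℝ).contDiff.contDiffAt).differentiableAt (by norm_num)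
    have d2 : DifferentiableAt ℝ (xf χ) p := hx.differentiableAt (by norm_num)
    have d3 : DifferentiableAt ℝ (fun t : ℝ => -Real.log (1 - t)) (xf χ p) :=
      (contDiffAt_u (n := 1) h4.ne').differentiableAt (by norm_num)
    have d4 : DifferentiableAt ℝ (fun p => (fun t : ℝ => -Real.log (1 - t)) (xf χ p)) p :=
      d3.comp p d2
    rw [fderiv_fun_add d1 d4]
    have a1 := Jet2.d1_comp_clm (f := f) ((pr (E := E)).restrictScalars ℝ) (p := p)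
      (hfq.differentiableAt (by norm_num)) X
    have a2 := Jet2.d1_comp d2 d3 X
    rw [deriv_u] at a2
    show fderiv ℝ (fun p => f (pr p)) p X
      + fderiv ℝ (fun p => (fun t : ℝ => -Real.log (1 - t)) (xf χ p)) p X = _
    rw [a2]
    congr 1
  have hA0 := hf.grad (pr p) hq (pr X)
  have hG0 : 0 ≤ gP Φ (pr p) (pr X) (pr X) := hΦpos _ hq _
  have hA : (fderiv ℝ f (pr p) (pr X)) ^ 2 ≤ |C| * gP Φ (pr p) (pr X) (pr X) :=
    hA0.trans (mul_le_mul_of_nonneg_right (le_abs_self C) hG0)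
  have hB : ((1 - xf χ p)⁻¹ * fderiv ℝ (xf χ) p X) ^ 2 ≤
      4 * (ef χ p * ‖beta χ p X‖ ^ 2 / (1 - xf χ p) ^ 2) := by
    have h5 := xf_grad hχ' X
    have h6 : fderiv ℝ (xf χ) p X ^ 2 ≤ 4 * (ef χ p * ‖beta χ p X‖ ^ 2) := by
      have h7 : 0 ≤ ef χ p * ‖beta χ p X‖ ^ 2 :=
        mul_nonneg (Real.exp_nonneg _) (by (clear * -; positivity))
      have h8 := sq_nonneg (fderiv ℝ (xf χ) p (Complex.I • X))
      have h9 : xf χ p ≤ 1 := by linarith only [h4]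
      nlinarith only [h5, h4, h7]
    rw [mul_pow, inv_pow, ← div_eq_inv_mul, mul_div_assoc',
      div_le_div_iff_of_pos_right (by (clear * - h4; positivity))]
    exact h6
  have hF0 : 0 ≤ ef χ p * ‖beta χ p X‖ ^ 2 / (1 - xf χ p) ^ 2 := by
    have h7 : 0 ≤ ef χ p * ‖beta χ p X‖ ^ 2 :=
      mul_nonneg (Real.exp_nonneg _) (by (clear * -; positivity))
    (clear * - h7 h4; positivity)
  have hK0 : 0 ≤ 2 * xf χ p / (1 - xf χ p) * gP χ (pr p) (pr X) (pr X) :=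
    mul_nonneg (by (clear * - hx0 h4; positivity)) (hpos _ hq _)
  rw [e1, GM.key Ω hΩ Φ hΦ δ χ hχ p hp X]
  set A := fderiv ℝ f (pr p) (pr X)
  set B := (1 - xf χ p)⁻¹ * fderiv ℝ (xf χ) p X
  set G := gP Φ (pr p) (pr X) (pr X)
  set F := ef χ p * ‖beta χ p X‖ ^ 2 / (1 - xf χ p) ^ 2
  set K := 2 * xf χ p / (1 - xf χ p) * gP χ (pr p) (pr X) (pr X)
  have h1 : (A + B) ^ 2 ≤ 2 * |C| * G + 8 * F := by linarith only [hA, hB, sq_nonneg (A - B)]
  have h2 : 2 * |C| * G + 8 * F ≤ (2 * |C| + 8 / δ) * (G + δ * (K + F)) := by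
    have e : (2 * |C| + 8 / δ) * (G + δ * (K + F)) =
        2 * |C| * G + 8 * F + (2 * |C| * δ * K + 2 * |C| * δ * F + 8 / δ * G + 8 * K) := by
      field_simp
      ring
    rw [e]
    have : 0 ≤ 2 * |C| * δ * K + 2 * |C| * δ * F + 8 / δ * G + 8 * K := by
      have := abs_nonneg C
      (clear * - hδ hK0 hF0 hG0; positivity)
    linarith
  exact h1.trans h2

theorem exhg_proper (Ω : Set E) (hΩ : IsOpen Ω) (Φ f : E → ℝ) (C : ℝ)
    (hf : GoodExhaustion Ω Φ f C) (χ : E → ℝ) (hχ : ContinuousOn χ Ω) (R : ℝ) :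
    IsCompact {p | p ∈ MMg Ω χ ∧ exhg f χ p ≤ R} := by
  have _ := hΩ
  obtain ⟨m, hm⟩ := hf.bddBelow
  set K : Set E := {q | q ∈ Ω ∧ f q ≤ R} with hK
  have hKc : IsCompact K := hf.proper R
  have hKΩ : K ⊆ Ω := fun q hq => hq.1
  obtain ⟨c, hc⟩ : ∃ c : ℝ, ∀ q ∈ K, c ≤ χ q := by
    obtain ⟨c, hc⟩ := (hKc.image_of_continuousOn (hχ.mono hKΩ)).bddBelow
    exact ⟨c, fun q hq => hc ⟨q, hq, rfl⟩⟩
  set r : ℝ := 1 + Real.exp (-(2 * c)) with hr
  -- a compact set containing ours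
  have hbig : IsCompact (K ×ˢ Metric.closedBall (0 : ℂ) r) :=
    hKc.prod (isCompact_closedBall 0 r)
  set F : E × ℂ → ℝ := fun p => xf χ p + Real.exp (f (pr p) - R) with hF
  have hset : {p | p ∈ MMg Ω χ ∧ exhg f χ p ≤ R} =
      (K ×ˢ Metric.closedBall (0 : ℂ) r) ∩ F ⁻¹' (Iic 1) := by
    ext p
    constructor
    · rintro ⟨hp, hR⟩
      have hq : pr p ∈ Ω := hp.1
      have h1 := one_sub_xf hp
      have hx0 := xf_nonneg χ p
      have e : exhg f χ p = f (pr p) - Real.log (1 - xf χ p) := by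
        rw [exhg_eq]; show f (pr p) + -Real.log _ = _; ring
      rw [e] at hR
      have hlog : Real.log (1 - xf χ p) ≤ 0 := Real.log_nonpos h1.le (by linarith only [hx0])
      have hfR : f (pr p) ≤ R := by linarith only [hR, hlog]
      have hpK : p.1 ∈ K := ⟨hq, hfR⟩
      have hF1 : F p ≤ 1 := by
        have h3 : f (pr p) - R ≤ Real.log (1 - xf χ p) := by linarith only [hR]
        have h4 := Real.exp_le_exp.mpr h3
        rw [Real.exp_log h1] at h4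
        simp only [hF]
        linarith only [h4]
      refine ⟨⟨hpK, ?_⟩, hF1⟩
      rw [mem_closedBall_zero_iff]
      have hx1 := xf_lt hp
      rw [xf_eq] at hx1
      have h3 : Real.exp (2 * c) ≤ Real.exp (2 * χ p.1) := by
        apply Real.exp_le_exp.mpr
        have := hc _ hpK
        linarith only [this]
      have h4 : ‖p.2‖ ^ 2 * Real.exp (2 * c) ≤ 1 :=
        (mul_le_mul_of_nonneg_left h3 (by (clear * -; positivity))).trans hx1.le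
      have h5 : ‖p.2‖ ^ 2 ≤ Real.exp (-(2 * c)) := by
        rw [Real.exp_neg, ← one_div, le_div_iff₀ (Real.exp_pos _)]
        exact h4
      rw [hr]
      linarith only [h5, sq_nonneg (‖p.2‖ - 1), norm_nonneg p.2]
    · rintro ⟨⟨hpK, _⟩, hF1⟩
      have hq : pr p ∈ Ω := hKΩ hpK
      have hF1' : xf χ p + Real.exp (f (pr p) - R) ≤ 1 := hF1
      have hpos : 0 < Real.exp (f (pr p) - R) := Real.exp_pos _
      have hx1 : xf χ p < 1 := by linarith only [hF1', hpos]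
      have hp' : p ∈ MMg Ω χ := by
        refine ⟨hq, ?_⟩
        rw [← xf_eq]; exact hx1
      refine ⟨hp', ?_⟩
      have h1 := one_sub_xf hp'
      have e : exhg f χ p = f (pr p) - Real.log (1 - xf χ p) := by
        rw [exhg_eq]; show f (pr p) + -Real.log _ = _; ring
      rw [e]
      have h3 : f (pr p) - R ≤ Real.log (1 - xf χ p) := by
        rw [Real.le_log_iff_exp_le h1]
        linarith only [hF1']
      linarith only [h3]
  rw [hset]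
  have hFc : ContinuousOn F (K ×ˢ Metric.closedBall (0 : ℂ) r) := by
    have hsub : K ×ˢ Metric.closedBall (0 : ℂ) r ⊆ pr ⁻¹' Ω := fun p hp => hKΩ hp.1
    apply ContinuousOn.add ((continuousOn_xf hχ).mono hsub)
    apply Real.continuous_exp.comp_continuousOn
    apply ContinuousOn.sub _ continuousOn_const
    exact (hf.smooth.continuousOn.comp (pr (E := E)).continuous.continuousOn (fun p hp => hp)).mono hsub
  exact hbig.of_isClosed_subset
    (hFc.preimage_isClosed_of_isClosed hbig.isClosed isClosed_Iic) inter_subset_left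

end

end Vale.Agent.P250.G
end
end
end

section

section

section

/-!
The curvature of the disc bundle over a general base is pinched.
-/

set_option maxSynthPendingDepth 3

namespace Vale.Agent.P250.G

open Set Filter Topology Vale.Agent.P250

variable {E : Type*} [NormedAddCommGroup E] [NormedSpace ℂ E]
variable {V : Type*} [NormedAddCommGroup V] [InnerProductSpace ℂ V]

namespace GP

section Chart

variable (B : V → E) (h : V → ℂ)

/-- The chart of the disc bundle. -/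
noncomputable def Fg (q : V × ℂ) : E × ℂ := (B q.1, Complex.exp (q.2 - h q.1))

variable {B h}

lemma Fg_contDiffAt {n : WithTop ℕ∞} (hB : ContDiffAt ℂ n B 0) (hh : ContDiffAt ℂ n h 0) (ξ0 : ℂ) :
    ContDiffAt ℂ n (Fg B h) ((0 : V), ξ0) := by
  have h1 : ContDiffAt ℂ n (fun q : V × ℂ => B q.1) ((0 : V), ξ0) :=
    ContDiffAt.comp ((0 : V), ξ0) (g := B) (f := Prod.fst) hB contDiffAt_fst
  have h2 : ContDiffAt ℂ n (fun q : V × ℂ => h q.1) ((0 : V), ξ0) :=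
    ContDiffAt.comp ((0 : V), ξ0) (g := h) (f := Prod.fst) hh contDiffAt_fst
  exact h1.prodMk ((contDiffAt_snd.sub h2).cexp)

lemma Fg_zero {ξ0 : ℂ} (p : E × ℂ) (hB0 : B 0 = p.1) (hh0 : h 0 = 0)
    (hv : Complex.exp ξ0 = p.2) :
    Fg B h ((0 : V), ξ0) = p := by
  simp only [Fg, hB0, hh0, sub_zero, hv, Prod.mk.eta]

lemma Fg_fderiv (hB : ContDiffAt ℂ 1 B 0) (hh : ContDiffAt ℂ 1 h 0) (ξ0 : ℂ) (X : V × ℂ) :
    fderiv ℂ (Fg B h) ((0 : V), ξ0) X = (fderiv ℂ B 0 X.1,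
      Complex.exp (ξ0 - h 0) * (X.2 - fderiv ℂ h 0 X.1)) := by
  have hB' : HasFDerivAt B (fderiv ℂ B 0) 0 := (hB.differentiableAt (by simp)).hasFDerivAt
  have hh' : HasFDerivAt h (fderiv ℂ h 0) 0 := (hh.differentiableAt (by simp only [ne_eq, one_ne_zero, not_false_eq_true])).hasFDerivAt
  have h1 : HasFDerivAt (fun q : V × ℂ => B q.1)
      ((fderiv ℂ B 0).comp (ContinuousLinearMap.fst ℂ V ℂ)) ((0 : V), ξ0) :=
    HasFDerivAt.comp ((0 : V), ξ0) (g := B) (f := Prod.fst) hB' hasFDerivAt_fst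
  have h2 : HasFDerivAt (fun q : V × ℂ => h q.1)
      ((fderiv ℂ h 0).comp (ContinuousLinearMap.fst ℂ V ℂ)) ((0 : V), ξ0) :=
    HasFDerivAt.comp ((0 : V), ξ0) (g := h) (f := Prod.fst) hh' hasFDerivAt_fst
  have h3 := h1.prodMk ((hasFDerivAt_snd.fun_sub h2).cexp)
  rw [show Fg B h = fun q : V × ℂ => (B q.1, Complex.exp (q.2 - h q.1)) from rfl,
    h3.fderiv]
  simp

lemma Fg_equiv [FiniteDimensional ℂ E] [FiniteDimensional ℂ V]
    (hB : ContDiffAt ℂ 1 B 0) (hh : ContDiffAt ℂ 1 h 0)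
    (he : ∃ e : V ≃L[ℂ] E, (e : V →L[ℂ] E) = fderiv ℂ B 0) (ξ0 : ℂ) :
    ∃ e : (V × ℂ) ≃L[ℝ] (E × ℂ), (e : (V × ℂ) →L[ℝ] (E × ℂ))
      = fderiv ℝ (Fg B h) ((0 : V), ξ0) := by
  apply exists_equiv_of_injective
  · have hd : DifferentiableAt ℂ (Fg B h) ((0 : V), ξ0) :=
      (Fg_contDiffAt hB hh ξ0).differentiableAt (by simp)
    rw [hd.fderiv_restrictScalars ℝ]
    rw [injective_iff_map_eq_zero]
    intro X hX
    have hX' : fderiv ℂ (Fg B h) ((0 : V), ξ0) X = 0 := hX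
    rw [Fg_fderiv hB hh] at hX'
    obtain ⟨e, he⟩ := he
    simp only [Prod.mk_eq_zero] at hX'
    obtain ⟨h1, h3⟩ := hX'
    have h4 : e X.1 = 0 := by
      have : (e : V →L[ℂ] E) X.1 = 0 := by
        rw [he]; exact h1
      simpa using this
    have h5 : X.1 = 0 := by simpa using h4
    rw [h5] at h3
    have h6 : X.2 = 0 := by
      rcases mul_eq_zero.1 h3 with h | h
      · exact absurd h (Complex.exp_ne_zero _)
      · simpa using h
    exact Prod.ext h5 h6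
  · obtain ⟨e, he⟩ := he
    have hd : Module.finrank ℂ V = Module.finrank ℂ E := e.toLinearEquiv.finrank_eq
    rw [Module.finrank_prod, Module.finrank_prod, hd]

/-- The weight in the chart. -/
noncomputable def chig (B : V → E) (h : V → ℂ) (χ : E → ℝ) (ζ : V) : ℝ :=
  χ (B ζ) - (h ζ).re

lemma PPg_Fg (Φ : E → ℝ) (δ : ℝ) (χ : E → ℝ) (q : V × ℂ) :
    PPg Φ δ χ (Fg B h q) = Φ (B q.1) + δ * Lf (2 * q.2.re + 2 * chig B h χ q.1) := by
  have h1 : ‖Complex.exp (q.2 - h q.1)‖ ^ 2 * Real.exp (2 * χ (B q.1))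
      = Real.exp (2 * q.2.re + 2 * chig B h χ q.1) := by
    rw [Complex.norm_exp, ← Real.exp_nat_mul, ← Real.exp_add]
    congr 1
    simp only [chig, Complex.sub_re]
    push_cast
    ring
  simp only [PPg, Fg, Lf]
  rw [h1]
  ring

lemma PPg_Fg_eventually (Φ : E → ℝ) (δ : ℝ) (χ : E → ℝ) (H : V → ℂ) (ξ0 : ℂ)
    (hH : ∀ᶠ ζ in 𝓝 (0 : V), Φ (B ζ) = -Real.log (1 - ‖ζ‖ ^ 2) + (H ζ).re) :
    ∀ᶠ q in 𝓝 ((0 : V), ξ0), Phat δ (chig B h χ) q = PPg Φ δ χ (Fg B h q) - (H q.1).re := by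
  have h1 : ∀ᶠ q in 𝓝 ((0 : V), ξ0),
      Φ (B q.1) = -Real.log (1 - ‖q.1‖ ^ 2) + (H q.1).re :=
    (continuous_fst.tendsto ((0 : V), ξ0)).eventually hH
  filter_upwards [h1] with q hq
  rw [PPg_Fg, hq]
  simp only [Phat]
  ring

end Chart

section Chart2

variable {B : V → E} {h H : V → ℂ}

lemma gP_Phat_eventually {Ω : Set E} (hΩ : IsOpen Ω) {Φ : E → ℝ}
    (hΦ : ContDiffOn ℝ (⊤ : ℕ∞) Φ Ω) (δ : ℝ) (χ : E → ℝ) (hχ : ContDiffOn ℝ (⊤ : ℕ∞) χ Ω)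
    (hB : ContDiffAt ℂ (⊤ : ℕ∞) B 0) (hh : ContDiffAt ℂ (⊤ : ℕ∞) h 0)
    (hHs : ContDiffAt ℂ (⊤ : ℕ∞) H 0)
    (hH : ∀ᶠ ζ in 𝓝 (0 : V), Φ (B ζ) = -Real.log (1 - ‖ζ‖ ^ 2) + (H ζ).re)
    (ξ0 : ℂ) (hF : Fg B h ((0 : V), ξ0) ∈ MMg Ω χ) :
    ∀ᶠ q in 𝓝 ((0 : V), ξ0), ∀ X Y, gP (Phat δ (chig B h χ)) q X Y
      = gP (PPg Φ δ χ) (Fg B h q) (fderiv ℝ (Fg B h) q X) (fderiv ℝ (Fg B h) q Y) := by
  have hM : IsOpen (MMg Ω χ) := isOpen_MMg Ω hΩ χ hχ.continuousOn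
  have hFs : ContDiffAt ℂ (⊤ : ℕ∞) (Fg B h) ((0 : V), ξ0) := Fg_contDiffAt hB hh ξ0
  have hF2 : ∀ᶠ q in 𝓝 ((0 : V), ξ0), ContDiffAt ℂ 2 (Fg B h) q :=
    (hFs.of_le two_le_smooth).eventually (by norm_num)
  have hHf : ContDiffAt ℂ (⊤ : ℕ∞) (fun q : V × ℂ => H q.1) ((0 : V), ξ0) :=
    ContDiffAt.comp ((0 : V), ξ0) (g := H) (f := Prod.fst) hHs contDiffAt_fst
  have hH2 : ∀ᶠ q in 𝓝 ((0 : V), ξ0), ContDiffAt ℂ 2 (fun q : V × ℂ => H q.1) q :=
    (hHf.of_le two_le_smooth).eventually (by norm_num)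
  have hmem : ∀ᶠ q in 𝓝 ((0 : V), ξ0), Fg B h q ∈ MMg Ω χ :=
    hFs.continuousAt.eventually (hM.mem_nhds hF)
  have hev := eventually_eventually_nhds.2 (PPg_Fg_eventually (h := h) Φ δ χ H ξ0 hH)
  filter_upwards [hF2, hH2, hmem, hev] with q h1 h2 h3 h4 X Y
  have hPP : ContDiffAt ℝ 2 (PPg Φ δ χ) (Fg B h q) :=
    ((PPg_contDiffOn Ω hΩ Φ hΦ δ χ hχ).contDiffAt (hM.mem_nhds h3)).of_le two_le_smooth
  have h5 : gP (Phat δ (chig B h χ)) q
      = gP (fun q => PPg Φ δ χ (Fg B h q) - (H q.1).re) q := gP_congr h4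
  have hPPF : ContDiffAt ℝ 2 (fun q => PPg Φ δ χ (Fg B h q)) q :=
    ContDiffAt.comp q (g := PPg Φ δ χ) (f := Fg B h) hPP (h1.restrict_scalars ℝ)
  have hre : ContDiffAt ℝ 2 (fun q : V × ℂ => (H q.1).re) q :=
    ContDiffAt.comp q (g := fun z : ℂ => z.re) (f := fun q : V × ℂ => H q.1)
      Complex.reCLM.contDiff.contDiffAt (h2.restrict_scalars ℝ)
  rw [h5, gP_sub2 hPPF hre, gP_re2 (fun q : V × ℂ => H q.1) q h2, sub_zero,
    gP_comp2 (PPg Φ δ χ) (Fg B h) q h1 hPP]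

end Chart2

section Positivity

lemma mem_MMg_lt {Ω : Set E} {χ : E → ℝ} {p : E × ℂ} (hp : p ∈ MMg Ω χ) :
    0 < 1 - ‖p.2‖ ^ 2 * Real.exp (2 * χ p.1) := by
  have := hp.2
  linarith

theorem gP_PPg_pos {Ω : Set E} (hΩ : IsOpen Ω) {Φ : E → ℝ}
    (hΦ : ContDiffOn ℝ (⊤ : ℕ∞) Φ Ω) (δ : ℝ) (hδ : 0 < δ) (χ : E → ℝ)
    (hχ : ContDiffOn ℝ (⊤ : ℕ∞) χ Ω)
    (hpos : ∀ q ∈ Ω, ∀ X, 0 ≤ gP χ q X X ∧ (X ≠ 0 → 0 < gP Φ q X X)) (p : E × ℂ)
    (hp : p ∈ MMg Ω χ) (X : E × ℂ) (hX : X ≠ 0) : 0 < gP (PPg Φ δ χ) p X X := by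
  have hx := mem_MMg_lt hp
  have h1 := (hpos _ hp.1 X.1).1
  rw [gP_PPg Ω hΩ Φ hΦ δ χ hχ p hp X]
  set x := ‖p.2‖ ^ 2 * Real.exp (2 * χ p.1) with hxdef
  have hx0 : 0 ≤ x := by (clear * -; positivity)
  have t2 : 0 ≤ 2 * x / (1 - x) * gP χ p.1 X.1 X.1 := by (clear * - hx h1; positivity)
  set β := X.2 + p.2 * ((fderiv ℝ χ p.1 X.1 : ℝ)
            - Complex.I * (fderiv ℝ χ p.1 (Complex.I • X.1) : ℝ)) with hβ
  have t3 : 0 ≤ Real.exp (2 * χ p.1) * ‖β‖ ^ 2 / (1 - x) ^ 2 := by (clear * - hx; positivity)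
  by_cases hX1 : X.1 = 0
  · have hX3 : X.2 ≠ 0 := by
      intro h3
      exact hX (Prod.ext hX1 h3)
    have hβ2 : β = X.2 := by
      rw [hβ, hX1, smul_zero, map_zero]
      simp
    have t3' : 0 < Real.exp (2 * χ p.1) * ‖β‖ ^ 2 / (1 - x) ^ 2 := by
      rw [hβ2]
      have : 0 < ‖X.2‖ := norm_pos_iff.2 hX3
      (clear * - hX3 hx; positivity)
    have t4 : 0 < δ * (2 * x / (1 - x) * gP χ p.1 X.1 X.1
        + Real.exp (2 * χ p.1) * ‖β‖ ^ 2 / (1 - x) ^ 2) := by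
      apply mul_pos hδ
      linarith only [t2, t3']
    have t5 : gP Φ p.1 X.1 X.1 = 0 := by rw [hX1]; simp
    linarith only [t4, t5]
  · have t1 := (hpos _ hp.1 X.1).2 hX1
    have : 0 ≤ δ * (2 * x / (1 - x) * gP χ p.1 X.1 X.1
        + Real.exp (2 * χ p.1) * ‖β‖ ^ 2 / (1 - x) ^ 2) := by
      apply mul_nonneg hδ.le
      linarith
    linarith

end Positivity

section Main

variable (V) in
/-- The conclusion of the pointwise computation for given constants. -/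
def PointPinched (ε0 C0 C3 C4 δ a b : ℝ) : Prop :=
  ∀ χ : V → ℝ, NormalJet ε0 C0 C3 C4 χ → ∀ ξ0 : ℂ, 2 * ξ0.re + 2 * χ 0 < 0 →
      ∃ A : V × ℂ → V × ℂ → V × ℂ, KoszulAt (gP (Phat δ χ)) ((0 : V), ξ0) A ∧
        ∀ X Y : V × ℂ,
        -b * area (gP (Phat δ χ)) ((0 : V), ξ0) X Y ≤ num (gP (Phat δ χ)) ((0 : V), ξ0) A X Y ∧
        num (gP (Phat δ χ)) ((0 : V), ξ0) A X Y ≤ -a * area (gP (Phat δ χ)) ((0 : V), ξ0) X Y

theorem pinched_of_ne_zero [FiniteDimensional ℂ E] [FiniteDimensional ℂ V]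
    {Ω : Set E} (hΩ : IsOpen Ω) {Φ : E → ℝ} (hΦ : ContDiffOn ℝ (⊤ : ℕ∞) Φ Ω)
    (ε0 C0 C3 C4 δ a b : ℝ) (hpt : PointPinched V ε0 C0 C3 C4 δ a b)
    (χ : E → ℝ) (hχ : ContDiffOn ℝ (⊤ : ℕ∞) χ Ω) (hU : UniformJetsG V Ω Φ ε0 C0 C3 C4 χ)
    (hg : IsRiemannianMetric (gP (PPg Φ δ χ)) (MMg Ω χ))
    (Γ : E × ℂ → (E × ℂ) →L[ℝ] (E × ℂ) →L[ℝ] (E × ℂ))
    (hΓ : IsLeviCivita (gP (PPg Φ δ χ)) Γ (MMg Ω χ)) (p : E × ℂ) (hp : p ∈ MMg Ω χ)
    (hv : p.2 ≠ 0) (X Y : E × ℂ) :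
    -b * area (gP (PPg Φ δ χ)) p X Y ≤ gP (PPg Φ δ χ) p (riem Γ p X Y Y) X ∧
      gP (PPg Φ δ χ) p (riem Γ p X Y Y) X ≤ -a * area (gP (PPg Φ δ χ)) p X Y := by
  have hM : IsOpen (MMg Ω χ) := isOpen_MMg Ω hΩ χ hχ.continuousOn
  have : CompleteSpace E := FiniteDimensional.complete ℂ E
  have : CompleteSpace V := FiniteDimensional.complete ℂ V
  obtain ⟨B, h, H, hB, hh, hHs, hB0, hh0, he, hH, hN⟩ := hU p.1 hp.1
  set ξ0 : ℂ := Complex.log p.2 with hξ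
  have hexp : Complex.exp ξ0 = p.2 := Complex.exp_log hv
  have hF0 : Fg B h ((0 : V), ξ0) = p := Fg_zero p hB0 hh0 hexp
  obtain ⟨e, he'⟩ := Fg_equiv (hB.of_le one_le_smooth) (hh.of_le one_le_smooth) he ξ0
  have hneg : 2 * ξ0.re + 2 * chig B h χ 0 < 0 := by
    have h1 : ‖p.2‖ ^ 2 * Real.exp (2 * χ p.1)
        = Real.exp (2 * ξ0.re + 2 * chig B h χ 0) := by
      rw [← hexp, Complex.norm_exp, ← Real.exp_nat_mul, ← Real.exp_add]
      congr 1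
      simp only [chig, hB0, hh0, Complex.zero_re]
      push_cast
      ring
    have h2 := hp.2
    rw [h1] at h2
    exact Real.exp_lt_one_iff.1 h2
  obtain ⟨A, hA, hAb⟩ := hpt (chig B h χ) hN ξ0 hneg
  have hFs : ContDiffAt ℝ (⊤ : ℕ∞) (Fg B h) ((0 : V), ξ0) :=
    (Fg_contDiffAt hB hh ξ0).restrict_scalars ℝ
  have hFm : Fg B h ((0 : V), ξ0) ∈ MMg Ω χ := by rw [hF0]; exact hp
  have hnhds : MMg Ω χ ∈ 𝓝 (Fg B h ((0 : V), ξ0)) := hM.mem_nhds hFm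
  have hev := gP_Phat_eventually hΩ hΦ δ χ hχ hB hh hHs hH ξ0 hFm
  obtain ⟨X', rfl⟩ := e.surjective X
  obtain ⟨Y', rfl⟩ := e.surjective Y
  have hkey := riem_pullback (Fg B h) ((0 : V), ξ0) e hFs he' (gP (PPg Φ δ χ)) Γ
    (hg.smooth.contDiffAt hnhds) (hΓ.smooth.contDiffAt hnhds)
    (Filter.eventually_of_mem hnhds fun q hq => hg.symm q hq)
    (Filter.eventually_of_mem hnhds fun q hq => hg.pos q hq)
    (Filter.eventually_of_mem hnhds fun q hq => hΓ.koszul q hq)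
    (gP (Phat δ (chig B h χ))) hev A hA X' Y'
  have hself := hev.self_of_nhds
  have hfd : ∀ Z, fderiv ℝ (Fg B h) ((0 : V), ξ0) Z = e Z := by
    intro Z
    rw [← he']
    rfl
  have harea : area (gP (Phat δ (chig B h χ))) ((0 : V), ξ0) X' Y'
      = area (gP (PPg Φ δ χ)) p (e X') (e Y') := by
    simp only [area, hself, hfd, hF0]
  rw [hF0] at hkey
  rw [hkey, ← harea]
  exact hAb X' Y'

lemma continuousAt_num_side {G : Type*} [NormedAddCommGroup G] [NormedSpace ℝ G]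
    {M : Set G} (hM : IsOpen M) (g : G → G →L[ℝ] G →L[ℝ] ℝ)
    (hg : IsRiemannianMetric g M) (Γ : G → G →L[ℝ] G →L[ℝ] G)
    (hΓ : IsLeviCivita g Γ M) (p : G) (hp : p ∈ M) (X Y : G) :
    ContinuousAt (fun q => g q (riem Γ q X Y Y) X) p := by
  have hgc : ContinuousAt g p := (hg.smooth.contDiffAt (hM.mem_nhds hp)).continuousAt
  have hΓs : ContDiffAt ℝ (⊤ : ℕ∞) Γ p := hΓ.smooth.contDiffAt (hM.mem_nhds hp)
  have hΓc : ContinuousAt Γ p := hΓs.continuousAt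
  have hdc : ContinuousAt (fderiv ℝ Γ) p := (contDiffAt_fderiv hΓs).continuousAt
  have hcX : ContinuousAt (fun _ : G => X) p := continuousAt_const
  have hcY : ContinuousAt (fun _ : G => Y) p := continuousAt_const
  have hr : ContinuousAt (fun q => riem Γ q X Y Y) p := by
    unfold riem
    exact (((((hdc.clm_apply hcX).clm_apply hcY).clm_apply hcY).sub
      (((hdc.clm_apply hcY).clm_apply hcX).clm_apply hcY)).add
      ((hΓc.clm_apply hcX).clm_apply ((hΓc.clm_apply hcY).clm_apply hcY))).sub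
      ((hΓc.clm_apply hcY).clm_apply ((hΓc.clm_apply hcX).clm_apply hcY))
  exact (hgc.clm_apply hr).clm_apply hcX

lemma continuousAt_area {G : Type*} [NormedAddCommGroup G] [NormedSpace ℝ G]
    {M : Set G} (hM : IsOpen M) (g : G → G →L[ℝ] G →L[ℝ] ℝ)
    (hg : IsRiemannianMetric g M) (p : G) (hp : p ∈ M) (X Y : G) :
    ContinuousAt (fun q => area g q X Y) p := by
  have hgc : ContinuousAt g p := (hg.smooth.contDiffAt (hM.mem_nhds hp)).continuousAt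
  have hcX : ContinuousAt (fun _ : G => X) p := continuousAt_const
  have hcY : ContinuousAt (fun _ : G => Y) p := continuousAt_const
  unfold area
  exact (((hgc.clm_apply hcX).clm_apply hcX).mul ((hgc.clm_apply hcY).clm_apply hcY)).sub
    (((hgc.clm_apply hcX).clm_apply hcY).pow 2)

lemma tendsto_fiber (p : E × ℂ) (hv : p.2 = 0) :
    Tendsto (fun t : ℂ => ((p.1, t) : E × ℂ)) (𝓝[≠] 0) (𝓝 p) := by
  have h1 : Continuous (fun t : ℂ => ((p.1, t) : E × ℂ)) := by fun_prop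
  have h2 : Tendsto (fun t : ℂ => ((p.1, t) : E × ℂ)) (𝓝 0) (𝓝 (p.1, 0)) :=
    h1.tendsto 0
  have h3 : ((p.1, (0 : ℂ)) : E × ℂ) = p := by
    rw [← hv]
  rw [h3] at h2
  exact h2.mono_left nhdsWithin_le_nhds

theorem pinched_all [FiniteDimensional ℂ E] [FiniteDimensional ℂ V]
    {Ω : Set E} (hΩ : IsOpen Ω) {Φ : E → ℝ} (hΦ : ContDiffOn ℝ (⊤ : ℕ∞) Φ Ω)
    (ε0 C0 C3 C4 δ a b : ℝ) (hpt : PointPinched V ε0 C0 C3 C4 δ a b)
    (χ : E → ℝ) (hχ : ContDiffOn ℝ (⊤ : ℕ∞) χ Ω) (hU : UniformJetsG V Ω Φ ε0 C0 C3 C4 χ)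
    (hg : IsRiemannianMetric (gP (PPg Φ δ χ)) (MMg Ω χ))
    (Γ : E × ℂ → (E × ℂ) →L[ℝ] (E × ℂ) →L[ℝ] (E × ℂ))
    (hΓ : IsLeviCivita (gP (PPg Φ δ χ)) Γ (MMg Ω χ)) (p : E × ℂ) (hp : p ∈ MMg Ω χ)
    (X Y : E × ℂ) :
    -b * area (gP (PPg Φ δ χ)) p X Y ≤ gP (PPg Φ δ χ) p (riem Γ p X Y Y) X ∧
      gP (PPg Φ δ χ) p (riem Γ p X Y Y) X ≤ -a * area (gP (PPg Φ δ χ)) p X Y := by
  have hM : IsOpen (MMg Ω χ) := isOpen_MMg Ω hΩ χ hχ.continuousOn
  by_cases hv : p.2 = 0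
  · have ht := tendsto_fiber p hv
    have hc1 := (continuousAt_num_side hM _ hg Γ hΓ p hp X Y).tendsto.comp ht
    have hc2 := (continuousAt_area hM _ hg p hp X Y).tendsto.comp ht
    have hev : ∀ᶠ t : ℂ in 𝓝[≠] 0, ((p.1, t) : E × ℂ) ∈ MMg Ω χ ∧ t ≠ 0 := by
      refine (ht.eventually (hM.mem_nhds hp)).and ?_
      exact eventually_mem_nhdsWithin
    constructor
    · refine le_of_tendsto_of_tendsto (hc2.const_mul (-b)) hc1 ?_
      filter_upwards [hev] with t ht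
      exact (pinched_of_ne_zero hΩ hΦ ε0 C0 C3 C4 δ a b hpt χ hχ hU hg Γ hΓ _ ht.1 ht.2 X Y).1
    · refine le_of_tendsto_of_tendsto hc1 (hc2.const_mul (-a)) ?_
      filter_upwards [hev] with t ht
      exact (pinched_of_ne_zero hΩ hΦ ε0 C0 C3 C4 δ a b hpt χ hχ hU hg Γ hΓ _ ht.1 ht.2 X Y).2
  · exact pinched_of_ne_zero hΩ hΦ ε0 C0 C3 C4 δ a b hpt χ hχ hU hg Γ hΓ p hp hv X Y

end Main

end GP

open GP

theorem isKaehlerMetric_PPg (Ω : Set E) (hΩ : IsOpen Ω) (Φ : E → ℝ)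
    (hΦ : ContDiffOn ℝ (⊤ : ℕ∞) Φ Ω) (ε0 C0 C3 C4 : ℝ) (h0 : 0 < ε0) (δ : ℝ) (hδ : 0 < δ)
    (χ : E → ℝ) (hχ : ContDiffOn ℝ (⊤ : ℕ∞) χ Ω) (hU : UniformJetsG V Ω Φ ε0 C0 C3 C4 χ) :
    IsKaehlerMetric (gP (PPg Φ δ χ)) (MMg Ω χ) :=
  isKaehlerMetric_gP _ _ (isOpen_MMg Ω hΩ χ hχ.continuousOn) (PPg_contDiffOn Ω hΩ Φ hΦ δ χ hχ)
    fun p hp X hX => gP_PPg_pos hΩ hΦ δ hδ χ hχ
      (fun q hq X => gP_pos_of_uniformJetsG (V := V) Ω hΩ Φ hΦ ε0 C0 C3 C4 h0 χ hχ hU q hq X)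
      p hp X hX

theorem MMg_pinched [FiniteDimensional ℂ E] [FiniteDimensional ℂ V]
    (Ω : Set E) (hΩ : IsOpen Ω) (Φ : E → ℝ) (hΦ : ContDiffOn ℝ (⊤ : ℕ∞) Φ Ω)
    (ε0 C0 C3 C4 : ℝ) (h0 : 0 < ε0) (h1 : 0 < C0) (h3 : 0 < C3)
    (h4 : 0 < C4) (χ : E → ℝ) (hχ : ContDiffOn ℝ (⊤ : ℕ∞) χ Ω)
    (hU : UniformJetsG V Ω Φ ε0 C0 C3 C4 χ) : ∃ δ > 0, ∃ a b, 0 < a ∧ a ≤ b ∧
      ∀ Γ : E × ℂ → (E × ℂ) →L[ℝ] (E × ℂ) →L[ℝ] (E × ℂ),
      IsLeviCivita (gP (PPg Φ δ χ)) Γ (MMg Ω χ) → ∀ p ∈ MMg Ω χ, ∀ X Y,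
        -b * area (gP (PPg Φ δ χ)) p X Y ≤ gP (PPg Φ δ χ) p (riem Γ p X Y Y) X ∧
        gP (PPg Φ δ χ) p (riem Γ p X Y Y) X ≤ -a * area (gP (PPg Φ δ χ)) p X Y := by
  obtain ⟨δ0, hδ0, hδ⟩ := point_pinching (V := V) ε0 C0 C3 C4 h0 h1 h3 h4
  obtain ⟨a, b, ha, hab, hpt⟩ := hδ (δ0 / 2) (half_pos hδ0) (half_lt_self hδ0)
  refine ⟨δ0 / 2, half_pos hδ0, a, b, ha, hab, fun Γ hΓ p hp X Y => ?_⟩
  exact GP.pinched_all hΩ hΦ ε0 C0 C3 C4 (δ0 / 2) a b hpt χ hχ hU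
    (isKaehlerMetric_PPg Ω hΩ Φ hΦ ε0 C0 C3 C4 h0 _ (half_pos hδ0) χ hχ hU).toIsRiemannianMetric
    Γ hΓ p hp X Y

end Vale.Agent.P250.G
end
end
end

section

section

section

/-! Smoothness and uniform jets of the potential `phi`. -/

set_option maxSynthPendingDepth 3

namespace Vale.Agent.P250

open Set Filter Topology

theorem phi_contDiffOn (CΨ Λ : ℝ) (Ψ : ℂ → ℝ) (hΨ : IsPsi CΨ Λ Ψ) (lam ε : ℝ)
    (hlam : 2 ≤ lam) : ContDiffOn ℝ (⊤ : ℕ∞) (phi Ψ lam ε) DD :=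
  PJ.phi_contDiffOn CΨ Λ Ψ hΨ lam ε hlam

namespace PJ

lemma om_BB (p : ℂ × ℂ) (hp : p ∈ DD) (lam : ℝ) (k : ℕ) (x : ℝ)
    (ζ : EuclideanSpace ℂ (Fin 2)) :
    om (lam ^ (2 * k)) x (BB p ζ) = om (lam ^ (2 * k)) x p
      + ((lam ^ k * √(rho p) : ℝ) : ℂ) * (((lam ^ k * √(rho p) : ℝ) : ℂ) * (cc ζ).2
        - 2 * ((lam ^ k * (x - p.1.im) : ℝ) : ℂ) * (cc ζ).1) := by
  have hr : 0 < rho p := hp
  have hs : ((√(rho p) : ℝ) : ℂ) ^ 2 = ((rho p : ℝ) : ℂ) := by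
    rw [← Complex.ofReal_pow, Real.sq_sqrt hr.le]
  unfold om BB
  push_cast
  have h2 : ((lam : ℂ)) ^ (2 * k) = ((lam : ℂ) ^ k) ^ 2 := by rw [pow_mul']
  rw [h2, ← hs]
  ring

lemma Tk_BB (Ψ : ℂ → ℝ) (p : ℂ × ℂ) (hp : p ∈ DD) (lam : ℝ) (k : ℕ) (j : ℤ)
    (ζ : EuclideanSpace ℂ (Fin 2)) :
    Tk Ψ lam k j (BB p ζ)
      = gk Ψ (Complex.exp (Complex.I * om (lam ^ (2 * k)) (xx lam k j) p))
        (lam ^ k * √(rho p)) (lam ^ k * (xx lam k j - p.1.im)) (cc ζ) := by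
  unfold Tk gk Nf
  rw [om_BB p hp, mul_add, Complex.exp_add]

lemma norm_e (p : ℂ × ℂ) (hp : p ∈ DD) (lam : ℝ) (k : ℕ) (x : ℝ) :
    ‖Complex.exp (Complex.I * om (lam ^ (2 * k)) x p)‖
      = Real.exp (-((lam ^ k * √(rho p)) ^ 2 + (lam ^ k * (x - p.1.im)) ^ 2)) := by
  have hr : 0 < rho p := hp
  rw [norm_exp_I_mul, om_im]
  congr 1
  rw [mul_pow, Real.sq_sqrt hr.le, mul_pow, ← pow_mul, mul_comm k 2]
  ring

end PJ

open PJ in
theorem phi_uniformJets (CΨ Λ : ℝ) (Ψ : ℂ → ℝ) (hΨ : IsPsi CΨ Λ Ψ) (lam ε : ℝ)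
    (hlam : 2 ≤ lam) (hε : 0 < ε) (s : ℝ) (hs : 0 < s) : ∃ ε0 C0 C3 C4 : ℝ,
    0 < ε0 ∧ 0 < C0 ∧ 0 < C3 ∧ 0 < C4 ∧
      UniformJets ε0 C0 C3 C4 (fun q => s * phi Ψ lam ε q) := by
  obtain ⟨ε0, C0, C3, C4, h0, h1, h3, h4, key⟩ :=
    jet_assembly cc contDiffAt_cc cc_zero H0 contDiffAt_H0 hΨ lam ε s hlam hε hs
  refine ⟨ε0, C0, C3, C4, h0, h1, h3, h4, ?_⟩
  intro p hp
  have hr : 0 < rho p := hp
  obtain ⟨K, hK⟩ := phi_eventually hΨ hlam ε hp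
  have hBc : ContinuousAt (BB p) 0 := (contDiffAt_BB p (n := 1)).continuousAt
  have hK' : ∀ᶠ ζ in 𝓝 (0 : EuclideanSpace ℂ (Fin 2)), phi Ψ lam ε (BB p ζ)
      = -ε * Real.log (rho (BB p ζ))
        + ∑ k ∈ Finset.range K, Tk Ψ lam k (jj lam k p) (BB p ζ) := by
    have : Tendsto (BB p) (𝓝 0) (𝓝 p) := by
      have := hBc.tendsto
      rwa [BB_zero] at this
    exact this.eventually hK
  have hlog := log_rho_BB p hp
  obtain ⟨h, hh, hh0, hJ⟩ := key (√(rho p)) K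
    (fun k => Complex.exp (Complex.I * om (lam ^ (2 * k)) (xx lam k (jj lam k p)) p))
    (fun k => lam ^ k * (xx lam k (jj lam k p) - p.1.im))
    (-(s * ε * Real.log (rho p))) (fun ζ => s * phi Ψ lam ε (BB p ζ))
    (Real.sqrt_pos.mpr hr) (fun k => norm_e p hp lam k _)
    (by
      filter_upwards [hK', hlog] with ζ h1 h2
      rw [h1]
      have h3 : -ε * Real.log (rho (BB p ζ)) = ε * (-Real.log (rho (BB p ζ))) := by ring
      rw [h3, h2, Complex.sub_re, Complex.ofReal_re]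
      have h4 : ∀ k ∈ Finset.range K, Tk Ψ lam k (jj lam k p) (BB p ζ)
          = gk Ψ (Complex.exp (Complex.I * om (lam ^ (2 * k)) (xx lam k (jj lam k p)) p))
            (lam ^ k * √(rho p)) (lam ^ k * (xx lam k (jj lam k p) - p.1.im)) (cc ζ) :=
        fun k _ => Tk_BB Ψ p hp lam k _ ζ
      rw [Finset.sum_congr rfl h4]
      ring)
  refine ⟨BB p, h, fun ζ => H0 ζ - (Real.log (rho p) : ℝ), contDiffAt_BB p, hh,
    contDiffAt_H0.sub contDiffAt_const, BB_zero p, hh0, exists_equiv_BB p hp, hlog, hJ⟩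

end Vale.Agent.P250
end
end
end

section

section

section

/-! Existence of the weight `χ` (assembly of the analytic half). -/

set_option maxSynthPendingDepth 3

namespace Vale.Agent.P250
open Set Filter Topology

theorem exists_chi : ∃ χ : ℂ × ℂ → ℝ, ContDiffOn ℝ (⊤ : ℕ∞) χ DD ∧ NoFunction χ ∧
    ∃ ε0 C0 C3 C4 : ℝ, 0 < ε0 ∧ 0 < C0 ∧ 0 < C3 ∧ 0 < C4 ∧ UniformJets ε0 C0 C3 C4 χ := by
  obtain ⟨CΨ, hC, hΨ⟩ := exists_Psi
  obtain ⟨Ψ, hΨ⟩ := hΨ (1000 * ((CΨ + 2) + (CΨ + 2) + 1) + 2)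
  obtain ⟨lam, hlam, hlam'⟩ := star_phi CΨ _ hC Ψ hΨ
  obtain ⟨ε, hε, hε'⟩ := hlam' lam le_rfl
  have hS := hε' ε hε le_rfl
  have hsm := phi_contDiffOn CΨ _ Ψ hΨ lam ε hlam
  obtain ⟨s0, hs0, hs⟩ := noFunction_of_star (phi Ψ lam ε) 4 (CΨ + 2) (CΨ + 2) _ hsm.continuousOn
    (by norm_num) (by linarith only [hC]) (by linarith only [hC]) (by linarith only []) hS
  refine ⟨fun q => s0 / 2 * phi Ψ lam ε q, contDiffOn_const.mul hsm,
    hs (s0 / 2) (half_pos hs0) (half_lt_self hs0), ?_⟩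
  exact phi_uniformJets CΨ _ Ψ hΨ lam ε hlam hε (s0 / 2) (half_pos hs0)

end Vale.Agent.P250
end
end
end

section

section

section

/-! Assembly of the main theorem. -/

set_option maxSynthPendingDepth 3

namespace Vale.Agent.P250
open Set Filter Topology

section area
variable {E : Type*} [NormedAddCommGroup E] [NormedSpace ℝ E]

/-- strict Cauchy-Schwarz. -/
lemma area_pos {g : E → E →L[ℝ] E →L[ℝ] ℝ} {p : E} (hs : ∀ X Y, g p X Y = g p Y X)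
    (hp : ∀ X, X ≠ 0 → 0 < g p X X) {X Y : E} (h : LinearIndependent ℝ ![X, Y]) :
    0 < area g p X Y := by
  have hX : X ≠ 0 := by
    have := h.ne_zero 0
    simpa using this
  have hXX := hp X hX
  have hZ : g p X X • Y - g p X Y • X ≠ 0 := by
    intro h0
    have h1 := LinearIndependent.pair_iff.1 h (-(g p X Y)) (g p X X) (by
      rw [neg_smul, neg_add_eq_sub]; exact h0)
    exact hXX.ne' h1.2
  have h2 := hp _ hZ
  have h3 : g p (g p X X • Y - g p X Y • X) (g p X X • Y - g p X Y • X)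
      = g p X X * area g p X Y := by
    simp only [map_sub, map_smul, sub_apply, smul_apply, smul_eq_mul, area]
    rw [hs Y X]
    ring
  rw [h3] at h2
  exact (mul_pos_iff_of_pos_left hXX).1 h2

end area

/-- There is a simply connected domain in ℂ³ with a complete Kaehler metric of pinched negative
sectional curvature which is not biholomorphic to a bounded domain. -/
theorem main : ∃ (M : Set (ℂ × ℂ × ℂ)) (g : ℂ × ℂ × ℂ → (ℂ × ℂ × ℂ) →L[ℝ] (ℂ × ℂ × ℂ) →L[ℝ] ℝ)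
    (Γ : ℂ × ℂ × ℂ → (ℂ × ℂ × ℂ) →L[ℝ] (ℂ × ℂ × ℂ) →L[ℝ] (ℂ × ℂ × ℂ)),
    IsOpen M ∧ SimplyConnectedSpace M ∧ IsKaehlerMetric g M ∧ IsLeviCivita g Γ M ∧
    GeodesicallyComplete Γ M ∧
    (∃ a b : ℝ, 0 < a ∧ a ≤ b ∧ ∀ p ∈ M, ∀ X Y, LinearIndependent ℝ ![X, Y] →
      -b ≤ sectional g Γ p X Y ∧ sectional g Γ p X Y ≤ -a) ∧
    ¬ BiholomorphicToBoundedDomain M := by
  obtain ⟨χ, hχ, hN, ε0, C0, C3, C4, h0, h1, h3, h4, hU⟩ := exists_chi
  obtain ⟨δ, hδ, a, b, ha, hab, hpin⟩ := MM_pinched ε0 C0 C3 C4 h0 h1 h3 h4 χ hχ hU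
  have hM : IsOpen (MM χ) := isOpen_MM χ hχ.continuousOn
  have hK : IsKaehlerMetric (gP (PP δ χ)) (MM χ) := isKaehlerMetric_PP ε0 C0 C3 C4 h0 δ hδ χ hχ hU
  have hR := hK.toIsRiemannianMetric
  obtain ⟨Γ, hΓ⟩ := exists_leviCivita (gP (PP δ χ)) (MM χ) hM hR
  obtain ⟨C, hC⟩ := exh_gradient δ hδ χ hχ
    (fun q hq X => gP_pos_of_uniformJets ε0 C0 C3 C4 h0 χ hχ hU q hq X)
  refine ⟨MM χ, gP (PP δ χ), Γ, hM, simplyConnected_MM χ hχ.continuousOn, hK, hΓ, ?_, ?_,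
    not_biholo χ hχ.continuousOn hN⟩
  · exact complete_of_exhaustion _ Γ (MM χ) hM hR hΓ (exh χ) (exh_contDiffOn χ hχ) C hC
      (exh_proper χ hχ.continuousOn)
  · refine ⟨a, b, ha, hab, fun p hp X Y hXY => ?_⟩
    have hA : 0 < area (gP (PP δ χ)) p X Y := area_pos (hR.symm p hp) (hR.pos p hp) hXY
    have h := hpin Γ hΓ p hp X Y
    have hsec : sectional (gP (PP δ χ)) Γ p X Y
        = gP (PP δ χ) p (riem Γ p X Y Y) X / area (gP (PP δ χ)) p X Y := rfl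
    rw [hsec]
    exact ⟨(le_div_iff₀ hA).2 h.1, (div_le_iff₀ hA).2 h.2⟩

end Vale.Agent.P250
end
end
end

section

section

section

/-! The geometry of the disc bundle over a general base: assembly. -/

set_option maxSynthPendingDepth 3

namespace Vale.Agent.P250.G

open Set Filter Topology Vale.Agent.P250

variable {E : Type*} [NormedAddCommGroup E] [NormedSpace ℂ E] [FiniteDimensional ℂ E]
variable {V : Type*} [NormedAddCommGroup V] [InnerProductSpace ℂ V] [FiniteDimensional ℂ V]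

theorem disc_bundle (Ω : Set E) (hΩ : IsOpen Ω) (hΩc : Convex ℝ Ω) (hne : Ω.Nonempty)
    (Φ : E → ℝ) (hΦ : ContDiffOn ℝ (⊤ : ℕ∞) Φ Ω) (f : E → ℝ) (C : ℝ)
    (hf : GoodExhaustion Ω Φ f C) (ε0 C0 C3 C4 : ℝ) (h0 : 0 < ε0) (h1 : 0 < C0) (h3 : 0 < C3)
    (h4 : 0 < C4) (χ : E → ℝ) (hχ : ContDiffOn ℝ (⊤ : ℕ∞) χ Ω)
    (hU : UniformJetsG V Ω Φ ε0 C0 C3 C4 χ) :
    ∃ (g : E × ℂ → (E × ℂ) →L[ℝ] (E × ℂ) →L[ℝ] ℝ) (Γ : E × ℂ → (E × ℂ) →L[ℝ] (E × ℂ) →L[ℝ] (E × ℂ)),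
    IsOpen (MMg Ω χ) ∧ SimplyConnectedSpace (MMg Ω χ) ∧ IsKaehlerMetric g (MMg Ω χ) ∧
    IsLeviCivita g Γ (MMg Ω χ) ∧ GeodesicallyComplete Γ (MMg Ω χ) ∧
    (∃ a b : ℝ, 0 < a ∧ a ≤ b ∧ ∀ p ∈ MMg Ω χ, ∀ X Y, LinearIndependent ℝ ![X, Y] →
      -b ≤ sectional g Γ p X Y ∧ sectional g Γ p X Y ≤ -a) := by
  have : FiniteDimensional ℝ (E × ℂ) := FiniteDimensional.complexToReal (E × ℂ)
  obtain ⟨δ, hδ, a, b, ha, hab, hpin⟩ :=
    MMg_pinched (V := V) Ω hΩ Φ hΦ ε0 C0 C3 C4 h0 h1 h3 h4 χ hχ hU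
  have hM : IsOpen (MMg Ω χ) := isOpen_MMg Ω hΩ χ hχ.continuousOn
  have hK : IsKaehlerMetric (gP (PPg Φ δ χ)) (MMg Ω χ) :=
    isKaehlerMetric_PPg (V := V) Ω hΩ Φ hΦ ε0 C0 C3 C4 h0 δ hδ χ hχ hU
  have hR := hK.toIsRiemannianMetric
  obtain ⟨Γ, hΓ⟩ := exists_leviCivita (gP (PPg Φ δ χ)) (MMg Ω χ) hM hR
  have hpos := fun q hq X => gP_pos_of_uniformJetsG (V := V) Ω hΩ Φ hΦ ε0 C0 C3 C4 h0 χ hχ hU q hq X
  obtain ⟨C', hC⟩ := exhg_gradient Ω hΩ Φ hΦ f C hf δ hδ χ hχ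
    (fun q hq X => by
      by_cases hX : X = 0
      · subst hX; simp
      · exact ((hpos q hq X).2 hX).le)
    (fun q hq X => (hpos q hq X).1)
  refine ⟨gP (PPg Φ δ χ), Γ, hM, simplyConnected_MMg Ω hΩc hne χ hχ.continuousOn, hK, hΓ, ?_, ?_⟩
  · exact complete_of_exhaustion _ Γ (MMg Ω χ) hM hR hΓ (exhg f χ)
      (exhg_contDiffOn Ω hΩ f hf.smooth χ hχ) C' hC
      (exhg_proper Ω hΩ Φ f C hf χ hχ.continuousOn)
  · refine ⟨a, b, ha, hab, fun p hp X Y hXY => ?_⟩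
    have hA : 0 < area (gP (PPg Φ δ χ)) p X Y := area_pos (hR.symm p hp) (hR.pos p hp) hXY
    have h := hpin Γ hΓ p hp X Y
    have hsec : sectional (gP (PPg Φ δ χ)) Γ p X Y
        = gP (PPg Φ δ χ) p (riem Γ p X Y Y) X / area (gP (PPg Φ δ χ)) p X Y := rfl
    rw [hsec]
    exact ⟨(le_div_iff₀ hA).2 h.1, (div_le_iff₀ hA).2 h.2⟩

end Vale.Agent.P250.G
end
end
end

section

section

section

/-! The Cayley-type chart of the higher-dimensional model domain centred at a point. -/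

set_option maxSynthPendingDepth 3

namespace Vale.Agent.P250.G.Ch

open Set Filter Topology Vale.Agent.P250 Vale.Agent.P250.PJ

variable {W : Type*} [NormedAddCommGroup W] [InnerProductSpace ℂ W]

variable (W) in
/-- the model of the ball tangent space -/
abbrev VG : Type _ := WithLp 2 (V2 × W)

variable (W) in
/-- first projection -/
noncomputable def pr1 : VG W →L[ℂ] V2 := WithLp.fstL 2 ℂ V2 W

variable (W) in
/-- second projection -/
noncomputable def pr2 : VG W →L[ℂ] W := WithLp.sndL 2 ℂ V2 W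

lemma norm_sq_VG (ζ : VG W) : ‖ζ‖ ^ 2 = ‖pr1 W ζ‖ ^ 2 + ‖pr2 W ζ‖ ^ 2 :=
  WithLp.prod_norm_sq_eq_of_L2 ζ

/-- the `W`-component of the chart -/
noncomputable def ce (ζ : VG W) : W := cs (pr1 W ζ) • pr2 W ζ

/-- the Cayley chart -/
noncomputable def cG (ζ : VG W) : (ℂ × ℂ) × W := (cc (pr1 W ζ), ce ζ)

/-- the chart centred at `p` -/
noncomputable def BG (p : (ℂ × ℂ) × W) (ζ : VG W) : (ℂ × ℂ) × W :=
  ((p.1.1 + (√(rhoG p) : ℝ) * (cG ζ).1.1,
    p.1.2 + (rhoG p : ℝ) * (cG ζ).1.2 + 2 * (√(rhoG p) : ℝ) * (p.1.1.im : ℝ) * (cG ζ).1.1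
      + 2 * Complex.I * (√(rhoG p) : ℝ) * inner ℂ p.2 (cG ζ).2),
    p.2 + ((√(rhoG p) : ℝ) : ℂ) • (cG ζ).2)

/-- the pluriharmonic correction -/
noncomputable def HG (ζ : VG W) : ℂ := H0 (pr1 W ζ)

lemma cG_zero : cG (0 : VG W) = 0 := by
  have h1 : pr1 W (0 : VG W) = 0 := map_zero _
  have h2 : pr2 W (0 : VG W) = 0 := map_zero _
  unfold cG ce
  rw [h1, h2, cc_zero, smul_zero]
  rfl

lemma BG_zero (p : (ℂ × ℂ) × W) : BG p 0 = p := by
  unfold BG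
  rw [cG_zero]
  simp only [Prod.fst_zero, mul_zero, add_zero, Prod.snd_zero, inner_zero_right, Prod.mk.eta, smul_zero]

lemma contDiffAt_cs' {n : WithTop ℕ∞} : ContDiffAt ℂ n (fun ζ : VG W => cs (pr1 W ζ)) 0 := by
  have h : ContDiffAt ℂ n cs (pr1 W 0) := by
    rw [map_zero]; exact contDiffAt_cs
  exact h.comp (0 : VG W) (pr1 W).contDiff.contDiffAt

lemma contDiffAt_cG {n : WithTop ℕ∞} : ContDiffAt ℂ n (cG (W := W)) 0 := by
  have h : ContDiffAt ℂ n cc (pr1 W 0) := by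
    rw [map_zero]; exact contDiffAt_cc
  have h1 : ContDiffAt ℂ n (fun ζ : VG W => cc (pr1 W ζ)) 0 :=
    h.comp (0 : VG W) (pr1 W).contDiff.contDiffAt
  have h2 : ContDiffAt ℂ n (fun ζ : VG W => ce ζ) 0 :=
    contDiffAt_cs'.smul (pr2 W).contDiff.contDiffAt
  exact h1.prodMk h2

lemma contDiffAt_HG {n : WithTop ℕ∞} : ContDiffAt ℂ n (HG (W := W)) 0 := by
  have h : ContDiffAt ℂ n H0 (pr1 W 0) := by
    rw [map_zero]; exact contDiffAt_H0
  exact h.comp (0 : VG W) (pr1 W).contDiff.contDiffAt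

/-- the affine map `c ↦ BG` -/
noncomputable def lin (p : (ℂ × ℂ) × W) : (ℂ × ℂ) × W →L[ℂ] (ℂ × ℂ) × W :=
  let c1 : (ℂ × ℂ) × W →L[ℂ] ℂ := (ContinuousLinearMap.fst ℂ ℂ ℂ).comp
    (ContinuousLinearMap.fst ℂ (ℂ × ℂ) W)
  let c2 : (ℂ × ℂ) × W →L[ℂ] ℂ := (ContinuousLinearMap.snd ℂ ℂ ℂ).comp
    (ContinuousLinearMap.fst ℂ (ℂ × ℂ) W)
  let c3 : (ℂ × ℂ) × W →L[ℂ] W := ContinuousLinearMap.snd ℂ (ℂ × ℂ) W
  ((((√(rhoG p) : ℝ) : ℂ) • c1).prod
    (((rhoG p : ℝ) : ℂ) • c2 + (2 * ((√(rhoG p) : ℝ) : ℂ) * ((p.1.1.im : ℝ) : ℂ)) • c1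
      + (2 * Complex.I * ((√(rhoG p) : ℝ) : ℂ)) • (innerSL ℂ p.2).comp c3)).prod
    (((√(rhoG p) : ℝ) : ℂ) • c3)

lemma BG_eq (p : (ℂ × ℂ) × W) (ζ : VG W) : BG p ζ = p + lin p (cG ζ) := by
  unfold BG lin
  apply Prod.ext
  · apply Prod.ext
    · simp
    · simp only [Complex.coe_smul, ContinuousLinearMap.prod_apply, smul_apply, ContinuousLinearMap.comp_apply, ContinuousLinearMap.coe_fst', Complex.real_smul, add_apply, ContinuousLinearMap.coe_snd', smul_eq_mul, coe_innerSL_apply, Prod.fst_add, Prod.snd_add]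
      ring
  · simp only [Complex.coe_smul, ContinuousLinearMap.prod_apply, smul_apply, ContinuousLinearMap.comp_apply, ContinuousLinearMap.coe_fst', Complex.real_smul, add_apply, ContinuousLinearMap.coe_snd', smul_eq_mul, coe_innerSL_apply, Prod.snd_add]

lemma contDiffAt_BG (p : (ℂ × ℂ) × W) {n : WithTop ℕ∞} : ContDiffAt ℂ n (BG p) 0 := by
  have h : BG p = fun ζ => p + lin p (cG ζ) := funext fun ζ => BG_eq p ζ
  rw [h]
  exact contDiffAt_const.add ((lin p).contDiff.contDiffAt.comp (0 : VG W) contDiffAt_cG)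

/-- inverse of `lin p` -/
noncomputable def linInv (p : (ℂ × ℂ) × W) : (ℂ × ℂ) × W →L[ℂ] (ℂ × ℂ) × W :=
  let c1 : (ℂ × ℂ) × W →L[ℂ] ℂ := (ContinuousLinearMap.fst ℂ ℂ ℂ).comp
    (ContinuousLinearMap.fst ℂ (ℂ × ℂ) W)
  let c2 : (ℂ × ℂ) × W →L[ℂ] ℂ := (ContinuousLinearMap.snd ℂ ℂ ℂ).comp
    (ContinuousLinearMap.fst ℂ (ℂ × ℂ) W)
  let c3 : (ℂ × ℂ) × W →L[ℂ] W := ContinuousLinearMap.snd ℂ (ℂ × ℂ) W
  (((((√(rhoG p) : ℝ) : ℂ))⁻¹ • c1).prod
    ((((rhoG p : ℝ) : ℂ))⁻¹ • (c2 - (2 * ((p.1.1.im : ℝ) : ℂ)) • c1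
      - (2 * Complex.I) • (innerSL ℂ p.2).comp c3))).prod
    ((((√(rhoG p) : ℝ) : ℂ))⁻¹ • c3)

lemma linInv_lin (p : (ℂ × ℂ) × W) (hp : p ∈ DDG W) (v : (ℂ × ℂ) × W) :
    linInv p (lin p v) = v := by
  have hr : 0 < rhoG p := hp
  have hsr : ((√(rhoG p) : ℝ) : ℂ) ≠ 0 := by
    have := Real.sqrt_pos.mpr hr
    exact_mod_cast this.ne'
  have hrho0 : ((rhoG p : ℝ) : ℂ) ≠ 0 := by exact_mod_cast hr.ne'
  apply Prod.ext
  · apply Prod.ext
    · simp [lin, linInv, hsr]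
    · simp only [linInv, lin, Complex.coe_smul, ContinuousLinearMap.prod_apply, smul_apply, ContinuousLinearMap.comp_apply, ContinuousLinearMap.coe_fst', Complex.real_smul, add_apply, ContinuousLinearMap.coe_snd', smul_eq_mul, coe_innerSL_apply, sub_apply, ContinuousLinearMap.map_smul_of_tower]
      field_simp
      ring
  · change (((√(rhoG p) : ℝ) : ℂ))⁻¹ • (((√(rhoG p) : ℝ) : ℂ) • v.2) = v.2
    rw [smul_smul, inv_mul_cancel₀ hsr, one_smul]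

lemma lin_linInv (p : (ℂ × ℂ) × W) (hp : p ∈ DDG W) (v : (ℂ × ℂ) × W) :
    lin p (linInv p v) = v := by
  have hr : 0 < rhoG p := hp
  have hsr : ((√(rhoG p) : ℝ) : ℂ) ≠ 0 := by
    have := Real.sqrt_pos.mpr hr
    exact_mod_cast this.ne'
  have hrho0 : ((rhoG p : ℝ) : ℂ) ≠ 0 := by exact_mod_cast hr.ne'
  apply Prod.ext
  · apply Prod.ext
    · simp [lin, linInv, hsr]
    · simp only [lin, Complex.coe_smul, linInv, ContinuousLinearMap.prod_apply, smul_apply, ContinuousLinearMap.comp_apply, ContinuousLinearMap.coe_fst', smul_eq_mul, sub_apply, ContinuousLinearMap.coe_snd', coe_innerSL_apply, Complex.real_smul, add_apply, map_smul]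
      field_simp
      ring
  · change ((√(rhoG p) : ℝ) : ℂ) • ((((√(rhoG p) : ℝ) : ℂ))⁻¹ • v.2) = v.2
    rw [smul_smul, mul_inv_cancel₀ hsr, one_smul]

/-- the affine part of the chart as an equivalence -/
noncomputable def linE (p : (ℂ × ℂ) × W) (hp : p ∈ DDG W) :
    ((ℂ × ℂ) × W) ≃L[ℂ] ((ℂ × ℂ) × W) :=
  ContinuousLinearEquiv.equivOfInverse (lin p) (linInv p) (linInv_lin p hp) (lin_linInv p hp)

lemma s2_ne : ((√2 : ℝ) : ℂ) ≠ 0 := by
  have h2 : (0 : ℝ) < √2 := by positivity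
  exact_mod_cast h2.ne'

/-- derivative of the Cayley chart of `ℂ²` at the centre -/
noncomputable def dcc : V2 →L[ℂ] ℂ × ℂ :=
  ((((√2 : ℝ) : ℂ)) • (EuclideanSpace.proj 0 : V2 →L[ℂ] ℂ)).prod
    ((2 * Complex.I) • (EuclideanSpace.proj 1 : V2 →L[ℂ] ℂ))

lemma hasFDerivAt_cc : HasFDerivAt cc dcc 0 := by
  let P0 : V2 →L[ℂ] ℂ := EuclideanSpace.proj 0
  let P1 : V2 →L[ℂ] ℂ := EuclideanSpace.proj 1
  have d0 : HasFDerivAt (fun ζ : V2 => ζ 0) P0 0 := P0.hasFDerivAt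
  have d1 : HasFDerivAt (fun ζ : V2 => ζ 1) P1 0 := P1.hasFDerivAt
  have ds : HasFDerivAt cs (fderiv ℂ cs 0) 0 :=
    ((contDiffAt_cs (n := 1)).differentiableAt (by norm_num)).hasFDerivAt
  set s2 : ℂ := ((√2 : ℝ) : ℂ) with hs2
  have da : HasFDerivAt (fun ζ : V2 => s2 * ζ 0 * cs ζ) (s2 • P0) 0 := by
    have h := (d0.const_mul s2).mul ds
    refine h.congr_fderiv ?_
    ext X
    simp [cs]
  have db : HasFDerivAt (fun ζ : V2 => 2 * Complex.I * (ζ 1 * cs ζ)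
      - Complex.I / 2 * (s2 * ζ 0 * cs ζ) ^ 2) ((2 * Complex.I) • P1) 0 := by
    have h := ((d1.mul ds).const_mul (2 * Complex.I)).sub ((da.pow 2).const_mul (Complex.I / 2))
    refine h.congr_fderiv ?_
    ext X
    simp [cs]
  exact da.prodMk db

/-- derivative of the Cayley chart at the centre -/
noncomputable def dcG : VG W →L[ℂ] (ℂ × ℂ) × W := (dcc.comp (pr1 W)).prod (pr2 W)

lemma hasFDerivAt_cG : HasFDerivAt (cG (W := W)) dcG 0 := by
  have h0 : HasFDerivAt cc dcc (pr1 W 0) := by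
    rw [map_zero]; exact hasFDerivAt_cc
  have h1 : HasFDerivAt (fun ζ : VG W => cc (pr1 W ζ)) (dcc.comp (pr1 W)) 0 :=
    h0.comp (0 : VG W) (pr1 W).hasFDerivAt
  have h2 : HasFDerivAt (fun ζ : VG W => cs (pr1 W ζ))
      (fderiv ℂ (fun ζ : VG W => cs (pr1 W ζ)) 0) 0 :=
    ((contDiffAt_cs' (n := 1)).differentiableAt (by norm_num)).hasFDerivAt
  have h3 : HasFDerivAt (fun ζ : VG W => ce ζ) (pr2 W) 0 := by
    have h := h2.smul (pr2 W).hasFDerivAt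
    refine h.congr_fderiv ?_
    ext X
    simp [cs]
  exact h1.prodMk h3

/-- inverse of `dcG` -/
noncomputable def dInv : (ℂ × ℂ) × W →L[ℂ] VG W :=
  ((WithLp.prodContinuousLinearEquiv 2 ℂ V2 W).symm : (V2 × W) →L[ℂ] VG W).comp
    ((((EuclideanSpace.equiv (Fin 2) ℂ).symm : (Fin 2 → ℂ) →L[ℂ] V2).comp
      (ContinuousLinearMap.pi ![(((√2 : ℝ) : ℂ))⁻¹ • (ContinuousLinearMap.fst ℂ ℂ ℂ).comp
          (ContinuousLinearMap.fst ℂ (ℂ × ℂ) W),
        (2 * Complex.I)⁻¹ • (ContinuousLinearMap.snd ℂ ℂ ℂ).comp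
          (ContinuousLinearMap.fst ℂ (ℂ × ℂ) W)])).prod
      (ContinuousLinearMap.snd ℂ (ℂ × ℂ) W))

lemma dInv_dcG (v : VG W) : dInv (dcG v) = v := by
  have h2 := s2_ne
  have e1 : pr1 W (dInv (dcG v)) = pr1 W v := by
    ext i
    fin_cases i
    · change (((√2 : ℝ) : ℂ))⁻¹ * (((√2 : ℝ) : ℂ) * (pr1 W v) 0) = (pr1 W v) 0
      field_simp
    · change (2 * Complex.I)⁻¹ * (2 * Complex.I * (pr1 W v) 1) = (pr1 W v) 1
      have : (2 * Complex.I : ℂ) ≠ 0 := by simp only [ne_eq, mul_eq_zero, OfNat.ofNat_ne_zero, Complex.I_ne_zero, or_self, not_false_eq_true]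
      field_simp
  have e2 : pr2 W (dInv (dcG v)) = pr2 W v := rfl
  apply (WithLp.prodContinuousLinearEquiv 2 ℂ V2 W).injective
  exact Prod.ext e1 e2

lemma dcG_dInv (v : (ℂ × ℂ) × W) : dcG (dInv v) = v := by
  have h2 := s2_ne
  apply Prod.ext
  · apply Prod.ext
    · change ((√2 : ℝ) : ℂ) * ((((√2 : ℝ) : ℂ))⁻¹ * v.1.1) = v.1.1
      (clear * - h2; field_simp)
    · change 2 * Complex.I * ((2 * Complex.I)⁻¹ * v.1.2) = v.1.2
      have : (2 * Complex.I : ℂ) ≠ 0 := by simp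
      field_simp
  · rfl

/-- `dcG` as an equivalence -/
noncomputable def dE : VG W ≃L[ℂ] ((ℂ × ℂ) × W) :=
  ContinuousLinearEquiv.equivOfInverse dcG dInv dInv_dcG dcG_dInv

lemma exists_equiv_BG (p : (ℂ × ℂ) × W) (hp : p ∈ DDG W) :
    ∃ e : VG W ≃L[ℂ] ((ℂ × ℂ) × W), (e : VG W →L[ℂ] (ℂ × ℂ) × W) = fderiv ℂ (BG p) 0 := by
  refine ⟨dE.trans (linE p hp), ?_⟩
  have h : BG p = fun ζ => p + lin p (cG ζ) := funext fun ζ => BG_eq p ζ
  have h1 : HasFDerivAt (BG p) ((lin p).comp dcG) 0 := by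
    rw [h]
    exact ((lin p).hasFDerivAt.comp (0 : VG W) hasFDerivAt_cG).const_add p
  rw [h1.fderiv]
  rfl

lemma rhoG_cG (ζ : VG W) (h : (pr1 W ζ) 1 ≠ 1) :
    1 + rhoG (cG ζ) = (1 - ‖ζ‖ ^ 2) * ‖cs (pr1 W ζ)‖ ^ 2 := by
  have h1 := rho_cc (pr1 W ζ) h
  have h2 : rhoG (cG ζ) = rho (cc (pr1 W ζ)) - ‖cs (pr1 W ζ) • pr2 W ζ‖ ^ 2 := rfl
  rw [h2, norm_smul, norm_sq_VG]
  linear_combination h1

lemma rhoG_BG (p : (ℂ × ℂ) × W) (hp : p ∈ DDG W) (ζ : VG W) :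
    rhoG (BG p ζ) = rhoG p * (1 + rhoG (cG ζ)) := by
  have hr : 0 < rhoG p := hp
  have hs : √(rhoG p) ^ 2 = rhoG p := Real.sq_sqrt hr.le
  set r : ℝ := √(rhoG p) with hrdef
  have e1 : (BG p ζ).1.2.im = p.1.2.im + rhoG p * (cG ζ).1.2.im
      + 2 * r * p.1.1.im * (cG ζ).1.1.im + 2 * r * (inner ℂ p.2 (cG ζ).2).re := by
    have : (BG p ζ).1.2 = p.1.2 + (rhoG p : ℝ) * (cG ζ).1.2
        + ((2 * r * p.1.1.im : ℝ) : ℂ) * (cG ζ).1.1
        + ((2 * r : ℝ) : ℂ) * (Complex.I * inner ℂ p.2 (cG ζ).2) := by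
      simp only [BG, ← hrdef]
      push_cast
      ring
    rw [this, Complex.add_im, Complex.add_im, Complex.add_im, Complex.im_ofReal_mul,
      Complex.im_ofReal_mul, Complex.im_ofReal_mul, Complex.I_mul_im]
  have e2 : (BG p ζ).1.1.im = p.1.1.im + r * (cG ζ).1.1.im := by
    unfold BG
    rw [Complex.add_im, Complex.im_ofReal_mul]
  have e3 : ‖(BG p ζ).2‖ ^ 2 = ‖p.2‖ ^ 2 + 2 * r * (inner ℂ p.2 (cG ζ).2).re
      + r ^ 2 * ‖(cG ζ).2‖ ^ 2 := by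
    have h : (BG p ζ).2 = p.2 + (r : ℂ) • (cG ζ).2 := rfl
    have h2 := norm_add_sq (𝕜 := ℂ) p.2 ((r : ℂ) • (cG ζ).2)
    rw [h, h2, inner_smul_right, norm_smul, Complex.norm_real, mul_pow, Real.norm_eq_abs, sq_abs]
    have h3 : RCLike.re ((r : ℂ) * inner ℂ p.2 (cG ζ).2) = r * (inner ℂ p.2 (cG ζ).2).re := by
      exact Complex.re_ofReal_mul _ _
    rw [h3]
    ring
  have e4 : rhoG (BG p ζ) = (BG p ζ).1.2.im - (BG p ζ).1.1.im ^ 2 - ‖(BG p ζ).2‖ ^ 2 := rfl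
  have e5 : rhoG (cG ζ) = (cG ζ).1.2.im - (cG ζ).1.1.im ^ 2 - ‖(cG ζ).2‖ ^ 2 := rfl
  have e6 : rhoG p = p.1.2.im - p.1.1.im ^ 2 - ‖p.2‖ ^ 2 := rfl
  rw [e4, e1, e2, e3, e5]
  linear_combination (-(cG ζ).1.1.im ^ 2 - ‖(cG ζ).2‖ ^ 2) * hs - e6

lemma log_rhoG_BG (p : (ℂ × ℂ) × W) (hp : p ∈ DDG W) :
    ∀ᶠ ζ in 𝓝 (0 : VG W), -Real.log (rhoG (BG p ζ))
      = -Real.log (1 - ‖ζ‖ ^ 2) + (HG ζ - (Real.log (rhoG p) : ℝ)).re := by
  have hr : 0 < rhoG p := hp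
  have h1 : ∀ᶠ ζ in 𝓝 (0 : VG W), (pr1 W ζ) 1 ≠ 1 := by
    have hc : Continuous (fun ζ : VG W => (pr1 W ζ) 1) :=
      ((contDiff_coord 1 (n := 0)).continuous).comp (pr1 W).continuous
    have := hc.tendsto 0
    exact this.eventually_ne (by simp)
  have h2 : ∀ᶠ ζ in 𝓝 (0 : VG W), ‖ζ‖ < 1 := by
    filter_upwards [Metric.ball_mem_nhds (0 : VG W) one_pos] with ζ hζ
    simpa only [Metric.mem_ball, dist_zero_right] using hζ
  filter_upwards [h1, h2] with ζ hζ hn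
  have h3 : 0 < 1 - ‖ζ‖ ^ 2 := by nlinarith [norm_nonneg ζ]
  have h4 := norm_cs_sq_pos (pr1 W ζ) hζ
  rw [rhoG_BG p hp, rhoG_cG ζ hζ, Real.log_mul hr.ne' (by (clear * - h3 h4; positivity)),
    Real.log_mul h3.ne' (by (clear * - h4; positivity)), Real.log_pow]
  have h5 : (HG ζ - (Real.log (rhoG p) : ℝ)).re
      = -(2 * Real.log ‖cs (pr1 W ζ)‖) - Real.log (rhoG p) := by
    have h6 : Real.log ‖cs (pr1 W ζ)‖ = -Real.log ‖1 - (pr1 W ζ) 1‖ := by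
      unfold cs
      rw [norm_inv, Real.log_inv]
    rw [Complex.sub_re, Complex.ofReal_re, h6]
    have h7 : (HG ζ).re = 2 * Real.log ‖1 - (pr1 W ζ) 1‖ := by
      unfold HG H0
      have : (2 : ℂ) = ((2 : ℝ) : ℂ) := by norm_num
      rw [this, Complex.re_ofReal_mul, Complex.log_re]
    rw [h7]
    ring
  rw [h5]
  push_cast
  ring

/-- the linear form at scale `k` -/
noncomputable def LG (t y : ℝ) (h : W) : (ℂ × ℂ) × W →L[ℂ] ℂ :=
  let c1 : (ℂ × ℂ) × W →L[ℂ] ℂ := (ContinuousLinearMap.fst ℂ ℂ ℂ).comp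
    (ContinuousLinearMap.fst ℂ (ℂ × ℂ) W)
  let c2 : (ℂ × ℂ) × W →L[ℂ] ℂ := (ContinuousLinearMap.snd ℂ ℂ ℂ).comp
    (ContinuousLinearMap.fst ℂ (ℂ × ℂ) W)
  let c3 : (ℂ × ℂ) × W →L[ℂ] W := ContinuousLinearMap.snd ℂ (ℂ × ℂ) W
  (t : ℂ) • ((t : ℂ) • c2 - (2 * y : ℂ) • c1 + (2 * Complex.I) • (innerSL ℂ h).comp c3)

lemma LG_apply (t y : ℝ) (h : W) (v : (ℂ × ℂ) × W) :
    LG t y h v = t * (t * v.1.2 - 2 * y * v.1.1 + 2 * Complex.I * inner ℂ h v.2) := by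
  simp only [LG, Complex.coe_smul, smul_add, add_apply, smul_apply, sub_apply, ContinuousLinearMap.comp_apply, ContinuousLinearMap.coe_fst', ContinuousLinearMap.coe_snd', Complex.real_smul, smul_eq_mul, coe_innerSL_apply]
  ring

lemma norm_LG_le (t y : ℝ) (h : W) (ht : 0 ≤ t) (hb : t ^ 2 + y ^ 2 + ‖h‖ ^ 2 ≤ 5) :
    ‖LG t y h‖ ≤ 13 * t := by
  apply ContinuousLinearMap.opNorm_le_bound _ (by positivity)
  intro v
  rw [LG_apply]
  have hy : |y| ≤ 5 / 2 := abs_le_of_sq_le_sq (by nlinarith only [hb]) (by norm_num)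
  have hh : ‖h‖ ≤ 5 / 2 := by
    have := norm_nonneg h
    nlinarith only [hb]
  have ht2 : t ≤ 5 / 2 := by nlinarith only [hb]
  have h0 : ‖v.1‖ ≤ ‖v‖ := norm_fst_le v
  have h1 : ‖v.1.1‖ ≤ ‖v‖ := (norm_fst_le v.1).trans h0
  have h2 : ‖v.1.2‖ ≤ ‖v‖ := (norm_snd_le v.1).trans h0
  have h3 : ‖v.2‖ ≤ ‖v‖ := norm_snd_le v
  have h4 : ‖(inner ℂ h v.2 : ℂ)‖ ≤ ‖h‖ * ‖v.2‖ := norm_inner_le_norm _ _
  calc ‖(t : ℂ) * (t * v.1.2 - 2 * y * v.1.1 + 2 * Complex.I * inner ℂ h v.2)‖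
      = t * ‖(t : ℂ) * v.1.2 - 2 * y * v.1.1 + 2 * Complex.I * inner ℂ h v.2‖ := by
        rw [norm_mul, Complex.norm_real, Real.norm_of_nonneg ht]
    _ ≤ t * (‖(t : ℂ) * v.1.2‖ + ‖(2 : ℂ) * y * v.1.1‖ + ‖2 * Complex.I * inner ℂ h v.2‖) := by
        gcongr
        refine (norm_add_le _ _).trans ?_
        gcongr
        exact norm_sub_le _ _
    _ = t * (t * ‖v.1.2‖ + 2 * |y| * ‖v.1.1‖ + 2 * ‖(inner ℂ h v.2 : ℂ)‖) := by
        simp only [Complex.norm_mul, Complex.norm_real, Real.norm_eq_abs, abs_of_nonneg ht, Complex.norm_ofNat, Complex.norm_I, mul_one]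
    _ ≤ t * (5 / 2 * ‖v‖ + 2 * (5 / 2) * ‖v‖ + 2 * (5 / 2 * ‖v‖)) := by
        gcongr
        exact h4.trans (by (clear * - hh h3; gcongr))
    _ ≤ 13 * t * ‖v‖ := by linarith only [mul_nonneg ht (norm_nonneg v)]

lemma om_BG (p : (ℂ × ℂ) × W) (hp : p ∈ DDG W) (lam : ℝ) (k : ℕ) (x : ℝ) (ζ : VG W) :
    om (lam ^ (2 * k)) x (BG p ζ).1 = om (lam ^ (2 * k)) x p.1
      + LG (lam ^ k * √(rhoG p)) (lam ^ k * (x - p.1.1.im)) (((lam ^ k : ℝ) : ℂ) • p.2) (cG ζ) := by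
  have hr : 0 < rhoG p := hp
  have hs : ((√(rhoG p) : ℝ) : ℂ) ^ 2 = ((rhoG p : ℝ) : ℂ) := by
    rw [← Complex.ofReal_pow, Real.sq_sqrt hr.le]
  rw [LG_apply, inner_smul_left, Complex.conj_ofReal]
  unfold om BG
  push_cast
  have h2 : ((lam : ℂ)) ^ (2 * k) = ((lam : ℂ) ^ k) ^ 2 := by rw [pow_mul']
  rw [h2, ← hs]
  ring

lemma Tk_BG (Ψ : ℂ → ℝ) (p : (ℂ × ℂ) × W) (hp : p ∈ DDG W) (lam : ℝ) (k : ℕ) (j : ℤ)
    (ζ : VG W) :
    Tk Ψ lam k j (BG p ζ).1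
      = Nf Ψ (Complex.exp (Complex.I * om (lam ^ (2 * k)) (xx lam k j) p.1))
        (LG (lam ^ k * √(rhoG p)) (lam ^ k * (xx lam k j - p.1.1.im))
          (((lam ^ k : ℝ) : ℂ) • p.2) (cG ζ)) := by
  unfold Tk Nf
  rw [om_BG p hp, mul_add, Complex.exp_add]

lemma norm_eG (p : (ℂ × ℂ) × W) (hp : p ∈ DDG W) (lam : ℝ) (k : ℕ) (x : ℝ) :
    ‖Complex.exp (Complex.I * om (lam ^ (2 * k)) x p.1)‖
      = Real.exp (-((lam ^ k * √(rhoG p)) ^ 2 + (lam ^ k * (x - p.1.1.im)) ^ 2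
          + ‖((lam ^ k : ℝ) : ℂ) • p.2‖ ^ 2)) := by
  have hr : 0 < rhoG p := hp
  rw [norm_exp_I_mul, om_im]
  congr 1
  rw [mul_pow, Real.sq_sqrt hr.le, mul_pow, norm_smul, Complex.norm_real, mul_pow,
    Real.norm_eq_abs, sq_abs, ← pow_mul, mul_comm k 2]
  have : rhoG p = rho p.1 - ‖p.2‖ ^ 2 := rfl
  rw [this]
  ring

end Vale.Agent.P250.G.Ch
end
end
end

section

section

section

/-! Smoothness and uniform jets of the potential `phiG`. -/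

set_option maxSynthPendingDepth 3

namespace Vale.Agent.P250.G

open Set Filter Topology Vale.Agent.P250 Vale.Agent.P250.PJ

variable {W : Type*} [NormedAddCommGroup W] [InnerProductSpace ℂ W]

namespace Ch

lemma fst_mem_DD {p : (ℂ × ℂ) × W} (hp : p ∈ DDG W) : p.1 ∈ DD := by
  have h : 0 < rho p.1 - ‖p.2‖ ^ 2 := hp
  have h2 : (0 : ℝ) ≤ ‖p.2‖ ^ 2 := by (clear * -; positivity)
  change 0 < rho p.1
  linarith only [h, h2]

lemma phiG_eq (Ψ : ℂ → ℝ) (lam ε : ℝ) (q : (ℂ × ℂ) × W) :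
    phiG Ψ lam ε q = -ε * Real.log (rhoG q) + phi Ψ lam 0 q.1 := by
  simp only [phiG, neg_mul, phi, neg_zero, zero_mul, zero_add]

end Ch

open Ch

theorem phiG_contDiffOn (CΨ Λ : ℝ) (Ψ : ℂ → ℝ) (hΨ : IsPsi CΨ Λ Ψ) (lam ε : ℝ)
    (hlam : 2 ≤ lam) : ContDiffOn ℝ (⊤ : ℕ∞) (phiG (W := W) Ψ lam ε) (DDG W) := by
  have h : phiG (W := W) Ψ lam ε = fun q => -ε * Real.log (rhoG q) + phi Ψ lam 0 q.1 :=
    funext fun q => phiG_eq Ψ lam ε q
  rw [h]
  intro q hq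
  apply ContDiffAt.contDiffWithinAt
  have hr : 0 < rhoG q := hq
  apply ContDiffAt.add
  · exact contDiffAt_const.mul ((GBase.contDiff_rhoG.contDiffAt).log hr.ne')
  · have h1 : ContDiffAt ℝ (⊤ : ℕ∞) (phi Ψ lam 0) q.1 :=
      (Vale.Agent.P250.phi_contDiffOn CΨ Λ Ψ hΨ lam 0 hlam).contDiffAt
        (isOpen_DD'.mem_nhds (fst_mem_DD hq))
    exact h1.comp q contDiffAt_fst

theorem phiG_uniformJets (CΨ Λ : ℝ) (Ψ : ℂ → ℝ) (hΨ : IsPsi CΨ Λ Ψ) (lam ε : ℝ)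
    (hlam : 2 ≤ lam) (hε : 0 < ε) (s : ℝ) (hs : 0 < s) : ∃ ε0 C0 C3 C4 : ℝ,
    0 < ε0 ∧ 0 < C0 ∧ 0 < C3 ∧ 0 < C4 ∧
      UniformJetsG (WithLp 2 (EuclideanSpace ℂ (Fin 2) × W)) (DDG W) PhiG ε0 C0 C3 C4
        (fun q => s * phiG Ψ lam ε q) := by
  obtain ⟨ε0, C0, C3, C4, h0, h1, h3, h4, key⟩ :=
    JA.jet_assemblyG (cG (W := W)) contDiffAt_cG cG_zero HG contDiffAt_HG 13 (by norm_num)
      hΨ lam ε s hlam hε hs
  refine ⟨ε0, C0, C3, C4, h0, h1, h3, h4, ?_⟩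
  intro p hp
  have hr : 0 < rhoG p := hp
  have hp1 : p.1 ∈ DD := fst_mem_DD hp
  obtain ⟨K, hK⟩ := phi_eventually hΨ hlam 0 hp1
  have hBc : ContinuousAt (BG p) 0 := (contDiffAt_BG p (n := 1)).continuousAt
  have hK' : ∀ᶠ ζ in 𝓝 (0 : VG W), phi Ψ lam 0 (BG p ζ).1
      = ∑ k ∈ Finset.range K, Tk Ψ lam k (jj lam k p.1) (BG p ζ).1 := by
    have : Tendsto (fun ζ => (BG p ζ).1) (𝓝 0) (𝓝 p.1) := by
      have h5 := hBc.tendsto
      rw [BG_zero] at h5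
      exact (continuous_fst.tendsto p).comp h5
    filter_upwards [this.eventually hK] with ζ hζ
    rw [hζ]
    simp
  have hlog := log_rhoG_BG p hp
  obtain ⟨h, hh, hh0, hJ⟩ := key (√(rhoG p)) K
    (fun k => Complex.exp (Complex.I * om (lam ^ (2 * k)) (xx lam k (jj lam k p.1)) p.1))
    (fun k => LG (lam ^ k * √(rhoG p)) (lam ^ k * (xx lam k (jj lam k p.1) - p.1.1.im))
          (((lam ^ k : ℝ) : ℂ) • p.2))
    (-(s * ε * Real.log (rhoG p))) (fun ζ => s * phiG Ψ lam ε (BG p ζ))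
    (Real.sqrt_pos.mpr hr)
    (fun k => by
      rw [norm_eG p hp, ← Real.exp_zero, Real.exp_lt_exp]
      have h5 : 0 < lam ^ k * √(rhoG p) := by
        have := Real.sqrt_pos.mpr hr
        positivity
      have h6 := sq_pos_of_pos h5
      have h7 := sq_nonneg (lam ^ k * (xx lam k (jj lam k p.1) - p.1.1.im))
      have h8 := sq_nonneg ‖((lam ^ k : ℝ) : ℂ) • p.2‖
      linarith)
    (fun k hk => by
      rw [norm_eG p hp, Real.exp_lt_exp] at hk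
      have h7 := sq_nonneg (lam ^ k * (xx lam k (jj lam k p.1) - p.1.1.im))
      have h8 := sq_nonneg ‖((lam ^ k : ℝ) : ℂ) • p.2‖
      refine ⟨by linarith only [hk, h7, h8], ?_⟩
      exact norm_LG_le _ _ _ (by positivity) (by linarith only [hk]))
    (by
      filter_upwards [hK', hlog] with ζ h1 h2
      rw [phiG_eq, h1]
      have h3 : -ε * Real.log (rhoG (BG p ζ)) = ε * (-Real.log (rhoG (BG p ζ))) := by ring
      rw [h3, h2, Complex.sub_re, Complex.ofReal_re]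
      have h4 : ∀ k ∈ Finset.range K, Tk Ψ lam k (jj lam k p.1) (BG p ζ).1
          = Nf Ψ (Complex.exp (Complex.I * om (lam ^ (2 * k)) (xx lam k (jj lam k p.1)) p.1))
            (LG (lam ^ k * √(rhoG p)) (lam ^ k * (xx lam k (jj lam k p.1) - p.1.1.im))
            (((lam ^ k : ℝ) : ℂ) • p.2) (cG ζ)) :=
        fun k _ => Tk_BG Ψ p hp lam k _ ζ
      rw [Finset.sum_congr rfl h4]
      ring)
  refine ⟨BG p, h, fun ζ => HG ζ - (Real.log (rhoG p) : ℝ), contDiffAt_BG p, hh,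
    contDiffAt_HG.sub contDiffAt_const, BG_zero p, hh0, exists_equiv_BG p hp, hlog, hJ⟩

end Vale.Agent.P250.G
end
end
end

section

section

section

/-! From continuous bilinear forms to plain functions. -/

set_option maxSynthPendingDepth 3

namespace Vale.Agent.P250

open Set

section TR

variable {E : Type*} [NormedAddCommGroup E] [NormedSpace ℝ E]
variable {F : Type*} [NormedAddCommGroup F] [NormedSpace ℝ F]

lemma fderiv_bil {g : E → E →L[ℝ] E →L[ℝ] F} {p : E} (hg : DifferentiableAt ℝ g p) (X Y Z : E) :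
    fderiv ℝ (fun q => g q Y Z) p X = fderiv ℝ g p X Y Z := by
  have h1 : HasFDerivAt (fun q => g q Y) ((fderiv ℝ g p).flip Y) p :=
    (hg.hasFDerivAt.clm_apply (hasFDerivAt_const Y p)).congr_fderiv (by ext; simp only [ContinuousLinearMap.comp_zero, zero_add, ContinuousLinearMap.flip_apply])
  have h2 : HasFDerivAt (fun q => g q Y Z) (((fderiv ℝ g p).flip Y).flip Z) p :=
    (h1.clm_apply (hasFDerivAt_const Z p)).congr_fderiv (by ext; simp only [ContinuousLinearMap.comp_zero, zero_add, ContinuousLinearMap.flip_apply])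
  rw [h2.fderiv]
  simp

lemma contDiffOn_bil {g : E → E →L[ℝ] E →L[ℝ] F} {M : Set E}
    (hg : ContDiffOn ℝ (⊤ : ℕ∞) g M) (X Y : E) :
    ContDiffOn ℝ (⊤ : ℕ∞) (fun p => g p X Y) M :=
  (hg.clm_apply contDiffOn_const).clm_apply contDiffOn_const

lemma differentiableAt_of_open {g : E → F} {M : Set E} (hM : IsOpen M)
    (hg : ContDiffOn ℝ (⊤ : ℕ∞) g M) {p : E} (hp : p ∈ M) : DifferentiableAt ℝ g p :=
  (hg.contDiffAt (hM.mem_nhds hp)).differentiableAt (by simp)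

theorem transfer_riemannian {g : E → E →L[ℝ] E →L[ℝ] ℝ} {M : Set E}
    (hg : IsRiemannianMetric g M) : S.IsRiemannianMetric (fun p X Y => g p X Y) M where
  smooth X Y := contDiffOn_bil hg.smooth X Y
  linear p _ r X Y Z := by simp
  symm := hg.symm
  pos := hg.pos

theorem transfer_leviCivita {g : E → E →L[ℝ] E →L[ℝ] ℝ} {Γ : E → E →L[ℝ] E →L[ℝ] E} {M : Set E}
    (hM : IsOpen M) (hg : IsRiemannianMetric g M) (hΓ : IsLeviCivita g Γ M) :
    S.IsLeviCivita (fun p X Y => g p X Y) (fun p X Y => Γ p X Y) M where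
  smooth X Y := contDiffOn_bil hΓ.smooth X Y
  koszul p hp X Y Z := by
    have hd := differentiableAt_of_open hM hg.smooth hp
    rw [fderiv_bil hd, fderiv_bil hd, fderiv_bil hd]
    exact hΓ.koszul p hp X Y Z

theorem transfer_riem {Γ : E → E →L[ℝ] E →L[ℝ] E} {p : E} (hΓ : DifferentiableAt ℝ Γ p)
    (X Y Z : E) : S.riem (fun p X Y => Γ p X Y) p X Y Z = riem Γ p X Y Z := by
  simp only [S.riem, riem]
  rw [fderiv_bil hΓ, fderiv_bil hΓ]

theorem transfer_sectional {g : E → E →L[ℝ] E →L[ℝ] ℝ} {Γ : E → E →L[ℝ] E →L[ℝ] E} {p : E}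
    (hΓ : DifferentiableAt ℝ Γ p) (X Y : E) :
    S.sectional (fun p X Y => g p X Y) (fun p X Y => Γ p X Y) p X Y = sectional g Γ p X Y := by
  simp only [S.sectional, sectional]
  rw [transfer_riem hΓ]

theorem transfer_complete {Γ : E → E →L[ℝ] E →L[ℝ] E} {M : Set E}
    (h : GeodesicallyComplete Γ M) : S.GeodesicallyComplete (fun p X Y => Γ p X Y) M := h

end TR

section TC

variable {E : Type*} [NormedAddCommGroup E] [NormedSpace ℂ E]

theorem transfer_kaehler {g : E → E →L[ℝ] E →L[ℝ] ℝ} {M : Set E} (hM : IsOpen M)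
    (hg : IsKaehlerMetric g M) : S.IsKaehlerMetric (fun p X Y => g p X Y) M where
  toIsRiemannianMetric := transfer_riemannian hg.toIsRiemannianMetric
  hermitian := hg.hermitian
  closed p hp X Y Z := by
    have hd := differentiableAt_of_open hM hg.smooth hp
    rw [fderiv_bil hd, fderiv_bil hd, fderiv_bil hd]
    exact hg.closed p hp X Y Z

theorem transfer_biholo {M : Set E} (h : ¬ BiholomorphicToBoundedDomain M) :
    ¬ S.BiholomorphicToBoundedDomain M := h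

end TC

theorem main' : ∃ (M : Set (ℂ × ℂ × ℂ)) (g : ℂ × ℂ × ℂ → ℂ × ℂ × ℂ → ℂ × ℂ × ℂ → ℝ)
    (Γ : ℂ × ℂ × ℂ → ℂ × ℂ × ℂ → ℂ × ℂ × ℂ → ℂ × ℂ × ℂ),
    IsOpen M ∧ SimplyConnectedSpace M ∧ S.IsKaehlerMetric g M ∧ S.IsLeviCivita g Γ M ∧
    S.GeodesicallyComplete Γ M ∧
    (∃ a b : ℝ, 0 < a ∧ a ≤ b ∧ ∀ p ∈ M, ∀ X Y, LinearIndependent ℝ ![X, Y] →
      -b ≤ S.sectional g Γ p X Y ∧ S.sectional g Γ p X Y ≤ -a) ∧
    ¬ S.BiholomorphicToBoundedDomain M := by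
  obtain ⟨M, g, Γ, hM, hS, hK, hΓ, hC, ⟨a, b, ha, hab, hab'⟩, hB⟩ := main
  refine ⟨M, fun p X Y => g p X Y, fun p X Y => Γ p X Y, hM, hS, transfer_kaehler hM hK,
    transfer_leviCivita hM hK.toIsRiemannianMetric hΓ, transfer_complete hC,
    ⟨a, b, ha, hab, fun p hp X Y hXY => ?_⟩, transfer_biholo hB⟩
  rw [transfer_sectional (differentiableAt_of_open hM hΓ.smooth hp)]
  exact hab' p hp X Y hXY

end Vale.Agent.P250
end
end
end

section

section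

section

/-! The theorem in all dimensions at least three. -/

set_option maxSynthPendingDepth 3

namespace Vale.Agent.P250.G

open Set Filter Topology Vale.Agent.P250

section

variable {W : Type*} [NormedAddCommGroup W] [InnerProductSpace ℂ W] [FiniteDimensional ℂ W]

lemma rhoG_zero (q : ℂ × ℂ) : rhoG (q, (0 : W)) = rho q := by
  simp [rhoG]

lemma phiG_zero (Ψ : ℂ → ℝ) (lam ε : ℝ) (q : ℂ × ℂ) :
    phiG Ψ lam ε (q, (0 : W)) = phi Ψ lam ε q := by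
  simp only [phiG, phi, rhoG_zero]

variable (W) in
/-- the weight -/
theorem exists_chiG : ∃ χ : (ℂ × ℂ) × W → ℝ, ContDiffOn ℝ (⊤ : ℕ∞) χ (DDG W) ∧
    NoFunction (fun q => χ (q, 0)) ∧
    ∃ ε0 C0 C3 C4 : ℝ, 0 < ε0 ∧ 0 < C0 ∧ 0 < C3 ∧ 0 < C4 ∧
      UniformJetsG (WithLp 2 (EuclideanSpace ℂ (Fin 2) × W)) (DDG W) PhiG ε0 C0 C3 C4 χ := by
  obtain ⟨CΨ, hC, hΨ⟩ := exists_Psi
  obtain ⟨Ψ, hΨ⟩ := hΨ (1000 * ((CΨ + 2) + (CΨ + 2) + 1) + 2)
  obtain ⟨lam, hlam, hlam'⟩ := star_phi CΨ _ hC Ψ hΨ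
  obtain ⟨ε, hε, hε'⟩ := hlam' lam le_rfl
  have hS := hε' ε hε le_rfl
  have hsm := phi_contDiffOn CΨ _ Ψ hΨ lam ε hlam
  have hsmG := phiG_contDiffOn (W := W) CΨ _ Ψ hΨ lam ε hlam
  obtain ⟨s0, hs0, hs⟩ := noFunction_of_star (phi Ψ lam ε) 4 (CΨ + 2) (CΨ + 2) _ hsm.continuousOn
    (by norm_num) (by linarith) (by linarith) (by linarith) hS
  refine ⟨fun q => s0 / 2 * phiG Ψ lam ε q, contDiffOn_const.mul hsmG, ?_, ?_⟩
  · simp only [phiG_zero]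
    exact hs (s0 / 2) (half_pos hs0) (half_lt_self hs0)
  · exact phiG_uniformJets CΨ _ Ψ hΨ lam ε hlam hε (s0 / 2) (half_pos hs0)

variable (W) in
theorem main_W : ∃ (M : Set (((ℂ × ℂ) × W) × ℂ))
    (g : ((ℂ × ℂ) × W) × ℂ → ((ℂ × ℂ) × W) × ℂ → ((ℂ × ℂ) × W) × ℂ → ℝ)
    (Γ : ((ℂ × ℂ) × W) × ℂ → ((ℂ × ℂ) × W) × ℂ → ((ℂ × ℂ) × W) × ℂ → ((ℂ × ℂ) × W) × ℂ),
    IsOpen M ∧ SimplyConnectedSpace M ∧ S.IsKaehlerMetric g M ∧ S.IsLeviCivita g Γ M ∧
    S.GeodesicallyComplete Γ M ∧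
    (∃ a b : ℝ, 0 < a ∧ a ≤ b ∧ ∀ p ∈ M, ∀ X Y, LinearIndependent ℝ ![X, Y] →
      -b ≤ S.sectional g Γ p X Y ∧ S.sectional g Γ p X Y ≤ -a) ∧
    ¬ S.BiholomorphicToBoundedDomain M := by
  obtain ⟨χ, hχ, hN, ε0, C0, C3, C4, h0, h1, h3, h4, hU⟩ := exists_chiG W
  obtain ⟨C, hf⟩ := goodExhaustion_DDG (W := W)
  obtain ⟨g, Γ, hM, hS, hK, hΓ, hC, ⟨a, b, ha, hab, hab'⟩⟩ := disc_bundle (DDG W) isOpen_DDG
    convex_DDG DDG_nonempty PhiG PhiG_contDiffOn exG C hf ε0 C0 C3 C4 h0 h1 h3 h4 χ hχ hU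
  refine ⟨_, fun p X Y => g p X Y, fun p X Y => Γ p X Y, hM, hS, transfer_kaehler hM hK,
    transfer_leviCivita hM hK.toIsRiemannianMetric hΓ, transfer_complete hC,
    ⟨a, b, ha, hab, fun p hp X Y hXY => ?_⟩,
    transfer_biholo (not_biholo_G χ hχ.continuousOn hN)⟩
  rw [transfer_sectional (differentiableAt_of_open hM hΓ.smooth hp)]
  exact hab' p hp X Y hXY

end

theorem main_all (n : ℕ) (hn : 3 ≤ n) :
    ∃ (M : Set (EuclideanSpace ℂ (Fin n)))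
      (g : EuclideanSpace ℂ (Fin n) → EuclideanSpace ℂ (Fin n) → EuclideanSpace ℂ (Fin n) → ℝ)
      (Γ : EuclideanSpace ℂ (Fin n) → EuclideanSpace ℂ (Fin n) → EuclideanSpace ℂ (Fin n)
        → EuclideanSpace ℂ (Fin n)),
    IsOpen M ∧ SimplyConnectedSpace M ∧ S.IsKaehlerMetric g M ∧ S.IsLeviCivita g Γ M ∧
    S.GeodesicallyComplete Γ M ∧
    (∃ a b : ℝ, 0 < a ∧ a ≤ b ∧ ∀ p ∈ M, ∀ X Y, LinearIndependent ℝ ![X, Y] →
      -b ≤ S.sectional g Γ p X Y ∧ S.sectional g Γ p X Y ≤ -a) ∧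
    ¬ S.BiholomorphicToBoundedDomain M := by
  obtain ⟨k, rfl⟩ := Nat.exists_eq_add_of_le hn
  obtain ⟨M, g, Γ, h1, h2, h3, h4, h5, h6, h7⟩ := main_W (EuclideanSpace ℂ (Fin k))
  have hd : Module.finrank ℂ (((ℂ × ℂ) × EuclideanSpace ℂ (Fin k)) × ℂ)
      = Module.finrank ℂ (EuclideanSpace ℂ (Fin (3 + k))) := by
    simp
    omega
  exact transport (ContinuousLinearEquiv.ofFinrankEq hd) M g Γ h1 h2 h3 h4 h5 h6 h7

end Vale.Agent.P250.G
end
end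
end
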